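import Crest.Agent.R188.PowKAux2

/-!
# R188 / PowK

The cyclic Adams functional of a cone.
-/

set_option autoImplicit false
set_option linter.unusedSectionVars false
set_option linter.unusedVariables false

noncomputable section

namespace Crest.Agent.R188

open Filter
open Crest.Agent.R183 (Zc Bd mact gr Htpy)
open scoped TensorProduct

variable {R : Type} [CommRing R] (ν : AddFn R) {ℓ : ℕ} [NeZero ℓ]
  (N : Type) [AddCommGroup N] [Module R N]

/-- Let `w b` be the number of slots of `b : ZMod ℓ → F.ι ⊕ F.ι` in the right summand.  Multiplication of the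
coordinate `b` by `x ^ w b` embeds `(F.cone x)^{⊗ℓ} ⊗ N` in the exact complex `X = (F.cone 1)^{⊗ℓ} ⊗ N` with
image `U = {z | z b ∈ x ^ w b N}`, so the left side is `- τ(X / U)`.  Filter `X / U` by `w` (the differential
does not increase `w`), with graded pieces those of `(F.cone 0)^{⊗ℓ}`, decompose by the labels
`ω t = (b t).isRight`; only the constant labels contribute (`tau_ind`): the left one gives `0` (`W = U`) and
the right one is `F^{⊗ℓ} ⊗ N / x ^ ℓ` shifted by `ℓ` (up to a diagonal sign change: on the right summand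
the degrees are `deg + 1` and the differential is `-d`; slot `t` sees `(ℓ - 1) / 2` signs, so the
differential is `± powD`). -/
theorem AddFn.adams_cone [IsNoetherianRing R] [Module.Finite R N] (hp : ℓ.Prime) (hℓ : Odd ℓ)
    (hu : IsUnit (ℓ : R)) (F : FC R) (x : R) (hx : IsSMulRegular N x) {𝔞 𝔟 : Ideal R}
    (ha : ν.good (R ⧸ (𝔞 ⊔ 𝔟 ⊔ Ideal.span {x}))) (hb : 𝔟 ≤ Module.annihilator R N)
    (h1 : ∀ y ∈ 𝔞, Htpy F.deg F.d y) :
    ν.adams ℓ (F.cone x) N = ν.adams ℓ F (QuotSMulTop (x ^ ℓ) N) := by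
  let D : R → ((ZMod ℓ → F.ι ⊕ F.ι) → N) →ₗ[R] ((ZMod ℓ → F.ι ⊕ F.ι) → N) :=
    fun y => mact (powD ℓ (powkDeg F) (powkD F y)) N
  let ρ := rot R ℓ (F.ι ⊕ F.ι) N
  let X := powkX N ℓ F x
  let G : ℤ → Submodule R ((ZMod ℓ → F.ι ⊕ F.ι) → N) := fun i => gr (powW ℓ (powkDeg F)) i ⊤
  have hG : X (ℓ + 1) = G := powkX_top N F x
  have cG : ∀ y, IsCx (D y) G ⊥ := fun y => ((F.cone y).pow ℓ hℓ).isCx N
  have aG : ∀ y, IsAct ℓ (D y) ρ G ⊥ := fun y => (F.cone y).pow_act N hℓ
  have cX : ∀ y {j j' : ℕ}, j ≤ j' → IsCx (D y) (X j') (X j) := fun y j j' h =>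
    powkX_isCx N F hℓ x y h
  have aX : ∀ y j j', IsAct ℓ (D y) ρ (X j') (X j) := fun y j j' => powkX_isAct N F x y j j'
  have hXG : ∀ i, X 0 i ≤ G i := fun i => hG ▸ (cX 1 (Nat.zero_le (ℓ + 1))).le i
  have c0 : IsCx (D 1) (X 0) ⊥ := (cG 1).sub (fun i => bot_le) hXG (cX 1 le_rfl).subW
  have a0 : IsAct ℓ (D 1) ρ (X 0) ⊥ :=
    ⟨(aG 1).pow, (aG 1).comm, (aX 1 0 0).mapW, (aG 1).mapU⟩
  -- the embedding
  have e1 : ν.adams ℓ (F.cone x) N = ν.tau ℓ (D 1) ρ (X 0) ⊥ := by
    refine ν.tau_iso hu (powkX_emb N F x hx) (cG x) c0 (aG x) a0 fun i z hz => ?_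
    have := LinearMap.congr_fun (rot_tens (ℓ := ℓ) N
      (Matrix.diagonal fun a : F.ι ⊕ F.ι => x ^ powkW F.ι a)) z
    exact (Submodule.mem_bot R).2 (sub_eq_zero.2 this.symm)
  have gx : ν.gd (D x) G ⊥ := by
    refine powk_gd ν ha (fun i => ((F.cone x).pow ℓ hℓ).fg N i) (fun y hy => ?_)
      (fun y hy z => ?_) ⟨1, ?_⟩
    · exact ((F.cone x).pow ℓ hℓ).htpy_smul_mem N
        ((F.cone x).htpy_pow hℓ (F.htpy_cone x (h1 y hy)))
    · funext b
      exact Module.mem_annihilator.1 (hb hy) (z b)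
    · rw [pow_one]
      exact ((F.cone x).pow ℓ hℓ).htpy_smul_mem N ((F.cone x).htpy_pow hℓ (F.htpy_cone_self x))
  have g0 : ν.gd (D 1) (X 0) ⊥ := (ν.chi_iso (powkX_emb N F x hx) (cG x) c0).1.1 gx
  have ex : Exa (D 1) G ⊥ := fun i z hz => by
    have := ((F.cone 1).pow ℓ hℓ).htpy_smul_mem N
      ((F.cone 1).htpy_pow hℓ (F.htpy_cone_self 1)) i z hz
    rwa [one_smul] at this
  have gq : ν.gd (D 1) G (X 0) :=
    (ν.gd_ses (cG 1) (fun i => bot_le) hXG (cX 1 le_rfl).subW).2.1 (ν.chi_exa ex).1 g0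
  have e2 : ν.tau ℓ (D 1) ρ (X 0) ⊥ + ν.tau ℓ (D 1) ρ G (X 0) = 0 := by
    rw [← ν.tau_ses hu (cG 1) (aG 1) (fun i => bot_le) hXG (cX 1 le_rfl).subW (aX 1 0 0).mapW g0 gq]
    exact ν.tau_exa hu (cG 1) (aG 1) ex
  -- the filtration
  have gX : ∀ {j j' : ℕ}, j ≤ j' → ν.gd (D 0) (X j') (X j) := fun h =>
    powkX_gd ν N F hℓ x ha hb h1 h
  have filt : ∀ y, ν.tau ℓ (D y) ρ (X (ℓ + 1)) (X 0) =
      ∑ j ∈ Finset.range (ℓ + 1), ν.tau ℓ (D 0) ρ (X (j + 1)) (X j) := fun y => by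
    rw [ν.tau_filt hu X (ℓ + 1) (cX y (Nat.zero_le _)) (aX y _ _)
      (fun j => (cX y (Nat.le_succ j)).le) (fun j => (cX y (le_refl j)).subW)
      (fun j => (aX y j j).mapW) fun j _ =>
        (ν.chi_iso (powkX_piso N F x y j) (cX y (Nat.le_succ j)) (cX 0 (Nat.le_succ j))).1.2
          (gX (Nat.le_succ j))]
    refine Finset.sum_congr rfl fun j _ => ?_
    refine ν.tau_iso hu (powkX_piso N F x y j) (cX y (Nat.le_succ j)) (cX 0 (Nat.le_succ j))
      (aX y _ _) (aX 0 _ _) fun i z hz => ?_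
    rw [LinearMap.id_apply, LinearMap.id_apply, sub_self]
    exact Submodule.zero_mem _
  have e3 : ν.tau ℓ (D 1) ρ G (X 0) = ν.tau ℓ (D 0) ρ (X (ℓ + 1)) (X 0) := by
    rw [← hG, filt 1, filt 0]
  -- the labels
  let e := powkE R N (powkLab ℓ F.ι)
  have hidem := ν.chi_idem (cX 0 (Nat.zero_le (ℓ + 1))) e (powkE_sum _) (powkE_orth _)
    (powkE_mact _ _ (powkD_lab F)) (fun ω i => powkE_map_le _ _ _ ω i)
    (fun ω i => powkE_map_le _ _ _ ω i)
  have hact : ∀ ω, powkPerm ℓ Bool ω = ω → IsAct ℓ (D 0) ρ (fun i => (X (ℓ + 1) i).map (e ω))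
      fun i => (X 0 i).map (e ω) := fun ω hω => by
    have hc : ρ ∘ₗ e ω = e ω ∘ₗ ρ := by
      have := powkE_rot (R := R) (N := N) (fun a : F.ι ⊕ F.ι => a.isRight) ω
      rw [hω] at this
      exact this
    refine ⟨(aG 0).pow, (aG 0).comm, fun i => ?_, fun i => ?_⟩
    · rw [← Submodule.map_comp, hc, Submodule.map_comp]
      exact Submodule.map_mono ((aX 0 0 (ℓ + 1)).mapW i)
    · rw [← Submodule.map_comp, hc, Submodule.map_comp]
      exact Submodule.map_mono ((aX 0 0 (ℓ + 1)).mapU i)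
  have e4 := ν.tau_ind hp hu (cX 0 (Nat.zero_le (ℓ + 1))) (aX 0 _ _) (gX (Nat.zero_le _)) e
    (powkE_sum _) (powkE_orth _) (powkE_mact _ _ (powkD_lab F))
    (fun ω i => powkE_map_le _ _ _ ω i) (fun ω i => powkE_map_le _ _ _ ω i) (powkPerm ℓ Bool)
    (powkPerm_pow Bool) (fun ω => powkE_rot (fun a : F.ι ⊕ F.ι => a.isRight) ω)
  have hne : (fun _ => false : ZMod ℓ → Bool) ≠ fun _ => true := fun h => by
    simpa using congrFun h 0
  rw [powkPerm_filter, Finset.sum_pair hne] at e4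
  have e5 : ν.tau ℓ (D 0) ρ (fun i => (X (ℓ + 1) i).map (e fun _ => false))
      (fun i => (X 0 i).map (e fun _ => false)) = 0 := by
    refine ν.tau_exa hu (hidem.1 _) (hact _ (funext fun t => powkPerm_apply _ t)) fun i z hz => ?_
    exact Submodule.mem_sup_right ((powkX_false (ℓ := ℓ) N F x i).le hz.1)
  obtain ⟨ε, hε, hεe⟩ := powk_powD_shift (ℓ := ℓ) F.deg F.d
  have cF := (F.pow ℓ hℓ).isCx (QuotSMulTop (x ^ ℓ) N)
  have aF := F.pow_act (QuotSMulTop (x ^ ℓ) N) hℓ
  have e6 : ν.tau ℓ (D 0) ρ (fun i => (X (ℓ + 1) i).map (e fun _ => true))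
      (fun i => (X 0 i).map (e fun _ => true)) = -ν.adams ℓ F (QuotSMulTop (x ^ ℓ) N) := by
    have hs := ν.tau_shift (ℓ := ℓ) (D := mact (powD ℓ F.deg F.d) (QuotSMulTop (x ^ ℓ) N))
      (ρ := rot R ℓ F.ι (QuotSMulTop (x ^ ℓ) N)) (W := fun i => gr (powW ℓ F.deg) i ⊤) (U := ⊥)
      ℓ ε hε
    rw [zpow_natCast, hℓ.neg_one_pow, neg_one_mul] at hs
    refine Eq.trans ?_ hs
    refine ν.tau_iso hu (powkX_true N F x hεe) (hidem.1 _) ?_
      (hact _ (funext fun t => powkPerm_apply _ t)) ?_ fun i z hz => ?_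
    · refine ⟨fun i => bot_le, fun i => ?_, fun i => ?_, fun i z hz => ?_, ?_⟩
      · rintro _ ⟨z, hz, rfl⟩
        rw [LinearMap.smul_apply, show i - 1 - (ℓ : ℤ) = i - ℓ - 1 by ring]
        exact Submodule.smul_mem _ _ (cF.subW _ ⟨z, hz, rfl⟩)
      · rw [Pi.bot_apply, Submodule.map_bot]; exact bot_le
      · simp only [LinearMap.smul_apply, map_smul]
        exact Submodule.smul_mem _ _ (Submodule.smul_mem _ _ (cF.dd _ z hz))
      · exact cF.fin.preimage (f := fun i : ℤ => i - ℓ) (sub_left_injective.injOn)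
    · refine ⟨aF.pow, ?_, fun i => aF.mapW _, fun i => aF.mapU i⟩
      rw [LinearMap.comp_smul, LinearMap.smul_comp]
      exact congrArg _ aF.comm
    · rw [Pi.bot_apply, Submodule.mem_bot, sub_eq_zero]
      rfl
  rw [e5, e6, zero_add] at e4
  rw [e1]
  linarith

theorem powk_good_mono {I J : Ideal R} (h : I ≤ J) (g : ν.good (R ⧸ I)) : ν.good (R ⧸ J) :=
  ν.good_of_surj (Submodule.factor h) (Submodule.factor_surjective h) g

open Pointwise in
/-- `N / x ^ k N` is filtered by `k` copies of `N / x N`. -/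
theorem powk_adams_pow [IsNoetherianRing R] [Module.Finite R N] (hℓ : Odd ℓ)
    (hu : IsUnit (ℓ : R)) (F : FC R) (x : R) (hx : IsSMulRegular N x) {𝔞 𝔟 : Ideal R}
    (ha : ν.good (R ⧸ (𝔞 ⊔ 𝔟 ⊔ Ideal.span {x}))) (hb : 𝔟 ≤ Module.annihilator R N)
    (h1 : ∀ y ∈ 𝔞, Htpy F.deg F.d y) (k : ℕ) :
    ν.adams ℓ F (QuotSMulTop (x ^ k) N) = k * ν.adams ℓ F (QuotSMulTop x N) := by
  have g : ∀ (k : ℕ) (x' : R), x' = x ^ k → ν.gdF (F.pow ℓ hℓ) (QuotSMulTop x' N) := by
    rintro k _ rfl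
    refine powk_gd ν ha (fun i => (F.pow ℓ hℓ).fg _ i) (fun y hy => ?_) (fun y hy z => ?_)
      ⟨k, fun i z hz => ?_⟩
    · exact (F.pow ℓ hℓ).htpy_smul_mem _ (F.htpy_pow hℓ (h1 y hy))
    · funext b
      obtain ⟨v, hv⟩ := Submodule.Quotient.mk_surjective _ (z b)
      rw [Pi.smul_apply, ← hv, ← Submodule.Quotient.mk_smul, Module.mem_annihilator.1 (hb hy) v]
      rfl
    · have : x ^ k • z = 0 := by
        funext b
        obtain ⟨v, hv⟩ := Submodule.Quotient.mk_surjective _ (z b)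
        rw [Pi.smul_apply, ← hv, ← Submodule.Quotient.mk_smul]
        exact (Submodule.Quotient.mk_eq_zero _).2 (Submodule.smul_mem_pointwise_smul _ _ _ trivial)
      rw [this]
      exact Submodule.zero_mem _
  have step : ∀ k : ℕ, ν.adams ℓ F (QuotSMulTop (x ^ (k + 1)) N) =
      ν.adams ℓ F (QuotSMulTop x N) + ν.adams ℓ F (QuotSMulTop (x ^ k) N) := fun k => by
    have hf : x • (⊤ : Submodule R N) ≤
        (x ^ (k + 1) • (⊤ : Submodule R N)).comap (x ^ k • LinearMap.id : N →ₗ[R] N) := by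
      intro z hz
      obtain ⟨v, -, rfl⟩ := (Submodule.mem_smul_pointwise_iff_exists _ _ _).1 hz
      rw [Submodule.mem_comap, LinearMap.smul_apply, LinearMap.id_apply, ← mul_smul, ← pow_succ]
      exact Submodule.smul_mem_pointwise_smul _ _ _ trivial
    refine ν.adams_coef hℓ hu F (Submodule.mapQ _ _ _ hf)
      (Submodule.factor (powk_pow_smul_le N x (Nat.le_succ k))) ?_
      (Submodule.factor_surjective _) ?_ (g 1 x (pow_one x).symm) (g k _ rfl)
    · rw [injective_iff_map_eq_zero]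
      intro z hz
      obtain ⟨v, rfl⟩ := Submodule.Quotient.mk_surjective _ z
      rw [Submodule.mapQ_apply, Submodule.Quotient.mk_eq_zero] at hz
      obtain ⟨w, -, hw⟩ := (Submodule.mem_smul_pointwise_iff_exists _ _ _).1 hz
      rw [LinearMap.smul_apply, LinearMap.id_apply, pow_succ, mul_smul] at hw
      rw [Submodule.Quotient.mk_eq_zero, ← hx.pow k hw]
      exact Submodule.smul_mem_pointwise_smul _ _ _ trivial
    · intro z
      obtain ⟨v, rfl⟩ := Submodule.Quotient.mk_surjective _ z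
      constructor
      · intro hz
        have hz' : v ∈ x ^ k • (⊤ : Submodule R N) := (Submodule.Quotient.mk_eq_zero _).1 hz
        obtain ⟨w, -, rfl⟩ := (Submodule.mem_smul_pointwise_iff_exists _ _ _).1 hz'
        exact ⟨Submodule.Quotient.mk w, rfl⟩
      · rintro ⟨w, hw⟩
        obtain ⟨w, rfl⟩ := Submodule.Quotient.mk_surjective _ w
        rw [← hw]
        exact (Submodule.Quotient.mk_eq_zero _).2 (Submodule.smul_mem_pointwise_smul _ _ _ trivial)
  induction k with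
  | zero =>
    have h0 := step 0
    rw [ν.adams_equiv hℓ hu F (Submodule.quotEquivOfEq (x ^ (0 + 1) • (⊤ : Submodule R N))
      (x • (⊤ : Submodule R N)) (by rw [zero_add, pow_one]))] at h0
    simp only [Nat.cast_zero, zero_mul]
    linarith
  | succ k ih =>
    rw [step, ih]
    push_cast
    ring

/-- induction on `xs` for all `N`: `adams_cone`, then `N / x ^ ℓ N` is filtered by `ℓ` copies of `N / x N`
(`adams_coef`). -/
theorem AddFn.adams_kos [IsNoetherianRing R] (hp : ℓ.Prime) (hℓ : Odd ℓ) (hu : IsUnit (ℓ : R))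
    (xs : List R) (N : Type) [AddCommGroup N] [Module R N] [Module.Finite R N]
    (hx : RingTheory.Sequence.IsWeaklyRegular N xs)
    (ha : ν.good (R ⧸ (Ideal.ofList xs ⊔ Module.annihilator R N))) :
    ν.adams ℓ ((FC.unit R).kos xs) N =
      (ℓ - 1 : ℝ) * ℓ ^ xs.length * ν.val (N ⧸ (Ideal.ofList xs • ⊤ : Submodule R N)) := by
  induction xs generalizing N with
  | nil =>
    rw [FC.kos, ν.adams_unit N hℓ, ν.val_equiv (Submodule.quotEquivOfEqBot
      (Ideal.ofList ([] : List R) • ⊤ : Submodule R N) (by simp))]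
    simp
  | cons x xs ih =>
    rw [RingTheory.Sequence.isWeaklyRegular_cons_iff] at hx
    have ha' : ν.good (R ⧸ (Ideal.ofList xs ⊔ Module.annihilator R N ⊔ Ideal.span {x})) := by
      refine powk_good_mono ν ?_ ha
      rw [Ideal.ofList_cons]
      exact sup_le (sup_le le_sup_right (le_sup_of_le_left le_sup_left))
        (le_sup_of_le_left le_sup_right)
    have h1 : ∀ y ∈ Ideal.ofList xs, Htpy ((FC.unit R).kos xs).deg ((FC.unit R).kos xs).d y :=
      fun y hy => (FC.unit R).htpy_kos xs (Or.inl hy)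
    have ha'' : ν.good (R ⧸ (Ideal.ofList xs ⊔ Module.annihilator R (QuotSMulTop x N))) := by
      refine powk_good_mono ν (sup_le (sup_le le_sup_left (le_sup_of_le_right ?_))
        (le_sup_of_le_right ?_)) ha'
      · intro y hy
        rw [Module.mem_annihilator] at hy ⊢
        intro z
        obtain ⟨v, rfl⟩ := Submodule.Quotient.mk_surjective _ z
        rw [← Submodule.Quotient.mk_smul, hy v]
        rfl
      · rw [Ideal.span_singleton_le_iff_mem, Module.mem_annihilator]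
        intro z
        obtain ⟨v, rfl⟩ := Submodule.Quotient.mk_surjective _ z
        rw [← Submodule.Quotient.mk_smul]
        exact (Submodule.Quotient.mk_eq_zero _).2 (Submodule.smul_mem_pointwise_smul _ _ _ trivial)
    rw [FC.kos, ν.adams_cone N hp hℓ hu _ x hx.1 ha' le_rfl h1,
      powk_adams_pow ν N hℓ hu _ x hx.1 ha' le_rfl h1, ih _ hx.2 ha'',
      ν.val_equiv (Submodule.quotOfListConsSMulTopEquivQuotSMulTopInner N x xs), List.length_cons]
    ring

end Crest.Agent.R188
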