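import Crest.Agent.R188.Free

/-!
# R188 / Res

Functionals on finite free complexes define additive functions on modules.
-/

set_option autoImplicit false
set_option linter.unusedSectionVars false
set_option linter.unusedVariables false

noncomputable section

namespace Crest.Agent.R188

open Filter
open Crest.Agent.R183 (Zc Bd mact gr Htpy)
open scoped TensorProduct

variable {R : Type} [CommRing R]

theorem Res_mem_G {F : FC R} {i : ℤ} {v : F.ι → R} :
    v ∈ F.G R i ↔ ∀ b, (F.deg b : ℤ) ≠ i → v b = 0 := by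
  simp only [gr, Submodule.mem_pi, Set.mem_univ, true_imp_iff]
  refine forall_congr' fun b => ?_
  by_cases h : (F.deg b : ℤ) = i <;> simp [h]

theorem Res_act {F : FC R} (v : F.ι → R) : F.act R v = F.d.mulVec v := by
  ext b
  simp [mact, Matrix.mulVec, dotProduct]

theorem Res_mem_Zc {F : FC R} {i : ℤ} {v : F.ι → R} :
    v ∈ Zc (F.act R) (F.G R) ⊥ i ↔ v ∈ F.G R i ∧ F.d.mulVec v = 0 := by
  simp only [Zc, Submodule.mem_inf, Submodule.mem_comap, Pi.bot_apply, Submodule.mem_bot, Res_act]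

theorem Res_mem_Bd {F : FC R} {i : ℤ} {v : F.ι → R} :
    v ∈ Bd (F.act R) (F.G R) ⊥ i ↔ ∃ w ∈ F.G R (i + 1), F.d.mulVec w = v := by
  simp only [Bd, Pi.bot_apply, sup_bot_eq, Submodule.mem_map, Res_act]

theorem Res_d_mem {F : FC R} {i : ℤ} {v : F.ι → R} (hv : v ∈ F.G R i) :
    F.d.mulVec v ∈ F.G R (i - 1) := by
  rw [Res_mem_G] at hv ⊢
  intro b hb
  simp only [Matrix.mulVec, dotProduct]
  refine Finset.sum_eq_zero fun c _ => ?_
  by_cases h : F.d b c = 0
  · simp [h]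
  · have := F.d_deg b c h
    rw [hv c (by omega), mul_zero]

theorem Res_deg_mem {F F' : FC R} {α : Matrix F'.ι F.ι R}
    (hα : ∀ b' b, α b' b ≠ 0 → F'.deg b' = F.deg b) {i : ℤ} {v : F.ι → R} (hv : v ∈ F.G R i) :
    α.mulVec v ∈ F'.G R i := by
  rw [Res_mem_G] at hv ⊢
  intro b hb
  simp only [Matrix.mulVec, dotProduct]
  refine Finset.sum_eq_zero fun c _ => ?_
  by_cases h : α b c = 0
  · simp [h]
  · have := hα b c h
    rw [hv c (by omega), mul_zero]

theorem Res_neg_zero {F : FC R} {i : ℤ} (hi : i < 0) {v : F.ι → R} (hv : v ∈ F.G R i) : v = 0 := by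
  rw [Res_mem_G] at hv
  ext b
  exact hv b (by omega)

theorem Res_dd {F : FC R} (v : F.ι → R) : F.d.mulVec (F.d.mulVec v) = 0 := by
  rw [Matrix.mulVec_mulVec, F.dd, Matrix.zero_mulVec]

theorem Res_single_mem {F : FC R} (b : F.ι) : (Pi.single b 1 : F.ι → R) ∈ F.G R (F.deg b) := by
  rw [Res_mem_G]
  intro c hc
  have : c ≠ b := by rintro rfl; exact hc rfl
  simp [this]

theorem Res_mulVec_congr {F : FC R} {κ : Type} {A B : Matrix κ F.ι R} {i : ℤ}
    (h : ∀ b, (F.deg b : ℤ) = i → ∀ k, A k b = B k b) {v : F.ι → R} (hv : v ∈ F.G R i) :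
    A.mulVec v = B.mulVec v := by
  rw [Res_mem_G] at hv
  ext k
  simp only [Matrix.mulVec, dotProduct]
  refine Finset.sum_congr rfl fun c _ => ?_
  by_cases hc : (F.deg c : ℤ) = i
  · rw [h c hc]
  · rw [hv c hc, mul_zero, mul_zero]

theorem Res_lift_aux {F F' : FC R} {M M' : Type} [AddCommGroup M] [Module R M] [AddCommGroup M']
    [Module R M'] (π : (F.ι → R) →ₗ[R] M) (π' : (F'.ι → R) →ₗ[R] M') (f : M →ₗ[R] M')
    (hπ : ∀ x ∈ Bd (F.act R) (F.G R) ⊥ 0, π x = 0)
    (h1 : ∀ i : ℤ, i ≠ 0 → Zc (F'.act R) (F'.G R) ⊥ i ≤ Bd (F'.act R) (F'.G R) ⊥ i)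
    (h2 : (F'.G R 0).map π' = ⊤) (h3 : F'.G R 0 ⊓ LinearMap.ker π' = Bd (F'.act R) (F'.G R) ⊥ 0)
    (n : ℕ) :
    ∃ α : Matrix F'.ι F.ι R, (∀ b' b, α b' b ≠ 0 → F'.deg b' = F.deg b) ∧
      (∀ b, F.deg b ≤ n → ∀ b', (α * F.d) b' b = (F'.d * α) b' b) ∧
      ∀ x ∈ F.G R 0, π' (α.mulVec x) = f (π x) := by
  induction n with
  | zero =>
    have h4 : ∀ b : F.ι, ∃ a ∈ F'.G R 0, π' a = f (π (Pi.single b 1)) := fun b =>
      Submodule.mem_map.1 (h2 ▸ Submodule.mem_top)
    choose a ha0 ha using h4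
    refine ⟨Matrix.of fun b' b => if F.deg b = 0 then a b b' else 0, ?_, ?_, ?_⟩
    · intro b' b h
      simp only [Matrix.of_apply] at h
      by_cases hb : F.deg b = 0
      · rw [if_pos hb] at h
        by_contra hne
        exact h (Res_mem_G.1 (ha0 b) b' (by omega))
      · exact absurd (if_neg hb) h
    · intro b hb b'
      have hb0 : F.deg b = 0 := by omega
      have e1 : F'.d.mulVec (a b) = 0 := Res_neg_zero (by norm_num) (Res_d_mem (ha0 b))
      have e2 := congrFun e1 b'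
      simp only [Matrix.mulVec, dotProduct, Pi.zero_apply] at e2
      simp only [Matrix.mul_apply, Matrix.of_apply, if_pos hb0]
      rw [e2]
      refine Finset.sum_eq_zero fun c _ => ?_
      by_cases h : F.d c b = 0
      · simp [h]
      · have := F.d_deg c b h
        omega
    · intro x hx
      have e1 : (Matrix.of fun b' b => if F.deg b = 0 then a b b' else 0 :
          Matrix F'.ι F.ι R).mulVec x = ∑ b, x b • a b := by
        ext b'
        simp only [Matrix.mulVec, dotProduct, Matrix.of_apply, Finset.sum_apply, Pi.smul_apply,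
          smul_eq_mul]
        refine Finset.sum_congr rfl fun c _ => ?_
        by_cases hc : F.deg c = 0
        · rw [if_pos hc, mul_comm]
        · rw [Res_mem_G.1 hx c (by omega)]
          simp
      have e2 : x = ∑ b, x b • (Pi.single b 1 : F.ι → R) := by
        ext c
        simp [Finset.sum_apply, Pi.single_apply]
      rw [e1]
      conv_rhs => rw [e2]
      simp only [map_sum, map_smul, ha]
  | succ n ih =>
    obtain ⟨α, hα1, hα2, hα3⟩ := ih
    have h4 : ∀ b : F.ι, ∃ z : F'.ι → R, F.deg b = n + 1 →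
        z ∈ F'.G R ((n : ℤ) + 1) ∧ F'.d.mulVec z = α.mulVec (F.d.mulVec (Pi.single b 1)) := by
      intro b
      by_cases hb : F.deg b = n + 1
      swap
      · exact ⟨0, fun h => absurd h hb⟩
      have e0 : (Pi.single b 1 : F.ι → R) ∈ F.G R ((n : ℤ) + 1) := by
        have := Res_single_mem (F := F) b
        rw [hb] at this
        exact_mod_cast this
      have e1 : F.d.mulVec (Pi.single b 1) ∈ F.G R (n : ℤ) := by
        have := Res_d_mem e0
        rwa [add_sub_cancel_right] at this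
      have e2 : α.mulVec (F.d.mulVec (Pi.single b 1)) ∈ F'.G R (n : ℤ) := Res_deg_mem hα1 e1
      have e3 : α.mulVec (F.d.mulVec (Pi.single b 1)) ∈ Bd (F'.act R) (F'.G R) ⊥ (n : ℤ) := by
        rcases Nat.eq_zero_or_pos n with hn | hn
        · subst hn
          simp only [Nat.cast_zero] at e0 e1 e2 ⊢
          rw [← h3]
          refine ⟨e2, ?_⟩
          change π' _ = 0
          rw [hα3 _ e1, hπ _ (Res_mem_Bd.2 ⟨_, e0, rfl⟩), map_zero]
        · refine h1 n (by omega) (Res_mem_Zc.2 ⟨e2, ?_⟩)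
          rw [Matrix.mulVec_mulVec, ← Res_mulVec_congr (A := α * F.d) (i := (n : ℤ))
            (fun c hc k => hα2 c (by omega) k) e1, ← Matrix.mulVec_mulVec, Res_dd,
            Matrix.mulVec_zero]
      obtain ⟨z, hz, hz'⟩ := Res_mem_Bd.1 e3
      exact ⟨z, fun _ => ⟨hz, hz'⟩⟩
    choose z hz using h4
    refine ⟨Matrix.of fun b' b => if F.deg b = n + 1 then z b b' else α b' b, ?_, ?_, ?_⟩
    · intro b' b h
      simp only [Matrix.of_apply] at h
      by_cases hb : F.deg b = n + 1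
      · rw [if_pos hb] at h
        by_contra hne
        exact h (Res_mem_G.1 (hz b hb).1 b' (by omega))
      · rw [if_neg hb] at h
        exact hα1 b' b h
    · intro b hb b'
      have e1 : ((Matrix.of fun b' b => if F.deg b = n + 1 then z b b' else α b' b :
          Matrix F'.ι F.ι R) * F.d) b' b = (α * F.d) b' b := by
        simp only [Matrix.mul_apply, Matrix.of_apply]
        refine Finset.sum_congr rfl fun c _ => ?_
        by_cases h : F.d c b = 0
        · simp [h]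
        · have := F.d_deg c b h
          rw [if_neg (by omega)]
      rw [e1]
      by_cases hb' : F.deg b = n + 1
      · have e2 := congrFun (hz b hb').2 b'
        rw [Matrix.mulVec_mulVec, Matrix.mulVec_single_one] at e2
        simp only [Matrix.col_apply] at e2
        rw [← e2]
        simp only [Matrix.mul_apply, Matrix.of_apply, if_pos hb', Matrix.mulVec, dotProduct]
      · rw [hα2 b (by omega)]
        simp only [Matrix.mul_apply, Matrix.of_apply, if_neg hb']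
    · intro x hx
      rw [← hα3 x hx]
      congr 1
      refine Res_mulVec_congr (i := 0) (fun c hc k => ?_) hx
      simp only [Matrix.of_apply]
      rw [if_neg (by omega)]

/-- comparison: a map of modules lifts to the resolutions. -/
theorem FC.Res.lift {F F' : FC R} {M M' : Type} [AddCommGroup M] [Module R M] [AddCommGroup M']
    [Module R M'] (π : (F.ι → R) →ₗ[R] M) (π' : (F'.ι → R) →ₗ[R] M') (f : M →ₗ[R] M')
    (hπ : ∀ x ∈ Bd (F.act R) (F.G R) ⊥ 0, π x = 0)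
    (h1 : ∀ i : ℤ, i ≠ 0 → Zc (F'.act R) (F'.G R) ⊥ i ≤ Bd (F'.act R) (F'.G R) ⊥ i)
    (h2 : (F'.G R 0).map π' = ⊤) (h3 : F'.G R 0 ⊓ LinearMap.ker π' = Bd (F'.act R) (F'.G R) ⊥ 0) :
    ∃ α : Matrix F'.ι F.ι R, F.IsMap F' α ∧ ∀ x ∈ F.G R 0, π' (α.mulVec x) = f (π x) := by
  obtain ⟨α, h4, h5, h6⟩ := Res_lift_aux π π' f hπ h1 h2 h3 (Finset.univ.sup F.deg)
  refine ⟨α, ⟨h4, ?_⟩, h6⟩
  ext b' b
  exact h5 b (Finset.le_sup (f := F.deg) (Finset.mem_univ b)) b'

/-- a vector of the cone from its two components. -/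
def Res_pr {F F' : FC R} {α : Matrix F'.ι F.ι R} (hα : F.IsMap F' α) (u : F'.ι → R)
    (w : F.ι → R) : (F.mcone F' α hα).ι → R := Sum.elim u w

theorem Res_cone_G {F F' : FC R} {α : Matrix F'.ι F.ι R} {hα : F.IsMap F' α} {i : ℤ}
    (u : F'.ι → R) (w : F.ι → R) :
    Res_pr hα u w ∈ (F.mcone F' α hα).G R i ↔ u ∈ F'.G R i ∧ w ∈ F.G R (i - 1) := by
  simp only [Res_mem_G]
  constructor
  · intro h
    refine ⟨fun b hb => h (Sum.inl b) hb, fun b hb => h (Sum.inr b) ?_⟩
    change ((F.deg b + 1 : ℕ) : ℤ) ≠ i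
    omega
  · rintro ⟨h, h'⟩ (b | b) hb
    · exact h b hb
    · refine h' b ?_
      change ((F.deg b + 1 : ℕ) : ℤ) ≠ i at hb
      omega

theorem Res_cone_d {F F' : FC R} {α : Matrix F'.ι F.ι R} {hα : F.IsMap F' α}
    (u : F'.ι → R) (w : F.ι → R) :
    (F.mcone F' α hα).d.mulVec (Res_pr hα u w) =
      Res_pr hα (F'.d.mulVec u + α.mulVec w) (-(F.d.mulVec w)) := by
  change (Matrix.fromBlocks F'.d α 0 (-F.d)).mulVec (Sum.elim u w) = Sum.elim _ _
  rw [Matrix.fromBlocks_mulVec]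
  simp [Matrix.neg_mulVec]

theorem Res_cone_surj {F F' : FC R} {α : Matrix F'.ι F.ι R} {hα : F.IsMap F' α}
    (v : (F.mcone F' α hα).ι → R) : ∃ (u : F'.ι → R) (w : F.ι → R), v = Res_pr hα u w :=
  ⟨fun b => v (Sum.inl b), fun b => v (Sum.inr b), by ext (b | b) <;> rfl⟩

theorem Res_comm {F F' : FC R} {α : Matrix F'.ι F.ι R} (hα : F.IsMap F' α) (w : F.ι → R) :
    α.mulVec (F.d.mulVec w) = F'.d.mulVec (α.mulVec w) := by
  rw [Matrix.mulVec_mulVec, Matrix.mulVec_mulVec, hα.comm]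

theorem Res_elim_zero {F F' : FC R} {α : Matrix F'.ι F.ι R} {hα : F.IsMap F' α} {u : F'.ι → R}
    {w : F.ι → R} (h : Res_pr hα u w = 0) : u = 0 ∧ w = 0 :=
  ⟨funext fun b => congrFun h (Sum.inl b), funext fun b => congrFun h (Sum.inr b)⟩

/-- the cone of a lift of an injective map resolves the cokernel. -/
theorem FC.Res.cone {F F' : FC R} {M₁ M₂ M₃ : Type} [AddCommGroup M₁] [Module R M₁]
    [AddCommGroup M₂] [Module R M₂] [AddCommGroup M₃] [Module R M₃] (f : M₁ →ₗ[R] M₂)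
    (g : M₂ →ₗ[R] M₃) (hf : Function.Injective f) (hg : Function.Surjective g)
    (he : Function.Exact f g) (h : F.Res M₁) (h' : F'.Res M₂) :
    ∃ (α : Matrix F'.ι F.ι R) (hα : F.IsMap F' α), (F.mcone F' α hα).Res M₃ := by
  obtain ⟨h1, π, h2, h3⟩ := h
  obtain ⟨h1', π', h2', h3'⟩ := h'
  have hπ : ∀ x ∈ Bd (F.act R) (F.G R) ⊥ 0, π x = 0 := fun x hx => by
    rw [← h3] at hx
    exact hx.2
  have hπ' : ∀ x ∈ Bd (F'.act R) (F'.G R) ⊥ 0, π' x = 0 := fun x hx => by
    rw [← h3'] at hx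
    exact hx.2
  obtain ⟨α, hα, hα'⟩ := FC.Res.lift π π' f hπ h1' h2' h3'
  refine ⟨α, hα, ?_, g ∘ₗ π' ∘ₗ LinearMap.funLeft R R Sum.inl, ?_, ?_⟩
  · intro i hi v hv
    obtain ⟨u, w, rfl⟩ := Res_cone_surj v
    obtain ⟨hv1, hv2⟩ := Res_mem_Zc.1 hv
    rw [Res_cone_G] at hv1
    rw [Res_cone_d] at hv2
    obtain ⟨e1, e2⟩ := Res_elim_zero hv2
    rw [neg_eq_zero] at e2
    have e3 : w ∈ Bd (F.act R) (F.G R) ⊥ (i - 1) := by
      by_cases hi1 : i - 1 = 0
      · obtain ⟨hu, hw⟩ := hv1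
        rw [hi1] at hw ⊢
        rw [← h3]
        refine ⟨hw, ?_⟩
        change π w = 0
        apply hf
        rw [map_zero, ← hα' w hw, eq_neg_of_add_eq_zero_right e1, map_neg, neg_eq_zero]
        refine hπ' _ (Res_mem_Bd.2 ⟨u, ?_, rfl⟩)
        have : (0 : ℤ) + 1 = i := by omega
        rwa [this]
      · exact h1 _ hi1 (Res_mem_Zc.2 ⟨hv1.2, e2⟩)
    obtain ⟨t, ht, rfl⟩ := Res_mem_Bd.1 e3
    rw [sub_add_cancel] at ht
    have e4 : u + α.mulVec t ∈ Zc (F'.act R) (F'.G R) ⊥ i := by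
      refine Res_mem_Zc.2 ⟨add_mem hv1.1 (Res_deg_mem hα.deg ht), ?_⟩
      rw [Matrix.mulVec_add, ← Res_comm hα, e1]
    obtain ⟨s, hs, hs'⟩ := Res_mem_Bd.1 (h1' i hi e4)
    refine Res_mem_Bd.2 ⟨Res_pr hα s (-t), (Res_cone_G _ _).2 ⟨hs, ?_⟩, ?_⟩
    · rw [add_sub_cancel_right]
      exact neg_mem ht
    · rw [Res_cone_d, hs', Matrix.mulVec_neg, Matrix.mulVec_neg, neg_neg, add_neg_cancel_right]
  · rw [eq_top_iff]
    intro m _
    obtain ⟨m, rfl⟩ := hg m
    obtain ⟨u, hu, rfl⟩ := Submodule.mem_map.1 (h2' ▸ Submodule.mem_top : m ∈ (F'.G R 0).map π')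
    exact Submodule.mem_map.2 ⟨Res_pr hα u 0, (Res_cone_G _ _).2 ⟨hu, zero_mem _⟩, rfl⟩
  · ext v
    obtain ⟨u, w, rfl⟩ := Res_cone_surj v
    constructor
    · rintro ⟨hv1, hv2⟩
      obtain ⟨hu, hw⟩ := (Res_cone_G _ _).1 hv1
      have hw0 : w = 0 := Res_neg_zero (by norm_num) hw
      have e1 : g (π' u) = 0 := hv2
      obtain ⟨m, hm⟩ := (he _).1 e1
      obtain ⟨t, ht, rfl⟩ := Submodule.mem_map.1 (h2 ▸ Submodule.mem_top : m ∈ (F.G R 0).map π)
      have e2 : u - α.mulVec t ∈ Bd (F'.act R) (F'.G R) ⊥ 0 := by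
        rw [← h3']
        refine ⟨sub_mem hu (Res_deg_mem hα.deg ht), ?_⟩
        change π' _ = 0
        rw [map_sub, hα' t ht, hm, sub_self]
      obtain ⟨s, hs, hs'⟩ := Res_mem_Bd.1 e2
      refine Res_mem_Bd.2 ⟨Res_pr hα s t, (Res_cone_G _ _).2 ⟨hs, ?_⟩, ?_⟩
      · rwa [add_sub_cancel_right]
      · rw [Res_cone_d, hs', sub_add_cancel, hw0,
          Res_neg_zero (by norm_num) (Res_d_mem ht), neg_zero]
    · intro hv
      obtain ⟨x, hx, hx'⟩ := Res_mem_Bd.1 hv
      have e0 := Res_d_mem hx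
      rw [add_sub_cancel_right, hx'] at e0
      refine ⟨e0, ?_⟩
      obtain ⟨s, t, rfl⟩ := Res_cone_surj x
      obtain ⟨hs, ht⟩ := (Res_cone_G _ _).1 hx
      rw [add_sub_cancel_right] at ht
      rw [Res_cone_d] at hx'
      have e1 : F'.d.mulVec s + α.mulVec t = u := funext fun b => congrFun hx' (Sum.inl b)
      change g (π' u) = 0
      rw [← e1, map_add, hπ' _ (Res_mem_Bd.2 ⟨s, hs, rfl⟩), zero_add, hα' t ht]
      exact he.apply_apply_eq_zero _

theorem Res_iso_of_equiv {F F' : FC R} (e : F.ι ≃ F'.ι) (h1 : ∀ b, F'.deg (e b) = F.deg b)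
    (h2 : ∀ b c, F'.d (e b) (e c) = F.d b c) : F.Iso F' := by
  have hd : F.d = F'.d.submatrix e e := by
    ext b c
    exact (h2 b c).symm
  refine ⟨(1 : Matrix F'.ι F'.ι R).submatrix id e, (1 : Matrix F'.ι F'.ι R).submatrix e id,
    ⟨?_, ?_⟩, ?_, ?_⟩
  · intro b' b h
    by_cases hb : b' = e b
    · rw [hb, h1]
    · simp [hb] at h
  · rw [hd, Matrix.submatrix_mul_equiv, Matrix.one_mul]
    ext b c
    simp [Matrix.mul_apply, Matrix.one_apply]
  · rw [Matrix.submatrix_mul_equiv, Matrix.one_mul, Matrix.submatrix_id_id]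
  · ext b c
    simp [Matrix.mul_apply, Matrix.one_apply]

theorem Res_iso_of_equiv' {F F' : FC R} (e : F.ι ≃ F'.ι) (h1 : ∀ b, F'.deg (e b) = F.deg b)
    (h2 : ∀ b c, F'.d (e b) (e c) = F.d b c) : F'.Iso F :=
  Res_iso_of_equiv e.symm (fun b => by rw [← h1, Equiv.apply_symm_apply])
    (fun b c => by rw [← h2, Equiv.apply_symm_apply, Equiv.apply_symm_apply])

/-- the shifted complex. -/
def Res_shift (F : FC R) : FC R where
  ι := F.ι
  deg b := F.deg b + 1
  d := -F.d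
  d_deg b b' h := by
    have := F.d_deg b b' (by simpa using h)
    omega
  dd := by simp [F.dd]

/-- the part of the cone coming from the target. -/
def Res_p {F F' : FC R} {α : Matrix F'.ι F.ι R} (hα : F.IsMap F' α)
    (b : (F.mcone F' α hα).ι) : Prop := Sum.isLeft b = true

instance Res_p_dec {F F' : FC R} {α : Matrix F'.ι F.ι R} (hα : F.IsMap F' α) :
    DecidablePred (Res_p hα) := fun b => inferInstanceAs (Decidable (Sum.isLeft b = true))

theorem Res_isSub {F F' : FC R} {α : Matrix F'.ι F.ι R} (hα : F.IsMap F' α) :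
    (F.mcone F' α hα).IsSub (Res_p hα) := by
  rintro (b | b) (c | c) h hc
  · rfl
  · rfl
  · exact absurd rfl h
  · exact absurd hc (by simp [Res_p])

theorem Res_sub_iso {F F' : FC R} {α : Matrix F'.ι F.ι R} (hα : F.IsMap F' α) :
    ((F.mcone F' α hα).sub (Res_p hα) (Res_isSub hα)).Iso F' := by
  refine Res_iso_of_equiv' (Equiv.ofBijective
    (fun b : F'.ι => (⟨Sum.inl b, rfl⟩ : {b : F'.ι ⊕ F.ι // b.isLeft = true})) ⟨?_, ?_⟩)
    (fun b => rfl) (fun b c => rfl)
  · intro b c h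
    exact Sum.inl_injective (congrArg Subtype.val h)
  · rintro ⟨b | b, hb⟩
    · exact ⟨b, rfl⟩
    · exact absurd hb Bool.false_ne_true

theorem Res_quo_iso {F F' : FC R} {α : Matrix F'.ι F.ι R} (hα : F.IsMap F' α) :
    ((F.mcone F' α hα).quo (Res_p hα) (Res_isSub hα)).Iso
      (Res_shift F) := by
  refine Res_iso_of_equiv' (Equiv.ofBijective
    (fun b : F.ι => (⟨Sum.inr b, by simp⟩ : {b : F'.ι ⊕ F.ι // ¬ b.isLeft = true})) ⟨?_, ?_⟩)
    (fun b => rfl) (fun b c => rfl)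
  · intro b c h
    exact Sum.inr_injective (congrArg Subtype.val h)
  · rintro ⟨b | b, hb⟩
    · exact absurd rfl hb
    · exact ⟨b, rfl⟩

theorem Res_one_isMap (F : FC R) : F.IsMap F 1 :=
  ⟨fun b' b h => by
    by_cases e : b' = b
    · rw [e]
    · simp [e] at h, by simp⟩

theorem Res_one_exa (F : FC R) :
    Exa ((F.mcone F 1 (Res_one_isMap F)).act R) ((F.mcone F 1 (Res_one_isMap F)).G R) ⊥ := by
  intro i v hv
  obtain ⟨u, w, rfl⟩ := Res_cone_surj v
  obtain ⟨hv1, hv2⟩ := Res_mem_Zc.1 hv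
  rw [Res_cone_G] at hv1
  rw [Res_cone_d] at hv2
  obtain ⟨e1, e2⟩ := Res_elim_zero hv2
  rw [Matrix.one_mulVec] at e1
  refine Res_mem_Bd.2 ⟨Res_pr (Res_one_isMap F) 0 u, (Res_cone_G _ _).2 ⟨zero_mem _, ?_⟩, ?_⟩
  · rw [add_sub_cancel_right]
    exact hv1.1
  · rw [Res_cone_d, Matrix.mulVec_zero, zero_add, Matrix.one_mulVec,
      eq_neg_of_add_eq_zero_right e1]

theorem Res_phi_cone (μ : AddFn R) (φ : FC R → ℝ)
    (hext : ∀ (F : FC R) (p : F.ι → Prop) [DecidablePred p] (h : F.IsSub p),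
      μ.gdF (F.sub p h) R → μ.gdF (F.quo p h) R → φ F = φ (F.sub p h) + φ (F.quo p h))
    (hiso : ∀ F F' : FC R, F.Iso F' → μ.gdF F R → φ F = φ F')
    {F F' : FC R} {α : Matrix F'.ι F.ι R} (hα : F.IsMap F' α) (g : μ.gdF F R) (g' : μ.gdF F' R) :
    φ (F.mcone F' α hα) = φ F' + φ (Res_shift F) := by
  have g1 : μ.gdF (F.mcone F' α hα) R := (AddFn.chiF_mcone μ R hα).1.1 g' g
  have g2 := (AddFn.chiF_iso μ R (Res_sub_iso hα)).1.2 g'
  have g3 := (AddFn.chiF_ext μ (F.mcone F' α hα) R _ (Res_isSub hα)).1.2.1 g1 g2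
  rw [hext _ _ (Res_isSub hα) g2 g3, hiso _ _ (Res_sub_iso hα) g2, hiso _ _ (Res_quo_iso hα) g3]

theorem Res_exa_of_res {F : FC R} {M : Type} [AddCommGroup M] [Module R M] [Subsingleton M]
    (h : F.Res M) : Exa (F.act R) (F.G R) ⊥ := by
  obtain ⟨h1, π, h2, h3⟩ := h
  intro i
  by_cases hi : i = 0
  · subst hi
    intro v hv
    rw [← h3]
    exact ⟨(Res_mem_Zc.1 hv).1, Subsingleton.elim (π v) 0⟩
  · exact h1 i hi

/-- `φ` is additive on extensions, invariant under isomorphisms, zero on exact complexes.  Then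
`φ (mcone α) = φ F' - φ F` (the quotient of `mcone α` by `F'` is also the quotient of the exact complex
`mcone 1` by `F`), so `φ` of a resolution only depends on the module (`Res.cone` with `M₃ = PUnit`). -/
theorem exists_addFn [IsNoetherianRing R] (hR : FFR R) (μ : AddFn R)
    (hfin : ∀ (N : Type) [AddCommGroup N] [Module R N], μ.good N → Module.Finite R N)
    (φ : FC R → ℝ)
    (hext : ∀ (F : FC R) (p : F.ι → Prop) [DecidablePred p] (h : F.IsSub p),
      μ.gdF (F.sub p h) R → μ.gdF (F.quo p h) R → φ F = φ (F.sub p h) + φ (F.quo p h))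
    (hiso : ∀ F F' : FC R, F.Iso F' → μ.gdF F R → φ F = φ F')
    (hexa : ∀ F : FC R, Exa (F.act R) (F.G R) ⊥ → φ F = 0) :
    ∃ ν : AddFn R, (∀ (N : Type) [AddCommGroup N] [Module R N], ν.good N ↔ μ.good N) ∧
      ∀ (F : FC R) (N : Type) [AddCommGroup N] [Module R N], μ.good N → F.Res N → ν.val N = φ F := by
  classical
  have K1 : ∀ {F F' : FC R} {α : Matrix F'.ι F.ι R} (hα : F.IsMap F' α), μ.gdF F R → μ.gdF F' R →
      φ (F.mcone F' α hα) = φ F' - φ F := by
    intro F F' α hα g g'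
    have e1 := Res_phi_cone μ φ hext hiso hα g g'
    have e2 := Res_phi_cone μ φ hext hiso (Res_one_isMap F) g g
    rw [hexa _ (Res_one_exa F)] at e2
    linarith
  have K2 : ∀ (F F' : FC R) (N : Type) [AddCommGroup N] [Module R N], μ.good N → F.Res N →
      F'.Res N → φ F = φ F' := by
    intro F F' N _ _ hN h h'
    obtain ⟨α, hα, hc⟩ := FC.Res.cone (M₃ := PUnit) (LinearMap.id : N →ₗ[R] N) 0
      Function.injective_id (fun x => ⟨0, Subsingleton.elim _ _⟩)
      (fun x => ⟨fun _ => ⟨x, rfl⟩, fun _ => rfl⟩) h h'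
    have e1 := K1 hα ((AddFn.chiF_res μ F h).1.2 hN) ((AddFn.chiF_res μ F' h').1.2 hN)
    rw [hexa _ (Res_exa_of_res hc)] at e1
    linarith
  let val : ∀ (M : Type) [AddCommGroup M] [Module R M], ℝ := fun M _ _ =>
    if h : μ.good M then φ (Classical.choose (hR M (hfin M h))) else 0
  have hval : ∀ (F : FC R) (N : Type) [AddCommGroup N] [Module R N], μ.good N → F.Res N →
      val N = φ F := by
    intro F N _ _ hN h
    simp only [val, dif_pos hN]
    exact K2 _ _ N hN (Classical.choose_spec (hR N (hfin N hN))) h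
  refine ⟨⟨μ.good, val, μ.good_zero, μ.good_iff, ?_, ?_⟩, fun N _ _ => Iff.rfl, hval⟩
  · intro M₁ M₂ M₃ _ _ _ _ _ _ f g hf hg he h2
    obtain ⟨h1, h3⟩ := (μ.good_iff M₁ M₂ M₃ f g hf hg he).1 h2
    obtain ⟨F₁, hF₁⟩ := hR M₁ (hfin _ h1)
    obtain ⟨F₂, hF₂⟩ := hR M₂ (hfin _ h2)
    obtain ⟨α, hα, hc⟩ := FC.Res.cone f g hf hg he hF₁ hF₂
    rw [hval F₁ M₁ h1 hF₁, hval F₂ M₂ h2 hF₂, hval _ M₃ h3 hc,
      K1 hα ((AddFn.chiF_res μ F₁ hF₁).1.2 h1) ((AddFn.chiF_res μ F₂ hF₂).1.2 h2)]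
    ring
  · intro M _ _ h
    simp only [val, dif_neg h]

/-- `K₀(R) = ℤ`: compare with `rkFn` through `chiF_terms` and `chiF_res`. -/
theorem AddFn.val_eq_rank [IsDomain R] [IsNoetherianRing R] (hR : FFR R) (b : AddFn R)
    (hb : ∀ (N : Type) [AddCommGroup N] [Module R N], Module.Finite R N → b.good N)
    (N : Type) [AddCommGroup N] [Module R N] [Module.Finite R N] :
    b.val N = (Module.finrank R N : ℝ) * b.val R := by
  obtain ⟨F, hF⟩ := hR N inferInstance
  have e1 := (AddFn.chiF_res b F hF).2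
  have e2 := (AddFn.chiF_terms b F R (hb R inferInstance)).2
  have e3 := (AddFn.chiF_res (rkFn R) F hF).2
  have e4 := (AddFn.chiF_terms (rkFn R) F R (inferInstance : Module.Finite R R)).2
  have e5 : (rkFn R).val N = (Module.finrank R N : ℝ) :=
    if_pos (inferInstance : Module.Finite R N)
  have e6 : (rkFn R).val R = 1 := by
    have : (rkFn R).val R = (Module.finrank R R : ℝ) :=
      if_pos (inferInstance : Module.Finite R R)
    rw [this, Module.finrank_self, Nat.cast_one]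
  rw [← e1, e2, ← e5, ← e3, e4, e6, mul_one]

end Crest.Agent.R188
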