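import Crest.Agent.R188.PowE
import Crest.Agent.R188.PowK
import Crest.Agent.R188.Res

/-!
# R188 / Adams

The value of the Adams functional on a resolution of `T / 𝔮`.
-/

set_option autoImplicit false
set_option linter.unusedSectionVars false
set_option linter.unusedVariables false

noncomputable section

namespace Crest.Agent.R188

open Filter
open Crest.Agent.R183 (Zc Bd mact gr Htpy)
open scoped TensorProduct

variable {T : Type} [CommRing T] {ℓ : ℕ} [NeZero ℓ]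

theorem adams_rel [IsNoetherianRing T] (ν μ : AddFn T) (c : ℝ) {𝔞 : Ideal T}
    (h : ∀ 𝔭 : Ideal T, 𝔭.IsPrime → 𝔞 ≤ 𝔭 →
      ν.good (T ⧸ 𝔭) ∧ μ.good (T ⧸ 𝔭) ∧ ν.val (T ⧸ 𝔭) = c * μ.val (T ⧸ 𝔭))
    {V : Type} [AddCommGroup V] [Module T V] {Z B : Submodule T V} (hZ : Z.FG)
    (hk : ∀ y ∈ 𝔞, ∀ x ∈ Z, y • x ∈ B) : ν.rel Z B = c * μ.rel Z B := by
  have : Module.Finite T ↥(Z.map B.mkQ) := Module.Finite.iff_fg.2 (hZ.map _)
  refine (ν.val_eq_of_primes μ c ↥(Z.map B.mkQ) fun 𝔭 hp hle => h 𝔭 hp fun y hy => hle ?_).2.2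
  rw [Module.mem_annihilator]
  rintro ⟨_, x, hx, rfl⟩
  refine Subtype.ext ?_
  change y • B.mkQ x = 0
  rw [← map_smul, Submodule.mkQ_apply, Submodule.Quotient.mk_eq_zero]
  exact hk y hy x hx

theorem adams_mul [IsNoetherianRing T] (hℓ : Odd ℓ) (hu : IsUnit (ℓ : T)) (ν μ : AddFn T) (c : ℝ)
    {𝔞 : Ideal T} (h : ∀ 𝔭 : Ideal T, 𝔭.IsPrime → 𝔞 ≤ 𝔭 →
      ν.good (T ⧸ 𝔭) ∧ μ.good (T ⧸ 𝔭) ∧ ν.val (T ⧸ 𝔭) = c * μ.val (T ⧸ 𝔭))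
    (F : FC T) (hF : F.Res (T ⧸ 𝔞)) : ν.adams ℓ F T = c * μ.adams ℓ F T := by
  have hk : ∀ y ∈ 𝔞, ∀ i, ∀ x ∈ Zc ((F.pow ℓ hℓ).act T) ((F.pow ℓ hℓ).G T) ⊥ i,
      y • x ∈ Bd ((F.pow ℓ hℓ).act T) ((F.pow ℓ hℓ).G T) ⊥ i := fun y hy i =>
    (F.pow ℓ hℓ).htpy_smul_mem T
      (F.htpy_pow hℓ (hF.htpy (by rwa [Ideal.annihilator_quotient]))) i
  rw [ν.adams_eq T F hℓ, μ.adams_eq T F hℓ]
  refine ν.tau_eq_mul μ c (fun i => adams_rel ν μ c h ?_ fun y hy => hk y hy i)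
    fun i => adams_rel ν μ c h ?_ fun y hy x hx => ?_
  · exact IsNoetherian.noetherian _
  · exact IsNoetherian.noetherian _
  · rw [← fix_bd hu ((F.pow ℓ hℓ).isCx T) (F.pow_act T hℓ) i]
    exact ⟨Submodule.smul_mem _ _ hx, hk y hy i x ⟨hx.1.1, hx.2.1⟩⟩

theorem adams_not_le [IsNoetherianRing T] (𝔮 : Ideal T) [𝔮.IsPrime] {𝔭 : Ideal T} (h : ¬ 𝔭 ≤ 𝔮) :
    (lenAt 𝔮).good (T ⧸ 𝔭) ∧ (lenAt 𝔮).val (T ⧸ 𝔭) = 0 :=
  lenAt_not_le 𝔮 _ (by rwa [Ideal.annihilator_quotient])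

/-- `exists_addFn` for `μ = lenAt 𝔮`, `φ F = (lenAt 𝔮).adams ℓ F T` gives `a`; `a (T / 𝔭) = 0` for primes
`𝔭 ≰ 𝔮` (some `y ∉ 𝔮` kills all homology modules, also those of the invariants), so
`a N = a (T / 𝔮) · len_𝔮 N` (`val_eq_of_primes`); evaluate at `T / xs` with `adams_kos`. -/
theorem adams_lenAt (hT : Nice T) [IsNoetherianRing T] (hp : ℓ.Prime) (hℓ : Odd ℓ)
    (hu : IsUnit (ℓ : T)) (𝔮 : Ideal T) [𝔮.IsPrime] (c : ℕ) (hc : 𝔮.height = c) (F : FC T)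
    (hF : F.Res (T ⧸ 𝔮)) : (lenAt 𝔮).adams ℓ F T = (ℓ - 1 : ℝ) * ℓ ^ c := by
  obtain ⟨a, ha, hv⟩ := exists_addFn hT.ffr (lenAt 𝔮) (fun N _ _ h => h.1)
    (fun F => (lenAt 𝔮).adams ℓ F T)
    (fun F p _ h g1 g2 => by
      obtain ⟨𝔞, h1, h2⟩ := (lenAt 𝔮).htpy_of_gdF _ g1
      obtain ⟨𝔟, h3, h4⟩ := (lenAt 𝔮).htpy_of_gdF _ g2
      exact (lenAt 𝔮).adams_ext T hp hℓ hu F p h ((lenAt 𝔮).good_inf h1 h3)
        (fun y hy => h2 y hy.1) fun y hy => h4 y hy.2)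
    (fun F F' h _ => (lenAt 𝔮).adams_iso T hℓ hu h)
    (fun F h => (lenAt 𝔮).adams_exa T hℓ hu F h)
  obtain ⟨xs, hx, hm, hl⟩ := hT.regseq 𝔮 inferInstance
  have hl' : xs.length = c := by
    rw [hc] at hl
    exact_mod_cast hl
  obtain ⟨g, pos⟩ := lenAt_min 𝔮 hm
  have e1 := (a.val_eq_of_primes (lenAt 𝔮) (a.val (T ⧸ 𝔮)) (T ⧸ Ideal.ofList xs) fun 𝔭 hq hle => by
    rw [Ideal.annihilator_quotient] at hle
    by_cases h : 𝔭 ≤ 𝔮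
    · obtain rfl : 𝔭 = 𝔮 := le_antisymm h (hm.2 ⟨hq, hle⟩ h)
      obtain ⟨h1, h2⟩ := lenAt_self 𝔭
      exact ⟨(ha _).2 h1, h1, by rw [h2, mul_one]⟩
    · obtain ⟨h1, h2⟩ := adams_not_le 𝔮 h
      refine ⟨(ha _).2 h1, h1, ?_⟩
      obtain ⟨F', hF'⟩ := hT.ffr (T ⧸ 𝔭) inferInstance
      rw [h2, mul_zero, hv F' _ h1 hF']
      refine (adams_mul hℓ hu (lenAt 𝔮) (lenAt 𝔮) 0 (fun 𝔭' _ h' => ?_) F' hF').trans (zero_mul _)
      obtain ⟨h3, h4⟩ := adams_not_le 𝔮 (𝔭 := 𝔭') fun h'' => h (h'.trans h'')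
      exact ⟨h3, h3, by rw [h4, mul_zero]⟩).2.2
  have e2 := (lenAt 𝔮).adams_kos hp hℓ hu xs T hx
    ((lenAt 𝔮).good_of_surj (Submodule.factor le_sup_left) (Submodule.factor_surjective _) g)
  rw [(lenAt 𝔮).val_equiv (Submodule.quotEquivOfEq _ (Ideal.ofList xs) (by simp)), hl'] at e2
  rw [hv _ _ g (FC.kos_res xs hx), hv F _ (lenAt_self 𝔮).1 hF] at e1
  exact mul_right_cancel₀ pos.ne' (e1.symm.trans e2)

/-- `N ↦ ν.adams ℓ F N` is additive on all finite modules (`adams_coef`), so it is `rank · value at T`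
(`val_eq_rank`); on modules killed by a power of `𝔮` one has `ν = ν (T / 𝔮) · len_𝔮`
(`val_eq_of_primes`, `tau_eq_mul`). -/
theorem adams_eval (hT : Nice T) (hp : ℓ.Prime) (hℓ : Odd ℓ) (hu : IsUnit (ℓ : T)) (ν : AddFn T)
    (𝔮 : Ideal T) [𝔮.IsPrime] (c : ℕ) (hc : 𝔮.height = c) (hg : ν.good (T ⧸ 𝔮))
    (h0 : ∀ 𝔭 : Ideal T, 𝔭.IsPrime → 𝔮 < 𝔭 → ν.val (T ⧸ 𝔭) = 0) (F : FC T) (hF : F.Res (T ⧸ 𝔮))
    (N : Type) [AddCommGroup N] [Module T N] [Module.Finite T N] :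
    ν.adams ℓ F N = (Module.finrank T N : ℝ) * ((ℓ - 1 : ℝ) * ℓ ^ c * ν.val (T ⧸ 𝔮)) := by
  classical
  have := hT.dom
  have := hT.noeth
  have hgd : ∀ (N : Type) [AddCommGroup N] [Module T N], Module.Finite T N →
      ν.gdF (F.pow ℓ hℓ) N := fun N _ _ _ =>
    ν.gdF_of_htpy _ N hg fun y hy => ⟨1, by
      rw [pow_one]
      exact F.htpy_pow hℓ (hF.htpy (by rwa [Ideal.annihilator_quotient]))⟩
  let b : AddFn T :=
    { good := fun M _ _ => Module.Finite T M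
      val := fun M _ _ => if Module.Finite T M then ν.adams ℓ F M else 0
      good_zero := (rkFn T).good_zero
      good_iff := (rkFn T).good_iff
      add := fun M₁ M₂ M₃ _ _ _ _ _ _ f g hf hg' he h => by
        obtain ⟨h1, h3⟩ : Module.Finite T M₁ ∧ Module.Finite T M₃ :=
          ((rkFn T).good_iff M₁ M₂ M₃ f g hf hg' he).1 h
        rw [if_pos h, if_pos h1, if_pos h3]
        exact ν.adams_coef hℓ hu F f g hf hg' he (hgd _ h1) (hgd _ h3)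
      junk := fun M _ _ h => if_neg h }
  have e1 : (if Module.Finite T N then ν.adams ℓ F N else 0) =
      (Module.finrank T N : ℝ) * (if Module.Finite T T then ν.adams ℓ F T else 0) :=
    b.val_eq_rank hT.ffr (fun N _ _ h => h) N
  rw [if_pos (inferInstance : Module.Finite T N), if_pos (inferInstance : Module.Finite T T)] at e1
  rw [e1, adams_mul hℓ hu ν (lenAt 𝔮) (ν.val (T ⧸ 𝔮)) (fun 𝔭 hq hle => ?_) F hF,
    adams_lenAt hT hp hℓ hu 𝔮 c hc F hF, mul_comm (ν.val _)]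
  refine ⟨ν.good_of_surj (Submodule.factor hle) (Submodule.factor_surjective _) hg, ?_⟩
  rcases hle.eq_or_lt with rfl | hlt
  · obtain ⟨h1, h2⟩ := lenAt_self 𝔮
    exact ⟨h1, by rw [h2, mul_one]⟩
  · obtain ⟨h1, h2⟩ := adams_not_le 𝔮 hlt.not_ge
    exact ⟨h1, by rw [h2, mul_zero, h0 𝔭 hq hlt]⟩

end Crest.Agent.R188
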