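import Crest.Agent.R188.Defs

/-!
# R188 / Add

Basic properties of additive functions.
-/

set_option autoImplicit false
set_option linter.unusedSectionVars false
set_option linter.unusedVariables false

noncomputable section

namespace Crest.Agent.R188

open Filter
open Crest.Agent.R183 (Zc Bd mact gr Htpy)
open scoped TensorProduct

variable {R V : Type} [CommRing R] [AddCommGroup V] [Module R V] (ν : AddFn R)

namespace AddFn

theorem val_zero (M : Type) [AddCommGroup M] [Module R M] [Subsingleton M] : ν.val M = 0 := by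
  have h := ν.add M M M LinearMap.id LinearMap.id Function.injective_id Function.surjective_id
    (fun y => ⟨fun _ => ⟨y, rfl⟩, fun _ => Subsingleton.elim _ _⟩) (ν.good_zero M ‹_›)
  linarith

theorem good_equiv {M N : Type} [AddCommGroup M] [Module R M] [AddCommGroup N] [Module R N]
    (e : M ≃ₗ[R] N) : ν.good M ↔ ν.good N := by
  have h := ν.good_iff M N Unit e.toLinearMap 0 e.injective (Function.surjective_to_subsingleton _)
    (fun y => ⟨fun _ => e.surjective y, fun _ => rfl⟩)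
  exact ⟨fun h1 => h.2 ⟨h1, ν.good_zero _ inferInstance⟩, fun h1 => (h.1 h1).1⟩

theorem val_equiv {M N : Type} [AddCommGroup M] [Module R M] [AddCommGroup N] [Module R N]
    (e : M ≃ₗ[R] N) : ν.val M = ν.val N := by
  by_cases h : ν.good N
  · have h1 := ν.add M N Unit e.toLinearMap 0 e.injective (Function.surjective_to_subsingleton _)
      (fun y => ⟨fun _ => e.surjective y, fun _ => rfl⟩) h
    rw [h1, ν.val_zero Unit, add_zero]
  · rw [ν.junk N h, ν.junk M (fun h1 => h ((ν.good_equiv e).1 h1))]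

theorem good_of_inj {M N : Type} [AddCommGroup M] [Module R M] [AddCommGroup N] [Module R N]
    (f : M →ₗ[R] N) (hf : Function.Injective f) (h : ν.good N) : ν.good M := by
  exact ((ν.good_iff M N (N ⧸ LinearMap.range f) f (LinearMap.range f).mkQ hf
    (Submodule.mkQ_surjective _) (LinearMap.exact_map_mkQ_range f)).1 h).1

theorem good_of_surj {M N : Type} [AddCommGroup M] [Module R M] [AddCommGroup N] [Module R N]
    (f : M →ₗ[R] N) (hf : Function.Surjective f) (h : ν.good M) : ν.good N := by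
  exact ((ν.good_iff (LinearMap.ker f) M N (LinearMap.ker f).subtype f
    (Submodule.subtype_injective _) hf (LinearMap.exact_subtype_ker_map f)).1 h).2

theorem add_good_prod (M N : Type) [AddCommGroup M] [Module R M] [AddCommGroup N] [Module R N] :
    ν.good (M × N) ↔ ν.good M ∧ ν.good N :=
  ν.good_iff M (M × N) N (LinearMap.inl R M N) (LinearMap.snd R M N) LinearMap.inl_injective
    LinearMap.snd_surjective .inl_snd

theorem add_val_prod (M N : Type) [AddCommGroup M] [Module R M] [AddCommGroup N] [Module R N]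
    (hM : ν.good M) (hN : ν.good N) : ν.val (M × N) = ν.val M + ν.val N :=
  ν.add M (M × N) N (LinearMap.inl R M N) (LinearMap.snd R M N) LinearMap.inl_injective
    LinearMap.snd_surjective .inl_snd ((ν.add_good_prod M N).2 ⟨hM, hN⟩)

/-- two quotients with the same kernel. -/
theorem add_equiv {X A B : Type} [AddCommGroup X] [Module R X] [AddCommGroup A] [Module R A]
    [AddCommGroup B] [Module R B] (f : X →ₗ[R] A) (g : X →ₗ[R] B) (hf : Function.Surjective f)
    (hg : Function.Surjective g) (h : ∀ x, f x = 0 ↔ g x = 0) : Nonempty (A ≃ₗ[R] B) :=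
  ⟨(f.quotKerEquivOfSurjective hf).symm.trans
    ((Submodule.quotEquivOfEq _ _ (Submodule.ext h)).trans (g.quotKerEquivOfSurjective hg))⟩

theorem add_sm_zero (W U : Submodule R V) (x : W) : U.mkQ.submoduleMap W x = 0 ↔ (x : V) ∈ U := by
  rw [Subtype.ext_iff, LinearMap.submoduleMap_coe_apply, Submodule.coe_zero, Submodule.mkQ_apply,
    Submodule.Quotient.mk_eq_zero]

theorem good_pi {κ : Type} [Fintype κ] (M : κ → Type) [∀ c, AddCommGroup (M c)]
    [∀ c, Module R (M c)] : ν.good (∀ c, M c) ↔ ∀ c, ν.good (M c) := by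
  revert M
  refine Fintype.induction_empty_option (P := fun κ _ => ∀ (M : κ → Type) [∀ c, AddCommGroup (M c)]
    [∀ c, Module R (M c)], ν.good (∀ c, M c) ↔ ∀ c, ν.good (M c)) ?_ ?_ ?_ κ
  · intro α β _ e IH M _ _
    rw [← ν.good_equiv (LinearEquiv.piCongrLeft R M e), IH]
    exact ⟨fun h b => by obtain ⟨a, rfl⟩ := e.surjective b; exact h a, fun h a => h _⟩
  · intro M _ _
    exact ⟨fun _ c => c.elim, fun _ => ν.good_zero _ inferInstance⟩
  · intro ι _ IH M _ _
    rw [ν.good_equiv (LinearEquiv.piOptionEquivProd R), ν.add_good_prod, IH, Option.forall]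

theorem val_pi {κ : Type} [Fintype κ] (M : κ → Type) [∀ c, AddCommGroup (M c)]
    [∀ c, Module R (M c)] (h : ∀ c, ν.good (M c)) : ν.val (∀ c, M c) = ∑ c, ν.val (M c) := by
  revert M
  refine Fintype.induction_empty_option (P := fun κ _ => ∀ (M : κ → Type) [∀ c, AddCommGroup (M c)]
    [∀ c, Module R (M c)], (∀ c, ν.good (M c)) → ν.val (∀ c, M c) = ∑ c, ν.val (M c)) ?_ ?_ ?_ κ
  · intro α β _ e IH M _ _ h
    let _ : Fintype α := .ofEquiv β e.symm
    rw [← ν.val_equiv (LinearEquiv.piCongrLeft R M e), IH _ (fun a => h _),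
      e.sum_comp (fun c => ν.val (M c))]
  · intro M _ _ _
    simp [ν.val_zero]
  · intro ι _ IH M _ _ h
    rw [ν.val_equiv (LinearEquiv.piOptionEquivProd R),
      ν.add_val_prod _ _ (h _) ((ν.good_pi _).2 fun c => h _), IH _ (fun c => h _),
      Fintype.sum_option]

theorem add_subs {W U : Submodule R V} (h : W ≤ U) : Subsingleton ↥(W.map U.mkQ) := by
  refine subsingleton_of_forall_eq 0 fun y => ?_
  obtain ⟨x, rfl⟩ := U.mkQ.submoduleMap_surjective W y
  exact (add_sm_zero W U x).2 (h x.2)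

theorem grel_of_le {W U : Submodule R V} (h : W ≤ U) : ν.grel W U := by
  exact ν.good_zero _ (add_subs h)

theorem rel_of_le {W U : Submodule R V} (h : W ≤ U) : ν.rel W U = 0 := by
  have := add_subs h
  exact ν.val_zero _

theorem add_bot (W : Submodule R V) : Nonempty (↥(W.map (⊥ : Submodule R V).mkQ) ≃ₗ[R] W) :=
  add_equiv _ LinearMap.id (LinearMap.submoduleMap_surjective _ W) Function.surjective_id
    fun x => by rw [add_sm_zero]; simp

theorem add_top (U : Submodule R V) : Nonempty (↥((⊤ : Submodule R V).map U.mkQ) ≃ₗ[R] V ⧸ U) :=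
  ⟨LinearEquiv.ofTop _ (by rw [Submodule.map_top, Submodule.range_mkQ])⟩

theorem grel_bot (W : Submodule R V) : ν.grel W ⊥ ↔ ν.good W := by
  obtain ⟨e⟩ := add_bot W
  exact ν.good_equiv e

theorem rel_bot (W : Submodule R V) : ν.rel W ⊥ = ν.val W := by
  obtain ⟨e⟩ := add_bot W
  exact ν.val_equiv e

theorem grel_top (U : Submodule R V) : ν.grel ⊤ U ↔ ν.good (V ⧸ U) := by
  obtain ⟨e⟩ := add_top U
  exact ν.good_equiv e

theorem rel_top (U : Submodule R V) : ν.rel ⊤ U = ν.val (V ⧸ U) := by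
  obtain ⟨e⟩ := add_top U
  exact ν.val_equiv e

/-- the general isomorphism lemma: `φ` induces `(W + U) / U ≅ (W' + U') / U'`. -/
theorem rel_map {V' : Type} [AddCommGroup V'] [Module R V'] (φ : V →ₗ[R] V') {W U : Submodule R V}
    {W' U' : Submodule R V'} (h1 : W.map φ ⊔ U' = W' ⊔ U') (h2 : W ⊓ U'.comap φ = W ⊓ U) :
    (ν.grel W U ↔ ν.grel W' U') ∧ ν.rel W U = ν.rel W' U' := by
  have hm : (W.map φ).map U'.mkQ = W'.map U'.mkQ := by
    have := congrArg (Submodule.map U'.mkQ) h1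
    simpa only [Submodule.map_sup, Submodule.mkQ_map_self, sup_bot_eq] using this
  obtain ⟨e⟩ := add_equiv (U.mkQ.submoduleMap W)
    ((U'.mkQ.submoduleMap (W.map φ)).comp (φ.submoduleMap W))
    (LinearMap.submoduleMap_surjective _ W)
    ((LinearMap.submoduleMap_surjective _ _).comp (LinearMap.submoduleMap_surjective _ W))
    (fun x => by
      rw [add_sm_zero, LinearMap.comp_apply, add_sm_zero, LinearMap.submoduleMap_coe_apply]
      constructor
      · intro hx
        have : (x : V) ∈ W ⊓ U'.comap φ := h2 ▸ ⟨x.2, hx⟩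
        exact this.2
      · intro hx
        have : (x : V) ∈ W ⊓ U := h2 ▸ ⟨x.2, hx⟩
        exact this.2)
  have e' := e.trans (LinearEquiv.ofEq _ _ hm)
  exact ⟨ν.good_equiv e', ν.val_equiv e'⟩

theorem rel_sup (W U : Submodule R V) :
    (ν.grel (W ⊔ U) U ↔ ν.grel W U) ∧ ν.rel (W ⊔ U) U = ν.rel W U := by
  exact ν.rel_map LinearMap.id (by simp) (by simp)

theorem rel_inf (W U : Submodule R V) :
    (ν.grel W (W ⊓ U) ↔ ν.grel W U) ∧ ν.rel W (W ⊓ U) = ν.rel W U := by
  exact ν.rel_map LinearMap.id (by simp) (by simp)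

theorem add_fac {W U U' : Submodule R V} (h : U ≤ U') :
    ∃ g : ↥(W.map U.mkQ) →ₗ[R] ↥(W.map U'.mkQ), Function.Surjective g ∧
      ∀ x : W, g (U.mkQ.submoduleMap W x) = U'.mkQ.submoduleMap W x := by
  have hm : ∀ y ∈ W.map U.mkQ, Submodule.factor h y ∈ W.map U'.mkQ := by
    rintro _ ⟨x, hx, rfl⟩
    exact ⟨x, hx, rfl⟩
  refine ⟨(Submodule.factor h).restrict hm, fun y => ?_, fun x => rfl⟩
  obtain ⟨x, rfl⟩ := U'.mkQ.submoduleMap_surjective W y
  exact ⟨U.mkQ.submoduleMap W x, rfl⟩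

theorem add_exact {W W' U : Submodule R V} (h1 : U ≤ W') (h2 : W' ≤ W) :
    ∃ (f : ↥(W'.map U.mkQ) →ₗ[R] ↥(W.map U.mkQ)) (g : ↥(W.map U.mkQ) →ₗ[R] ↥(W.map W'.mkQ)),
      Function.Injective f ∧ Function.Surjective g ∧ Function.Exact f g := by
  obtain ⟨g, hg, hg'⟩ := add_fac (W := W) h1
  refine ⟨Submodule.inclusion (Submodule.map_mono h2), g, Submodule.inclusion_injective _, hg,
    fun y => ?_⟩
  obtain ⟨x, rfl⟩ := U.mkQ.submoduleMap_surjective W y
  rw [hg', add_sm_zero]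
  constructor
  · intro hx
    exact ⟨U.mkQ.submoduleMap W' ⟨x, hx⟩, rfl⟩
  · rintro ⟨z, hz⟩
    obtain ⟨w, rfl⟩ := U.mkQ.submoduleMap_surjective W' z
    have h3 : U.mkQ w = U.mkQ x := congrArg Subtype.val hz
    have h4 : (w : V) - x ∈ U := (Submodule.Quotient.eq U).1 h3
    have h5 := W'.sub_mem w.2 (h1 h4)
    simpa using h5

theorem grel_trans {W W' U : Submodule R V} (h1 : U ≤ W') (h2 : W' ≤ W) :
    ν.grel W U ↔ ν.grel W W' ∧ ν.grel W' U := by
  obtain ⟨f, g, hf, hg, he⟩ := add_exact h1 h2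
  exact (ν.good_iff _ _ _ f g hf hg he).trans and_comm

theorem rel_trans {W W' U : Submodule R V} (h1 : U ≤ W') (h2 : W' ≤ W) (h : ν.grel W U) :
    ν.rel W U = ν.rel W W' + ν.rel W' U := by
  obtain ⟨f, g, hf, hg, he⟩ := add_exact h1 h2
  exact (ν.add _ _ _ f g hf hg he h).trans (add_comm _ _)

theorem grel_mono {W W' U U' : Submodule R V} (h1 : W' ≤ W ⊔ U') (h2 : U ≤ U') (h : ν.grel W U) :
    ν.grel W' U' := by
  obtain ⟨g, hg, -⟩ := add_fac (W := W) h2
  have h3 : ν.grel W U' := ν.good_of_surj g hg h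
  have h4 : ν.grel (W ⊔ U') U' := (ν.rel_sup W U').1.2 h3
  exact ν.good_of_inj (Submodule.inclusion (Submodule.map_mono h1))
    (Submodule.inclusion_injective _) h4

theorem rel_pi {κ : Type} [Fintype κ] (W U : κ → Submodule R V) :
    (ν.grel (Submodule.pi Set.univ W) (Submodule.pi Set.univ U) ↔ ∀ c, ν.grel (W c) (U c)) ∧
    ((∀ c, ν.grel (W c) (U c)) →
      ν.rel (Submodule.pi Set.univ W) (Submodule.pi Set.univ U) = ∑ c, ν.rel (W c) (U c)) := by
  obtain ⟨e⟩ := add_equiv ((Submodule.pi Set.univ U).mkQ.submoduleMap (Submodule.pi Set.univ W))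
    (LinearMap.pi fun c => ((U c).mkQ.submoduleMap (W c)).comp
      ((LinearMap.proj c : (κ → V) →ₗ[R] V).restrict (p := Submodule.pi Set.univ W) (q := W c)
        fun x hx => hx c trivial))
    (LinearMap.submoduleMap_surjective _ _)
    (fun y => by
      choose x hx using fun c => (U c).mkQ.submoduleMap_surjective (W c) (y c)
      exact ⟨⟨fun c => x c, fun c _ => (x c).2⟩, funext hx⟩)
    (fun x => by
      rw [add_sm_zero, funext_iff]
      simp only [LinearMap.pi_apply, LinearMap.comp_apply, Pi.zero_apply, add_sm_zero]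
      exact ⟨fun h c => h c trivial, fun h c _ => h c⟩)
  exact ⟨(ν.good_equiv e).trans (ν.good_pi _), fun h => (ν.val_equiv e).trans (ν.val_pi _ h)⟩

theorem rel_prod {V' : Type} [AddCommGroup V'] [Module R V'] (W U : Submodule R V)
    (W' U' : Submodule R V') :
    (ν.grel (W.prod W') (U.prod U') ↔ ν.grel W U ∧ ν.grel W' U') ∧
    (ν.grel W U → ν.grel W' U' → ν.rel (W.prod W') (U.prod U') = ν.rel W U + ν.rel W' U') := by
  obtain ⟨e⟩ := add_equiv ((U.prod U').mkQ.submoduleMap (W.prod W'))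
    (LinearMap.prod ((U.mkQ.submoduleMap W).comp
      ((LinearMap.fst R V V').restrict (p := W.prod W') (q := W) fun x hx => hx.1))
      ((U'.mkQ.submoduleMap W').comp
      ((LinearMap.snd R V V').restrict (p := W.prod W') (q := W') fun x hx => hx.2)))
    (LinearMap.submoduleMap_surjective _ _)
    (fun y => by
      obtain ⟨a, ha⟩ := U.mkQ.submoduleMap_surjective W y.1
      obtain ⟨b, hb⟩ := U'.mkQ.submoduleMap_surjective W' y.2
      exact ⟨⟨(a, b), a.2, b.2⟩, Prod.ext ha hb⟩)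
    (fun x => by
      rw [add_sm_zero, Prod.ext_iff]
      simp only [LinearMap.prod_apply, Function.prod_apply, LinearMap.comp_apply, Prod.fst_zero,
        Prod.snd_zero, add_sm_zero]
      exact Iff.rfl)
  exact ⟨(ν.good_equiv e).trans (ν.add_good_prod _ _),
    fun h h' => (ν.val_equiv e).trans (ν.add_val_prod _ _ h h')⟩

theorem add_primes [IsNoetherianRing R] (μ : AddFn R) (c : ℝ) (N : Type) [AddCommGroup N]
    [Module R N] [Module.Finite R N]
    (h : ∀ 𝔭 : Ideal R, 𝔭.IsPrime → Module.annihilator R N ≤ 𝔭 →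
      ν.good (R ⧸ 𝔭) ∧ μ.good (R ⧸ 𝔭) ∧ ν.val (R ⧸ 𝔭) = c * μ.val (R ⧸ 𝔭)) :
    ν.good N ∧ μ.good N ∧ ν.val N = c * μ.val N := by
  induction ‹Module.Finite R N› using
    IsNoetherianRing.induction_on_isQuotientEquivQuotientPrime R with
  | subsingleton N =>
    exact ⟨ν.good_zero _ ‹_›, μ.good_zero _ ‹_›, by rw [ν.val_zero, μ.val_zero, mul_zero]⟩
  | quotient N p f =>
    rw [ν.good_equiv f, μ.good_equiv f, ν.val_equiv f, μ.val_equiv f]
    exact h p.1 p.2 (by rw [f.annihilator_eq, Ideal.annihilator_quotient])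
  | exact N₁ N₂ N₃ f g hf hg hfg h₁ h₃ =>
    obtain ⟨a1, a2, a3⟩ := h₁ fun 𝔭 hp h' => h 𝔭 hp ((f.annihilator_le_of_injective hf).trans h')
    obtain ⟨b1, b2, b3⟩ := h₃ fun 𝔭 hp h' => h 𝔭 hp ((g.annihilator_le_of_surjective hg).trans h')
    have c1 := (ν.good_iff _ _ _ f g hf hg hfg).2 ⟨a1, b1⟩
    have c2 := (μ.good_iff _ _ _ f g hf hg hfg).2 ⟨a2, b2⟩
    refine ⟨c1, c2, ?_⟩
    rw [ν.add _ _ _ f g hf hg hfg c1, μ.add _ _ _ f g hf hg hfg c2, a3, b3, mul_add]

theorem add_good_of_primes [IsNoetherianRing R] (N : Type) [AddCommGroup N]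
    [Module R N] [Module.Finite R N]
    (h : ∀ 𝔭 : Ideal R, 𝔭.IsPrime → Module.annihilator R N ≤ 𝔭 → ν.good (R ⧸ 𝔭)) : ν.good N :=
  (ν.add_primes ν 1 N fun 𝔭 hp h' => ⟨h 𝔭 hp h', h 𝔭 hp h', (one_mul _).symm⟩).1

/-- filter `N` by `𝔞 ^ i N`; the graded pieces are quotients of `(R / 𝔞) ^ m`. -/
theorem good_of_ann [IsNoetherianRing R] {𝔞 : Ideal R} (h : ν.good (R ⧸ 𝔞)) (N : Type)
    [AddCommGroup N] [Module R N] [Module.Finite R N]
    (hN : ∀ y ∈ 𝔞, ∃ k : ℕ, y ^ k ∈ Module.annihilator R N) : ν.good N := by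
  refine ν.add_good_of_primes N fun 𝔭 hp h1 => ?_
  have h2 : 𝔞 ≤ 𝔭 := fun y hy => by
    obtain ⟨k, hk⟩ := hN y hy
    exact hp.mem_of_pow_mem k (h1 hk)
  exact ν.good_of_surj (Submodule.factor h2) (Submodule.factor_surjective h2) h

/-- `R / ann N` embeds in `N ^ m`. -/
theorem good_ann (N : Type) [AddCommGroup N] [Module R N] [Module.Finite R N] (h : ν.good N) :
    ν.good (R ⧸ Module.annihilator R N) := by
  obtain ⟨n, s, hs⟩ := Module.Finite.exists_fin (R := R) (M := N)
  let f : R →ₗ[R] (Fin n → N) := LinearMap.toSpanSingleton R _ s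
  have hk : LinearMap.ker f = Module.annihilator R N := by
    ext r
    rw [LinearMap.mem_ker, Module.mem_annihilator]
    constructor
    · intro hr m
      have hm : m ∈ Submodule.span R (Set.range s) := hs ▸ Submodule.mem_top
      induction hm using Submodule.span_induction with
      | mem x hx =>
        obtain ⟨i, rfl⟩ := hx
        exact congrFun hr i
      | zero => exact smul_zero r
      | add x y _ _ hx hy => rw [smul_add, hx, hy, add_zero]
      | smul a x _ hx => rw [smul_comm, hx, smul_zero]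
    · intro hr
      exact funext fun i => hr (s i)
  have h1 : ν.good (Fin n → N) := (ν.good_pi fun _ => N).2 fun _ => h
  have h2 : ν.good (LinearMap.range f) :=
    ν.good_of_inj _ (Submodule.subtype_injective _) h1
  exact (ν.good_equiv ((Submodule.quotEquivOfEq _ _ hk.symm).trans f.quotKerEquivRange)).2 h2

theorem good_inf {𝔞 𝔟 : Ideal R} (h : ν.good (R ⧸ 𝔞)) (h' : ν.good (R ⧸ 𝔟)) :
    ν.good (R ⧸ (𝔞 ⊓ 𝔟)) := by
  refine ν.good_of_inj (LinearMap.prod (Submodule.factor (inf_le_left : 𝔞 ⊓ 𝔟 ≤ 𝔞))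
    (Submodule.factor (inf_le_right : 𝔞 ⊓ 𝔟 ≤ 𝔟))) ?_ ((ν.add_good_prod _ _).2 ⟨h, h'⟩)
  rw [injective_iff_map_eq_zero]
  intro x hx
  obtain ⟨x, rfl⟩ := Submodule.mkQ_surjective _ x
  rw [Prod.ext_iff] at hx
  exact (Submodule.Quotient.mk_eq_zero _).2
    ⟨(Submodule.Quotient.mk_eq_zero _).1 hx.1, (Submodule.Quotient.mk_eq_zero _).1 hx.2⟩

theorem grel_of_killed [IsNoetherianRing R] {𝔞 : Ideal R} (h : ν.good (R ⧸ 𝔞))
    {W U : Submodule R V} (hW : W.FG) (hk : ∀ y ∈ 𝔞, ∃ k : ℕ, ∀ x ∈ W, y ^ k • x ∈ U) :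
    ν.grel W U := by
  have : Module.Finite R ↥(W.map U.mkQ) := Module.Finite.iff_fg.2 (hW.map _)
  refine ν.good_of_ann h _ fun y hy => ?_
  obtain ⟨k, hk⟩ := hk y hy
  refine ⟨k, Module.mem_annihilator.2 fun m => ?_⟩
  obtain ⟨x, rfl⟩ := U.mkQ.submoduleMap_surjective W m
  rw [← map_smul, add_sm_zero]
  exact hk x x.2

/-- prime filtrations (`IsNoetherianRing.induction_on_isQuotientEquivQuotientPrime`; carry the hypothesis
on the primes containing the annihilator through the induction). -/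
theorem val_eq_of_primes [IsNoetherianRing R] (μ : AddFn R) (c : ℝ) (N : Type) [AddCommGroup N]
    [Module R N] [Module.Finite R N]
    (h : ∀ 𝔭 : Ideal R, 𝔭.IsPrime → Module.annihilator R N ≤ 𝔭 →
      ν.good (R ⧸ 𝔭) ∧ μ.good (R ⧸ 𝔭) ∧ ν.val (R ⧸ 𝔭) = c * μ.val (R ⧸ 𝔭)) :
    ν.good N ∧ μ.good N ∧ ν.val N = c * μ.val N := by
  exact ν.add_primes μ c N h

end AddFn

theorem add_fin_iff {R : Type} [CommRing R] [IsNoetherianRing R] {M₁ M₂ M₃ : Type}
    [AddCommGroup M₁] [Module R M₁] [AddCommGroup M₂] [Module R M₂] [AddCommGroup M₃] [Module R M₃]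
    (f : M₁ →ₗ[R] M₂) (g : M₂ →ₗ[R] M₃) (hf : Function.Injective f) (hg : Function.Surjective g)
    (h : Function.Exact f g) : Module.Finite R M₂ ↔ Module.Finite R M₁ ∧ Module.Finite R M₃ :=
  ⟨fun _ => ⟨Module.Finite.of_injective f hf, Module.Finite.of_surjective g hg⟩,
    fun ⟨_, _⟩ => Module.Finite.of_exact h hg⟩

theorem add_loc_len {R : Type} [CommRing R] (S : Submonoid R) {M₁ M₂ M₃ : Type}
    [AddCommGroup M₁] [Module R M₁] [AddCommGroup M₂] [Module R M₂] [AddCommGroup M₃] [Module R M₃]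
    (f : M₁ →ₗ[R] M₂) (g : M₂ →ₗ[R] M₃) (hf : Function.Injective f) (hg : Function.Surjective g)
    (h : Function.Exact f g) : Module.length (Localization S) (LocalizedModule S M₂) =
      Module.length (Localization S) (LocalizedModule S M₁) +
        Module.length (Localization S) (LocalizedModule S M₃) :=
  Module.length_eq_add_of_exact (LocalizedModule.map S f) (LocalizedModule.map S g)
    (LocalizedModule.map_injective S f hf) (LocalizedModule.map_surjective S g hg)
    (LocalizedModule.map_exact S f g h)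

theorem add_loc_quot {R : Type} [CommRing R] (S : Submonoid R) (I : Ideal R) :
    Module.length (Localization S) (LocalizedModule S (R ⧸ I)) =
      Module.length (Localization S) (Localization S ⧸ I.map (algebraMap R (Localization S))) := by
  rw [← Ideal.localized'_eq_map (Localization S) S I]
  exact ((IsLocalizedModule.linearEquiv S (LocalizedModule.mkLinearMap S (R ⧸ I))
    (Submodule.toLocalizedQuotient' (Localization S) S (Algebra.linearMap R (Localization S))
      I)).extendScalarsOfIsLocalization S (Localization S)).length_eq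

open Classical in
/-- the rank of finite modules over a domain. -/
def rkFn (R : Type) [CommRing R] [IsDomain R] [IsNoetherianRing R] : AddFn R where
  good M _ _ := Module.Finite R M
  val M _ _ := if Module.Finite R M then (Module.finrank R M : ℝ) else 0
  good_zero M _ _ _ := inferInstance
  good_iff M₁ M₂ M₃ _ _ _ _ _ _ f g hf hg h := add_fin_iff f g hf hg h
  add M₁ M₂ M₃ _ _ _ _ _ _ f g hf hg h h2 := by
    obtain ⟨h1, h3⟩ := (add_fin_iff f g hf hg h).1 h2
    rw [if_pos h1, if_pos h2, if_pos h3, ← Submodule.finrank_quotient_add_finrank (LinearMap.ker g),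
      (g.quotKerEquivOfSurjective hg).finrank_eq, LinearMap.exact_iff.1 h,
      LinearMap.finrank_range_of_inj hf]
    push_cast
    ring
  junk M _ _ h := if_neg h

/-- the length. -/
def lenAdd (R : Type) [CommRing R] : AddFn R where
  good M _ _ := Module.length R M ≠ ⊤
  val M _ _ := ((Module.length R M).toNat : ℝ)
  good_zero M _ _ _ := by simp [Module.length_eq_zero]
  good_iff M₁ M₂ M₃ _ _ _ _ _ _ f g hf hg h := by
    rw [Module.length_eq_add_of_exact f g hf hg h]
    exact WithTop.add_ne_top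
  add M₁ M₂ M₃ _ _ _ _ _ _ f g hf hg h h2 := by
    rw [Module.length_eq_add_of_exact f g hf hg h] at h2 ⊢
    obtain ⟨h1, h3⟩ := WithTop.add_ne_top.1 h2
    rw [ENat.toNat_add h1 h3, Nat.cast_add]
  junk M _ _ h := by simp [not_not.1 h]

open Classical in
/-- the length at a prime. -/
def lenAt {R : Type} [CommRing R] [IsNoetherianRing R] (𝔮 : Ideal R) [𝔮.IsPrime] : AddFn R where
  good M _ _ := Module.Finite R M ∧
    Module.length (Localization.AtPrime 𝔮) (LocalizedModule 𝔮.primeCompl M) ≠ ⊤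
  val M _ _ := if Module.Finite R M then
    ((Module.length (Localization.AtPrime 𝔮) (LocalizedModule 𝔮.primeCompl M)).toNat : ℝ) else 0
  good_zero M _ _ _ := ⟨inferInstance, by simp [Module.length_eq_zero]⟩
  good_iff M₁ M₂ M₃ _ _ _ _ _ _ f g hf hg h := by
    rw [add_loc_len _ f g hf hg h, add_fin_iff f g hf hg h]
    exact (and_congr_right fun _ => WithTop.add_ne_top).trans and_and_and_comm
  add M₁ M₂ M₃ _ _ _ _ _ _ f g hf hg h h2 := by
    obtain ⟨h2, h2'⟩ := h2
    obtain ⟨h1, h3⟩ := (add_fin_iff f g hf hg h).1 h2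
    rw [if_pos h1, if_pos h2, if_pos h3]
    rw [add_loc_len _ f g hf hg h] at h2' ⊢
    obtain ⟨h1, h3⟩ := WithTop.add_ne_top.1 h2'
    rw [ENat.toNat_add h1 h3, Nat.cast_add]
  junk M _ _ h := by
    split_ifs with h1
    · simp [not_not.1 (fun h2 => h ⟨h1, h2⟩)]
    · rfl

/-- the class `Φ`, with the zero function. -/
def phiFn {R : Type} [CommRing R] [IsNoetherianRing R] (𝔶 : Ideal R) : AddFn R where
  good M _ _ := InPhi 𝔶 M
  val _ _ _ := 0
  good_zero M _ _ _ := ⟨inferInstance, fun 𝔭 hp _ h => absurd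
    (top_le_iff.1 ((Module.annihilator_eq_top_iff (R := R)).2 ‹Subsingleton M› ▸ h)) hp.ne_top⟩
  good_iff M₁ M₂ M₃ _ _ _ _ _ _ f g hf hg h := by
    constructor
    · rintro ⟨h1, h2⟩
      obtain ⟨a, b⟩ := (add_fin_iff f g hf hg h).1 h1
      exact ⟨⟨a, fun 𝔭 hp h3 h4 => h2 𝔭 hp h3 ((f.annihilator_le_of_injective hf).trans h4)⟩,
        ⟨b, fun 𝔭 hp h3 h4 => h2 𝔭 hp h3 ((g.annihilator_le_of_surjective hg).trans h4)⟩⟩
    · rintro ⟨⟨a, a'⟩, b, b'⟩
      refine ⟨(add_fin_iff f g hf hg h).2 ⟨a, b⟩, fun 𝔭 hp h3 h4 => ?_⟩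
      have h5 : Module.annihilator R M₁ * Module.annihilator R M₃ ≤ 𝔭 := by
        refine le_trans (Ideal.mul_le.2 fun r hr s hs => Module.mem_annihilator.2 fun m => ?_) h4
        obtain ⟨x, hx⟩ := (h (s • m)).1 (by rw [map_smul, Module.mem_annihilator.1 hs])
        rw [mul_smul, ← hx, ← map_smul, Module.mem_annihilator.1 hr, map_zero]
      exact (hp.mul_le.1 h5).elim (a' 𝔭 hp h3) (b' 𝔭 hp h3)
  add _ _ _ _ _ _ _ _ _ _ _ _ _ _ _ := (add_zero _).symm
  junk _ _ _ _ := rfl

theorem lenAt_self {R : Type} [CommRing R] [IsNoetherianRing R] (𝔮 : Ideal R) [𝔮.IsPrime] :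
    (lenAt 𝔮).good (R ⧸ 𝔮) ∧ (lenAt 𝔮).val (R ⧸ 𝔮) = 1 := by
  have h : Module.length (Localization.AtPrime 𝔮) (LocalizedModule 𝔮.primeCompl (R ⧸ 𝔮)) = 1 := by
    rw [add_loc_quot, Localization.AtPrime.map_eq_maximalIdeal, Module.length_eq_one_iff,
      isSimpleModule_iff_isCoatom, ← Ideal.isMaximal_def]
    infer_instance
  have hf : Module.Finite R (R ⧸ 𝔮) := inferInstance
  refine ⟨⟨hf, by rw [h]; exact ENat.one_ne_top⟩, ?_⟩
  simp only [lenAt, if_pos hf, h]
  simp

theorem lenAt_not_le {R : Type} [CommRing R] [IsNoetherianRing R] (𝔮 : Ideal R) [𝔮.IsPrime]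
    (N : Type) [AddCommGroup N] [Module R N] [Module.Finite R N]
    (h : ¬ Module.annihilator R N ≤ 𝔮) : (lenAt 𝔮).good N ∧ (lenAt 𝔮).val N = 0 := by
  have h0 : Subsingleton (LocalizedModule 𝔮.primeCompl N) :=
    (Module.notMem_support_iff (p := ⟨𝔮, ‹_›⟩)).1
      (fun h1 => h (Module.mem_support_iff_of_finite.1 h1))
  have h1 : Module.length (Localization.AtPrime 𝔮) (LocalizedModule 𝔮.primeCompl N) = 0 :=
    Module.length_eq_zero
  refine ⟨⟨‹_›, by rw [h1]; exact ENat.zero_ne_top⟩, ?_⟩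
  simp only [lenAt, if_pos ‹Module.Finite R N›, h1]
  simp

theorem lenAt_min {R : Type} [CommRing R] [IsNoetherianRing R] (𝔮 : Ideal R) [𝔮.IsPrime]
    {𝔞 : Ideal R} (h : 𝔮 ∈ 𝔞.minimalPrimes) :
    (lenAt 𝔮).good (R ⧸ 𝔞) ∧ 0 < (lenAt 𝔮).val (R ⧸ 𝔞) := by
  have hg : (lenAt 𝔮).good (R ⧸ 𝔞) := by
    refine (lenAt 𝔮).add_good_of_primes _ fun 𝔭 hp h1 => ?_
    rw [Ideal.annihilator_quotient] at h1
    by_cases h2 : 𝔭 ≤ 𝔮
    · obtain rfl : 𝔭 = 𝔮 := le_antisymm h2 (h.2 ⟨hp, h1⟩ h2)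
      exact (lenAt_self 𝔭).1
    · exact (lenAt_not_le 𝔮 _ (by rwa [Ideal.annihilator_quotient])).1
  refine ⟨hg, ?_⟩
  have h0 : Nontrivial (LocalizedModule 𝔮.primeCompl (R ⧸ 𝔞)) :=
    (Module.mem_support_iff (p := ⟨𝔮, ‹_›⟩)).1
      (Module.mem_support_iff_of_finite.2 (by rw [Ideal.annihilator_quotient]; exact h.1.2))
  have h1 : 0 < Module.length (Localization.AtPrime 𝔮) (LocalizedModule 𝔮.primeCompl (R ⧸ 𝔞)) :=
    Module.length_pos
  simp only [lenAt, if_pos hg.1]
  exact_mod_cast ENat.toNat_pos h1.ne' hg.2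

/-- a prime `𝔭 ≠ 𝔮` with `R / 𝔭` of finite length at `𝔮` is not contained in `𝔮`. -/
theorem lenAt_prime {R : Type} [CommRing R] [IsNoetherianRing R] (𝔮 : Ideal R) [𝔮.IsPrime]
    {𝔭 : Ideal R} (hp : 𝔭.IsPrime) (h : (lenAt 𝔮).good (R ⧸ 𝔭)) : 𝔭 = 𝔮 ∨ ¬ 𝔭 ≤ 𝔮 := by
  refine or_iff_not_imp_right.2 fun h1 => ?_
  have h2 : 𝔭 ≤ 𝔮 := not_not.1 h1
  have hd : Disjoint (𝔮.primeCompl : Set R) 𝔭 :=
    Set.disjoint_left.2 fun x hx hx' => hx (h2 hx')
  have h3 := h.2
  rw [add_loc_quot] at h3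
  set J := 𝔭.map (algebraMap R (Localization.AtPrime 𝔮)) with hJ
  have hJp : J.IsPrime := IsLocalization.isPrime_of_isPrime_disjoint 𝔮.primeCompl _ 𝔭 hp hd
  rw [Module.length_eq_of_surjective (R := Localization.AtPrime 𝔮 ⧸ J) Ideal.Quotient.mk_surjective,
    Module.length_ne_top_iff, ← isArtinianRing_iff_isFiniteLength] at h3
  have hm : J.IsMaximal :=
    Ideal.Quotient.maximal_of_isField _ (IsArtinianRing.isField_of_isDomain _)
  have h4 := IsLocalization.under_map_of_isPrime_disjoint 𝔮.primeCompl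
    (Localization.AtPrime 𝔮) hp hd
  rw [← hJ, IsLocalRing.eq_maximalIdeal hm, Localization.AtPrime.under_maximalIdeal] at h4
  exact h4.symm

end Crest.Agent.R188
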