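import Crest.Agent.R188.TDefs
import Crest.Agent.R183.TowDefs

/-! Row 188, parts II-III: interface between the construction of the lifted covers (files `B*`) and the
positivity of the lifted diagonal (files `Pos*`). -/

set_option autoImplicit false

namespace Crest.Agent.R188

open Crest.Agent.R183 IsLocalRing
open scoped ENNReal TensorProduct

/-- `W(k)⟦X_σ⟧`. -/
abbrev PS (p : ℕ) [Fact p.Prime] (k : Type) [Field k] (σ : Type) : Type :=
  MvPowerSeries σ (WittVector p k)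

/-- the maximal ideal `(p, X)` of `W(k)⟦X_σ⟧`. -/
noncomputable def mxPS (p : ℕ) [Fact p.Prime] (k : Type) [Field k] (σ : Type) : Ideal (PS p k σ) :=
  Ideal.span {(p : PS p k σ)} ⊔ sp (MvPowerSeries.X : σ → PS p k σ)

/-- the distinguished element `ξ = t - p` of `Ã = W(k)⟦t, z₁, …, z_m⟧` (`t = X 0`). -/
noncomputable def xi (p : ℕ) [Fact p.Prime] (k : Type) [Field k] (m : ℕ) : PS p k (Fin (m + 1)) :=
  MvPowerSeries.X 0 - (p : PS p k (Fin (m + 1)))

/-- `ψ : P = W⟦x⟧ → B̃` lifts a `T = P / (p - G)`-algebra structure on `B̃ / ξ` such that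
`B̃ / (ξ, 𝔮)` is killed by `𝔪 ^ s`; `Q ⊆ P` is the preimage of `𝔮`. -/
structure Lifted (p : ℕ) [Fact p.Prime] (k : Type) [Field k] {d m : ℕ} (G : PS p k (Fin d))
    (Q : Ideal (PS p k (Fin d))) (s : ℕ) (B : Type) [CommRing B] [Algebra (PS p k (Fin (m + 1))) B]
    (ψ : PS p k (Fin d) →+* B) : Prop where
  const : ∀ w : WittVector p k, ψ (MvPowerSeries.C w) =
    algebraMap (PS p k (Fin (m + 1))) B (MvPowerSeries.C w)
  nil : ∀ i, ψ (MvPowerSeries.X i) ^ s ∈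
    (mxPS p k (Fin (m + 1))).map (algebraMap (PS p k (Fin (m + 1))) B)
  unit : ∃ u : B, IsUnit u ∧ ψ ((p : PS p k (Fin d)) - G) =
    u * algebraMap (PS p k (Fin (m + 1))) B (xi p k m)
  fin : (mxPS p k (Fin (m + 1)) ^ s).map (algebraMap (PS p k (Fin (m + 1))) B) ≤ Q.map ψ

/-- **Part III** (positivity of the lifted diagonal): for ANY length function on `Λ̃ = ∏ B̃_j` with
`0 < λ(Λ̃ / 𝔪 Λ̃) < ∞`, the complex `F ⊗_T Λ̃ / ξ` has finite homology lengths and positive Euler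
characteristic. -/
def PosBig : Prop :=
  ∀ (p : ℕ) [Fact p.Prime] (k : Type) [Field k] [IsAlgClosed k] [CharP k p] (d : ℕ)
    (G : PS p k (Fin d)) (T : Type) [CommRing T] [IsLocalRing T] (π : PS p k (Fin d) →+* T),
    Mixed p k d G T π → ∀ 𝔮 : Ideal T, 𝔮.IsPrime → ∀ m b : ℕ, ringKrullDim (T ⧸ 𝔮) = b →
    m + 1 + b = d →
    ∀ (ι : Type) [Fintype ι] [DecidableEq ι] (deg : ι → ℕ) (P : Matrix ι ι T),
    Resol d deg P (T ⧸ 𝔮) →
    ∀ (J : Type) (B : J → FFAlg (PS p k (Fin (m + 1)))) (ψ : ∀ j, PS p k (Fin d) →+* (B j).carrier)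
      (s : ℕ), (∀ j, Lifted p k (m := m) G (𝔮.comap π) s (B j).carrier (ψ j)) →
    ∀ lam : LenFn (∀ j, (B j).carrier),
      lam.q ((mxPS p k (Fin (m + 1))).map (algebraMap _ (∀ j, (B j).carrier))) ≠ 0 →
      lam.q ((mxPS p k (Fin (m + 1))).map (algebraMap _ (∀ j, (B j).carrier))) ≠ ⊤ →
    ∀ (Λ : Type) [CommRing Λ] (κ : (∀ j, (B j).carrier) →+* Λ), Function.Surjective κ →
      RingHom.ker κ = Ideal.span {algebraMap _ (∀ j, (B j).carrier) (xi p k m)} →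
    ∀ τ : T →+* Λ, (∀ x, τ (π x) = κ fun j => ψ j x) →
      (∀ i, hl (lam.comap κ) deg (P.map τ) Λ i ≠ ⊤) ∧ 0 < chiG (lam.comap κ) d deg (P.map τ) Λ

end Crest.Agent.R188
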