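import Crest.Agent.R188.PosL2

/-! Row 188, part III-b: one level of the lifted system. -/

set_option autoImplicit false
set_option linter.unusedVariables false

namespace Crest.Agent.R188

open Crest.Agent.R183 IsLocalRing RingTheory.Sequence MvPowerSeries
open scoped ENNReal TensorProduct

variable {O T : Type} [CommRing O] [IsLocalRing O] [CommRing T] [IsLocalRing T] [Algebra O T]
  {d a : ℕ} {ϖ : O} {f : MvPowerSeries (Fin d) O} {π : MvPowerSeries (Fin d) O →+* T}

variable {B : FFAlg (MvPowerSeries (Fin a) O)} {Θ : MvPowerSeries (Fin d) O →+* B.carrier} {s : ℕ}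

theorem PosL_pow_list {Λ : Type} [CommRing Λ] {W : Ideal Λ} (L : List Λ)
    (h : ∀ x ∈ L, x ∈ W.radical) : ∃ e : ℕ, 1 ≤ e ∧ ∀ x ∈ L, x ^ e ∈ W := by
  induction L with
  | nil => exact ⟨1, le_rfl, fun x hx => by simp at hx⟩
  | cons y L ih =>
    obtain ⟨e, he, h1⟩ := ih fun x hx => h x (List.mem_cons_of_mem _ hx)
    obtain ⟨n, hn⟩ := h y List.mem_cons_self
    refine ⟨e + n, by omega, fun x hx => ?_⟩
    rw [pow_add]
    rcases List.mem_cons.1 hx with rfl | hx
    · exact W.mul_mem_left _ hn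
    · exact W.mul_mem_right _ (h1 x hx)

theorem PosL_sup_pow {Λ : Type} [CommRing Λ] (D N : Ideal Λ) (s : ℕ) :
    (D ⊔ N) ^ s ≤ D ⊔ N ^ s := by
  induction s with
  | zero => simp
  | succ s ih =>
    rw [pow_succ, pow_succ]
    refine (Ideal.mul_mono_left ih).trans ?_
    rw [Ideal.sup_mul, Ideal.mul_sup (N ^ s)]
    exact sup_le ((Ideal.mul_le_inf.trans inf_le_left).trans le_sup_left)
      (sup_le ((Ideal.mul_le_inf.trans inf_le_right).trans le_sup_left) le_sup_right)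

omit [IsLocalRing O] [IsLocalRing T] in
theorem PosL_X (B : FFAlg (MvPowerSeries (Fin a) O)) (i : Fin a) :
    (Algebra.TensorProduct.includeRight (algebraMap (MvPowerSeries (Fin a) O) B.carrier (X i)) :
      GamL T B) = algebraMap (MvPowerSeries (Fin a) T) (GamL T B) (X i) := by
  rw [AlgHom.commutes, Algebra.TensorProduct.algebraMap_apply,
    Algebra.TensorProduct.algebraMap_apply, algebraMap_apply'', map_X]
  rfl

theorem PosL_sub (h : LSet ϖ f π a) (hL : LLev ϖ f B Θ s) (g : MvPowerSeries (Fin d) O) :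
    algebraMap (MvPowerSeries (Fin a) T) (GamL T B) (C (π g)) -
      Algebra.TensorProduct.includeRight (Θ g) ∈ Ideal.ofList (List.ofFn (DelL π B Θ)) := by
  obtain ⟨ω, h1, h2, h3⟩ := hL.exists_omega h
  rw [← h1, RingHom.mem_ker, map_sub, sub_eq_zero]
  exact (h3 g).trans (h2 _).symm

theorem PosL_f (h : LSet ϖ f π a) (hL : LLev ϖ f B Θ s) :
    (Algebra.TensorProduct.includeRight (Θ f) : GamL T B) ∈
      Ideal.ofList (List.ofFn (DelL π B Θ)) := by
  have h1 := PosL_sub h hL f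
  have h2 : π f = 0 := by
    rw [← RingHom.mem_ker, h.ker]
    exact Ideal.mem_span_singleton_self f
  rwa [h2, map_zero, map_zero, zero_sub, Ideal.neg_mem_iff] at h1

/-- `x = (z, y)` is Koszul-regular on `T⟦y⟧` (`ps_wreg`, `kex_of_reg`), so on `Γ` (`KEx.map`), also
after raising to a power `e` (`KEx.pow`); for large `e`, `x ^ e` lies in the ideal of `w = Δ ++ y`
(apply `ω`: `Θ(z_i) ^ s ∈ (ϖ, y)`, `ϖ ^ s ∈ (Θ f, y)`); `KEx.of_mem`, `wreg_of_kex` over `T⟦y⟧`, and
`isWeaklyRegular_append_iff`. -/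
theorem LLev.wreg (h : LSet ϖ f π a) (hL : LLev ϖ f B Θ s) :
    IsWeaklyRegular (GamL T B) (List.ofFn (DelL π B Θ)) := by
  have := h.noethT
  have k1 := (kex_of_reg (ps_wreg h.reg a)).map (S := GamL T B)
  obtain ⟨w, hw⟩ : ∃ w : List (GamL T B), w = List.ofFn (DelL π B Θ) ++
      List.ofFn fun i => algebraMap (MvPowerSeries (Fin a) T) (GamL T B) (X i) := ⟨_, rfl⟩
  have hD : Ideal.ofList (List.ofFn (DelL π B Θ)) ≤ Ideal.ofList w := by
    rw [hw, Ideal.ofList_append]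
    exact le_sup_left
  have hX : ∀ i, algebraMap (MvPowerSeries (Fin a) T) (GamL T B) (X i) ∈ Ideal.ofList w :=
    fun i => Ideal.subset_span (by
      rw [hw]
      exact List.mem_append_right _ (List.mem_ofFn.2 ⟨i, rfl⟩))
  obtain ⟨J, hJ⟩ : ∃ J : Ideal B.carrier, ∀ b, b ∈ J ↔
      (Algebra.TensorProduct.includeRight b : GamL T B) ∈ Ideal.ofList w :=
    ⟨(Ideal.ofList w).comap (Algebra.TensorProduct.includeRight :
      B.carrier →ₐ[MvPowerSeries (Fin a) O] GamL T B), fun b => Iff.rfl⟩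
  have j1 : ∀ i, algebraMap (MvPowerSeries (Fin a) O) B.carrier (X i) ∈ J := fun i => by
    rw [hJ, PosL_X]
    exact hX i
  have j2 : algebraMap (MvPowerSeries (Fin a) O) B.carrier (C ϖ) ∈ J.radical := by
    refine ⟨s, (sup_le ?_ ?_ : _ ≤ J) hL.par⟩
    · rw [Ideal.span_singleton_le_iff_mem, hJ]
      exact hD (PosL_f h hL)
    · rw [Ideal.span_le]
      rintro _ ⟨i, rfl⟩
      exact j1 i
  have j3 : (maximalIdeal (MvPowerSeries (Fin a) O)).map
      (algebraMap (MvPowerSeries (Fin a) O) B.carrier) ≤ J.radical := by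
    rw [maximalIdeal_ps, h.maxO, Ideal.map_le_iff_le_comap]
    refine sup_le ?_ ?_
    · rw [Ideal.map_le_iff_le_comap, Ideal.span_singleton_le_iff_mem]
      exact j2
    · rw [Ideal.span_le]
      rintro _ ⟨i, rfl⟩
      exact Ideal.le_radical (j1 i)
  obtain ⟨e, he, k2⟩ := PosL_pow_list (W := Ideal.ofList w)
    (((List.ofFn fun i => π (X i)).map (C : T →+* MvPowerSeries (Fin a) T) ++ List.ofFn X).map
      (algebraMap (MvPowerSeries (Fin a) T) (GamL T B))) (by
    intro x hx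
    obtain ⟨y, hy, rfl⟩ := List.mem_map.1 hx
    rcases List.mem_append.1 hy with hy | hy
    · obtain ⟨z, hz, rfl⟩ := List.mem_map.1 hy
      obtain ⟨i, rfl⟩ := List.mem_ofFn.1 hz
      obtain ⟨n, hn⟩ := Ideal.mem_radical_of_pow_mem (j3 (hL.nil i))
      rw [hJ, map_pow] at hn
      have a1 := Ideal.add_mem _ (Ideal.le_radical (hD (PosL_sub h hL (X i))))
        (show _ ∈ (Ideal.ofList w).radical from ⟨n, hn⟩)
      rwa [sub_add_cancel] at a1
    · obtain ⟨i, rfl⟩ := List.mem_ofFn.1 hy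
      exact Ideal.le_radical (hX i))
  have k3 : KEx w (GamL T B) := KEx.of_mem _ (KEx.pow _ k1 he) (fun y hy => by
    obtain ⟨x, hx, rfl⟩ := List.mem_map.1 hy
    exact k2 x hx) (by simp [hw])
  have k4 := wreg_of_kex (R := MvPowerSeries (Fin a) T) (fun x hx => ?_) k3
  · rw [hw, isWeaklyRegular_append_iff] at k4
    exact k4.1
  · rw [hw] at hx
    rcases List.mem_append.1 hx with hx | hx
    · obtain ⟨i, rfl⟩ := List.mem_ofFn.1 hx
      exact ⟨s, hL.del_pow h i⟩
    · obtain ⟨i, rfl⟩ := List.mem_ofFn.1 hx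
      refine ⟨1, ?_⟩
      rw [pow_one]
      refine Ideal.mem_map_of_mem _ ?_
      rw [maximalIdeal_ps]
      exact Ideal.mem_sup_right (Ideal.subset_span ⟨i, rfl⟩)

/-- `𝔪 = (z, y)`; modulo `Δ`, `z_i ≡ Θ z_i`, so that `𝔪 ^ N Γ ≤ (Δ) + 𝔫 Γ` for `N = (d + a) s + 1`, and
`𝔫 ^ s B ≤ Θ(π⁻¹ 𝔮) B`; apply `ω`. -/
theorem LLev.meet (h : LSet ϖ f π a) (hL : LLev ϖ f B Θ s) (hs : 1 ≤ s) (𝔮 : Ideal T)
    (hm : ((maximalIdeal (MvPowerSeries (Fin a) O)).map
      (algebraMap (MvPowerSeries (Fin a) O) B.carrier)) ^ s ≤ (𝔮.comap π).map Θ) :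
    (maximalIdeal (MvPowerSeries (Fin a) T) ^ (((d + a) * s + 1) * s)).map
        (algebraMap (MvPowerSeries (Fin a) T) (GamL T B)) ≤
      Ideal.ofList (List.ofFn (DelL π B Θ)) ⊔
        (𝔮.map (C : T →+* MvPowerSeries (Fin a) T)).map
          (algebraMap (MvPowerSeries (Fin a) T) (GamL T B)) := by
  obtain ⟨κ, hκ⟩ : ∃ κ : B.carrier →+* GamL T B,
      ∀ b, κ b = Algebra.TensorProduct.includeRight b :=
    ⟨(Algebra.TensorProduct.includeRight :
      B.carrier →ₐ[MvPowerSeries (Fin a) O] GamL T B), fun b => rfl⟩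
  have k1 : (maximalIdeal (MvPowerSeries (Fin a) T) ^ ((d + a) * s + 1)).map
      (algebraMap (MvPowerSeries (Fin a) T) (GamL T B)) ≤
      Ideal.ofList (List.ofFn (DelL π B Θ)) ⊔ ((maximalIdeal (MvPowerSeries (Fin a) O)).map
        (algebraMap (MvPowerSeries (Fin a) O) B.carrier)).map κ := by
    rw [h.max_eq, Ideal.map_le_iff_le_comap]
    refine (ofList_pow_le _ (t := s) (by simp) (by omega)).trans ?_
    rw [Ideal.ofList, Ideal.span_le]
    intro x hx
    obtain ⟨y, hy, rfl⟩ := List.mem_map.1 hx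
    rw [SetLike.mem_coe, Ideal.mem_comap, map_pow]
    rcases List.mem_append.1 hy with hy | hy
    · obtain ⟨z, hz, rfl⟩ := List.mem_map.1 hy
      obtain ⟨i, rfl⟩ := List.mem_ofFn.1 hz
      have a1 := Ideal.mem_map_of_mem κ (hL.nil i)
      rw [map_pow, hκ] at a1
      have a2 := Ideal.mem_of_dvd _ (sub_dvd_pow_sub_pow _ _ s) (PosL_sub h hL (X i))
      have a3 := Ideal.add_mem _ (Ideal.mem_sup_left a2) (Ideal.mem_sup_right a1)
      rwa [sub_add_cancel] at a3
    · obtain ⟨i, rfl⟩ := List.mem_ofFn.1 hy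
      refine Ideal.mem_sup_right (Ideal.pow_mem_of_mem _ ?_ s hs)
      rw [← PosL_X, ← hκ]
      refine Ideal.mem_map_of_mem _ (Ideal.mem_map_of_mem _ ?_)
      rw [maximalIdeal_ps]
      exact Ideal.mem_sup_right (Ideal.subset_span ⟨i, rfl⟩)
  rw [pow_mul, Ideal.map_pow]
  refine ((Ideal.pow_right_mono k1 s).trans (PosL_sup_pow _ _ s)).trans (sup_le le_sup_left ?_)
  rw [← Ideal.map_pow]
  refine (Ideal.map_mono hm).trans ?_
  rw [Ideal.map_le_iff_le_comap, Ideal.map_le_iff_le_comap]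
  intro g hg
  rw [Ideal.mem_comap] at hg
  rw [Ideal.mem_comap, Ideal.mem_comap, hκ]
  have a1 := Ideal.sub_mem _ (Ideal.mem_sup_right (Ideal.mem_map_of_mem
    (algebraMap (MvPowerSeries (Fin a) T) (GamL T B))
    (Ideal.mem_map_of_mem (C : T →+* MvPowerSeries (Fin a) T) hg)))
    (Ideal.mem_sup_left (PosL_sub h hL g))
  rwa [sub_sub_cancel] at a1

end Crest.Agent.R188
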