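import Crest.Agent.R188.PosR1

/-! Row 188, part III-b: finite extensions of regular local rings satisfy `PosRing`. -/

set_option autoImplicit false
set_option linter.unusedVariables false

namespace Crest.Agent.R188

open Crest.Agent.R183 IsLocalRing RingTheory.Sequence
open scoped ENNReal TensorProduct

/-- If `c` kills the higher Koszul homology of all `u ^ t` then it grows like `t ^ (d - 1)`:
`h_j K(u^t) ≤ h_{j+1} K(c, u^t)` (`h_le_cone`), `kz_h_le_of_mem` with `x = u' ^ (e (d+1) t) ++ [c]`,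
`h_kos_pow_le`, `FC.h_ne_top` (with `FC.htpy_kos`), `h_neg`, `h_gt`. -/
theorem par_of_kl {R : Type} [CommRing R] [IsLocalRing R] [IsNoetherianRing R] {d : ℕ}
    {u : List R} (hu : u.length = d + 1) (hum : ∀ x ∈ u, x ∈ maximalIdeal R) {e : ℕ}
    (he : maximalIdeal R ^ e ≤ Ideal.ofList u) {c : R} (hc : c ∈ nonZeroDivisors R)
    (hk : ∀ t : ℕ, 1 ≤ t → ∀ j : ℤ, 1 ≤ j → (kz (u.map (· ^ t))).Kl R c j) :
    ∃ C : ℕ, ∀ t : ℕ, 1 ≤ t → ∀ j : ℤ, 1 ≤ j →
      (kz (u.map (· ^ t))).h (lenFn R) R j ≤ (C : ℝ≥0∞) * (t : ℝ≥0∞) ^ d := by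
  obtain ⟨u', e', hl', hm', he'⟩ := exists_params hu hum he hc
  have hfin : ∀ i, (kz (u' ++ [c])).h (lenFn R) R i ≠ ⊤ := fun i =>
    FC.h_ne_top _ (e := e') (fun y hy => FC.htpy_kos _ _ (Or.inl (he' hy))) i
  obtain ⟨S, hS⟩ := ENNReal.exists_nat_gt (r := ∑ i ∈ Finset.range (d + 2),
    (kz (u' ++ [c])).h (lenFn R) R i) (ENNReal.sum_ne_top.2 fun i _ => hfin i)
  have hS' : ∀ i : ℤ, (kz (u' ++ [c])).h (lenFn R) R i ≤ S := by
    intro i
    rcases lt_or_ge i 0 with hi | hi
    · rw [FC.h_neg _ _ _ hi]; exact zero_le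
    rcases lt_or_ge ((d + 1 : ℕ) : ℤ) i with hi' | hi'
    · have hb := kz_bdd (u' ++ [c])
      rw [List.length_append, hl', List.length_singleton] at hb
      rw [FC.h_gt _ _ _ hb hi']; exact zero_le
    obtain ⟨k, rfl⟩ := Int.eq_ofNat_of_zero_le hi
    refine le_trans ?_ hS.le
    exact Finset.single_le_sum (f := fun i : ℕ => (kz (u' ++ [c])).h (lenFn R) R i)
      (fun _ _ => zero_le) (Finset.mem_range.2 (by omega))
  refine ⟨2 ^ (d + 2) * ((e + 1) * (d + 1)) ^ d * S, fun t ht j hj => ?_⟩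
  have hT : 1 ≤ (e + 1) * ((d + 1) * t) := Nat.mul_pos (by omega) (Nat.mul_pos (by omega) ht)
  refine (FC.h_le_cone _ _ _ (hk t ht j hj)).trans ?_
  rw [← kz_cons]
  refine (kz_h_le_of_mem (lenFn R) R (c :: u.map (· ^ t))
    (u'.map (· ^ ((e + 1) * ((d + 1) * t))) ++ [c]) ?_
    (S := (((e + 1) * ((d + 1) * t) : ℕ) : ℝ≥0∞) ^ d * S) fun i _ => ?_).trans (le_of_eq ?_)
  · intro y hy
    rcases List.mem_append.1 hy with hy | hy
    · obtain ⟨x, hx, rfl⟩ := List.mem_map.1 hy
      have h1 : x ^ (e + 1) ∈ Ideal.ofList u :=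
        he (Ideal.pow_le_pow_right (Nat.le_succ e) (Ideal.pow_mem_pow (hm' x hx) _))
      have h2 := ofList_pow_le u (t := t) (n := (d + 1) * t) (by rw [hu])
        (Nat.mul_pos (by omega) ht) (Ideal.pow_mem_pow h1 _)
      rw [← pow_mul] at h2
      exact Ideal.span_mono (fun z hz => List.mem_cons_of_mem _ hz) h2
    · rw [List.mem_singleton.1 hy]
      exact Ideal.subset_span List.mem_cons_self
  · have := FC.h_kos_pow_le (lenFn R) R (FC.unit R) u' [c] hT i
    rw [hl'] at this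
    exact this.trans (mul_le_mul_right (hS' i) _)
  · rw [List.length_cons, List.length_map, hu]
    push_cast
    simp only [mul_pow]
    ring

/-- Growth of the Hilbert–Samuel function.  With `I = 𝔪_A`: Artin–Rees
(`Ideal.exists_pow_inf_eq_pow_smul` for the image of `A` in `R`) gives
`(I ^ (N + k) R) ∩ A ≤ I ^ N`; `I ^ (d n + 1) ≤ (x ^ n)`, `ℓ_A(A / (x ^ n)) = n ^ d` (`q_pow_of_kex`);
for `ν = (lenFn A).comap (algebraMap A R)`, `q_map_le` (with `R₂ = R`) gives `ν ≤ ℓ_R · ν(R / 𝔪)`. -/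
theorem growth_of_finite {A R : Type} [CommRing A] [IsLocalRing A] [CommRing R] [IsLocalRing R]
    [IsNoetherianRing R] [Algebra A R] [Module.Finite A R]
    (hinj : Function.Injective (algebraMap A R)) {xs : List A} (hA : RegSys A xs) :
    ∃ s : ℕ, 1 ≤ s ∧ ∀ n : ℕ, (n : ℝ≥0∞) ^ xs.length ≤ s * hs R (s * n + s) := by
  have := hA.noeth
  obtain ⟨hle, e, he1, he⟩ := pow_le_map_of_finite (A := A) (R := R)
  obtain ⟨k, hk⟩ := Ideal.exists_pow_inf_eq_pow_smul (maximalIdeal A)
    (LinearMap.range (Algebra.linearMap A R))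
  set ν := (lenFn A).comap (algebraMap A R) with hν
  have hq : ∀ J : Ideal R, ν.q J = (lenFn A).toFun (R ⧸ J) := fun J =>
    (lenFn A).comap_toFun (R ⧸ J)
  have hfin : ν.q (maximalIdeal R) ≠ ⊤ := by
    rw [hq]
    refine lenFn_ne_top_of_pow (c := 1) fun a ha => ?_
    rw [pow_one] at ha
    refine Module.mem_annihilator.2 fun m => ?_
    obtain ⟨r, rfl⟩ := Ideal.Quotient.mk_surjective m
    change Ideal.Quotient.mk _ (a • r) = 0
    rw [Ideal.Quotient.eq_zero_iff_mem, Algebra.smul_def]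
    exact Ideal.mul_mem_right _ _ (hle (Ideal.mem_map_of_mem _ ha))
  obtain ⟨s₀, hs₀⟩ := ENNReal.exists_nat_gt hfin
  -- Artin–Rees
  have hAR : ∀ N : ℕ, (lenFn A).q (maximalIdeal A ^ N) ≤ ν.q (maximalIdeal R ^ (e * (N + k))) := by
    intro N
    rw [hq]
    set φ : A →ₗ[A] R ⧸ maximalIdeal R ^ (e * (N + k)) :=
      (Ideal.Quotient.mkₐ A (maximalIdeal R ^ (e * (N + k)))).toLinearMap ∘ₗ Algebra.linearMap A R
      with hφ
    have hker : LinearMap.ker φ ≤ maximalIdeal A ^ N := by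
      intro a ha
      have h1 : algebraMap A R a ∈ maximalIdeal R ^ (e * (N + k)) :=
        Ideal.Quotient.eq_zero_iff_mem.1 ha
      rw [pow_mul] at h1
      have h2 := Ideal.pow_right_mono he (N + k) h1
      rw [← Ideal.map_pow] at h2
      have h3 : algebraMap A R a ∈ (maximalIdeal A ^ (N + k) • ⊤ : Submodule A R) := by
        rw [Ideal.smul_top_eq_map]
        exact h2
      have h4 : algebraMap A R a ∈ (maximalIdeal A ^ (N + k) • ⊤ : Submodule A R) ⊓
          LinearMap.range (Algebra.linearMap A R) := ⟨h3, a, rfl⟩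
      rw [hk (N + k) (Nat.le_add_left k N), Nat.add_sub_cancel] at h4
      have h5 := Submodule.smul_mono le_rfl inf_le_right h4
      rw [LinearMap.range_eq_map, ← Submodule.map_smul'', Ideal.smul_eq_mul, Ideal.mul_top] at h5
      obtain ⟨b, hb, hab⟩ := h5
      rwa [← hinj hab]
    refine ((lenFn A).q_anti hker).trans ?_
    exact (lenFn A).le_of_injective ((LinearMap.ker φ).liftQ φ le_rfl)
      (LinearMap.ker_eq_bot.1 (Submodule.ker_liftQ_eq_bot _ _ _ le_rfl))
  have hlow : ∀ n : ℕ, (n : ℝ≥0∞) ^ xs.length ≤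
      (lenFn A).q (maximalIdeal A ^ (xs.length * n + 1)) := by
    intro n
    have h1 : (lenFn A).q (Ideal.ofList xs) = 1 := by rw [← hA.max, lenFn_q_maximal]
    rcases Nat.eq_zero_or_pos n with rfl | hn
    · rw [mul_zero, zero_add, pow_one, lenFn_q_maximal, Nat.cast_zero]
      exact pow_le_one₀ zero_le zero_le_one
    · have h2 := q_pow_of_kex (lenFn A) (kex_of_reg hA.reg) (by rw [h1]; exact ENNReal.one_ne_top) hn
      rw [h1, mul_one] at h2
      rw [← h2, hA.max]
      exact (lenFn A).q_anti (ofList_pow_le xs (Nat.le_succ _) (Nat.le_add_left 1 _))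
  refine ⟨s₀ + e * (xs.length + k + 1) + 1, Nat.le_add_left 1 _, fun n => ?_⟩
  refine (hlow n).trans ((hAR _).trans ?_)
  have h1 := q_map_le (R := R) (R₂ := R) ν (maximalIdeal R ^ (e * (xs.length * n + 1 + k)))
    (hs_ne_top R (IsNoetherian.noetherian _) _)
  rw [Algebra.algebraMap_self, Ideal.map_id, Ideal.map_id] at h1
  refine h1.trans ((mul_comm _ _).trans_le
    (mul_le_mul' (hs₀.le.trans (Nat.cast_le.2 (by omega))) (hs_mono R ?_)))
  nlinarith [Nat.zero_le (s₀ * n), Nat.zero_le (e * k * n), Nat.zero_le (e * n),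
    Nat.zero_le (e * xs.length), Nat.zero_le n]

/-- `exists_factor`, `kex_of_reg`, `KEx.pow`, `FC.Ex.pi`, `kl_of_factor`, `mem_Z_map`, `mem_B_map`,
`kz_map`, `par_of_kl`, `growth_of_finite`. -/
theorem posRing_of_finite {A R : Type} [CommRing A] [IsLocalRing A] [CommRing R] [IsLocalRing R]
    [IsNoetherianRing R] [IsDomain R] [Algebra A R] [Module.Finite A R]
    (hinj : Function.Injective (algebraMap A R)) {xs : List A} (hA : RegSys A xs)
    (hd : 1 ≤ xs.length) : PosRing R xs.length := by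
  have := hA.dom
  obtain ⟨hle, e, he1, he⟩ := pow_le_map_of_finite (A := A) (R := R)
  obtain ⟨r, c, φ, ψ, hc, hφ⟩ := exists_factor (A := A) (M := R) fun a m h => by
    rw [Algebra.smul_def] at h
    exact (mul_eq_zero.1 h).imp_left fun h0 => hinj (by rw [h0, map_zero])
  obtain ⟨d, hd'⟩ : ∃ d, xs.length = d + 1 := ⟨xs.length - 1, by omega⟩
  have hum : ∀ x ∈ xs.map (algebraMap A R), x ∈ maximalIdeal R := fun x hx => by
    obtain ⟨y, hy, rfl⟩ := List.mem_map.1 hx
    refine hle (Ideal.mem_map_of_mem _ ?_)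
    rw [hA.max]
    exact Ideal.subset_span hy
  obtain ⟨C, hC⟩ := par_of_kl (u := xs.map (algebraMap A R)) (d := d)
    (by rw [List.length_map, hd']) hum (e := e) (by rwa [← Ideal.map_ofList, ← hA.max])
    (c := algebraMap A R c)
    (mem_nonZeroDivisors_of_ne_zero fun h0 => hc (hinj (by rw [h0, map_zero])))
    fun t ht j hj => by
      have h1 := FC.kl_of_factor _ φ ψ hφ (((kex_of_reg hA.reg).pow A ht j hj).pi (Fin r))
      have e1 : (xs.map (algebraMap A R)).map (· ^ t) = (xs.map (· ^ t)).map (algebraMap A R) := by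
        simp only [List.map_map]
        exact List.map_congr_left fun x _ => (map_pow _ _ _).symm
      rw [e1, ← kz_map]
      intro z hz
      rw [algebraMap_smul]
      exact (FC.mem_B_map (S := R) (kz (xs.map (· ^ t))) j _).2
        (h1 z ((FC.mem_Z_map (S := R) (kz (xs.map (· ^ t))) j z).1 hz))
  refine ⟨inferInstance, ⟨xs.map (algebraMap A R), C, List.length_map _, hum, ?_⟩,
    growth_of_finite hinj hA⟩
  rw [hd', Nat.add_sub_cancel]
  exact hC

end Crest.Agent.R188
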