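import Crest.Agent.R188.PosN1
import Crest.Agent.R188.PosR

/-! Row 188, part III-b: Noether normalisation of `T / 𝔮`, and `PosRing (T⟦y⟧ / 𝔮)`. -/

set_option autoImplicit false
set_option linter.unusedVariables false

namespace Crest.Agent.R188

open Crest.Agent.R183 IsLocalRing RingTheory.Sequence MvPowerSeries
open scoped ENNReal TensorProduct

/-- Noether normalisation of a complete local domain `E` which is residually trivial over `W(k)`:
`A = k⟦x⟧` if `p = 0` in `E` (then `W → E` factors through `W / p = k`,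
`WittVector.quotientPEquiv` or `constantCoeff`), `A = W⟦x⟧` otherwise; `exists_ps_hom`,
`finite_of_residue`, `regBase_field`, `regBase_witt`, `isAdicComplete_witt`, `regSys_of_regBase`,
`inj_of_dim`. -/
theorem exists_nn (p : ℕ) [Fact p.Prime] (k : Type) [Field k] [CharP k p] [PerfectRing k p]
    {E : Type} [CommRing E] [IsLocalRing E] [IsDomain E] [IsNoetherianRing E]
    [IsAdicComplete (maximalIdeal E) E] (σ : WittVector p k →+* E)
    (hp : (p : E) ∈ maximalIdeal E) (hσ : ∀ θ : E, ∃ w, θ - σ w ∈ maximalIdeal E) {b : ℕ}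
    (hE : ringKrullDim E = b) :
    ∃ (A : Type) (_ : CommRing A) (_ : IsLocalRing A) (_ : Algebra A E) (xs : List A),
      RegSys A xs ∧ xs.length = b ∧ Module.Finite A E ∧ Function.Injective (algebraMap A E) := by
  have hfg : (maximalIdeal E).FG := IsNoetherian.noetherian _
  by_cases hp0 : (p : E) = 0
  · obtain ⟨z, c, hz, hc⟩ := exists_sop hE
    let s : k →+* E := (Ideal.Quotient.lift (Ideal.span {(p : WittVector p k)}) σ fun a ha => by
      obtain ⟨r, rfl⟩ := Ideal.mem_span_singleton'.1 ha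
      rw [map_mul, map_natCast, hp0, mul_zero]).comp
        (WittVector.quotientPEquiv (p := p) (k := k)).symm.toRingHom
    have hs : ∀ w, s (WittVector.constantCoeff w) = σ w := fun w => by
      have : (WittVector.quotientPEquiv (p := p) (k := k)).symm (WittVector.constantCoeff w) =
          Ideal.Quotient.mk _ w := (RingEquiv.symm_apply_eq _).2 rfl
      simp only [s, RingHom.comp_apply, RingEquiv.toRingHom_eq_coe, RingHom.coe_coe, this,
        Ideal.Quotient.lift_mk]
    obtain ⟨f, hfC, hfX⟩ := exists_ps_hom (maximalIdeal E) s z hz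
    let _ := f.toAlgebra
    have hmap : (sp (X : Fin b → MvPowerSeries (Fin b) k)).map (algebraMap _ E) = sp z := by
      rw [sp, Ideal.map_span, ← Set.range_comp]
      congr 2
      funext i
      exact hfX i
    have hle : sp z ≤ maximalIdeal E := Ideal.span_le.2 (Set.range_subset_iff.2 hz)
    have hA := regSys_of_regBase (regBase_field k b)
    have hfin : Module.Finite (MvPowerSeries (Fin b) k) E :=
      finite_of_residue (sp X) hfg (hmap ▸ hle) (c := c) (hmap ▸ hc) fun θ => by
        obtain ⟨w, hw⟩ := hσ θ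
        refine ⟨C (WittVector.constantCoeff w), ?_⟩
        change θ - f _ ∈ _
        rwa [hfC, hs]
    exact ⟨MvPowerSeries (Fin b) k, inferInstance, inferInstance, inferInstance, _, hA,
      List.length_ofFn .., hfin, inj_of_dim hA (by rw [List.length_ofFn]; exact hE)⟩
  · obtain ⟨m, y, c, rfl, hym, hc⟩ := exists_sop' hE (mem_nonZeroDivisors_of_ne_zero hp0) hp
    obtain ⟨f, hfC, hfX⟩ := exists_ps_hom (maximalIdeal E) σ y hym
    let _ := f.toAlgebra
    have hx : (fun i => algebraMap _ E (wpar p k m i)) = Fin.cons (p : E) y := by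
      funext i
      refine Fin.cases ?_ (fun j => ?_) i
      · exact map_natCast f p
      · exact hfX j
    have hmap : (sp (wpar p k m)).map (algebraMap _ E) = Ideal.span {(p : E)} ⊔ sp y := by
      rw [sp, Ideal.map_span, ← Set.range_comp, Function.comp_def, hx, Fin.range_cons,
        Ideal.span_insert]
    have hle : Ideal.span {(p : E)} ⊔ sp y ≤ maximalIdeal E :=
      sup_le ((Ideal.span_singleton_le_iff_mem _).2 hp)
        (Ideal.span_le.2 (Set.range_subset_iff.2 hym))
    have := isAdicComplete_witt p k m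
    have hA := regSys_of_regBase (regBase_witt p k m)
    have hfin : Module.Finite (MvPowerSeries (Fin m) (WittVector p k)) E :=
      finite_of_residue (sp (wpar p k m)) hfg (hmap ▸ hle) (c := c) (hmap ▸ hc) fun θ => by
        obtain ⟨w, hw⟩ := hσ θ
        refine ⟨C w, ?_⟩
        change θ - f _ ∈ _
        rwa [hfC]
    exact ⟨MvPowerSeries (Fin m) (WittVector p k), inferInstance, inferInstance, inferInstance, _,
      hA, List.length_ofFn .., hfin, inj_of_dim hA (by rw [List.length_ofFn]; exact hE)⟩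

/-- `R = T⟦y⟧ / 𝔮 ≅ E⟦y⟧` (`ps_ker_map`) is finite over `A⟦y⟧` (`ps_finite`, `RegSys.ps`); give `R` the
`A⟦y⟧`-algebra structure through the isomorphism and apply `posRing_of_finite`. -/
theorem posRing_ps {T : Type} [CommRing T] [IsLocalRing T] [IsNoetherianRing T] (𝔮 : Ideal T)
    [𝔮.IsPrime] {A : Type} [CommRing A] [IsLocalRing A] [Algebra A (T ⧸ 𝔮)]
    [Module.Finite A (T ⧸ 𝔮)] (hinj : Function.Injective (algebraMap A (T ⧸ 𝔮))) {xs : List A}
    (hA : RegSys A xs) {a : ℕ} (ha : 1 ≤ a)
    [IsLocalRing (MvPowerSeries (Fin a) T ⧸ 𝔮.map (C : T →+* MvPowerSeries (Fin a) T))] :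
    PosRing (MvPowerSeries (Fin a) T ⧸ 𝔮.map (C : T →+* MvPowerSeries (Fin a) T))
      (xs.length + a) := by
  have hk := ps_ker_map (σ := Fin a) (IsNoetherian.noetherian 𝔮)
  let e : (MvPowerSeries (Fin a) T ⧸ 𝔮.map (C : T →+* MvPowerSeries (Fin a) T)) ≃+*
      MvPowerSeries (Fin a) (T ⧸ 𝔮) :=
    (Ideal.quotEquivOfEq hk.symm).trans (RingHom.quotientKerEquivOfSurjective
      (ps_map_surjective Ideal.Quotient.mk_surjective))
  have : IsDomain (MvPowerSeries (Fin a) (T ⧸ 𝔮)) := NoZeroDivisors.to_isDomain _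
  have : IsDomain (MvPowerSeries (Fin a) T ⧸ 𝔮.map (C : T →+* MvPowerSeries (Fin a) T)) :=
    e.toMulEquiv.isDomain _
  let _ : Algebra (MvPowerSeries (Fin a) A)
      (MvPowerSeries (Fin a) T ⧸ 𝔮.map (C : T →+* MvPowerSeries (Fin a) T)) :=
    (e.symm.toRingHom.comp
      (algebraMap (MvPowerSeries (Fin a) A) (MvPowerSeries (Fin a) (T ⧸ 𝔮)))).toAlgebra
  have := ps_finite (A := A) (E := T ⧸ 𝔮) (Fin a)
  let e' : MvPowerSeries (Fin a) (T ⧸ 𝔮) ≃ₐ[MvPowerSeries (Fin a) A]
      (MvPowerSeries (Fin a) T ⧸ 𝔮.map (C : T →+* MvPowerSeries (Fin a) T)) :=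
    AlgEquiv.ofRingEquiv (f := e.symm) fun _ => rfl
  have : Module.Finite (MvPowerSeries (Fin a) A)
      (MvPowerSeries (Fin a) T ⧸ 𝔮.map (C : T →+* MvPowerSeries (Fin a) T)) :=
    Module.Finite.equiv e'.toLinearEquiv
  have h := posRing_of_finite
    (R := MvPowerSeries (Fin a) T ⧸ 𝔮.map (C : T →+* MvPowerSeries (Fin a) T))
    (e.symm.injective.comp (ps_map_injective (σ := Fin a) hinj)) (hA.ps a) (by simp; omega)
  simpa using h

end Crest.Agent.R188
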