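import Crest.Agent.R188.PosA
import Crest.Agent.R188.PosN
import Crest.Agent.R188.PosL
import Crest.Agent.R188.BDefs

/-! Row 188, part III-b: positivity of the lifted diagonal. -/

set_option autoImplicit false
set_option linter.unusedVariables false

namespace Crest.Agent.R188

open Crest.Agent.R183 IsLocalRing RingTheory.Sequence MvPowerSeries
open scoped ENNReal TensorProduct

private theorem ces_map_sp' {Λ Λ' : Type} [CommRing Λ] [CommRing Λ'] (f : Λ →+* Λ') {ι : Type}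
    (x : ι → Λ) : (sp x).map f = sp fun k => f (x k) := by
  rw [sp, sp, Ideal.map_span, ← Set.range_comp]; rfl

theorem lift_pos_abs {O T : Type} [CommRing O] [IsLocalRing O] [CommRing T] [IsLocalRing T]
    [Algebra O T] {d a : ℕ} {ϖ : O} {f : MvPowerSeries (Fin d) O}
    {π : MvPowerSeries (Fin d) O →+* T} (h : LSet ϖ f π a) (hd : 1 ≤ d) (𝔮 : Ideal T)
    [IsLocalRing (MvPowerSeries (Fin a) T ⧸ 𝔮.map (C : T →+* MvPowerSeries (Fin a) T))]
    (hR : PosRing (MvPowerSeries (Fin a) T ⧸ 𝔮.map (C : T →+* MvPowerSeries (Fin a) T)) d)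
    {ι : Type} [Fintype ι] [DecidableEq ι] {deg : ι → ℕ} {P : Matrix ι ι T}
    (hP : Resol d deg P (T ⧸ 𝔮)) {J : Type} (B : J → FFAlg (MvPowerSeries (Fin a) O))
    (Θ : ∀ j, MvPowerSeries (Fin d) O →+* (B j).carrier) {s : ℕ} (hs : 1 ≤ s)
    (hL : ∀ j, LLev ϖ f (B j) (Θ j) s)
    (hm : ∀ j, ((maximalIdeal (MvPowerSeries (Fin a) O)).map
      (algebraMap (MvPowerSeries (Fin a) O) (B j).carrier)) ^ s ≤ (𝔮.comap π).map (Θ j))
    (lam : LenFn (∀ j, (B j).carrier))
    (h₀ : lam.q ((maximalIdeal (MvPowerSeries (Fin a) O)).map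
      (algebraMap (MvPowerSeries (Fin a) O) (∀ j, (B j).carrier))) ≠ 0)
    (h₀' : lam.q ((maximalIdeal (MvPowerSeries (Fin a) O)).map
      (algebraMap (MvPowerSeries (Fin a) O) (∀ j, (B j).carrier))) ≠ ⊤)
    {B' : Type} [CommRing B'] (ρ : (∀ j, (B j).carrier) →+* B') (hρ : Function.Surjective ρ)
    (hker : RingHom.ker ρ = Ideal.span {fun j => Θ j f}) (τ : T →+* B')
    (hτ : ∀ g, τ (π g) = ρ fun j => Θ j g) :
    (∀ i, hl (lam.comap ρ) deg (P.map τ) B' i ≠ ⊤) ∧
      0 < chiG (lam.comap ρ) d deg (P.map τ) B' := by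
  have := h.noethO
  have := h.noethT
  have hflat : Module.Flat (MvPowerSeries (Fin a) T) (∀ j, GamL T (B j)) := flat_pi _
  have := flat_ps T (Fin a)
  let g : (∀ j, (B j).carrier) →+* ∀ j, GamL T (B j) := RingHom.pi fun j =>
    (Algebra.TensorProduct.includeRight : (B j).carrier →ₐ[MvPowerSeries (Fin a) O]
      GamL T (B j)).toRingHom.comp (Pi.evalRingHom _ j)
  have hg : ∀ b j, g b j = (1 : MvPowerSeries (Fin a) T) ⊗ₜ b j := fun _ _ => rfl
  have hP' : Resol d deg (P.map (C : T →+* MvPowerSeries (Fin a) T))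
      (MvPowerSeries (Fin a) T ⧸ 𝔮.map (C : T →+* MvPowerSeries (Fin a) T)) :=
    PRes.baseChange_quot (Λ' := MvPowerSeries (Fin a) T) hP
  let Δ : List (∀ j, GamL T (B j)) := List.ofFn fun i j => DelL π (B j) (Θ j) i
  have hΔ : ∀ j, Δ.map (Pi.evalRingHom _ j) = List.ofFn (DelL π (B j) (Θ j)) := fun j => by
    rw [List.map_ofFn]; rfl
  have hmem : ∀ γ : ∀ j, GamL T (B j), γ ∈ Ideal.ofList Δ ↔
      ∀ j, γ j ∈ Ideal.ofList (List.ofFn (DelL π (B j) (Θ j))) := fun γ => by
    rw [mem_ofList_pi]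
    simp only [hΔ]
  have hmap : ∀ (I : Ideal (MvPowerSeries (Fin a) T)) (γ : ∀ j, GamL T (B j)),
      γ ∈ I.map (algebraMap _ (∀ j, GamL T (B j))) ↔
        ∀ j, γ j ∈ I.map (algebraMap _ (GamL T (B j))) := fun I γ =>
    mem_map_pi (IsNoetherian.noetherian I) _ γ
  choose θ hθ₁ hθ₂ using fun j => h.exists_fibre (B j)
  choose ω hω₁ hω₂ hω₃ using fun j => (hL j).exists_omega h
  have hq : (lam.comap g).q ((maximalIdeal (MvPowerSeries (Fin a) T)).map
      (algebraMap _ (∀ j, GamL T (B j)))) = lam.q ((maximalIdeal (MvPowerSeries (Fin a) O)).map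
      (algebraMap (MvPowerSeries (Fin a) O) (∀ j, (B j).carrier))) := by
    rw [LenFn.comap_q_of_surjective]
    · congr 1
      ext b
      rw [Ideal.mem_comap, hmap, mem_map_pi (IsNoetherian.noetherian _)]
      refine forall_congr' fun j => ?_
      rw [← hθ₂, RingHom.mem_ker, hg, hθ₁, Ideal.Quotient.eq_zero_iff_mem]
      rfl
    · intro x
      obtain ⟨γ, rfl⟩ := Ideal.Quotient.mk_surjective x
      choose b hb using fun j => Ideal.Quotient.mk_surjective (θ j (γ j))
      refine ⟨b, Ideal.Quotient.eq.2 ((hmap _ _).2 fun j => ?_)⟩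
      rw [← hθ₂, RingHom.mem_ker, Pi.sub_apply, map_sub, hg, hθ₁, hb, sub_self]
  have hs' : 1 ≤ ((d + a) * s + 1) * s := Nat.mul_pos (Nat.succ_pos _) hs
  obtain ⟨h1, h2⟩ := pos_bal (Γ := ∀ j, GamL T (B j)) _ hd hR (res_of_resol hP') (lam.comap g)
    (hq ▸ h₀) (hq ▸ h₀') (Δ := Δ) (List.length_ofFn ..)
    (wreg_pi fun j => by rw [hΔ]; exact (hL j).wreg h) hs'
    (fun γ hγ => by
      choose u hu v hv huv using fun j =>
        Submodule.mem_sup.1 ((hL j).meet h hs 𝔮 (hm j) ((hmap _ _).1 hγ j))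
      exact Submodule.mem_sup.2 ⟨u, (hmem u).2 hu, v, (hmap _ v).2 hv, funext huv⟩)
    (fun x hx => by
      obtain ⟨i, rfl⟩ := List.mem_ofFn.1 hx
      refine (hmap _ _).2 fun j => ?_
      rw [Pi.pow_apply, mul_comm, pow_mul]
      exact Ideal.pow_mem_of_mem _ ((hL j).del_pow h i) _ (Nat.succ_pos _))
  let Ψ : (∀ j, (B j).carrier) →+* (∀ j, GamL T (B j)) ⧸ Ideal.ofList Δ :=
    (Ideal.Quotient.mk _).comp g
  have hΨ : Function.Surjective Ψ := by
    intro x
    obtain ⟨γ, rfl⟩ := Ideal.Quotient.mk_surjective x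
    choose b hb using fun j => Ideal.Quotient.mk_surjective (ω j (γ j))
    refine ⟨b, Ideal.Quotient.eq.2 ((hmem _).2 fun j => ?_)⟩
    rw [← hω₁, RingHom.mem_ker, Pi.sub_apply, map_sub, hg, hω₂, hb, sub_self]
  have hk : RingHom.ker Ψ = RingHom.ker ρ := by
    ext b
    rw [hker, RingHom.mem_ker, RingHom.comp_apply, Ideal.Quotient.eq_zero_iff_mem, hmem,
      Ideal.mem_span_singleton]
    have : ∀ j, g b j ∈ Ideal.ofList (List.ofFn (DelL π (B j) (Θ j))) ↔ Θ j f ∣ b j := fun j => by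
      rw [← hω₁, RingHom.mem_ker, hg, hω₂, Ideal.Quotient.eq_zero_iff_mem,
        Ideal.mem_span_singleton]
    simp only [this]
    refine ⟨fun hb => ?_, fun ⟨c, hc⟩ j => ⟨c j, congrFun hc j⟩⟩
    choose c hc using hb
    exact ⟨c, funext hc⟩
  let e : ((∀ j, GamL T (B j)) ⧸ Ideal.ofList Δ) ≃+* B' :=
    (RingHom.quotientKerEquivOfSurjective hΨ).symm.trans
      ((Ideal.quotEquivOfEq hk).trans (RingHom.quotientKerEquivOfSurjective hρ))
  have he : ∀ b, e (Ψ b) = ρ b := fun b => by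
    have : (RingHom.quotientKerEquivOfSurjective hΨ).symm (Ψ b) = Ideal.Quotient.mk _ b :=
      (RingEquiv.symm_apply_eq _).2 rfl
    simp only [e, RingEquiv.trans_apply, this]
    rfl
  have key : ∀ i, hl (lam.comap ρ) deg (P.map τ) B' i =
      ((FC.ofG hP'.1).map (algebraMap _ (∀ j, GamL T (B j)))).h (lam.comap g)
        ((∀ j, GamL T (B j)) ⧸ Ideal.ofList Δ) i := fun i => by
    refine (hl_transfer lam g ρ e.toAddEquiv (fun r m => ?_) deg _ _ (fun b b' m => ?_) i).symm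
    · change e (Ψ r * m) = ρ r * e m
      rw [map_mul, he]
    · obtain ⟨x, hx⟩ := h.surj (P b b')
      have h3 : Ideal.Quotient.mk (Ideal.ofList Δ)
          (algebraMap (MvPowerSeries (Fin a) T) (∀ j, GamL T (B j)) (C (π x))) =
          Ψ fun j => Θ j x := by
        refine Ideal.Quotient.eq.2 ((hmem _).2 fun j => ?_)
        rw [← hω₁, RingHom.mem_ker, Pi.sub_apply, map_sub, hg, hω₂, sub_eq_zero]
        exact hω₃ j x
      change e (Ideal.Quotient.mk (Ideal.ofList Δ)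
        (algebraMap (MvPowerSeries (Fin a) T) (∀ j, GamL T (B j)) (C (P b b'))) * m) =
          τ (P b b') * e m
      rw [← hx, h3, map_mul, he, hτ]
  refine ⟨fun i => key i ▸ h1 i, ?_⟩
  rw [chiG, funext key]
  exact h2

/-- **Positivity of the lifted diagonal.** -/
theorem posBig : PosBig := by
  intro p _ k _ _ _ d G T _ _ π h 𝔮 h𝔮 m b hb hd ι _ _ deg P hP J B ψ s hL lam h₀ h₀' Λ _ κ hκ hker τ hτ
  let _ : Algebra (WittVector p k) T := (π.comp C).toAlgebra
  have hreg := h.reg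
  have hW : maximalIdeal (WittVector p k) = Ideal.span {(p : WittVector p k)} :=
    (IsDiscreteValuationRing.irreducible_iff_uniformizer _).1 (WittVector.irreducible p)
  have hWc : IsAdicComplete (maximalIdeal (WittVector p k)) (WittVector p k) := by
    rw [hW]; infer_instance
  have hmx : mxPS p k (Fin (m + 1)) = maximalIdeal (PS p k (Fin (m + 1))) := by
    rw [maximalIdeal_ps, hW, Ideal.map_span, Set.image_singleton, map_natCast, mxPS]
  have hof : Ideal.ofList (List.ofFn fun i => π (X i)) = maximalIdeal T := by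
    rw [h.max, Ideal.ofList, sp]
    congr 1
    ext x
    simp [List.mem_ofFn]
  have hS : LSet (p : WittVector p k) ((p : PS p k (Fin d)) - G) π (m + 1) :=
    ⟨inferInstance, inferInstance, hW, isAdicComplete_ps, fun _ => rfl, h.surj, h.ker, h.max,
      (reg_isRegular _ (by rw [List.length_ofFn]; exact h.dim) hof).toIsWeaklyRegular⟩
  have hq : 𝔮 ≤ maximalIdeal T := le_maximalIdeal h𝔮.ne_top
  have : Nontrivial (T ⧸ 𝔮) := Ideal.Quotient.nontrivial_iff.2 h𝔮.ne_top
  have : IsLocalRing (T ⧸ 𝔮) := .of_surjective' _ Ideal.Quotient.mk_surjective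
  have hE : (maximalIdeal T).map (algebraMap T (T ⧸ 𝔮)) = maximalIdeal (T ⧸ 𝔮) :=
    map_maximalIdeal_of_surjective _ Ideal.Quotient.mk_surjective
  have := h.compl
  have : IsAdicComplete (maximalIdeal (T ⧸ 𝔮)) (T ⧸ 𝔮) := hE ▸ complete_of_finite
  obtain ⟨A, _, _, _, xs, hA, hxs, _, hinj⟩ := exists_nn p k (E := T ⧸ 𝔮)
    ((Ideal.Quotient.mk 𝔮).comp (algebraMap (WittVector p k) T))
    (by
      have h1 := Ideal.mem_map_of_mem (algebraMap T (T ⧸ 𝔮)) hS.alg_mem
      rwa [hE, map_natCast, map_natCast] at h1)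
    (fun θ => by
      obtain ⟨t, rfl⟩ := Ideal.Quotient.mk_surjective θ
      obtain ⟨x, rfl⟩ := h.surj t
      refine ⟨constantCoeff x, ?_⟩
      have h1 : x - C (constantCoeff x) ∈ sp (X : Fin d → PS p k (Fin d)) := by
        rw [← ker_constantCoeff, RingHom.mem_ker]
        simp
      have h2 := Ideal.mem_map_of_mem π h1
      rw [ces_map_sp', ← h.max] at h2
      have h3 := Ideal.mem_map_of_mem (algebraMap T (T ⧸ 𝔮)) h2
      rwa [hE, map_sub, map_sub] at h3) hb
  have : Nontrivial (MvPowerSeries (Fin (m + 1)) T ⧸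
      𝔮.map (C : T →+* MvPowerSeries (Fin (m + 1)) T)) := by
    refine Ideal.Quotient.nontrivial_iff.2 (ne_top_of_le_ne_top (maximalIdeal.isMaximal _).ne_top ?_)
    rw [maximalIdeal_ps]
    exact (Ideal.map_mono hq).trans le_sup_left
  have : IsLocalRing (MvPowerSeries (Fin (m + 1)) T ⧸
      𝔮.map (C : T →+* MvPowerSeries (Fin (m + 1)) T)) :=
    .of_surjective' _ Ideal.Quotient.mk_surjective
  have hR := posRing_ps 𝔮 hinj hA (a := m + 1) (Nat.succ_pos m)
  rw [hxs, show b + (m + 1) = d by omega] at hR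
  rw [hmx] at h₀ h₀'
  refine lift_pos_abs hS (by omega) 𝔮 hR hP B ψ (s := s + 1) (Nat.succ_pos s)
    (fun j => ⟨(hL j).const, fun i => ?_, ?_⟩) (fun j => ?_) lam h₀ h₀' κ hκ ?_ τ hτ
  · rw [pow_succ, ← hmx]
    exact Ideal.mul_mem_right _ _ ((hL j).nil i)
  · obtain ⟨u, hu, hu'⟩ := (hL j).unit
    refine Ideal.pow_mem_of_mem _ ?_ _ (Nat.succ_pos s)
    have h1 : (C (p : WittVector p k) : PS p k (Fin (m + 1))) = -xi p k m + X 0 := by
      rw [map_natCast, xi]; ring
    rw [h1, map_add, map_neg]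
    refine Submodule.add_mem_sup (neg_mem ?_) (Ideal.subset_span ⟨0, rfl⟩)
    rw [hu', Ideal.span_singleton_mul_left_unit hu]
    exact Ideal.mem_span_singleton_self _
  · rw [← Ideal.map_pow, ← hmx]
    exact (Ideal.map_mono (Ideal.pow_le_pow_right (Nat.le_succ s))).trans (hL j).fin
  · choose u hu hu' using fun j => (hL j).unit
    have h1 : (fun j => ψ j ((p : PS p k (Fin d)) - G)) =
        u * algebraMap _ (∀ j, (B j).carrier) (xi p k m) := funext hu'
    rw [hker, h1, Ideal.span_singleton_mul_left_unit (Pi.isUnit_iff.2 hu)]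

end Crest.Agent.R188
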