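import Crest.Agent.R188.BAsm4
import Crest.Agent.R188.Pos

/-! Row 188: assembly of parts II–III. -/

set_option autoImplicit false
set_option linter.unusedVariables false

namespace Crest.Agent.R188

open Crest.Agent.R183 IsLocalRing RingTheory.Sequence MvPowerSeries
open scoped ENNReal TensorProduct

section
variable {p : ℕ} [Fact p.Prime] {k : Type} [Field k]

theorem asm_rn_X {σ τ : Type} [Finite σ] (f : σ → τ) (i : σ) : psRn p k f (X i) = X (f i) :=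
  rename_X f i

theorem asm_rn_C {σ τ : Type} [Finite σ] (f : σ → τ) (w : WittVector p k) :
    psRn p k f (C w) = C w :=
  rename_C f w

variable {m : ℕ} {ι : Type} {F : ι → PS p k (Fin (m + 1) ⊕ ι)} {ve : ι} {v : ℕ} {vj : Fin v → ι}
  {l₀ M s : ℕ} {B : Type} [CommRing B] [Algebra (PS p k (Fin (m + 1))) B]
  {ψ : PS p k (Fin (m + 1) ⊕ ι) →+* B} {a : B}

theorem EnvOut.envI_mem (h : EnvOut p k m F ve vj l₀ M s B ψ a) {y : PS p k (Fin (m + 1) ⊕ ι)}
    (hy : y ∈ envI p k m F) :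
    ψ y ∈ Ideal.span {algebraMap (PS p k (Fin (m + 1))) B (xi p k m)} := by
  have : envI p k m F ≤ (Ideal.span {algebraMap (PS p k (Fin (m + 1))) B (xi p k m)}).comap ψ := by
    refine sup_le ((Ideal.span_singleton_le_iff_mem _).2 ?_) (Ideal.span_le.2 ?_)
    · rw [Ideal.mem_comap, h.base]
      exact Ideal.mem_span_singleton_self _
    · rintro _ ⟨i, rfl⟩
      exact h.rel i
  exact this hy

theorem EnvOut.map_inl (h : EnvOut p k m F ve vj l₀ M s B ψ a) (I : Ideal (PS p k (Fin (m + 1)))) :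
    (I.map (psRn p k Sum.inl)).map ψ = I.map (algebraMap (PS p k (Fin (m + 1))) B) := by
  rw [Ideal.map_map]
  congr 1
  exact RingHom.ext h.base

theorem EnvOut.lifted [CharP k p] [PerfectRing k p] (h : EnvOut p k m F ve vj l₀ M s B ψ a) {d : ℕ}
    {G : PS p k (Fin d)} (hG : G ∈ sp (X : Fin d → PS p k (Fin d))) {Q : Ideal (PS p k (Fin d))}
    (hQ : (p : PS p k (Fin d)) - G ∈ Q) (w : Fin d → ι)
    (hf : psRn p k (fun j => Sum.inr (w j)) ((p : PS p k (Fin d)) - G) ∈ envI p k m F) {s₁ s₂ : ℕ}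
    (h₁ : mxPS p k (Fin (m + 1) ⊕ ι) ^ s₁ ≤
      (mxPS p k (Fin (m + 1))).map (psRn p k Sum.inl) ⊔ sp F)
    (h₂ : (mxPS p k (Fin (m + 1)) ^ s₂).map (psRn p k Sum.inl) ≤
      envI p k m F ⊔ Q.map (psRn p k fun j => Sum.inr (w j))) :
    Lifted p k (m := m) G Q (s₁ + s₂) B (ψ.comp (psRn p k fun j => Sum.inr (w j))) := by
  have hxi : Ideal.span {algebraMap (PS p k (Fin (m + 1))) B (xi p k m)} ≤
      (mxPS p k (Fin (m + 1))).map (algebraMap (PS p k (Fin (m + 1))) B) :=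
    (Ideal.span_singleton_le_iff_mem _).2 (Ideal.mem_map_of_mem _ (xi_mem p k m))
  obtain ⟨u, hu, hu'⟩ := h.rigid _ hf (by
    rw [map_sub, map_natCast, sub_sub_cancel]
    have h3 := Ideal.mem_map_of_mem
      (psRn p k fun j => (Sum.inr (w j) : Fin (m + 1) ⊕ ι)) hG
    rw [asm_map_sp] at h3
    refine Ideal.span_mono ?_ h3
    rintro _ ⟨j, rfl⟩
    exact ⟨w j, (asm_rn_X (fun j => (Sum.inr (w j) : Fin (m + 1) ⊕ ι)) j).symm⟩)
  refine ⟨fun c => ?_, fun i => ?_, ⟨u, hu, hu'⟩, ?_⟩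
  · rw [RingHom.comp_apply, asm_rn_C, ← h.base, asm_rn_C]
  · rw [RingHom.comp_apply, asm_rn_X, pow_add, ← map_pow]
    refine Ideal.mul_mem_right _ _ ?_
    have h3 : (X (Sum.inr (w i)) : PS p k (Fin (m + 1) ⊕ ι)) ∈ mxPS p k (Fin (m + 1) ⊕ ι) :=
      Ideal.mem_sup_right (Ideal.subset_span ⟨_, rfl⟩)
    have h4 := Ideal.mem_map_of_mem ψ (h₁ (Ideal.pow_mem_pow h3 s₁))
    rw [Ideal.map_sup, h.map_inl] at h4
    have hle : (mxPS p k (Fin (m + 1))).map (algebraMap (PS p k (Fin (m + 1))) B) ⊔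
        (sp F).map ψ ≤ (mxPS p k (Fin (m + 1))).map (algebraMap (PS p k (Fin (m + 1))) B) :=
      sup_le le_rfl (Ideal.map_le_iff_le_comap.2
        fun y hy => hxi (h.envI_mem (Ideal.mem_sup_right hy)))
    exact hle h4
  · refine (Ideal.map_mono (Ideal.pow_le_pow_right (Nat.le_add_left s₂ s₁))).trans ?_
    rw [← h.map_inl, ← Ideal.map_map]
    refine (Ideal.map_mono h₂).trans ?_
    rw [Ideal.map_sup]
    refine sup_le ?_ le_rfl
    rw [Ideal.map_le_iff_le_comap]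
    intro y hy
    have h3 := h.envI_mem hy
    rw [← Ideal.span_singleton_mul_left_unit hu, ← hu'] at h3
    exact (Ideal.span_singleton_le_iff_mem _).2
      (Ideal.mem_map_of_mem _ (Ideal.mem_map_of_mem _ hQ)) h3

end

/-- positivity of the almost length of the closed fibre. -/
theorem asm_lam0 {p : ℕ} [Fact p.Prime] {k : Type} [Field k] [CharP k p] [PerfectRing k p] {m : ℕ}
    {ι : Type} {F : ι → PS p k (Fin (m + 1) ⊕ ι)} {ve : ι} {v : ℕ} {vj : Fin v → ι} {ν : ℕ}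
    (hnil : ∀ i, (X (Sum.inr ve) * X (Sum.inr (vj i))) ^ ν ∈ envI p k m F)
    {C : Type} [CommRing C] [IsDomain C] [Algebra (Ab p k m) C]
    (hinj : Function.Injective (algebraMap (Ab p k m) C)) (hp : (p : Ab p k m) ≠ 0)
    (κ : PS p k (Fin (m + 1) ⊕ ι) →+* C) (hκ : Function.Surjective κ)
    (hker : RingHom.ker κ = envI p k m F ⊔ sp fun i => X (Sum.inr (vj i)))
    (hbase : ∀ y, κ (psRn p k Sum.inl y) = algebraMap (Ab p k m) C (Ideal.Quotient.mk _ y))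
    (he : κ (X (Sum.inr ve)) ≠ 0) {l₀ : ℕ} (g : Fin l₀ → PS p k (Fin (m + 1) ⊕ ι))
    (hg : ∀ y : PS p k (Fin (m + 1) ⊕ ι), ∃ c : Fin l₀ → PS p k (Fin (m + 1)),
      y - ∑ l, psRn p k Sum.inl (c l) * g l ∈ sp F) :
    ∃ K N₁ : ℕ, ∀ (M s n : ℕ) (B : FFAlg (PS p k (Fin (m + 1))))
      (ψ : PS p k (Fin (m + 1) ⊕ ι) →+* B.carrier) (a : B.carrier),
      EnvOut p k m F ve vj l₀ M s B.carrier ψ a → n * N₁ ≤ s →
      (Module.finrank (PS p k (Fin (m + 1))) B.carrier : ℝ≥0∞) ≤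
        K * ((lenFn (PS p k (Fin (m + 1)))).comap (algebraMap _ B.carrier)).rel
          (Ideal.span {a ^ n})
          ((maximalIdeal (PS p k (Fin (m + 1)))).map (algebraMap _ B.carrier)) := by
  have : IsDomain (Ab p k m) := hinj.isDomain _
  have := ab_local p k m
  let ι₀ : Ab p k m →+* PS p k (Fin (m + 1) ⊕ ι) ⧸ envI p k m F :=
    Ideal.Quotient.lift _ ((Ideal.Quotient.mk _).comp (psRn p k Sum.inl)) fun y hy => by
      obtain ⟨r, rfl⟩ := Ideal.mem_span_singleton'.1 hy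
      rw [RingHom.comp_apply, Ideal.Quotient.eq_zero_iff_mem, map_mul]
      exact Ideal.mul_mem_left _ _ (Ideal.mem_sup_left (Ideal.mem_span_singleton_self _))
  let _ : Algebra (Ab p k m) (PS p k (Fin (m + 1) ⊕ ι) ⧸ envI p k m F) := ι₀.toAlgebra
  have hsm : ∀ (c : PS p k (Fin (m + 1))) (y : PS p k (Fin (m + 1) ⊕ ι)),
      (Ideal.Quotient.mk _ c : Ab p k m) • Ideal.Quotient.mk (envI p k m F) y =
        Ideal.Quotient.mk (envI p k m F) (psRn p k Sum.inl c * y) := fun _ _ => rfl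
  have hspan : Submodule.span (Ab p k m)
      (Set.range fun l => Ideal.Quotient.mk (envI p k m F) (g l)) = ⊤ := by
    refine eq_top_iff.2 fun y _ => ?_
    obtain ⟨y, rfl⟩ := Ideal.Quotient.mk_surjective y
    obtain ⟨c, hc⟩ := hg y
    refine (Submodule.mem_span_range_iff_exists_fun _).2 ⟨fun l => Ideal.Quotient.mk _ (c l), ?_⟩
    simp only [hsm]
    rw [← map_sum]
    exact (Ideal.Quotient.eq.2 (Ideal.mem_sup_right hc)).symm
  have : Module.Finite (Ab p k m) (PS p k (Fin (m + 1) ⊕ ι) ⧸ envI p k m F) :=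
    ⟨hspan ▸ Submodule.fg_span (Set.finite_range _)⟩
  let κ₀ : (PS p k (Fin (m + 1) ⊕ ι) ⧸ envI p k m F) →ₐ[Ab p k m] C :=
    { Ideal.Quotient.lift (envI p k m F) κ fun y hy =>
        (RingHom.mem_ker).1 (hker ▸ Ideal.mem_sup_left hy) with
      commutes' := fun c => by
        obtain ⟨c, rfl⟩ := Ideal.Quotient.mk_surjective c
        exact hbase c }
  have hκ₀ : ∀ y, κ₀ (Ideal.Quotient.mk _ y) = κ y := fun _ => rfl
  obtain ⟨N, γ, c, hN, hγ, hc, htf⟩ := exists_fitting hinj κ₀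
    (fun z => (hκ z).elim fun y hy => ⟨Ideal.Quotient.mk _ y, hy⟩)
    (e := Ideal.Quotient.mk _ (X (Sum.inr ve))) he fun y hy => by
      obtain ⟨y, rfl⟩ := Ideal.Quotient.mk_surjective y
      have h1 : y ∈ envI p k m F ⊔ sp fun i => X (Sum.inr (vj i)) := hker ▸ hy
      obtain ⟨y₁, hy₁, y₂, hy₂, rfl⟩ := Submodule.mem_sup.1 h1
      obtain ⟨r, rfl⟩ := Ideal.mem_span_range_iff_exists_fun.1 hy₂
      rw [map_add, Ideal.Quotient.eq_zero_iff_mem.2 hy₁, zero_add, map_sum, Finset.mul_sum]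
      refine mem_nilradical.1 (Ideal.sum_mem _ fun i _ => ?_)
      rw [map_mul, mul_left_comm]
      refine Ideal.mul_mem_left _ _ (mem_nilradical.2 ⟨ν, ?_⟩)
      rw [← map_mul, ← map_pow]
      exact Ideal.Quotient.eq_zero_iff_mem.2 (hnil i)
  have hA : RegSys (Ab p k m)
      (List.ofFn fun i : Fin (m + 1) => (Ideal.Quotient.mk _ (X i) : Ab p k m)) :=
    ⟨inferInstance, inferInstance, by
      rw [← ab_max p k m, Ideal.ofList, sp]
      congr 1
      ext x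
      simp only [List.mem_ofFn, Set.mem_range, Set.mem_ofPred_eq], by
      simpa only [pow_one] using ab_wreg p k m 1 le_rfl⟩
  obtain ⟨N₁, hN₁⟩ := exists_not_integral hA (by simp) hγ
  rw [← ab_map_max p k m, asm_mx_sp] at hN₁
  refine ⟨l₀ * bn (m + 1 + 1) N₁, N₁, fun M s n B ψ a h hs => ?_⟩
  have hξ : (Ideal.span {xi p k m}).map (algebraMap _ B.carrier) =
      Ideal.span {algebraMap (PS p k (Fin (m + 1))) B.carrier (xi p k m)} := by
    rw [Ideal.map_span, Set.image_singleton]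
  let ψ₀ : (PS p k (Fin (m + 1) ⊕ ι) ⧸ envI p k m F) →ₐ[Ab p k m]
      B.carrier ⧸ (Ideal.span {xi p k m}).map (algebraMap _ B.carrier) :=
    { Ideal.Quotient.lift (envI p k m F) ((Ideal.Quotient.mk _).comp ψ) fun y hy =>
        Ideal.Quotient.eq_zero_iff_mem.2 (hξ ▸ h.envI_mem hy) with
      commutes' := fun c => by
        obtain ⟨c, rfl⟩ := Ideal.Quotient.mk_surjective c
        exact congrArg (Ideal.Quotient.mk _) (h.base c) }
  have hψ₀ : ∀ y, ψ₀ (Ideal.Quotient.mk _ y) = Ideal.Quotient.mk _ (ψ y) := fun _ => rfl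
  obtain ⟨D, b, hD, hb⟩ := h.gen
  rw [← asm_mx, asm_mx_sp]
  refine asm_level (wpar p k (m + 1)) _ hspan hN hc htf hN₁ B ψ₀
    (fun l => Ideal.Quotient.mk _ (b l)) hD (fun z => ?_) ?_
  · obtain ⟨z, rfl⟩ := Ideal.Quotient.mk_surjective z
    obtain ⟨n', c', hc'⟩ := hb z
    refine ⟨(p : Ab p k m) ^ n', pow_ne_zero _ hp, fun l => Ideal.Quotient.mk _ (c' l), ?_⟩
    simp only [hψ₀]
    rw [Algebra.smul_def, map_pow, map_natCast, ← hξ] at *
    have h1 := Ideal.Quotient.eq.2 hc'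
    rw [map_mul, map_pow, map_natCast, map_sum] at h1
    simpa only [map_mul] using h1
  · rw [hψ₀, ← map_pow, ← pow_mul]
    exact map_dvd _ ((pow_dvd_pow a hs).trans h.root)

theorem corePos_of (hE : EnvStmt) (hG : GeoStmt) (hC : CmpStmt) : CorePos := by
  intro p _ k _ _ _ d G T _ _ π h hes 𝔭 𝔮 h𝔭 h𝔮 hp hmeet a b ha hb hab ι _ _ deg P hP
  classical
  obtain ⟨m, rfl, ⟨Γ⟩⟩ := hG p k d G T π h 𝔭 𝔮 h𝔭 h𝔮 hp hmeet a b ha hb hab
  let _ := Γ.algD
  let _ := Γ.crC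
  let _ := Γ.algC
  let _ := Γ.finι
  have := Γ.finD
  have := Γ.domC
  have := h.reg
  have := ab_local p k m
  obtain ⟨l₀, g, hg, hlev⟩ := hE p k m Γ.ι Γ.F Γ.ci Γ.ve Γ.v Γ.vj Γ.ν Γ.nil
  choose B ψ a hout using fun j => hlev j j
  have hp' : (p : Ab p k m) ≠ 0 := fun h0 => hp (by
    have h1 := congrArg (algebraMap (Ab p k m) (T ⧸ 𝔭)) h0
    rw [map_natCast, map_zero, ← map_natCast (Ideal.Quotient.mk 𝔭)] at h1
    exact Ideal.Quotient.eq_zero_iff_mem.1 h1)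
  obtain ⟨K, N₁, hK⟩ :=
    asm_lam0 Γ.nil Γ.injC hp' Γ.κ Γ.κ_surj Γ.κ_ker Γ.κ_base Γ.κ_e g hg
  let U : Ultrafilter ℕ := Ultrafilter.of Filter.atTop
  have hU : ∀ N : ℕ, ∀ᶠ j in U, N ≤ j := fun N =>
    (Ultrafilter.of_le Filter.atTop) (Filter.eventually_ge_atTop N)
  have h₀ := alen_q_ne_zero U B a (K := K) fun n =>
    (hU (n * N₁)).mono fun j hj => hK j j n (B j) (ψ j) (a j) (hout j) hj
  have h₀' := alen_q_ne_top U B a
  rw [← asm_mx] at h₀ h₀'
  set lam := alen U B a with hlam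
  have hflat : Module.Flat (PS p k (Fin (m + 1))) (∀ j, (B j).carrier) := flat_pi _
  set 𝔵 : Ideal (∀ j, (B j).carrier) := (Ideal.span {xi p k m}).map (algebraMap _ _) with h𝔵
  have hflat' : Module.Flat (Ab p k m) ((∀ j, (B j).carrier) ⧸ 𝔵) := flat_quot _
  have hξ : 𝔵 = Ideal.span {algebraMap (PS p k (Fin (m + 1))) (∀ j, (B j).carrier) (xi p k m)} := by
    rw [h𝔵, Ideal.map_span, Set.image_singleton]
  have hξ' : ∀ y : ∀ j, (B j).carrier, (∀ j, y j ∈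
      Ideal.span {algebraMap (PS p k (Fin (m + 1))) (B j).carrier (xi p k m)}) → y ∈ 𝔵 := by
    intro y hy
    choose c hc using fun j => Ideal.mem_span_singleton'.1 (hy j)
    rw [hξ]
    exact Ideal.mem_span_singleton'.2 ⟨c, funext hc⟩
  let Ψ : PS p k (Fin (m + 1) ⊕ Γ.ι) →+* (∀ j, (B j).carrier) ⧸ 𝔵 :=
    (Ideal.Quotient.mk 𝔵).comp (RingHom.pi ψ)
  have hΨ : ∀ y, Ψ y = Ideal.Quotient.mk 𝔵 fun j => ψ j y := fun _ => rfl
  have hΨe : ∀ y ∈ envI p k m Γ.F, Ψ y = 0 := fun y hy =>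
    Ideal.Quotient.eq_zero_iff_mem.2 (hξ' _ fun j => (hout j).envI_mem hy)
  have hΨb : ∀ y, Ψ (psRn p k Sum.inl y) =
      algebraMap (Ab p k m) ((∀ j, (B j).carrier) ⧸ 𝔵) (Ideal.Quotient.mk _ y) := fun y =>
    congrArg (Ideal.Quotient.mk 𝔵) (funext fun j => (hout j).base y)
  let 𝔍 : Ideal ((∀ j, (B j).carrier) ⧸ 𝔵) := sp fun i => Ψ (X (Sum.inr (Γ.vj i)))
  have hω : RingHom.ker Γ.κ ≤ RingHom.ker ((Ideal.Quotient.mk 𝔍).comp Ψ) := by
    rw [Γ.κ_ker]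
    refine sup_le (fun y hy => ?_) (Ideal.span_le.2 ?_)
    · rw [RingHom.mem_ker, RingHom.comp_apply, hΨe y hy, map_zero]
    · rintro _ ⟨i, rfl⟩
      exact Ideal.Quotient.eq_zero_iff_mem.2 (Ideal.subset_span ⟨i, rfl⟩)
  let ω₀ := Γ.κ.liftOfSurjective Γ.κ_surj ⟨_, hω⟩
  have hω₀ : ∀ y, ω₀ (Γ.κ y) = Ideal.Quotient.mk 𝔍 (Ψ y) := fun y =>
    RingHom.liftOfRightInverse_comp_apply _ _ _ _ y
  let ω : Γ.C →ₐ[Ab p k m] ((∀ j, (B j).carrier) ⧸ 𝔵) ⧸ 𝔍 :=
    { ω₀ with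
      commutes' := fun c => by
        obtain ⟨c, rfl⟩ := Ideal.Quotient.mk_surjective c
        change ω₀ _ = _
        rw [← Γ.κ_base, hω₀, hΨb]
        rfl }
  have hτ : ∀ i, RingHom.ker π ≤
      RingHom.ker (Ψ.comp (psRn p k fun j => Sum.inr (Γ.w i j))) := fun i => by
    rw [h.ker, Ideal.span_singleton_le_iff_mem]
    exact hΨe _ (Γ.f_mem i)
  let τ : Fin Γ.r → (T →+* (∀ j, (B j).carrier) ⧸ 𝔵) := fun i =>
    π.liftOfSurjective h.surj ⟨_, hτ i⟩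
  have hτ' : ∀ i y, τ i (π y) = Ψ (psRn p k (fun j => Sum.inr (Γ.w i j)) y) := fun i y =>
    RingHom.liftOfRightInverse_comp_apply _ _ _ _ y
  have hq : (lam.comap (Ideal.Quotient.mk 𝔵)).q ((maximalIdeal (Ab p k m)).map
      (algebraMap (Ab p k m) ((∀ j, (B j).carrier) ⧸ 𝔵))) =
      lam.q ((mxPS p k (Fin (m + 1))).map (algebraMap _ (∀ j, (B j).carrier))) := by
    have h1 : 𝔵 ≤ (mxPS p k (Fin (m + 1))).map (algebraMap _ (∀ j, (B j).carrier)) :=
      Ideal.map_mono ((Ideal.span_singleton_le_iff_mem _).2 (xi_mem p k m))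
    conv_rhs => rw [← sup_eq_right.2 h1, ← LenFn.comap_mk_q]
    rw [← ab_map_max p k m, Ideal.map_map, Ideal.map_map]
    rfl
  obtain ⟨s₁, hs₁⟩ := Γ.ci.prim
  obtain ⟨s₂, hs₂⟩ := Γ.fin₂
  have hfQ : (p : PS p k (Fin d)) - G ∈ 𝔮.comap π := by
    have : π ((p : PS p k (Fin d)) - G) = 0 :=
      RingHom.mem_ker.1 (h.ker ▸ Ideal.mem_span_singleton_self _)
    rw [Ideal.mem_comap, this]
    exact zero_mem _
  refine hC p T d h.dim hes 𝔭 𝔮 h𝔭 hmeet h𝔮.ne_top m b ha hb hab ι deg P hP (Ab p k m)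
    (fun i => Ideal.Quotient.mk _ (X i)) (ab_max p k m) (ab_x_zero p k m) (ab_wreg p k m) Γ.injD
    (fun i => ?_) (fun y => ?_) Γ.C Γ.r Γ.r_pos Γ.fl _ (lam.comap (Ideal.Quotient.mk 𝔵))
    (hq ▸ h₀) (hq ▸ h₀') 𝔍 ω τ (fun i y => ?_) (fun N => ?_) (fun i => ⟨s₂, ?_⟩) fun i => ?_
  · have h1 := Γ.locD i
    rwa [← h.max] at h1
  · obtain ⟨t, rfl⟩ := Ideal.Quotient.mk_surjective y
    obtain ⟨x, rfl⟩ := h.surj t
    refine ⟨Ideal.Quotient.mk _ (C (constantCoeff x)), ?_⟩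
    have h1 : x - C (constantCoeff x) ∈ sp (X : Fin d → PS p k (Fin d)) := by
      rw [← ker_constantCoeff, RingHom.mem_ker]
      simp
    have h2 := Ideal.mem_map_of_mem π h1
    rw [asm_map_sp, ← h.max] at h2
    have h3 := Ideal.mem_map_of_mem (Ideal.Quotient.mk 𝔭) h2
    rwa [map_sub, map_sub, ← Γ.constD] at h3
  · obtain ⟨x, rfl⟩ := h.surj y
    rw [hτ', ← Γ.κ_w]
    exact (hω₀ _).symm
  · let α : ∀ j, (B j).carrier := fun j => if N ≤ j then a j else 0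
    refine ⟨Ideal.Quotient.mk 𝔵 α,
      (alen_kills U B a ((hU N).mono fun j hj => if_pos hj)).comap _, fun y hy => ?_⟩
    obtain ⟨r, rfl⟩ := Ideal.mem_span_range_iff_exists_fun.1 hy
    rw [Finset.mul_sum]
    refine Ideal.sum_mem _ fun i _ => ?_
    rw [mul_left_comm]
    refine Ideal.mul_mem_left _ _ ?_
    have h1 : ∀ j, ∃ c : (B j).carrier, α j * ψ j (X (Sum.inr (Γ.vj i))) - c * (p : (B j).carrier) ^ N ∈
        Ideal.span {algebraMap (PS p k (Fin (m + 1))) (B j).carrier (xi p k m)} := fun j => by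
      by_cases hj : N ≤ j
      · obtain ⟨u, hu, z, hz, huz⟩ := Submodule.mem_sup.1 ((hout j).kill i)
        obtain ⟨c, rfl⟩ := Ideal.mem_span_singleton'.1 hu
        obtain ⟨n, rfl⟩ := Nat.exists_eq_add_of_le' hj
        refine ⟨c * (p : (B (n + N)).carrier) ^ n, ?_⟩
        simp only [α, if_pos hj]
        rw [← huz, mul_assoc, ← pow_add, add_sub_cancel_left]
        exact hz
      · refine ⟨0, ?_⟩
        simp only [α, if_neg hj, zero_mul, sub_self]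
        exact zero_mem _
    choose c hc using h1
    refine Ideal.mem_span_singleton'.2 ⟨Ideal.Quotient.mk 𝔵 c, ?_⟩
    rw [hΨ, ← map_mul, ← map_natCast (Ideal.Quotient.mk 𝔵), ← map_pow, ← map_mul]
    exact (Ideal.Quotient.eq.2 (hξ' _ hc)).symm
  · have h1 : (p : PS p k (Fin (m + 1))) ∈ mxPS p k (Fin (m + 1)) :=
      Ideal.mem_sup_left (Ideal.mem_span_singleton_self _)
    have h2 := Ideal.mem_map_of_mem Ψ
      (hs₂ i (Ideal.mem_map_of_mem _ (Ideal.pow_mem_pow h1 s₂)))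
    rw [map_pow, map_pow, map_natCast, map_natCast, Ideal.map_sup] at h2
    refine SetLike.le_def.1 (sup_le (Ideal.map_le_iff_le_comap.2 fun y hy => ?_) ?_) h2
    · rw [Ideal.mem_comap, hΨe y hy]
      exact zero_mem _
    · rw [Ideal.map_map, Ideal.map_le_iff_le_comap]
      intro y hy
      rw [Ideal.mem_comap, RingHom.comp_apply, ← hτ']
      exact Ideal.mem_map_of_mem _ hy
  · exact (posBig p k d G T π h 𝔮 h𝔮 m b hb hab ι deg P hP ℕ B
      (fun j => (ψ j).comp (psRn p k fun l => Sum.inr (Γ.w i l))) (s₁ + s₂)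
      (fun j => (hout j).lifted h.G_mem hfQ (Γ.w i) (Γ.f_mem i) hs₁ (hs₂ i)) lam h₀ h₀' _
      (Ideal.Quotient.mk 𝔵) Ideal.Quotient.mk_surjective (by rw [Ideal.mk_ker, hξ]) (τ i)
      (hτ' i)).2

end Crest.Agent.R188
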