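import Crest.Agent.R188.PosR

/-! Row 188, assembly of parts II–III: a non-zero element is not integral over high powers of the maximal ideal. -/

set_option autoImplicit false
set_option linter.unusedVariables false

namespace Crest.Agent.R188

open Crest.Agent.R183 IsLocalRing RingTheory.Sequence
open scoped ENNReal TensorProduct

/-- Let `u'`, `e'` be given by `exists_params` (`c = γ`), `C = ℓ(A / (γ, u'))` (finite), `s` by
`growth_of_finite` (`R = A`).  If `γ ^ K ∈ 𝔪 ^ n` then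
`hs n = ℓ(A / (𝔪 ^ n, γ ^ K)) ≤ K ℓ(A / (γ, (u') ^ n)) ≤ K (n + 1) ^ d C` (`Len2A_q_one`, `q_pow_le` for
`z = u'.get`, `bn_le`).  Take `N = s M`, `M = 2 ^ (2 d + 2) s ^ (d + 1) C + 2`, `k = n₀ + 1`, `n = N k`,
and compare with `(M k - 1) ^ (d + 1) ≤ s hs (s M k)`. -/
theorem exists_not_integral {A : Type} [CommRing A] [IsLocalRing A] {xs : List A} (hA : RegSys A xs)
    (hd : 1 ≤ xs.length) {γ : A} (hγ : γ ≠ 0) :
    ∃ N : ℕ, ∀ n₀ : ℕ, ∃ k : ℕ, γ ^ (n₀ + k) ∉ (maximalIdeal A ^ N) ^ k := by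
  have := hA.noeth
  have := hA.dom
  obtain ⟨d, hd'⟩ : ∃ d, xs.length = d + 1 := ⟨xs.length - 1, by omega⟩
  obtain ⟨u', e', hl', hm', he'⟩ := exists_params hd' (fun x hx => hA.max ▸ Ideal.subset_span hx)
    (e := 1) (by rw [pow_one, hA.max]) (mem_nonZeroDivisors_of_ne_zero hγ)
  subst hl'
  obtain ⟨s, hs1, hs⟩ := growth_of_finite (A := A) (R := A) Function.injective_id hA
  obtain ⟨C, hC⟩ := ENNReal.exists_nat_gt (hs_ne_top A (IsNoetherian.noetherian _) e')
  have hq : (lenFn A).q (Ideal.span {γ} ⊔ sp u'.get) ≤ C := by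
    refine le_trans ((lenFn A).q_anti (he'.trans (Ideal.span_le.2 fun x hx => ?_))) hC.le
    rcases List.mem_append.1 hx with hx | hx
    · obtain ⟨i, rfl⟩ := List.mem_iff_get.1 hx
      exact Ideal.mem_sup_right (Ideal.subset_span ⟨i, rfl⟩)
    · rw [List.mem_singleton.1 hx]
      exact Ideal.mem_sup_left (Ideal.mem_span_singleton_self _)
  have hu : sp u'.get ≤ maximalIdeal A :=
    Ideal.span_le.2 (by rintro _ ⟨i, rfl⟩; exact hm' _ (List.get_mem _ i))
  set d := u'.length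
  set L := 2 * s * C * (2 * (s + 1)) ^ d with hL
  refine ⟨s * (L + 2), fun n₀ => ⟨n₀ + 1, fun h => ?_⟩⟩
  rw [← pow_mul] at h
  obtain ⟨t, ht⟩ : ∃ t, (L + 2) * (n₀ + 1) = t + 1 := ⟨(L + 2) * (n₀ + 1) - 1, by
    have : 0 < (L + 2) * (n₀ + 1) := by positivity
    omega⟩
  have hn : s * (L + 2) * (n₀ + 1) = s * t + s := by rw [mul_assoc, ht, mul_add, mul_one]
  rw [hn] at h
  have h1 : R183.hs A (s * t + s) ≤
      ((n₀ + (n₀ + 1) : ℕ) : ℝ≥0∞) * (((s * t + s + 1) ^ d : ℕ) * C) := by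
    refine le_trans ((lenFn A).q_anti (I := sp u'.get ^ (s * t + s) ⊔
      Ideal.span {γ ^ (n₀ + (n₀ + 1))}) (sup_le (Ideal.pow_right_mono hu _)
        ((Ideal.span_singleton_le_iff_mem _).2 h))) ?_
    refine ((lenFn A).Len2A_q_one _ _ _).trans (mul_le_mul_right ?_ _)
    rw [sup_comm]
    exact ((lenFn A).q_pow_le _ _ _).trans (mul_le_mul' (Nat.cast_le.2 (bn_le _ _)) hq)
  have h2 := (hs t).trans (mul_le_mul_right h1 _)
  rw [hd'] at h2
  have h3 : t ^ (d + 1) ≤ s * ((n₀ + (n₀ + 1)) * ((s * t + s + 1) ^ d * C)) := by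
    exact_mod_cast h2
  have ht1 : L * (n₀ + 1) < t := by nlinarith
  have ht0 : 0 < t := by omega
  have h4 : (s * t + s + 1) ^ d ≤ (2 * (s + 1)) ^ d * t ^ d := by
    rw [← mul_pow]
    exact Nat.pow_le_pow_left (by nlinarith) d
  have h5 : t ^ d * t ≤ t ^ d * (L * (n₀ + 1)) := by
    rw [← pow_succ]
    refine h3.trans ((Nat.mul_le_mul_left s (Nat.mul_le_mul (show _ ≤ 2 * (n₀ + 1) by omega)
      (Nat.mul_le_mul_right C h4))).trans (le_of_eq ?_))
    rw [hL]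
    ring
  exact absurd (Nat.le_of_mul_le_mul_left h5 (by positivity)) (by omega)

end Crest.Agent.R188
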