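import Crest.Agent.R188.PosDefs

/-! Row 188, assembly of parts II–III: rank versus length. -/

set_option autoImplicit false
set_option linter.unusedVariables false

namespace Crest.Agent.R188

open Crest.Agent.R183 IsLocalRing RingTheory.Sequence
open scoped ENNReal TensorProduct

theorem BAsm2_gen {A : Type} [CommRing A] (s : ℕ) : ∀ (N : Type) [AddCommGroup N] [Module A N],
    Module.length A N ≤ s → ∃ x : Fin s → N, Submodule.span A (Set.range x) = ⊤ := by
  induction s with
  | zero =>
    intro N _ _ h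
    have : Subsingleton N := Module.length_eq_zero_iff.1 (by simpa using h)
    exact ⟨fun _ => 0, Subsingleton.elim _ _⟩
  | succ s ih =>
    intro N _ _ h
    rcases subsingleton_or_nontrivial N with hN | hN
    · exact ⟨fun _ => 0, Subsingleton.elim _ _⟩
    obtain ⟨y, hy⟩ := exists_ne (0 : N)
    set W : Submodule A N := Submodule.span A {y} with hW
    have h1 := Module.length_eq_add_of_exact W.subtype W.mkQ W.subtype_injective W.mkQ_surjective
      (LinearMap.exact_subtype_mkQ W)
    have hnt : Nontrivial W := ⟨⟨y, Submodule.mem_span_singleton_self y⟩, 0, fun e =>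
      hy (congrArg Subtype.val e)⟩
    have h2 : 1 ≤ Module.length A W := Order.one_le_iff_pos.2 Module.length_pos
    have h3 : Module.length A (N ⧸ W) + 1 ≤ s + 1 := by
      calc Module.length A (N ⧸ W) + 1 ≤ Module.length A (N ⧸ W) + Module.length A W := by gcongr
        _ = Module.length A N := by rw [h1, add_comm]
        _ ≤ _ := by exact_mod_cast h
    obtain ⟨x', hx'⟩ := ih (N ⧸ W) ((ENat.add_le_add_iff_right ENat.one_ne_top).1 h3)
    choose x hx using fun i => W.mkQ_surjective (x' i)
    refine ⟨Fin.cons y x, ?_⟩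
    rw [Fin.range_cons, Submodule.span_insert, ← hW, ← Submodule.map_mkQ_eq_top,
      Submodule.map_span, ← Set.range_comp, ← hx']
    congr 2
    exact funext hx

/-- a module of length `s` is generated by `s` elements (induction on the length). -/
theorem gen_of_length {A N : Type} [CommRing A] [AddCommGroup N] [Module A N] {s : ℕ}
    (h : Module.length A N = s) : ∃ x : Fin s → N, Submodule.span A (Set.range x) = ⊤ := by
  exact BAsm2_gen s N h.le

/-- determinant trick
(`LinearMap.exists_monic_and_coeff_mem_pow_and_aeval_eq_zero_of_range_le_smul` for `γ • id`; a finite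
module of positive rank over a domain is faithful; from `γ ^ n = - ∑_{i < n} a_i γ ^ i`,
`a_i ∈ I ^ (n - i)` get `γ ^ (n + k) ∈ I ^ k` by strong induction on `k`). -/
theorem integral_of_smul_le {A Q : Type} [CommRing A] [IsDomain A] [AddCommGroup Q] [Module A Q]
    [Module.Finite A Q] (hQ : 0 < Module.finrank A Q) (I : Ideal A) {γ : A}
    (h : ∀ y : Q, γ • y ∈ (I • ⊤ : Submodule A Q)) : ∃ n₀ : ℕ, ∀ k : ℕ, γ ^ (n₀ + k) ∈ I ^ k := by
  obtain ⟨p, hp, -, hc, h0⟩ :=
    LinearMap.exists_monic_and_natDegree_eq_and_coeff_mem_pow_and_aeval_eq_zero A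
      (algebraMap A (Module.End A Q) γ) I (by rintro _ ⟨y, rfl⟩; exact h y)
  have h1 : p.eval γ = 0 := by
    by_contra hne
    refine hQ.ne' (Module.finrank_eq_zero_iff.2 fun y => ⟨p.eval γ, hne, ?_⟩)
    rw [Polynomial.aeval_algebraMap_apply, Polynomial.coe_aeval_eq_eval] at h0
    exact congrArg (fun f : Module.End A Q => f y) h0
  rw [Polynomial.eval_eq_sum_range, Finset.sum_range_succ, hp.coeff_natDegree, one_mul] at h1
  refine ⟨p.natDegree, fun k => ?_⟩
  induction k using Nat.strong_induction_on with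
  | _ k ih =>
    rw [pow_add, eq_neg_of_add_eq_zero_right h1, neg_mul, Finset.sum_mul]
    refine neg_mem (Ideal.sum_mem _ fun i hi => ?_)
    have hi' := Finset.mem_range.1 hi
    rw [mul_assoc, ← pow_add]
    by_cases hk : p.natDegree ≤ i + k
    · have e1 : i + k = p.natDegree + (i + k - p.natDegree) := by omega
      have e2 : k = (p.natDegree - i) + (i + k - p.natDegree) := by omega
      have := Ideal.mul_mem_mul (hc i) (ih (i + k - p.natDegree) (by omega))
      rwa [← pow_add I, ← e1, ← e2] at this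
    · exact Ideal.mul_mem_right _ _ (Ideal.pow_le_pow_right (by omega) (hc i))

/-- Suppose `s = ℓ(P / (P ⊓ I M)) < rank P`.  Choose `x₁, …, x_s ∈ P` with `P = (P ⊓ I M) + (x)`
(`gen_of_length`, `rel_eq_quot`) and put `Q = P / (x)`, of positive rank.  For `y ∈ P ⊓ I M`,
`γ y = θ y ∈ I P`; so `γ Q ≤ I Q`, contradicting `integral_of_smul_le`. -/
theorem rank_le_rel {A M : Type} [CommRing A] [IsDomain A] [IsNoetherianRing A] [AddCommGroup M]
    [Module A M] [Module.Finite A M] (I : Ideal A) {γ : A}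
    (hγ : ∀ n₀ : ℕ, ∃ k : ℕ, γ ^ (n₀ + k) ∉ I ^ k) (P : Submodule A M) (θ : M →ₗ[A] M)
    (h₁ : ∀ y, θ y ∈ P) (h₂ : ∀ y ∈ P, θ y = γ • y) :
    (Module.finrank A P : ℝ≥0∞) ≤ (lenFn A).rel P (I • ⊤) := by
  by_contra hlt
  rw [not_le, LenFn.rel_eq_quot] at hlt
  set U : Submodule A P := (I • ⊤ : Submodule A M).comap P.subtype with hU
  have hlt' : Module.length A (P ⧸ U) < (Module.finrank A P : ℕ∞) := by
    have : ((Module.length A (P ⧸ U) : ℕ∞) : ℝ≥0∞) < ((Module.finrank A P : ℕ∞) : ℝ≥0∞) := hlt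
    exact ENat.toENNReal_lt.1 this
  obtain ⟨s, hs⟩ := ENat.ne_top_iff_exists.1 hlt'.ne_top
  rw [← hs, Nat.cast_lt] at hlt'
  obtain ⟨x', hx'⟩ := gen_of_length hs.symm
  choose x hx using fun i => U.mkQ_surjective (x' i)
  set W : Submodule A P := Submodule.span A (Set.range x) with hW
  have hUW : U ⊔ W = ⊤ := by
    rw [← Submodule.map_mkQ_eq_top, hW, Submodule.map_span, ← Set.range_comp, ← hx']
    congr 2
    exact funext hx
  have h3 := W.finrank_quotient_add_finrank
  have h4 : Module.finrank A W ≤ s := by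
    exact (finrank_range_le_card (R := A) x).trans_eq (Fintype.card_fin s)
  obtain ⟨n₀, hn⟩ := integral_of_smul_le (A := A) (Q := P ⧸ W) (by omega) I (γ := γ) fun y => by
    obtain ⟨y, rfl⟩ := W.mkQ_surjective y
    obtain ⟨u, hu, w, hw, rfl⟩ := Submodule.mem_sup.1 (hUW ▸ Submodule.mem_top : y ∈ U ⊔ W)
    have e1 : W.mkQ w = 0 := (Submodule.Quotient.mk_eq_zero W).2 hw
    have e2 : γ • u = θ.codRestrict P h₁ u := Subtype.ext (h₂ u u.2).symm
    rw [map_add, e1, add_zero, ← map_smul, e2]
    have h5 := Submodule.mem_map_of_mem (f := W.mkQ ∘ₗ θ.codRestrict P h₁)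
      (show (u : M) ∈ (I • ⊤ : Submodule A M) from hu)
    rw [Submodule.map_smul'' I] at h5
    exact Submodule.smul_mono le_rfl le_top h5
  obtain ⟨k, hk⟩ := hγ n₀
  exact hk (hn k)

/-- Let `Φ : (Fin D → R) → M`, `c ↦ ∑ c_l • b_l`.  Its cokernel is torsion, so
`rank M = rank (range Φ) ≤ D rank R ≤ D l₀ ≤ rank M`, hence `rank (ker Φ) = 0`.  The map
`A ^ D → R ^ D → M`, `t ↦ Φ (t_l ε)` is then injective (`ε` is not torsion), with image in `ε M`. -/
theorem rank_ge_of_gen {A R M : Type} [CommRing A] [IsDomain A] [IsNoetherianRing A] [CommRing R]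
    [Algebra A R] [AddCommGroup M] [Module A M] [Module R M] [IsScalarTower A R M]
    [Module.Finite A M] {l₀ D : ℕ} (g : Fin l₀ → R) (hg : Submodule.span A (Set.range g) = ⊤)
    (b : Fin D → M) (hb : ∀ y : M, ∃ t : A, t ≠ 0 ∧ ∃ c : Fin D → R, t • y = ∑ l, c l • b l)
    (hD : D * l₀ ≤ Module.finrank A M) {ε : R} (hε : ∀ t : A, t • ε = 0 → t = 0) :
    Module.finrank A M ≤
      l₀ * Module.finrank A ((LinearMap.range (LinearMap.lsmul R M ε)).restrictScalars A) := by
  have hR : Module.Finite A R := ⟨hg ▸ Submodule.fg_span (Set.finite_range g)⟩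
  let Φ : (Fin D → R) →ₗ[A] M := (Fintype.linearCombination R b).restrictScalars A
  have hΦ : ∀ c, Φ c = ∑ l, c l • b l := fun c => Fintype.linearCombination_apply R b c
  have h1 : Module.finrank A (Fin D → R) ≤ D * l₀ := by
    have hs : Function.Surjective (Fintype.linearCombination A g) := by
      rw [← LinearMap.range_eq_top, Fintype.range_linearCombination, hg]
    have := LinearMap.finrank_le_finrank_of_surjective
      (f := (Fintype.linearCombination A g).compLeft (Fin D)) fun c => by
        choose t ht using fun l => hs (c l)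
        exact ⟨t, funext ht⟩
    simpa [Module.finrank_pi_fintype] using this
  have h2 : Module.finrank A (M ⧸ LinearMap.range Φ) = 0 :=
    Module.finrank_eq_zero_iff.2 fun y => by
      obtain ⟨y, rfl⟩ := (LinearMap.range Φ).mkQ_surjective y
      obtain ⟨t, ht, c, hc⟩ := hb y
      refine ⟨t, ht, ?_⟩
      rw [← map_smul]
      exact (Submodule.Quotient.mk_eq_zero _).2 ⟨c, (hΦ c).trans hc.symm⟩
  have h3 := (LinearMap.range Φ).finrank_quotient_add_finrank
  have h4 := (LinearMap.ker Φ).finrank_quotient_add_finrank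
  rw [LinearEquiv.finrank_eq Φ.quotKerEquivRange] at h4
  have h5 : Module.finrank A (LinearMap.ker Φ) = 0 := by omega
  let T : (Fin D → A) →ₗ[A] (LinearMap.range (LinearMap.lsmul R M ε)).restrictScalars A :=
    (((LinearMap.lsmul R M ε).restrictScalars A) ∘ₗ Fintype.linearCombination A b).codRestrict _
      fun t => ⟨_, rfl⟩
  have hT : Function.Injective T := by
    rw [injective_iff_map_eq_zero]
    intro t ht
    have h6 : ε • Fintype.linearCombination A b t = 0 := congrArg Subtype.val ht
    have h7 : Φ (fun l => t l • ε) = 0 := by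
      rw [hΦ, ← h6, Fintype.linearCombination_apply, Finset.smul_sum]
      exact Finset.sum_congr rfl fun l _ => by rw [smul_assoc, smul_comm]
    obtain ⟨a, ha, ha'⟩ := Module.finrank_eq_zero_iff.1 h5 ⟨_, h7⟩
    funext l
    have h8 : a • t l • ε = 0 := congrFun (congrArg Subtype.val ha') l
    rw [smul_smul] at h8
    exact (mul_eq_zero.1 (hε _ h8)).resolve_left ha
  have h9 := LinearMap.finrank_le_finrank_of_injective hT
  rw [Module.finrank_fin_fun] at h9
  calc Module.finrank A M ≤ D * l₀ := by omega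
    _ ≤ _ := by rw [mul_comm]; exact Nat.mul_le_mul_left _ h9

/-- Fitting type relation: `κ e` divides a non-zero `g ∈ A` (`C` is a domain, integral over `A`), so
`e (g - e c)` is nilpotent; expand `e ^ N (g - e c) ^ N = 0` to `e ^ N g ^ N = e ^ (N + 1) c'` and
iterate. -/
theorem exists_fitting {A R C : Type} [CommRing A] [CommRing R] [CommRing C] [IsDomain C]
    [Algebra A R] [Algebra A C] [Module.Finite A R] (hinj : Function.Injective (algebraMap A C))
    (κ : R →ₐ[A] C) (hκ : Function.Surjective κ) {e : R} (he : κ e ≠ 0)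
    (hnil : ∀ y, κ y = 0 → IsNilpotent (e * y)) :
    ∃ (N : ℕ) (γ : A) (c : R), 1 ≤ N ∧ γ ≠ 0 ∧ c * e ^ N * e ^ N = γ • e ^ N ∧
      ∀ t : A, t • e ^ N = 0 → t = 0 := by
  have hA : IsDomain A := hinj.isDomain _
  have hi : IsIntegral A (κ e) := (Algebra.IsIntegral.isIntegral (R := A) e).map κ
  obtain ⟨g, hg, c', hc'⟩ := hi.isAlgebraic.exists_nonzero_dvd (mem_nonZeroDivisors_of_ne_zero he)
  obtain ⟨c₀, rfl⟩ := hκ c'
  obtain ⟨n, hn⟩ := hnil (algebraMap A R g - e * c₀) (by
    rw [map_sub, map_mul, AlgHom.commutes, hc', sub_self])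
  have hN : (e * (algebraMap A R g - e * c₀)) ^ (n + 1) = 0 := by rw [pow_succ, hn, zero_mul]
  obtain ⟨d, hd⟩ := sub_dvd_pow_sub_pow (algebraMap A R g) (algebraMap A R g - e * c₀) (n + 1)
  rw [sub_sub_cancel] at hd
  have h1 : e ^ (n + 1) * algebraMap A R g ^ (n + 1) = e ^ (n + 1) * (e * (c₀ * d)) := by
    rw [mul_pow] at hN
    linear_combination e ^ (n + 1) * hd + hN
  have h2 : ∀ k : ℕ, e ^ (n + 1) * (algebraMap A R g ^ (n + 1)) ^ k =
      e ^ (n + 1) * (e * (c₀ * d)) ^ k := by
    intro k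
    induction k with
    | zero => simp
    | succ k ih =>
      rw [pow_succ _ k, pow_succ _ k, ← mul_assoc, ih, mul_right_comm, h1]
      ring
  refine ⟨n + 1, (g ^ (n + 1)) ^ (n + 1), (c₀ * d) ^ (n + 1), by omega,
    pow_ne_zero _ (pow_ne_zero _ hg), ?_, fun t ht => ?_⟩
  · rw [Algebra.smul_def, map_pow, map_pow, mul_comm (_ ^ _) (e ^ (n + 1)), mul_comm _ (e ^ (n + 1)),
      mul_comm _ (e ^ (n + 1)), h2, mul_pow e]
  · have h3 := congrArg κ ht
    rw [map_smul, map_pow, map_zero, Algebra.smul_def] at h3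
    exact hinj (((mul_eq_zero.1 h3).resolve_right (pow_ne_zero _ he)).trans (map_zero _).symm)

end Crest.Agent.R188
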