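import Crest.Agent.R188.BDefs

/-! Row 188, part II: interfaces (geometry, envelopes, comparison). -/

set_option autoImplicit false

namespace Crest.Agent.R188

open Crest.Agent.R183 IsLocalRing
open scoped ENNReal TensorProduct

/-- renaming of variables. -/
noncomputable def psRn (p : ℕ) [Fact p.Prime] (k : Type) [Field k] {σ τ : Type} [Finite σ]
    (f : σ → τ) : PS p k σ →+* PS p k τ :=
  (MvPowerSeries.rename f : PS p k σ →ₐ[WittVector p k] PS p k τ).toRingHom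

/-- `A = Ã / ξ`. -/
abbrev Ab (p : ℕ) [Fact p.Prime] (k : Type) [Field k] (m : ℕ) : Type :=
  PS p k (Fin (m + 1)) ⧸ Ideal.span {xi p k m}

/-- the ideal `(ξ, F)` of `𝒫 = Ã⟦X_ι⟧`. -/
noncomputable def envI (p : ℕ) [Fact p.Prime] (k : Type) [Field k] (m : ℕ) {ι : Type}
    (F : ι → PS p k (Fin (m + 1) ⊕ ι)) : Ideal (PS p k (Fin (m + 1) ⊕ ι)) :=
  Ideal.span {psRn p k Sum.inl (xi p k m)} ⊔ sp F

/-- `𝒫 / (F)` is a complete intersection which is finite over `Ã`. -/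
structure CI (p : ℕ) [Fact p.Prime] (k : Type) [Field k] (m : ℕ) {ι : Type}
    (F : ι → PS p k (Fin (m + 1) ⊕ ι)) : Prop where
  mem : ∀ i, F i ∈ mxPS p k (Fin (m + 1) ⊕ ι)
  prim : ∃ s : ℕ, mxPS p k (Fin (m + 1) ⊕ ι) ^ s ≤
    (mxPS p k (Fin (m + 1))).map (psRn p k Sum.inl) ⊔ sp F

/-- the properties of a finite level (twisted) prismatic envelope `B` of `𝒫 / (ξ, F)`. -/
structure EnvOut (p : ℕ) [Fact p.Prime] (k : Type) [Field k] (m : ℕ) {ι : Type}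
    (F : ι → PS p k (Fin (m + 1) ⊕ ι)) (ve : ι) {v : ℕ} (vj : Fin v → ι) (l₀ M s : ℕ)
    (B : Type) [CommRing B] [Algebra (PS p k (Fin (m + 1))) B]
    (ψ : PS p k (Fin (m + 1) ⊕ ι) →+* B) (a : B) : Prop where
  base : ∀ y, ψ (psRn p k Sum.inl y) = algebraMap (PS p k (Fin (m + 1))) B y
  rel : ∀ i, ψ (F i) ∈ Ideal.span {algebraMap (PS p k (Fin (m + 1))) B (xi p k m)}
  rigid : ∀ y ∈ envI p k m F,
    (p : PS p k (Fin (m + 1) ⊕ ι)) - y ∈ (sp fun i : ι => MvPowerSeries.X (Sum.inr i)) →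
      ∃ u : B, IsUnit u ∧ ψ y = u * algebraMap (PS p k (Fin (m + 1))) B (xi p k m)
  root : a ^ s ∣ ψ (MvPowerSeries.X (Sum.inr ve))
  kill : ∀ i, a * ψ (MvPowerSeries.X (Sum.inr (vj i))) ∈
    Ideal.span {(p : B) ^ M} ⊔ Ideal.span {algebraMap (PS p k (Fin (m + 1))) B (xi p k m)}
  gen : ∃ (D : ℕ) (b : Fin D → B), D * l₀ ≤ Module.finrank (PS p k (Fin (m + 1))) B ∧
    ∀ y : B, ∃ (n : ℕ) (c : Fin D → PS p k (Fin (m + 1) ⊕ ι)),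
      (p : B) ^ n * y - ∑ l, ψ (c l) * b l ∈
        Ideal.span {algebraMap (PS p k (Fin (m + 1))) B (xi p k m)}

/-- **Envelopes.** -/
def EnvStmt : Prop :=
  ∀ (p : ℕ) [Fact p.Prime] (k : Type) [Field k] [IsAlgClosed k] [CharP k p] (m : ℕ) (ι : Type)
    [Fintype ι] (F : ι → PS p k (Fin (m + 1) ⊕ ι)), CI p k m F →
    ∀ (ve : ι) (v : ℕ) (vj : Fin v → ι) (ν : ℕ),
    (∀ i, (MvPowerSeries.X (Sum.inr ve) * MvPowerSeries.X (Sum.inr (vj i))) ^ ν ∈ envI p k m F) →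
    ∃ (l₀ : ℕ) (g : Fin l₀ → PS p k (Fin (m + 1) ⊕ ι)),
      (∀ y : PS p k (Fin (m + 1) ⊕ ι), ∃ c : Fin l₀ → PS p k (Fin (m + 1)),
        y - ∑ l, psRn p k Sum.inl (c l) * g l ∈ sp F) ∧
      ∀ M s : ℕ, ∃ (B : FFAlg (PS p k (Fin (m + 1)))) (ψ : PS p k (Fin (m + 1) ⊕ ι) →+* B.carrier)
        (a : B.carrier), EnvOut p k m F ve vj l₀ M s B.carrier ψ a

/-- `C ⊗_A D` is, up to `g`, an iterated extension of the characters `σ i : D → C`. -/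
structure FlagD (A D C : Type) [CommRing A] [CommRing D] [CommRing C] [Algebra A D] [Algebra A C]
    (r : ℕ) where
  ρ : D →ₐ[A] Matrix (Fin r) (Fin r) C
  σ : Fin r → (D →ₐ[A] C)
  ut : ∀ s i j, j < i → ρ s i j = 0
  diag : ∀ s i, ρ s i i = σ i s
  g : A
  g_ne : g ≠ 0
  v₀ : Fin r → C
  η : Fin r → C ⊗[A] D
  span_v : ∀ i, (Pi.single i (algebraMap A C g) : Fin r → C) ∈
    Submodule.span C (Set.range fun s => (ρ s).mulVec v₀)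
  eta : ∀ s j, ((1 : C) ⊗ₜ[A] s) * η j = ∑ i, ρ s i j • η i
  sum : ∑ i, v₀ i • η i = algebraMap A (C ⊗[A] D) g

/-- the geometric data attached to `(T, 𝔭, 𝔮)`; `D = T / 𝔭` has dimension `m + 1`. -/
structure Geo (p : ℕ) [Fact p.Prime] (k : Type) [Field k] {d : ℕ} (G : PS p k (Fin d)) {T : Type}
    [CommRing T] (π : PS p k (Fin d) →+* T) (𝔭 𝔮 : Ideal T) (m : ℕ) where
  /-- Noether normalisation -/
  [algD : Algebra (Ab p k m) (T ⧸ 𝔭)]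
  finD : Module.Finite (Ab p k m) (T ⧸ 𝔭)
  injD : Function.Injective (algebraMap (Ab p k m) (T ⧸ 𝔭))
  constD : ∀ w : WittVector p k, algebraMap (Ab p k m) (T ⧸ 𝔭)
    (Ideal.Quotient.mk _ (MvPowerSeries.C w)) = Ideal.Quotient.mk 𝔭 (π (MvPowerSeries.C w))
  locD : ∀ i, algebraMap (Ab p k m) (T ⧸ 𝔭) (Ideal.Quotient.mk _ (MvPowerSeries.X i)) ∈
    (sp fun j => π (MvPowerSeries.X j)).map (Ideal.Quotient.mk 𝔭)
  /-- the compositum of the conjugates of `D` and the flag -/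
  C : Type
  [crC : CommRing C]
  domC : IsDomain C
  [algC : Algebra (Ab p k m) C]
  injC : Function.Injective (algebraMap (Ab p k m) C)
  r : ℕ
  r_pos : 0 < r
  fl : FlagD (Ab p k m) (T ⧸ 𝔭) C r
  /-- a complete intersection cover of `C` -/
  ι : Type
  [finι : Fintype ι]
  F : ι → PS p k (Fin (m + 1) ⊕ ι)
  ci : CI p k m F
  ve : ι
  v : ℕ
  vj : Fin v → ι
  ν : ℕ
  nil : ∀ i, (MvPowerSeries.X (Sum.inr ve) * MvPowerSeries.X (Sum.inr (vj i))) ^ ν ∈ envI p k m F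
  κ : PS p k (Fin (m + 1) ⊕ ι) →+* C
  κ_surj : Function.Surjective κ
  κ_ker : RingHom.ker κ = envI p k m F ⊔ sp fun i => MvPowerSeries.X (Sum.inr (vj i))
  κ_base : ∀ y, κ (psRn p k Sum.inl y) = algebraMap (Ab p k m) C (Ideal.Quotient.mk _ y)
  κ_e : κ (MvPowerSeries.X (Sum.inr ve)) ≠ 0
  /-- lifts of the characters -/
  w : Fin r → Fin d → ι
  κ_w : ∀ i y, κ (psRn p k (fun j => Sum.inr (w i j)) y) = fl.σ i (Ideal.Quotient.mk 𝔭 (π y))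
  f_mem : ∀ i, psRn p k (fun j => Sum.inr (w i j)) ((p : PS p k (Fin d)) - G) ∈ envI p k m F
  fin₂ : ∃ s : ℕ, ∀ i, (mxPS p k (Fin (m + 1)) ^ s).map (psRn p k Sum.inl) ≤
    envI p k m F ⊔ (𝔮.comap π).map (psRn p k fun j => Sum.inr (w i j))

/-- **Geometry.** -/
def GeoStmt : Prop :=
  ∀ (p : ℕ) [Fact p.Prime] (k : Type) [Field k] [IsAlgClosed k] [CharP k p] (d : ℕ)
    (G : PS p k (Fin d)) (T : Type) [CommRing T] [IsLocalRing T] (π : PS p k (Fin d) →+* T),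
    Mixed p k d G T π → ∀ 𝔭 𝔮 : Ideal T, 𝔭.IsPrime → 𝔮.IsPrime → (p : T) ∉ 𝔭 →
      (∃ c : ℕ, maximalIdeal T ^ c ≤ 𝔭 ⊔ 𝔮) → ∀ a b : ℕ, ringKrullDim (T ⧸ 𝔭) = a →
      ringKrullDim (T ⧸ 𝔮) = b → a + b = d → ∃ m : ℕ, a = m + 1 ∧ Nonempty (Geo p k G π 𝔭 𝔮 m)

/-- **Comparison** of `D` with an almost Cohen–Macaulay algebra. -/
def CmpStmt : Prop :=
  ∀ (p : ℕ) (T : Type) [CommRing T] [IsRegularLocalRing T] (d : ℕ), ringKrullDim T = d →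
    Estar T d → ∀ (𝔭 𝔮 : Ideal T), 𝔭.IsPrime → (∃ c : ℕ, maximalIdeal T ^ c ≤ 𝔭 ⊔ 𝔮) →
    𝔮 ≠ ⊤ → ∀ m b : ℕ, ringKrullDim (T ⧸ 𝔭) = (m + 1 : ℕ) → ringKrullDim (T ⧸ 𝔮) = b →
    m + 1 + b = d →
    ∀ (ι : Type) [Fintype ι] [DecidableEq ι] (deg : ι → ℕ) (P : Matrix ι ι T),
    Resol d deg P (T ⧸ 𝔮) →
    ∀ (A : Type) [CommRing A] [IsLocalRing A] [IsNoetherianRing A] (x : Fin (m + 1) → A),
    sp x = maximalIdeal A → x 0 = (p : A) →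
    (∀ e : ℕ, 1 ≤ e → RingTheory.Sequence.IsWeaklyRegular A (List.ofFn fun i => x i ^ e)) →
    ∀ [Algebra A (T ⧸ 𝔭)] [Module.Finite A (T ⧸ 𝔭)],
    Function.Injective (algebraMap A (T ⧸ 𝔭)) →
    (∀ i, algebraMap A (T ⧸ 𝔭) (x i) ∈ (maximalIdeal T).map (Ideal.Quotient.mk 𝔭)) →
    (∀ y : T ⧸ 𝔭, ∃ s : A, y - algebraMap A (T ⧸ 𝔭) s ∈
      (maximalIdeal T).map (Ideal.Quotient.mk 𝔭)) →
    ∀ (C : Type) [CommRing C] [Algebra A C] (r : ℕ), 0 < r → ∀ fl : FlagD A (T ⧸ 𝔭) C r,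
    ∀ (Λ : Type) [CommRing Λ] [Algebra A Λ] [Module.Flat A Λ] (lam : LenFn Λ),
    lam.q ((maximalIdeal A).map (algebraMap A Λ)) ≠ 0 →
    lam.q ((maximalIdeal A).map (algebraMap A Λ)) ≠ ⊤ →
    ∀ (𝔍 : Ideal Λ) (ω : C →ₐ[A] Λ ⧸ 𝔍) (τ : Fin r → (T →+* Λ)),
    (∀ i y, Ideal.Quotient.mk 𝔍 (τ i y) = ω (fl.σ i (Ideal.Quotient.mk 𝔭 y))) →
    (∀ N : ℕ, ∃ α : Λ, lam.Kills α ∧ ∀ y ∈ 𝔍, α * y ∈ Ideal.span {(p : Λ) ^ N}) →
    (∀ i, ∃ s : ℕ, (p : Λ) ^ s ∈ 𝔮.map (τ i)) →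
    (∀ i, 0 < chiG lam d deg (P.map (τ i)) Λ) →
    0 < chiG (lenFn T) d deg P (T ⧸ 𝔭)

end Crest.Agent.R188
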