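import Crest.Agent.R188.PosF1

/-! Row 188, part III-b: flat base change, products, change of rings. -/

set_option autoImplicit false
set_option linter.unusedVariables false

namespace Crest.Agent.R188

open Crest.Agent.R183 IsLocalRing RingTheory.Sequence
open scoped ENNReal TensorProduct

section BC
variable {R S : Type} [CommRing R] [CommRing S] [Algebra R S] (F : FC R)

theorem PosF_h_map [Module.Flat R S] (ν : LenFn S) (j : ℤ) :
    (F.map (algebraMap R S)).h ν S j = ν.toFun (S ⊗[R] Ht F.deg F.d R j) := by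
  rw [← hl_baseChange ν R j]
  exact (hl_congr ν (TensorProduct.AlgebraTensorModule.rid R S S) j).symm

/-- `hl_baseChange` for `zeroLen`, `hl_congr` along `TensorProduct.AlgebraTensorModule.rid`. -/
theorem FC.Ex.map [Module.Flat R S] {F : FC R} {j : ℤ} (h : F.Ex R j) :
    (F.map (algebraMap R S)).Ex S j := by
  rw [FC.ex_iff, PosF_h_map]
  have hs : Subsingleton (Ht F.deg F.d R j) := by
    refine subsingleton_of_forall_eq 0 ?_
    rintro ⟨_, v, hv, rfl⟩
    exact Subtype.ext ((Submodule.Quotient.mk_eq_zero _).2 (h hv))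
  exact (zeroLen S).zero _ inferInstance

theorem KEx.map [Module.Flat R S] {xs : List R} (h : KEx xs R) :
    KEx (xs.map (algebraMap R S)) S := by
  intro j hj
  rw [← kz_map]
  exact (h j hj).map

/-- `hl_baseChange`, `hl_congr`, `baseChange_le`. -/
theorem FC.h_map_le [IsLocalRing R] [Module.Flat R S] (ν : LenFn S) {j : ℤ}
    (h : F.h (lenFn R) R j ≠ ⊤) :
    (F.map (algebraMap R S)).h ν S j ≤
      F.h (lenFn R) R j * ν.q ((maximalIdeal R).map (algebraMap R S)) := by
  rw [PosF_h_map]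
  exact baseChange_le ν _ h

/-- `Zt_map`, `Bt_map`. -/
theorem FC.mem_Z_map {N : Type} [AddCommGroup N] [Module S N] [Module R N] [IsScalarTower R S N]
    (j : ℤ) (v : F.ι → N) : v ∈ (F.map (algebraMap R S)).Z N j ↔ v ∈ F.Z N j := by
  change v ∈ (Zt F.deg (F.d.map (algebraMap R S)) N j).restrictScalars R ↔ _
  rw [Zt_map]

theorem FC.mem_B_map {N : Type} [AddCommGroup N] [Module S N] [Module R N] [IsScalarTower R S N]
    (j : ℤ) (v : F.ι → N) : v ∈ (F.map (algebraMap R S)).B N j ↔ v ∈ F.B N j := by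
  change v ∈ (Bt F.deg (F.d.map (algebraMap R S)) N j).restrictScalars R ↔ _
  rw [Bt_map]

/-- `hl_comap`. -/
theorem FC.h_comap (lam : LenFn R) {N : Type} [AddCommGroup N] [Module S N] [Module R N]
    [IsScalarTower R S N] (j : ℤ) :
    (F.map (algebraMap R S)).h (lam.comap (algebraMap R S)) N j = F.h lam N j := hl_comap lam j

end BC

/-- `hl_ne_top_of_kill`, `FC.kl_of_htpy`. -/
theorem FC.h_ne_top {R : Type} [CommRing R] [IsLocalRing R] [IsNoetherianRing R] (F : FC R)
    {e : ℕ} (h : ∀ y ∈ maximalIdeal R ^ e, Htpy F.deg F.d y) (j : ℤ) :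
    F.h (lenFn R) R j ≠ ⊤ := hl_ne_top_of_kill (I := maximalIdeal R ^ e) (fun a ha => FC.kl_of_htpy R F (h a ha) j)
    le_sup_right

/-- exactness is inherited by finite (or arbitrary) powers of the coefficient module. -/
theorem FC.Ex.pi {Λ : Type} [CommRing Λ] {F : FC Λ} {M : Type} [AddCommGroup M] [Module Λ M]
    {j : ℤ} (h : F.Ex M j) (κ : Type) : F.Ex (κ → M) j := by
  intro v hv
  have h1 : ∀ k, (fun b => v b k) ∈ F.B M j := fun k => h (mem_Zt.2
    ⟨fr_mem_top.2 fun b hb => congrFun (fr_mem_top.1 hv.1 b hb) k, funext fun b => by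
      have := congrFun (congrFun (mem_Zt.1 hv).2 b) k
      simpa only [mact_apply, Finset.sum_apply, Pi.smul_apply, Pi.zero_apply] using this⟩)
  choose w hw hw' using fun k => mem_Bt.1 (h1 k)
  refine mem_Bt.2 ⟨fun b k => w k b, fr_mem_top.2 fun b hb => funext fun k =>
    fr_mem_top.1 (hw k) b hb, funext fun b => funext fun k => ?_⟩
  have := congrFun (hw' k) b
  simpa only [mact_apply, Finset.sum_apply, Pi.smul_apply] using this

/-- if `c` factors through `M'` and `F ⊗ M'` is exact then `c` kills the homology of `F ⊗ M`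
(`mact_compLeft`). -/
theorem FC.kl_of_factor {Λ : Type} [CommRing Λ] (F : FC Λ) {M M' : Type} [AddCommGroup M]
    [Module Λ M] [AddCommGroup M'] [Module Λ M'] (φ : M →ₗ[Λ] M') (ψ : M' →ₗ[Λ] M) {c : Λ}
    (hc : ∀ m, ψ (φ m) = c • m) {j : ℤ} (h : F.Ex M' j) : F.Kl M c j := by
  intro z hz
  have h1 : φ.compLeft F.ι z ∈ F.Z M' j := mem_Zt.2
    ⟨fr_mem_top.2 fun b hb => by
      change φ (z b) = 0
      rw [fr_mem_top.1 hz.1 b hb, map_zero], by
      rw [mact_compLeft, (mem_Zt.1 hz).2, map_zero]⟩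
  obtain ⟨w, hw, hw'⟩ := mem_Bt.1 (h h1)
  refine mem_Bt.2 ⟨ψ.compLeft F.ι w, fr_mem_top.2 fun b hb => ?_, ?_⟩
  · change ψ (w b) = 0
    rw [fr_mem_top.1 hw b hb, map_zero]
  · rw [mact_compLeft, hw']
    funext b
    exact hc (z b)

end Crest.Agent.R188
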