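import Crest.Agent.R188.PosP
import Crest.Agent.R188.PosF
import Crest.Agent.R188.BInt
import Crest.Agent.R183.UQ0

/-! Row 188, assembly of parts II–III: the base ring and the normalised almost length. -/

set_option autoImplicit false
set_option linter.unusedVariables false

namespace Crest.Agent.R188

open Crest.Agent.R183 IsLocalRing RingTheory.Sequence
open scoped ENNReal TensorProduct

private theorem BAsm3_rel_sp {Λ ι : Type} [CommRing Λ] [Fintype ι] (lam : LenFn Λ) (f : ι → Λ)
    (U : Ideal Λ) : lam.rel (sp f) U ≤ ∑ i, lam.rel (Ideal.span {f i}) U := by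
  refine (lam.rel_mono_left ?_ U).trans (lam.rel_biSup_le Finset.univ (fun i => Ideal.span {f i}) U)
  refine Ideal.span_le.mpr ?_
  rintro _ ⟨i, rfl⟩
  exact (le_iSup₂_of_le (f := fun i (_ : i ∈ Finset.univ) => Ideal.span {f i}) i
    (Finset.mem_univ i) le_rfl :) (Ideal.mem_span_singleton_self _)

private theorem BAsm3_map_span {Λ : Type} [CommRing Λ] (u v : Λ) :
    Submodule.map (LinearMap.toSpanSingleton Λ Λ v) (Ideal.span {u}) = Ideal.span {u * v} := by
  rw [Ideal.span, Submodule.map_span, Set.image_singleton]; rfl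

private theorem BAsm3_ext {R : Type} [CommRing R] {a b : LenFn R} (h : a.toFun = b.toFun) : a = b := by
  cases a; cases b; congr

/-- this is the private lemma `Ulen_pow` of `R183/Ulen.lean` (copy its proof). -/
theorem rel_pow_pow_le {Λ : Type} [CommRing Λ] (lam : LenFn Λ) {d : ℕ} (y : Fin d → Λ) (u : Λ)
    (N : ℕ) :
    lam.rel (Ideal.span {u ^ N}) (sp y ^ N) ≤ bn d N * lam.rel (Ideal.span {u}) (sp y) := by
  induction N with
  | zero =>
    rw [lam.rel_of_le (by simp)]
    exact bot_le
  | succ N ih =>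
    have h1 := lam.rel_triangle (Ideal.span {u ^ (N + 1)})
      (Submodule.map (LinearMap.toSpanSingleton Λ Λ u) (sp y ^ N)) (sp y ^ (N + 1))
    have h2 := lam.rel_map_le (LinearMap.toSpanSingleton Λ Λ u) (Ideal.span {u ^ N}) (sp y ^ N)
    rw [BAsm3_map_span, ← pow_succ] at h2
    let m : Finset.Nat.antidiagonalTuple d N → Λ := fun α => ∏ k, y k ^ α.1 k
    have hm : sp y ^ N = sp m := sp_pow_eq y N
    have h3 : Submodule.map (LinearMap.toSpanSingleton Λ Λ u) (sp y ^ N) =
        sp fun α => u * m α := by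
      rw [hm, sp, Ideal.span, Submodule.map_span, ← Set.range_comp]
      simp only [sp, Ideal.span, mul_comm u]
      rfl
    have h4 : ∀ α, lam.rel (Ideal.span {u * m α}) (sp y ^ (N + 1)) ≤
        lam.rel (Ideal.span {u}) (sp y) := fun α => by
      refine le_trans ?_ (lam.rel_map_le (LinearMap.toSpanSingleton Λ Λ (m α)) _ _)
      rw [BAsm3_map_span]
      refine lam.rel_anti_right _ ?_
      rintro _ ⟨r, hr, rfl⟩
      rw [pow_succ']
      exact Ideal.mul_mem_mul hr (hm ▸ Ideal.subset_span ⟨α, rfl⟩)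
    have h5 : lam.rel (Submodule.map (LinearMap.toSpanSingleton Λ Λ u) (sp y ^ N))
        (sp y ^ (N + 1)) ≤ mc d N * lam.rel (Ideal.span {u}) (sp y) := by
      rw [h3]
      refine (BAsm3_rel_sp lam _ _).trans ((Finset.sum_le_sum fun α _ => h4 α).trans ?_)
      rw [Finset.sum_const, Finset.card_univ, Fintype.card_coe, nsmul_eq_mul, mc]
    rw [bn, Finset.sum_range_succ, Nat.cast_add, add_mul]
    exact h1.trans (add_le_add (h2.trans ih) h5)

/-- `wreg_iff`. -/
theorem wreg_quot {R : Type} [CommRing R] {x : R} {xs : List R} (h : IsWeaklyRegular R (x :: xs)) :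
    IsWeaklyRegular (R ⧸ Ideal.span {x}) (xs.map (Ideal.Quotient.mk (Ideal.span {x}))) := by
  rw [wreg_iff] at h ⊢
  intro i hi γ hγ
  obtain ⟨g, rfl⟩ := Ideal.Quotient.mk_surjective γ
  rw [List.length_map] at hi
  have e : Ideal.ofList ((x :: xs).take (i + 1)) = Ideal.ofList (xs.take i) ⊔ Ideal.span {x} := by
    rw [List.take_succ_cons, Ideal.ofList_cons, sup_comm]
  rw [← List.map_take, ← Ideal.map_ofList, List.getElem_map, ← map_mul,
    Ideal.mem_quotient_iff_mem_sup, ← e] at hγ
  rw [← List.map_take, ← Ideal.map_ofList, Ideal.mem_quotient_iff_mem_sup, ← e]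
  exact h (i + 1) (by simpa using hi) g hγ

section
variable (p : ℕ) [Fact p.Prime] (k : Type) [Field k] [CharP k p] [PerfectRing k p] (m : ℕ)

/-- `maximalIdeal_ps`, `WittVector.irreducible`. -/
theorem asm_mx (σ : Type) [Finite σ] : mxPS p k σ = maximalIdeal (PS p k σ) := by
  rw [maximalIdeal_ps, (WittVector.irreducible p).maximalIdeal_eq, Ideal.map_span,
    Set.image_singleton, map_natCast, mxPS]

theorem asm_mx_sp : mxPS p k (Fin m) = sp (wpar p k m) := by
  rw [mxPS, wpar, sp, sp, Fin.range_cons, Ideal.span_insert]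

theorem xi_mem : xi p k m ∈ mxPS p k (Fin (m + 1)) := by
  exact sub_mem (Ideal.mem_sup_right (Ideal.subset_span ⟨0, rfl⟩))
    (Ideal.mem_sup_left (Ideal.mem_span_singleton_self _))

theorem ab_local : IsLocalRing (Ab p k m) := by
  have h : Ideal.span {xi p k m} ≠ ⊤ := by
    rw [Ne, Ideal.span_singleton_eq_top]
    have := xi_mem p k m
    rwa [asm_mx] at this
  have : Nontrivial (Ab p k m) := Ideal.Quotient.nontrivial_iff.2 h
  exact IsLocalRing.of_surjective' (Ideal.Quotient.mk _) Ideal.Quotient.mk_surjective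

theorem ab_map_max [IsLocalRing (Ab p k m)] :
    (mxPS p k (Fin (m + 1))).map (Ideal.Quotient.mk _) = maximalIdeal (Ab p k m) := by
  rw [asm_mx]
  exact IsLocalRing.map_maximalIdeal_of_surjective _ Ideal.Quotient.mk_surjective

theorem ab_x_zero :
    (Ideal.Quotient.mk _ (MvPowerSeries.X 0) : Ab p k m) = (p : Ab p k m) := by
  rw [← map_natCast (Ideal.Quotient.mk (Ideal.span {xi p k m})), Ideal.Quotient.eq]
  exact Ideal.mem_span_singleton_self _

theorem ab_max [IsLocalRing (Ab p k m)] :
    (sp fun i : Fin (m + 1) => (Ideal.Quotient.mk _ (MvPowerSeries.X i) : Ab p k m)) =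
      maximalIdeal (Ab p k m) := by
  rw [← ab_map_max, mxPS, Ideal.map_sup, Ideal.map_span, Set.image_singleton, map_natCast,
    ← ab_x_zero, sp, sp, Ideal.map_span, ← Set.range_comp]
  refine (sup_eq_right.2 (Ideal.span_mono ?_)).symm
  rintro _ rfl
  exact ⟨0, rfl⟩

/-- `(p, X)` is Koszul regular on `Ã` (`regBase_witt`, `regSys_of_regBase`, `kex_of_reg`), hence also
`(p, X) ^ e` (`KEx.pow`), which lies in the ideal of `w = ξ :: X ^ e`; `KEx.of_mem`, `wreg_of_kex`
(with `R = Λ = Ã`), `wreg_quot`. -/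
theorem ab_wreg (e : ℕ) (he : 1 ≤ e) : IsWeaklyRegular (Ab p k m)
    (List.ofFn fun i : Fin (m + 1) => (Ideal.Quotient.mk _ (MvPowerSeries.X i) : Ab p k m) ^ e) := by
  have hb := regBase_witt p k (m + 1)
  have := hb.noeth
  have h1 := (kex_of_reg (regSys_of_regBase hb).reg).pow _ he
  have h2 : KEx (xi p k m :: List.ofFn fun i : Fin (m + 1) => (MvPowerSeries.X i : PS p k (Fin (m + 1))) ^ e)
      (PS p k (Fin (m + 1))) := by
    have hX : ∀ i : Fin (m + 1), (MvPowerSeries.X i : PS p k (Fin (m + 1))) ^ e ∈ Ideal.ofList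
        (xi p k m :: List.ofFn fun i : Fin (m + 1) => (MvPowerSeries.X i : PS p k (Fin (m + 1))) ^ e) :=
      fun i => Ideal.subset_span (List.mem_cons_of_mem _ (List.mem_ofFn.2 ⟨i, rfl⟩))
    refine h1.of_mem _ (fun y hy => ?_) (by simp)
    obtain ⟨z, hz, rfl⟩ := List.mem_map.1 hy
    obtain ⟨i, rfl⟩ := List.mem_ofFn.1 hz
    refine Fin.cases ?_ (fun i => hX i) i
    obtain ⟨c, hc⟩ := sub_dvd_pow_sub_pow (MvPowerSeries.X 0 : PS p k (Fin (m + 1))) p e
    have e1 : wpar p k (m + 1) 0 ^ e = MvPowerSeries.X 0 ^ e - xi p k m * c := by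
      rw [xi, ← hc, sub_sub_cancel]; rfl
    rw [e1]
    exact sub_mem (hX 0) (Ideal.mul_mem_right _ _ (Ideal.subset_span List.mem_cons_self))
  have h3 := wreg_of_kex (R := PS p k (Fin (m + 1))) (fun x hx => ⟨1, by
    rw [pow_one, Algebra.algebraMap_self, Ideal.map_id, ← asm_mx]
    rcases List.mem_cons.1 hx with rfl | hx
    · exact xi_mem p k m
    · obtain ⟨i, rfl⟩ := List.mem_ofFn.1 hx
      exact Ideal.pow_mem_of_mem _ (Ideal.mem_sup_right (Ideal.subset_span (Set.mem_range_self i))) _ he⟩) h2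
  have h4 := wreg_quot h3
  rw [List.map_ofFn] at h4
  simpa only [Function.comp_def, map_pow] using h4

end

/-- lengths over a quotient ring (`Module.length_eq_of_surjective`). -/
theorem lenFn_comap_surj {R S : Type} [CommRing R] [CommRing S] (f : R →+* S)
    (hf : Function.Surjective f) : (lenFn R).comap f = lenFn S := by
  refine BAsm3_ext ?_
  funext M _ _
  let := f.toAlgebra
  let : Module R M := Module.compHom M f
  have : IsScalarTower R S M := ⟨fun γ r m => mul_smul (f γ) r m⟩
  exact congrArg (fun x : ℕ∞ => (x : ℝ≥0∞)) (Module.length_eq_of_surjective (S := R) (R := S) (M := M) hf)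

section
variable {A J : Type} [CommRing A] [IsLocalRing A] [IsNoetherianRing A] (U : Ultrafilter J)
  (B : J → FFAlg A) (a : ∀ j, (B j).carrier)

open Classical in
/-- the normalised `a`-almost length on `∏ B j`. -/
noncomputable def alen : LenFn (∀ j, (B j).carrier) :=
  ulen ((lenFn A).comap (algebraMap A (∀ j, (B j).carrier))) U
    (fun j => (Pi.single j 1 : ∀ j, (B j).carrier))
    (fun j => by simp only [IsIdempotentElem, mul_one, ← Pi.single_mul]) a
    fun j => (Module.finrank A (B j).carrier : ℝ≥0∞)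

/-- `uq0_ulen_rel`; `uq0_cmp` in both directions (`Pi.single j`, evaluation at `j`), `mem_map_pi`. -/
theorem alen_q (I : Ideal A) : (alen U B a).q (I.map (algebraMap A (∀ j, (B j).carrier))) =
    lam0 U (fun j n => ((lenFn A).comap (algebraMap A (B j).carrier)).rel (Ideal.span {a j ^ n})
      (I.map (algebraMap A (B j).carrier))) fun j => (Module.finrank A (B j).carrier : ℝ≥0∞) := by
  classical
  rw [LenFn.q_eq_rel, alen, uq0_ulen_rel]
  congr 1
  funext j n
  have hI := fun b : ∀ j, (B j).carrier =>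
    mem_map_pi (IsNoetherian.noetherian I) (algebraMap A (∀ j, (B j).carrier)) b
  apply le_antisymm
  · refine uq0_cmp _ _ _ (AddMonoidHom.single (fun j => (B j).carrier) j) (fun γ b => ?_)
      (fun b hb => (hI _).2 fun i => ?_) ?_
    · funext i
      by_cases hi : i = j
      · subst hi; simp
      · simp [hi]
    · by_cases hi : i = j
      · subst hi
        rw [AddMonoidHom.single_apply, Pi.single_eq_same]
        exact hb
      · simp [hi]
    · rintro _ ⟨c, -, rfl⟩
      refine ⟨a j ^ n * c j, Ideal.mul_mem_right _ _ (Ideal.mem_span_singleton_self _), ?_⟩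
      convert Submodule.zero_mem _
      funext i
      by_cases hi : i = j
      · subst hi; simp
      · simp [hi]
  · refine uq0_cmp _ _ _ (Pi.evalAddMonoidHom (fun j => (B j).carrier) j) (fun γ b => rfl)
      (fun b hb => (hI _).1 hb j) fun b hb => ?_
    obtain ⟨c, rfl⟩ := Ideal.mem_span_singleton'.1 hb
    refine ⟨_, ⟨Pi.single j c, trivial, rfl⟩, ?_⟩
    convert Submodule.zero_mem _
    simp [mul_comm]

/-- `lam0_le_one`: `B j / 𝔪 B j` is generated by `finrank` elements killed by `𝔪`. -/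
theorem alen_q_ne_top :
    (alen U B a).q ((maximalIdeal A).map (algebraMap A (∀ j, (B j).carrier))) ≠ ⊤ := by
  rw [alen_q]
  refine ne_top_of_le_ne_top ENNReal.one_ne_top (lam0_le_one U fun j => ?_)
  rw [LenFn.comap_rel]
  let b := Module.finBasis A (B j).carrier
  have h1 : (lenFn A).q (maximalIdeal A) = 1 := by
    have : IsSimpleModule A (A ⧸ maximalIdeal A) :=
      isSimpleModule_iff_isCoatom.2 (Ideal.isMaximal_def.1 (maximalIdeal.isMaximal A))
    change ((Module.length A (A ⧸ maximalIdeal A) : ℕ∞) : ℝ≥0∞) = 1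
    rw [Module.length_eq_one, ENat.toENNReal_one]
  refine ((lenFn A).rel_mono_left (V' := ⨆ i ∈ Finset.univ, Submodule.span A {b i}) ?_ _).trans
    (((lenFn A).rel_biSup_le _ _ _).trans ?_)
  · refine le_top.trans (b.span_eq.ge.trans (Submodule.span_le.2 ?_))
    rintro _ ⟨i, rfl⟩
    exact (le_iSup₂_of_le (f := fun i (_ : i ∈ Finset.univ) => Submodule.span A {b i}) i
      (Finset.mem_univ i) le_rfl :) (Submodule.mem_span_singleton_self _)
  · refine (Finset.sum_le_sum fun i _ => (lenFn A).rel_span_singleton_le (b i) _ (maximalIdeal A)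
      fun r hr => ?_).trans ?_
    · rw [Submodule.restrictScalars_mem, Algebra.smul_def]
      exact Ideal.mul_mem_right _ _ (Ideal.mem_map_of_mem _ hr)
    · rw [h1, Finset.sum_const, Finset.card_univ, Fintype.card_fin, nsmul_eq_mul, mul_one]

theorem alen_q_ne_zero {K : ℕ} (h : ∀ n : ℕ, ∀ᶠ j in U, (Module.finrank A (B j).carrier : ℝ≥0∞) ≤
      K * ((lenFn A).comap (algebraMap A (B j).carrier)).rel (Ideal.span {a j ^ n})
        ((maximalIdeal A).map (algebraMap A (B j).carrier))) :
    (alen U B a).q ((maximalIdeal A).map (algebraMap A (∀ j, (B j).carrier))) ≠ 0 := by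
  rw [alen_q]
  refine ne_of_gt (lt_of_lt_of_le (ENNReal.inv_pos.2 (ENNReal.natCast_ne_top K)) (le_iInf fun n => ?_))
  rw [← ulim_const U (K : ℝ≥0∞)⁻¹]
  refine ulim_mono U ((h n).mono fun j hj => ?_)
  have h0 : (Module.finrank A (B j).carrier : ℝ≥0∞) ≠ 0 := by
    exact_mod_cast ((Module.finrank_pos_iff_of_free A (B j).carrier).2 inferInstance).ne'
  rw [ENNReal.le_div_iff_mul_le (Or.inl h0) (Or.inl (ENNReal.natCast_ne_top _))]
  refine (mul_le_mul_right hj _).trans ?_
  rw [← mul_assoc]
  exact (mul_le_mul_left (ENNReal.inv_mul_le_one _) _).trans_eq (one_mul _)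

/-- if `α j = a j` for almost all `j` then `a * e_j = α * e_j` for almost all `j`. -/
theorem alen_kills {α : ∀ j, (B j).carrier} (h : ∀ᶠ j in U, α j = a j) : (alen U B a).Kills α := by
  classical
  intro M _ _ hM
  refine le_antisymm ((iInf_le _ 1).trans ?_) zero_le
  rw [← ulim_const U 0]
  refine ulim_mono U (h.mono fun j hj => ?_)
  have e : a ^ 1 * Pi.single j 1 = Pi.single j 1 * α := by
    funext i
    by_cases hi : i = j
    · subst hi; simp [hj]
    · simp [hi]
  have h1 : LinearMap.range (LinearMap.lsmul (∀ j, (B j).carrier) M (a ^ 1 * Pi.single j 1)) ≤ ⊥ := by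
    rintro _ ⟨m, rfl⟩
    rw [e]
    simp [mul_smul, hM]
  dsimp only
  rw [← LenFn.rel_bot, LenFn.rel_of_le _ h1, ENNReal.zero_div]

end

end Crest.Agent.R188
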