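import Crest.Agent.R188.BAsm1
import Crest.Agent.R188.BAsm2
import Crest.Agent.R188.BAsm3

/-! Row 188, assembly of parts II–III: the almost length of the closed fibre at one level. -/

set_option autoImplicit false
set_option linter.unusedVariables false

namespace Crest.Agent.R188

open Crest.Agent.R183 IsLocalRing RingTheory.Sequence
open scoped ENNReal TensorProduct

theorem asm_map_sp {Λ Λ' : Type} [CommRing Λ] [CommRing Λ'] (f : Λ →+* Λ') {ι : Type}
    (x : ι → Λ) : (sp x).map f = sp fun k => f (x k) := by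
  rw [sp, sp, Ideal.map_span, ← Set.range_comp]; rfl

theorem asm_level {A₀ : Type} [CommRing A₀] [IsNoetherianRing A₀] {ξ : A₀}
    [IsDomain (A₀ ⧸ Ideal.span {ξ})] {n : ℕ} (y : Fin n → A₀) {R : Type} [CommRing R]
    [Algebra (A₀ ⧸ Ideal.span {ξ}) R] {l₀ : ℕ} (g : Fin l₀ → R)
    (hg : Submodule.span (A₀ ⧸ Ideal.span {ξ}) (Set.range g) = ⊤) {e c : R} {N : ℕ} (hN : 1 ≤ N)
    {γ : A₀ ⧸ Ideal.span {ξ}} (hc : c * e ^ N * e ^ N = γ • e ^ N)
    (he : ∀ t : A₀ ⧸ Ideal.span {ξ}, t • e ^ N = 0 → t = 0) {N₁ : ℕ}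
    (hγ : ∀ n₀ : ℕ, ∃ k : ℕ,
      γ ^ (n₀ + k) ∉ ((sp y).map (Ideal.Quotient.mk (Ideal.span {ξ})) ^ N₁) ^ k)
    (B : FFAlg A₀)
    (ψ : R →ₐ[A₀ ⧸ Ideal.span {ξ}] B.carrier ⧸ (Ideal.span {ξ}).map (algebraMap A₀ B.carrier))
    {D : ℕ} (b : Fin D → B.carrier ⧸ (Ideal.span {ξ}).map (algebraMap A₀ B.carrier))
    (hD : D * l₀ ≤ Module.finrank A₀ B.carrier)
    (hb : ∀ z, ∃ t : A₀ ⧸ Ideal.span {ξ}, t ≠ 0 ∧ ∃ c : Fin D → R, t • z = ∑ l, ψ (c l) * b l)
    {u : B.carrier} (hu : Ideal.Quotient.mk _ u ^ N₁ ∣ ψ e) :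
    (Module.finrank A₀ B.carrier : ℝ≥0∞) ≤ ((l₀ * bn n N₁ : ℕ) : ℝ≥0∞) *
      ((lenFn A₀).comap (algebraMap A₀ B.carrier)).rel (Ideal.span {u})
        ((sp y).map (algebraMap A₀ B.carrier)) := by
  have : Nontrivial A₀ := (Ideal.Quotient.mk (Ideal.span {ξ})).domain_nontrivial
  let E := (Algebra.TensorProduct.quotIdealMapEquivQuotTensor B.carrier (Ideal.span {ξ})).toLinearEquiv
  have : Module.Finite (A₀ ⧸ Ideal.span {ξ})
      (B.carrier ⧸ (Ideal.span {ξ}).map (algebraMap A₀ B.carrier)) := Module.Finite.equiv E.symm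
  have hr : Module.finrank (A₀ ⧸ Ideal.span {ξ})
      (B.carrier ⧸ (Ideal.span {ξ}).map (algebraMap A₀ B.carrier)) =
      Module.finrank A₀ B.carrier := by
    rw [E.finrank_eq, Module.finrank_baseChange]
  let _ : Algebra R (B.carrier ⧸ (Ideal.span {ξ}).map (algebraMap A₀ B.carrier)) :=
    ψ.toRingHom.toAlgebra
  have : IsScalarTower (A₀ ⧸ Ideal.span {ξ}) R
      (B.carrier ⧸ (Ideal.span {ξ}).map (algebraMap A₀ B.carrier)) :=
    .of_algebraMap_eq fun x => (ψ.commutes x).symm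
  have h1 := rank_ge_of_gen g hg b hb (hr ▸ hD) he
  have h2 := rank_le_rel _ hγ
    ((LinearMap.range (LinearMap.lsmul R
      (B.carrier ⧸ (Ideal.span {ξ}).map (algebraMap A₀ B.carrier)) (e ^ N))).restrictScalars
        (A₀ ⧸ Ideal.span {ξ}))
    ((LinearMap.lsmul R _ (c * e ^ N)).restrictScalars (A₀ ⧸ Ideal.span {ξ}))
    (fun z => ⟨c • z, by
      simp only [LinearMap.lsmul_apply, LinearMap.restrictScalars_apply, smul_smul, mul_comm]⟩)
    (by
      rintro _ ⟨z, rfl⟩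
      simp only [LinearMap.lsmul_apply, LinearMap.restrictScalars_apply, smul_smul]
      rw [hc, smul_assoc])
  rw [← lenFn_comap_surj (Ideal.Quotient.mk (Ideal.span {ξ})) Ideal.Quotient.mk_surjective] at h2
  have h3 := h2.trans (uq0_cmp (lenFn A₀) (algebraMap A₀ B.carrier) (Ideal.Quotient.mk _)
    (Ideal.Quotient.mk ((Ideal.span {ξ}).map (algebraMap A₀ B.carrier))).toAddMonoidHom
    (fun r m => by rw [Algebra.smul_def (Ideal.Quotient.mk _ r)]; rfl) (V₁ := Ideal.span {u ^ N₁})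
    (U₁ := sp (fun i => algebraMap A₀ B.carrier (y i)) ^ N₁) (fun m hm => ?_) ?_)
  · have h4 := h3.trans (rel_pow_pow_le _ _ u N₁)
    rw [← hr, asm_map_sp, Nat.cast_mul, mul_assoc]
    refine le_trans ?_ (mul_le_mul_right h4 _)
    exact_mod_cast h1
  · rw [Ideal.smul_top_eq_map, Submodule.restrictScalars_mem, Ideal.map_pow, Ideal.map_map]
    rw [← asm_map_sp] at hm
    have h5 := Ideal.mem_map_of_mem
      (Ideal.Quotient.mk ((Ideal.span {ξ}).map (algebraMap A₀ B.carrier))) hm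
    rw [Ideal.map_pow, Ideal.map_map] at h5
    exact h5
  · rintro _ ⟨z, rfl⟩
    obtain ⟨w, hw⟩ := hu
    obtain ⟨N', rfl⟩ := Nat.exists_eq_add_of_le' hN
    obtain ⟨m, hm⟩ := Ideal.Quotient.mk_surjective (w * ψ e ^ N' * z)
    refine ⟨m * u ^ N₁, Ideal.mul_mem_left _ _ (Ideal.mem_span_singleton_self _), ?_⟩
    have : (LinearMap.lsmul R _ (e ^ (N' + 1))) z =
        Ideal.Quotient.mk ((Ideal.span {ξ}).map (algebraMap A₀ B.carrier)) (m * u ^ N₁) := by
      change ψ (e ^ (N' + 1)) * z = _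
      rw [map_mul, hm, map_pow, map_pow, pow_succ, hw]
      ring
    rw [this]
    exact (Submodule.Quotient.eq _).1 rfl

end Crest.Agent.R188
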