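import Crest.Agent.R188.BEnvA

/-! Row 188, envelopes: consequences of the Witt vector relations. -/

set_option autoImplicit false

namespace Crest.Agent.R188

open Crest.Agent.R183 WittVector MvPolynomial

variable {p : ℕ} [Fact p.Prime] {P : Type} [CommRing P] {ι : Type} [Fintype ι] {φ : P →+* P}
  {s : P →+* WittVector p P} {t : P} {F : ι → P}

theorem env_rigid (hs : Dw p φ s) (ht : φ t = t ^ p) {n : ℕ} (hn : 1 ≤ n) {S : Type} [CommRing S]
    {θ : MvPolynomial (ι × ℕ) P →+* S} (hθ : EKills p s t F n θ) {κ : Type} (x : κ → P)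
    (hx : ∀ j, φ (x j) = x j ^ p) (hJ : ∀ j, θ (C (x j)) ∈ (⊥ : Ideal S).jacobson)
    (hJt : θ (C t) ∈ (⊥ : Ideal S).jacobson) (hJp : (p : S) ∈ (⊥ : Ideal S).jacobson) {y : P}
    (hy : y ∈ Ideal.span {t - (p : P)} ⊔ sp F) (hy' : (p : P) - y ∈ sp x) :
    ∃ u : S, IsUnit u ∧ θ (C (φ^[n] y)) = u * θ (C (φ^[n] (t - (p : P)))) := by
  have hp : p.Prime := Fact.out
  obtain ⟨h, hh⟩ := env_witt hθ hy
  have e2 := env_ghost_eq_zero p n _ hh
  rw [map_sub, map_mul, env_ghost_map, env_ghost_map, hs.ghost, hs.ghost, sub_eq_zero] at e2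
  refine ⟨ghostComponent n h, ?_, e2.trans (mul_comm _ _)⟩
  by_contra hu
  obtain ⟨𝔫, h𝔫, hu⟩ := exists_max_ideal_of_mem_nonunits hu
  have hJ' : (⊥ : Ideal S).jacobson ≤ 𝔫 := sInf_le ⟨bot_le, h𝔫⟩
  let _ := Ideal.Quotient.field 𝔫
  let f := Ideal.Quotient.mk 𝔫
  have hf : ∀ a ∈ (⊥ : Ideal S).jacobson, f a = 0 := fun a ha =>
    Ideal.Quotient.eq_zero_iff_mem.2 (hJ' ha)
  have : CharP (S ⧸ 𝔫) p := (CharP.charP_iff_prime_eq_zero hp).2 (by
    rw [← map_natCast f]; exact hf _ hJp)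
  let σ : P →+* WittVector p (S ⧸ 𝔫) :=
    (WittVector.map f).comp ((WittVector.map (θ.comp C)).comp s)
  have hσ : ∀ a, φ a = a ^ p → θ (C a) ∈ (⊥ : Ideal S).jacobson → σ a = 0 := fun a h1 h2 => by
    simp only [σ, RingHom.comp_apply, hs.teich a h1, map_teichmuller, hf _ h2, teichmuller_zero]
  have h1 : σ y = p := by
    have : sp x ≤ RingHom.ker σ := Ideal.span_le.2 (by
      rintro _ ⟨j, rfl⟩; exact hσ _ (hx j) (hJ j))
    have := this hy'
    rw [RingHom.mem_ker, map_sub, map_natCast, sub_eq_zero] at this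
    exact this.symm
  have h2 : σ (t - (p : P)) = -p := by rw [map_sub, hσ t ht hJt, map_natCast, zero_sub]
  have h3 := congrArg f (hh 1 hn)
  rw [← map_coeff, map_sub, map_mul, map_zero] at h3
  change (σ y - σ (t - (p : P)) * WittVector.map f h).coeff (0 + 1) = 0 at h3
  rw [h1, h2, show (p : WittVector p (S ⧸ 𝔫)) - -p * WittVector.map f h =
    (1 + WittVector.map f h) * p by ring, mul_charP_coeff_succ, add_coeff_zero, one_coeff_zero,
    pow_eq_zero_iff hp.ne_zero] at h3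
  have h4 : ghostComponent n (WittVector.map f h) = 0 := by
    rw [env_ghost_map]
    exact Ideal.Quotient.eq_zero_iff_mem.2 hu
  obtain ⟨n, rfl⟩ := Nat.exists_eq_add_of_le' hn
  rw [dwA_ghost, Finset.sum_range_succ'] at h4
  simp only [CharP.cast_eq_zero, pow_succ, mul_zero, zero_mul, Finset.sum_const_zero, pow_zero,
    one_mul, zero_add, add_zero] at h4
  rw [pow_eq_zero_iff (pow_ne_zero _ hp.ne_zero)] at h4
  rw [h4, add_zero] at h3
  exact one_ne_zero h3

omit [Fintype ι] in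
theorem env_gen (hs : Dw p φ s) (ht : φ t = t ^ p) (htJ : t ∈ (⊥ : Ideal P).jacobson) {n : ℕ}
    {S : Type} [CommRing S] {θ : MvPolynomial (ι × ℕ) P →+* S} (hθ : EKills p s t F n θ)
    (hsurj : Function.Surjective θ) (h0 : ∀ i k, n ≤ k → θ (X (i, k)) = 0) (y : S) :
    ∃ (N : ℕ) (c : P), (p : S) ^ N * y - θ (C c) ∈ Ideal.span {θ (C t) ^ p ^ n - (p : S)} := by
  have hp : p.Prime := Fact.out
  let f := Ideal.Quotient.mk (Ideal.span {θ (C t) ^ p ^ n - (p : S)})
  let ρ : P →+* _ := f.comp (θ.comp C)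
  have hρ : ρ t ^ p ^ n = p := by
    rw [← map_natCast f]
    exact (map_pow f _ _).symm.trans (Ideal.Quotient.eq.2 (Ideal.subset_span rfl))
  let R : Subring (S ⧸ Ideal.span {θ (C t) ^ p ^ n - (p : S)}) :=
    { carrier := {z | ∃ N : ℕ, (p : S ⧸ _) ^ N * z ∈ ρ.range}
      mul_mem' := fun ⟨N, h⟩ ⟨N', h'⟩ => ⟨N + N', by
        rw [pow_add, mul_mul_mul_comm]; exact mul_mem h h'⟩
      one_mem' := ⟨0, by simp⟩
      add_mem' := fun ⟨N, h⟩ ⟨N', h'⟩ => ⟨N + N', by
        convert add_mem (mul_mem (pow_mem (natCast_mem _ p) N') h)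
          (mul_mem (pow_mem (natCast_mem _ p) N) h') using 1
        ring⟩
      zero_mem' := ⟨0, by simp⟩
      neg_mem' := fun ⟨N, h⟩ => ⟨N, by rw [mul_neg]; exact neg_mem h⟩ }
  have hR : ∀ c, ρ c ∈ R := fun c => ⟨0, by simp⟩
  have hR' : ∀ (k : ℕ) z, (p : S ⧸ _) ^ k * z ∈ R → z ∈ R := fun k z ⟨N, h⟩ =>
    ⟨N + k, by rwa [pow_add, mul_assoc]⟩
  have hX : ∀ i k, f (θ (X (i, k))) ∈ R := by
    intro i k
    induction k using Nat.strong_induction_on with
    | _ k ih =>
      rcases le_or_gt n k with hk | hk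
      · rw [h0 i k hk, map_zero]
        exact zero_mem _
      have e2 := env_ghost_eq_zero p k
        (WittVector.map ((f.comp θ).comp (eRn P i)) (eRel0 p s t (F i))) fun j hj => by
          rw [map_coeff]
          exact (congrArg f (hθ i j (hj.trans hk.le))).trans (map_zero f)
      rw [eRel0_map, map_sub, map_mul, env_ghost_map, env_ghost_map, sub_eq_zero, map_sub s,
        map_sub (ghostComponent k), hs.teich t ht, ghostComponent_teichmuller, map_natCast,
        map_natCast, dwA_ghost, coeff_mk] at e2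
      change ρ _ * _ = ρ _ at e2
      obtain ⟨e, he⟩ := Nat.exists_eq_add_of_lt (Nat.pow_lt_pow_right hp.one_lt hk)
      obtain ⟨u, hu⟩ := (Ideal.mem_jacobson_bot.1 htJ (-t ^ e)).exists_left_inv
      have e3 : ρ (u * t ^ (e + 1)) * ρ (t ^ p ^ k - p) = p := by
        have := congrArg ρ hu
        simp only [map_mul, map_add, map_pow, map_neg, map_one, map_sub, map_natCast] at this ⊢
        have h5 : ρ t ^ (p ^ k + e + 1) = p := by rw [← he, hρ]
        rw [← h5]
        linear_combination (ρ t ^ (p ^ k + e + 1)) * this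
      have e4 := mul_mem (hR (u * t ^ (e + 1))) (hR (ghostComponent k (s (F i))))
      rw [← e2, ← mul_assoc, e3] at e4
      refine hR' k _ ((add_mem_cancel_left (sum_mem fun j hj => ?_)).1
        (hR' 1 _ (by rwa [pow_one])))
      exact mul_mem (pow_mem (natCast_mem _ p) _) (pow_mem (ih j (Finset.mem_range.1 hj)) _)
  have key : ∀ z, f (θ z) ∈ R := fun z => by
    induction z using MvPolynomial.induction_on with
    | C a => exact hR a
    | add x y hx hy => rw [map_add, map_add]; exact add_mem hx hy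
    | mul_X x v hx => rw [map_mul, map_mul]; exact mul_mem hx (hX _ _)
  obtain ⟨z, rfl⟩ := hsurj y
  obtain ⟨N, c, hc⟩ := key z
  refine ⟨N, c, Ideal.Quotient.eq.1 ?_⟩
  rw [map_mul, map_pow, map_natCast]
  exact hc.symm

end Crest.Agent.R188
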