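import Crest.Agent.R188.Koz
import Crest.Agent.R183.Norm

/-! Row 188, part IV: power series over a complete local ring; the diagonal. -/

set_option autoImplicit false

namespace Crest.Agent.R188

open Crest.Agent.R183 IsLocalRing

section Aux

open MvPowerSeries

theorem ser1_mem_of_coeff {W σ : Type} [CommRing W] (e : σ → ℕ) (I : Ideal (MvPowerSeries σ W))
    (s : Finset σ) (hI : ∀ j ∈ s, (X j : MvPowerSeries σ W) ^ e j ∈ I) :
    ∀ f : MvPowerSeries σ W,
      (∀ α : σ →₀ ℕ, (∀ j ∈ s, α j < e j) → coeff α f = 0) → f ∈ I := by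
  classical
  induction s using Finset.induction_on with
  | empty =>
    intro f hf
    have : f = 0 := MvPowerSeries.ext fun α => by simpa using hf α (by simp)
    rw [this]; exact I.zero_mem
  | insert j s _ ih =>
    intro f hf
    let g : MvPowerSeries σ W := fun α => if α j < e j then coeff α f else 0
    have hg : ∀ α, coeff α g = if α j < e j then coeff α f else 0 := fun α => rfl
    have h1 : g ∈ I := by
      refine ih (fun i hi => hI i (Finset.mem_insert_of_mem hi)) g fun α hα => ?_
      rw [hg]
      split_ifs with h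
      · refine hf α fun i hi => ?_
        rcases Finset.mem_insert.1 hi with rfl | hi
        · exact h
        · exact hα i hi
      · rfl
    have h2 : (X j : MvPowerSeries σ W) ^ e j ∣ f - g := by
      rw [X_pow_dvd_iff]
      intro α hα
      rw [map_sub, hg, if_pos hα, sub_self]
    have h3 : f - g ∈ I := I.mem_of_dvd h2 (hI j (Finset.mem_insert_self _ _))
    simpa using I.add_mem h3 h1

theorem ser1_ker {D σ : Type} [CommRing D] [Finite σ] :
    RingHom.ker (constantCoeff : MvPowerSeries σ D →+* D) =
      sp (X : σ → MvPowerSeries σ D) := by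
  have := Fintype.ofFinite σ
  apply le_antisymm
  · intro f hf
    refine ser1_mem_of_coeff (fun _ => 1) _ Finset.univ
      (fun j _ => by rw [pow_one]; exact Ideal.subset_span ⟨j, rfl⟩) f fun α hα => ?_
    have : α = 0 := by
      ext j
      have := hα j (Finset.mem_univ j)
      simp only [Finsupp.coe_zero, Pi.zero_apply]
      omega
    subst this
    simpa using hf
  · rw [Ideal.span_le]
    rintro _ ⟨j, rfl⟩
    simp [RingHom.mem_ker]

theorem ser1_mem_max {D σ : Type} [CommRing D] [IsLocalRing D] (f : MvPowerSeries σ D) :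
    f ∈ maximalIdeal (MvPowerSeries σ D) ↔ constantCoeff f ∈ maximalIdeal D := by
  rw [mem_maximalIdeal, mem_maximalIdeal, mem_nonunits_iff, mem_nonunits_iff,
    isUnit_iff_constantCoeff]

/-- power series whose coefficient at `α` lies in `J ^ (n - |α|)`. -/
def ser1_L {W : Type} [CommRing W] (σ : Type) (J : Ideal W) (n : ℕ) : Ideal (MvPowerSeries σ W) where
  carrier := {f | ∀ α : σ →₀ ℕ, coeff α f ∈ J ^ (n - α.degree)}
  add_mem' := by
    intro a b ha hb α
    rw [map_add]
    exact add_mem (ha α) (hb α)
  zero_mem' := by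
    intro α
    simp
  smul_mem' := by
    classical
    intro c f hf α
    rw [smul_eq_mul, coeff_mul]
    refine Ideal.sum_mem _ fun q hq => Ideal.mul_mem_left _ _ (Ideal.pow_le_pow_right ?_ (hf q.2))
    have h : q.1 + q.2 = α := by simpa using hq
    have h2 : q.1.degree + q.2.degree = α.degree := by rw [← h, map_add]
    omega

theorem ser1_L_mul {W σ : Type} [CommRing W] (J : Ideal W) (a b : ℕ) :
    ser1_L σ J a * ser1_L σ J b ≤ ser1_L σ J (a + b) := by
  classical
  rw [Ideal.mul_le]
  intro f hf g hg α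
  rw [coeff_mul]
  refine Ideal.sum_mem _ fun q hq => ?_
  have h : q.1 + q.2 = α := by simpa using hq
  have h2 : q.1.degree + q.2.degree = α.degree := by rw [← h, map_add]
  have h3 := Ideal.mul_mem_mul (hf q.1) (hg q.2)
  rw [← pow_add] at h3
  exact Ideal.pow_le_pow_right (by omega) h3

theorem ser1_pow_le_L {D σ : Type} [CommRing D] [IsLocalRing D] (n : ℕ) :
    maximalIdeal (MvPowerSeries σ D) ^ n ≤ ser1_L σ (maximalIdeal D) n := by
  induction n with
  | zero => intro f _ α; simp
  | succ n ih =>
    rw [pow_succ]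
    refine le_trans (Ideal.mul_mono ih ?_) (ser1_L_mul _ n 1)
    intro f hf α
    by_cases hα : α = 0
    · subst hα
      simpa using (ser1_mem_max f).1 hf
    · have : α.degree ≠ 0 := fun h => hα ((Finsupp.degree_eq_zero_iff α).1 h)
      rw [show 1 - α.degree = 0 by omega]
      simp

theorem ser1_mem_pow {D σ : Type} [CommRing D] [IsLocalRing D] [Finite σ] (n : ℕ)
    (f : MvPowerSeries σ D)
    (hf : ∀ α : σ →₀ ℕ, α.degree ≤ Nat.card σ * n → coeff α f ∈ maximalIdeal D ^ n) :
    f ∈ maximalIdeal (MvPowerSeries σ D) ^ n := by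
  classical
  have := Fintype.ofFinite σ
  have hfin := Finsupp.finite_of_degree_le (σ := σ) (Nat.card σ * n)
  have h1 : ∑ α ∈ hfin.toFinset, monomial α (coeff α f) ∈
      maximalIdeal (MvPowerSeries σ D) ^ n := by
    refine Ideal.sum_mem _ fun α hα => ?_
    have h2 : monomial α (coeff α f) = C (coeff α f) * monomial α (1 : D) := by
      rw [← monomial_zero_eq_C_apply, monomial_mul_monomial, zero_add, mul_one]
    rw [h2]
    refine Ideal.mul_mem_right _ _ ?_
    have h3 : (maximalIdeal D ^ n).map (C : D →+* MvPowerSeries σ D) ≤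
        maximalIdeal (MvPowerSeries σ D) ^ n := by
      rw [Ideal.map_pow]
      refine Ideal.pow_right_mono ?_ n
      rw [Ideal.map_le_iff_le_comap]
      intro c hc
      rw [Ideal.mem_comap, ser1_mem_max]
      simpa using hc
    exact h3 (Ideal.mem_map_of_mem _ (hf α (by simpa using hα)))
  have h2 : f - ∑ α ∈ hfin.toFinset, monomial α (coeff α f) ∈
      maximalIdeal (MvPowerSeries σ D) ^ n := by
    refine ser1_mem_of_coeff (fun _ => n) _ Finset.univ
      (fun j _ => Ideal.pow_mem_pow ((ser1_mem_max _).2 (by simp)) n) _ fun α hα => ?_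
    have h3 : α.degree ≤ Nat.card σ * n := by
      rw [Finsupp.degree_eq_sum, Nat.card_eq_fintype_card]
      calc ∑ j, α j ≤ ∑ _j : σ, n := Finset.sum_le_sum fun j hj => (hα j hj).le
        _ = Fintype.card σ * n := by simp
    rw [map_sub, map_sum, Finset.sum_eq_single α]
    · simp
    · intro β _ hβ
      rw [coeff_monomial, if_neg (Ne.symm hβ)]
    · intro h
      exact absurd (by simpa using h3) h
  simpa using add_mem h2 h1

theorem ser1_ofList_X {D σ : Type} [CommRing D] (l : List σ) (f : MvPowerSeries σ D) :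
    f ∈ Ideal.ofList (l.map (X : σ → MvPowerSeries σ D)) ↔
      ∀ α : σ →₀ ℕ, (∀ j ∈ l, α j = 0) → coeff α f = 0 := by
  classical
  constructor
  · intro hf
    induction hf using Submodule.span_induction with
    | mem x hx =>
      obtain ⟨j, hj, rfl⟩ := List.mem_map.1 hx
      intro α hα
      rw [coeff_X, if_neg]
      rintro rfl
      simpa using hα j hj
    | zero => intro α _; simp
    | add x y _ _ hx hy => intro α hα; rw [map_add, hx α hα, hy α hα, add_zero]
    | smul c x _ hx =>
      intro α hα
      rw [smul_eq_mul, coeff_mul]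
      refine Finset.sum_eq_zero fun q hq => ?_
      have h : q.1 + q.2 = α := by simpa using hq
      rw [hx q.2 fun j hj => ?_, mul_zero]
      have h2 : q.1 j + q.2 j = α j := by rw [← h]; rfl
      have := hα j hj
      omega
  · intro hf
    refine ser1_mem_of_coeff (fun _ => 1) _ l.toFinset (fun j hj => ?_) f fun α hα => ?_
    · rw [pow_one]
      exact Ideal.subset_span (List.mem_map.2 ⟨j, List.mem_toFinset.1 hj, rfl⟩)
    · refine hf α fun j hj => ?_
      have := hα j (List.mem_toFinset.2 hj)
      omega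

theorem ser1_regL {D σ : Type} [CommRing D] (l : List σ) (hl : l.Nodup) :
    RegL (l.map (X : σ → MvPowerSeries σ D)) := by
  classical
  induction l with
  | nil => trivial
  | cons i l ih =>
    rw [List.nodup_cons] at hl
    refine ⟨ih hl.2, fun y hy => ?_⟩
    rw [ser1_ofList_X] at hy ⊢
    intro α hα
    have h1 := hy (Finsupp.single i 1 + α) fun j hj => by
      have hij : i ≠ j := fun h => hl.1 (h ▸ hj)
      simp [Finsupp.single_apply, hij, hα j hj]
    rwa [X_def, coeff_add_monomial_mul, one_mul] at h1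

theorem ser1_ofList_ofFn {A : Type} [CommRing A] {d : ℕ} (x : Fin d → A) :
    Ideal.ofList (List.ofFn x) = sp x := by
  unfold Ideal.ofList sp
  congr 1
  ext y
  simp [List.mem_ofFn]

end Aux

/-- homomorphisms out of a power series ring are determined by constants and variables. -/
theorem ps_hom_ext {O R σ : Type} [CommRing O] [CommRing R] [Finite σ] (I : Ideal R)
    [IsHausdorff I R] (f g : MvPowerSeries σ O →+* R)
    (hC : ∀ c, f (MvPowerSeries.C c) = g (MvPowerSeries.C c))
    (hX : ∀ i, f (MvPowerSeries.X i) = g (MvPowerSeries.X i))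
    (hI : ∀ i, f (MvPowerSeries.X i) ∈ I) : f = g := by
  have := Fintype.ofFinite σ
  have key : ∀ n : ℕ, ∀ φ, f φ - g φ ∈ I ^ n := by
    intro n
    induction n with
    | zero => intro φ; simp
    | succ n ih =>
      intro φ
      have h1 : φ - MvPowerSeries.C (MvPowerSeries.constantCoeff φ) ∈
          sp (MvPowerSeries.X : σ → MvPowerSeries σ O) := by
        rw [← ser1_ker, RingHom.mem_ker]
        simp
      obtain ⟨c, hc⟩ := (Submodule.mem_span_range_iff_exists_fun _).1 h1
      have h2 : φ = MvPowerSeries.C (MvPowerSeries.constantCoeff φ) +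
          ∑ i, c i * MvPowerSeries.X i := by
        simp only [smul_eq_mul] at hc
        rw [hc]; ring
      have h3 : f φ - g φ = ∑ i, (f (c i) - g (c i)) * f (MvPowerSeries.X i) := by
        conv_lhs => rw [h2]
        simp only [map_add, map_sum, map_mul, hC, ← hX, sub_mul, Finset.sum_sub_distrib]
        ring
      rw [h3, pow_succ]
      exact Ideal.sum_mem _ fun i _ => Ideal.mul_mem_mul (ih _) (hI i)
  ext φ
  rw [← sub_eq_zero]
  refine IsHausdorff.haus' (I := I) _ fun n => ?_
  rw [RegPSA_smodEq, sub_zero]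
  exact key n φ

theorem maximalIdeal_ps {D σ : Type} [CommRing D] [IsLocalRing D] [Finite σ] :
    maximalIdeal (MvPowerSeries σ D) =
      (maximalIdeal D).map (MvPowerSeries.C : D →+* MvPowerSeries σ D) ⊔
        sp (MvPowerSeries.X : σ → MvPowerSeries σ D) := by
  apply le_antisymm
  · intro f hf
    have h1 : f - MvPowerSeries.C (MvPowerSeries.constantCoeff f) ∈
        sp (MvPowerSeries.X : σ → MvPowerSeries σ D) := by
      rw [← ser1_ker, RingHom.mem_ker]
      simp
    have h2 := Ideal.mem_map_of_mem (MvPowerSeries.C : D →+* MvPowerSeries σ D)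
      ((ser1_mem_max f).1 hf)
    simpa using Submodule.add_mem_sup h2 h1
  · refine sup_le ?_ ?_
    · rw [Ideal.map_le_iff_le_comap]
      intro c hc
      rw [Ideal.mem_comap, ser1_mem_max]
      simpa using hc
    · rw [Ideal.span_le]
      rintro _ ⟨j, rfl⟩
      exact (ser1_mem_max _).2 (by simp)

theorem ker_constantCoeff {D σ : Type} [CommRing D] [Finite σ] :
    RingHom.ker (MvPowerSeries.constantCoeff : MvPowerSeries σ D →+* D) =
      sp (MvPowerSeries.X : σ → MvPowerSeries σ D) := by
  exact ser1_ker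

theorem isAdicComplete_ps {D σ : Type} [CommRing D] [IsLocalRing D] [IsNoetherianRing D]
    [IsAdicComplete (maximalIdeal D) D] [Finite σ] :
    IsAdicComplete (maximalIdeal (MvPowerSeries σ D)) (MvPowerSeries σ D) := by
  refine { haus' := ?_, prec' := ?_ }
  · intro f hf
    refine MvPowerSeries.ext fun α => ?_
    rw [MvPowerSeries.coeff_zero]
    refine IsHausdorff.haus' (I := maximalIdeal D) _ fun n => ?_
    have h1 := ser1_pow_le_L _ ((RegPSA_smodEq _ _ _ _).1 (hf (n + α.degree))) α
    rw [RegPSA_smodEq]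
    simpa using h1
  · intro f hf
    have key : ∀ (α : σ →₀ ℕ) (a b n : ℕ), n + α.degree ≤ a → a ≤ b →
        MvPowerSeries.coeff α (f a) - MvPowerSeries.coeff α (f b) ∈ maximalIdeal D ^ n := by
      intro α a b n h1 h2
      have h3 := ser1_pow_le_L _ ((RegPSA_smodEq _ _ _ _).1 (hf h2)) α
      rw [map_sub] at h3
      exact Ideal.pow_le_pow_right (by omega) h3
    have hL : ∀ α : σ →₀ ℕ, ∃ L : D, ∀ n,
        MvPowerSeries.coeff α (f (n + α.degree)) - L ∈ maximalIdeal D ^ n := by
      intro α
      obtain ⟨L, hL⟩ := IsPrecomplete.prec' (I := maximalIdeal D)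
        (fun n => MvPowerSeries.coeff α (f (n + α.degree))) (by
          intro a b hab
          rw [RegPSA_smodEq]
          exact key α _ _ a le_rfl (by omega))
      refine ⟨L, fun n => ?_⟩
      have := hL n
      rwa [RegPSA_smodEq] at this
    choose L hL using hL
    let g : MvPowerSeries σ D := L
    have hg : ∀ α, MvPowerSeries.coeff α g = L α := fun α => rfl
    refine ⟨g, fun n => ?_⟩
    have h1 : f (n + Nat.card σ * n) - g ∈ maximalIdeal (MvPowerSeries σ D) ^ n := by
      refine ser1_mem_pow n _ fun α hα => ?_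
      rw [map_sub, hg]
      have h3 := key α (n + α.degree) (n + Nat.card σ * n) n le_rfl (by omega)
      have h4 := sub_mem (hL α n) h3
      convert h4 using 1
      ring
    have h2 := (RegPSA_smodEq _ _ _ _).1 (hf (show n ≤ n + Nat.card σ * n by omega))
    rw [RegPSA_smodEq]
    simpa using Ideal.add_mem _ h2 h1

/-- translation of the variables. -/
theorem exists_translation {D σ : Type} [CommRing D] [IsLocalRing D] [IsNoetherianRing D]
    [IsAdicComplete (maximalIdeal D) D] [Finite σ] (z : σ → D) (hz : ∀ i, z i ∈ maximalIdeal D) :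
    ∃ e : MvPowerSeries σ D ≃+* MvPowerSeries σ D,
      (∀ c, e (MvPowerSeries.C c) = MvPowerSeries.C c) ∧
      ∀ i, e (MvPowerSeries.X i) = MvPowerSeries.X i - MvPowerSeries.C (z i) := by
  have := isAdicComplete_ps (D := D) (σ := σ)
  have hm : ∀ i, (MvPowerSeries.X i - MvPowerSeries.C (z i) : MvPowerSeries σ D) ∈
      maximalIdeal (MvPowerSeries σ D) := fun i => (ser1_mem_max _).2 (by simpa using hz i)
  have hp : ∀ i, (MvPowerSeries.X i + MvPowerSeries.C (z i) : MvPowerSeries σ D) ∈
      maximalIdeal (MvPowerSeries σ D) := fun i => (ser1_mem_max _).2 (by simpa using hz i)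
  have hX : ∀ i, (MvPowerSeries.X i : MvPowerSeries σ D) ∈
      maximalIdeal (MvPowerSeries σ D) := fun i => (ser1_mem_max _).2 (by simp)
  obtain ⟨f, hfC, hfX⟩ := exists_ps_hom (maximalIdeal (MvPowerSeries σ D))
    (MvPowerSeries.C : D →+* MvPowerSeries σ D) _ hm
  obtain ⟨g, hgC, hgX⟩ := exists_ps_hom (maximalIdeal (MvPowerSeries σ D))
    (MvPowerSeries.C : D →+* MvPowerSeries σ D) _ hp
  have h1 : f.comp g = RingHom.id _ := by
    refine ps_hom_ext (maximalIdeal (MvPowerSeries σ D)) _ _ (fun c => ?_) (fun i => ?_)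
      (fun i => ?_)
    · simp [hfC, hgC]
    · simp [hfC, hfX, hgX]
    · simpa [hfC, hfX, hgX] using hX i
  have h2 : g.comp f = RingHom.id _ := by
    refine ps_hom_ext (maximalIdeal (MvPowerSeries σ D)) _ _ (fun c => ?_) (fun i => ?_)
      (fun i => ?_)
    · simp [hfC, hgC]
    · simp [hgC, hfX, hgX]
    · simpa [hgC, hfX, hgX] using hX i
  exact ⟨RingEquiv.ofRingHom f g h1 h2, hfC, hfX⟩

theorem regL_X (D : Type) [CommRing D] (d : ℕ) :
    RegL (List.ofFn (MvPowerSeries.X : Fin d → MvPowerSeries (Fin d) D)) := by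
  rw [List.ofFn_eq_map]
  exact ser1_regL _ (List.nodup_finRange d)

/-- the diagonal `Δ = (X_i - z_i)` is a regular sequence with quotient `D`. -/
theorem exists_diagonal {D : Type} [CommRing D] [IsLocalRing D] [IsNoetherianRing D]
    [IsAdicComplete (maximalIdeal D) D] {d : ℕ} (z : Fin d → D) (hz : ∀ i, z i ∈ maximalIdeal D) :
    RegL (List.ofFn fun i => (MvPowerSeries.X i - MvPowerSeries.C (z i) : MvPowerSeries (Fin d) D)) ∧
    ∃ ev : MvPowerSeries (Fin d) D →+* D, (∀ c, ev (MvPowerSeries.C c) = c) ∧
      (∀ i, ev (MvPowerSeries.X i) = z i) ∧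
      RingHom.ker ev = Ideal.ofList (List.ofFn fun i =>
        (MvPowerSeries.X i - MvPowerSeries.C (z i) : MvPowerSeries (Fin d) D)) := by
  obtain ⟨e, heC, heX⟩ := exists_translation z hz
  have h0 : (List.ofFn fun i =>
      (MvPowerSeries.X i - MvPowerSeries.C (z i) : MvPowerSeries (Fin d) D)) =
      (List.ofFn (MvPowerSeries.X : Fin d → MvPowerSeries (Fin d) D)).map e := by
    rw [List.map_ofFn]
    congr 1
    funext i
    exact (heX i).symm
  have hC : ∀ c, e.symm (MvPowerSeries.C c) = MvPowerSeries.C c := fun c => by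
    rw [RingEquiv.symm_apply_eq, heC]
  have hX : ∀ i, e.symm (MvPowerSeries.X i) = MvPowerSeries.X i + MvPowerSeries.C (z i) :=
    fun i => by
      rw [RingEquiv.symm_apply_eq, map_add, heC, heX, sub_add_cancel]
  refine ⟨h0 ▸ RegL.map_equiv e (regL_X D d),
    (MvPowerSeries.constantCoeff : MvPowerSeries (Fin d) D →+* D).comp
      (e.symm : MvPowerSeries (Fin d) D →+* MvPowerSeries (Fin d) D), fun c => ?_, fun i => ?_, ?_⟩
  · simp [hC]
  · simp [hX]
  · rw [← RingHom.comap_ker, ser1_ker, h0, ← ser1_ofList_ofFn]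
    have h1 := Ideal.map_ofList (e : MvPowerSeries (Fin d) D →+* MvPowerSeries (Fin d) D)
      (List.ofFn (MvPowerSeries.X : Fin d → MvPowerSeries (Fin d) D))
    rw [RingEquiv.coe_toRingHom] at h1
    rw [← h1]
    exact (Ideal.map_comap_of_equiv e).symm

end Crest.Agent.R188
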