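import Crest.Agent.R188.BInt
import Crest.Agent.R188.Ser1
import Crest.Agent.R183.EnvAux

/-! Row 188, envelopes: power series over `W(k)`. -/

set_option autoImplicit false

namespace Crest.Agent.R188

open Crest.Agent.R183 IsLocalRing RingTheory.Sequence

variable (p : ℕ) [hp : Fact p.Prime] (k : Type) [Field k] [CharP k p] [PerfectRing k p]

/-- the standard Frobenius lift on `W(k)⟦X⟧`. -/
noncomputable def psPhi (σ : Type) : PS p k σ →+* PS p k σ :=
  (MvPowerSeries.map ((WittVector.frobeniusEquiv p k : WittVector p k ≃+* WittVector p k) :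
        WittVector p k →+* WittVector p k)).comp
      (MvPowerSeries.expand p hp.out.ne_zero : PS p k σ →ₐ[WittVector p k] PS p k σ).toRingHom

theorem psPhi_lift (σ : Type) (a : PS p k σ) :
    psPhi p k σ a - a ^ p ∈ Ideal.span {(p : PS p k σ)} :=
  env_frob_lift p k σ a

theorem psPhi_X (σ : Type) (i : σ) :
    psPhi p k σ (MvPowerSeries.X i) = MvPowerSeries.X i ^ p := by
  simp [psPhi]

theorem BEnvS_expand_rename {O σ τ : Type} [CommRing O] [Finite σ] (f : σ → τ) (q : ℕ)
    (hq : q ≠ 0) (a : MvPowerSeries σ O) :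
    MvPowerSeries.expand q hq (MvPowerSeries.rename f a) =
      MvPowerSeries.rename f (MvPowerSeries.expand q hq a) := by
  have h1 : MvPowerSeries.HasSubst (MvPowerSeries.X ∘ f : σ → MvPowerSeries τ O) :=
    MvPowerSeries.HasSubst.X_comp f
  rw [MvPowerSeries.rename_eq_subst, MvPowerSeries.rename_eq_subst, MvPowerSeries.expand_subst q hq h1,
    MvPowerSeries.expand, MvPowerSeries.expand, MvPowerSeries.substAlgHom_apply,
    MvPowerSeries.subst_comp_subst_apply (MvPowerSeries.HasSubst.X_pow hq) h1]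
  congr 1
  funext i
  rw [MvPowerSeries.subst_pow h1, MvPowerSeries.subst_X h1, Function.comp_apply,
    MvPowerSeries.substAlgHom_X]

theorem BEnvS_bij {O σ : Type} [CommRing O] [Fintype σ] [DecidableEq σ] (e : O ≃+* O) (q : ℕ)
    (hq : q ≠ 0) (Φ : MvPowerSeries σ O → MvPowerSeries σ O)
    (hΦ : ∀ a, Φ a = MvPowerSeries.map (e : O →+* O) (MvPowerSeries.expand q hq a)) :
    ∃ b : (σ → Fin q) → MvPowerSeries σ O, Function.Bijective
      fun f : (σ → Fin q) → MvPowerSeries σ O => ∑ i, Φ (f i) * b i := by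
  let β : (σ → Fin q) → (σ →₀ ℕ) := fun b => Finsupp.equivFunOnFinite.symm fun i => (b i : ℕ)
  have hβ : ∀ b i, β b i = b i := fun b i => rfl
  have hq0 : 0 < q := Nat.pos_of_ne_zero hq
  refine ⟨fun b => MvPowerSeries.monomial (β b) (1 : O), ?_⟩
  have key : ∀ (f : (σ → Fin q) → MvPowerSeries σ O) (a : σ →₀ ℕ) (b : σ → Fin q),
      MvPowerSeries.coeff (q • a + β b) (∑ i, Φ (f i) *
          MvPowerSeries.monomial (β i) (1 : O)) = e (MvPowerSeries.coeff a (f b)) := by
    intro f a b
    rw [map_sum, Finset.sum_eq_single b _ (by simp)]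
    · rw [MvPowerSeries.coeff_add_mul_monomial, mul_one, hΦ]
      simp
    · intro b' _ hb'
      rw [MvPowerSeries.coeff_mul_monomial]
      split_ifs with hle
      · obtain ⟨i, hi⟩ := Function.ne_iff.1 hb'
        have h1 : ¬ q ∣ (q • a + β b - β b') i := by
          intro hd
          have h2 := hle i
          simp only [Finsupp.coe_tsub, Finsupp.coe_add, Finsupp.coe_smul, Pi.sub_apply,
            Pi.add_apply, Pi.smul_apply, smul_eq_mul, hβ] at hd h2
          have h3 := (Nat.modEq_iff_dvd' h2).2 hd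
          apply hi
          apply Fin.ext
          have h4 : (b' i : ℕ) % q = (q * a i + b i) % q := h3
          rwa [Nat.mul_add_mod, Nat.mod_eq_of_lt (b' i).2, Nat.mod_eq_of_lt (b i).2] at h4
        rw [hΦ]
        simp [MvPowerSeries.coeff_expand_of_not_dvd q hq _ h1]
      · rfl
  constructor
  · intro f g h
    funext b
    ext a
    apply e.injective
    rw [← key, ← key]
    exact congrArg _ h
  · intro g
    refine ⟨fun b a => e.symm (MvPowerSeries.coeff (q • a + β b) g), ?_⟩
    ext m
    have hm : m = q • (m.mapRange (· / q) (by simp)) + β fun i => ⟨m i % q, Nat.mod_lt _ hq0⟩ := by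
      ext i
      simp [hβ, Nat.div_add_mod]
    rw [hm]
    refine (key _ _ _).trans ?_
    exact e.apply_symm_apply _

theorem BEnvS_apply (σ : Type) (a : PS p k σ) : psPhi p k σ a =
    MvPowerSeries.map ((WittVector.frobeniusEquiv p k : WittVector p k ≃+* WittVector p k) :
        WittVector p k →+* WittVector p k) (MvPowerSeries.expand p hp.out.ne_zero a) := rfl

theorem BEnvS_pow (σ : Type) (n : ℕ) : ∃ e : WittVector p k ≃+* WittVector p k, ∀ a : PS p k σ,
    (psPhi p k σ ^ n) a = MvPowerSeries.map (e : WittVector p k →+* WittVector p k)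
      (MvPowerSeries.expand (p ^ n) (pow_ne_zero n hp.out.ne_zero) a) := by
  induction n with
  | zero =>
    refine ⟨RingEquiv.refl _, fun a => ?_⟩
    have h : MvPowerSeries.expand (p ^ 0) (pow_ne_zero 0 hp.out.ne_zero) a = a :=
      MvPowerSeries.expand_one_apply a
    rw [h]
    ext d : 1
    rw [MvPowerSeries.coeff_map]
    rfl
  | succ n ih =>
    obtain ⟨e, he⟩ := ih
    refine ⟨(WittVector.frobeniusEquiv p k).trans e, fun a => ?_⟩
    have h : MvPowerSeries.expand (p ^ (n + 1)) (pow_ne_zero (n + 1) hp.out.ne_zero) a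
        = MvPowerSeries.expand (p ^ n) (pow_ne_zero n hp.out.ne_zero)
          (MvPowerSeries.expand p hp.out.ne_zero a) :=
      MvPowerSeries.expand_mul (p ^ n) (pow_ne_zero n hp.out.ne_zero) p hp.out.ne_zero a
    rw [pow_succ, RingHom.coe_mul, Function.comp_apply, he, BEnvS_apply, h,
      ← MvPowerSeries.map_expand]
    ext d : 1
    simp only [MvPowerSeries.coeff_map]
    rfl

theorem psPhi_rn {σ τ : Type} [Finite σ] (f : σ → τ) (hf : Function.Injective f) (a : PS p k σ) :
    psPhi p k τ (psRn p k f a) = psRn p k f (psPhi p k σ a) := by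
  change psPhi p k τ (MvPowerSeries.rename f a) = MvPowerSeries.rename f (psPhi p k σ a)
  rw [BEnvS_apply, BEnvS_apply, BEnvS_expand_rename, MvPowerSeries.rename_map]

/-- the monomials with exponents `< p ^ n` form a basis over the image of `φ ^ n`. -/
theorem psPhi_basis (σ : Type) [Fintype σ] [DecidableEq σ] (n : ℕ) :
    ∃ b : (σ → Fin (p ^ n)) → PS p k σ, Function.Bijective
      fun f : (σ → Fin (p ^ n)) → PS p k σ => ∑ i, (psPhi p k σ ^ n) (f i) * b i := by
  obtain ⟨e, he⟩ := BEnvS_pow p k σ n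
  exact BEnvS_bij e (p ^ n) _ _ he

theorem ps_tf (σ : Type) (b : PS p k σ) (h : (p : PS p k σ) * b = 0) : b = 0 := by
  ext d : 1
  have h1 := congrArg (MvPowerSeries.coeff d) h
  rw [← map_natCast (MvPowerSeries.C (σ := σ) (R := WittVector p k)),
    MvPowerSeries.coeff_C_mul, map_zero] at h1
  rw [map_zero]
  exact (mul_eq_zero.1 h1).resolve_left (WittVector.p_nonzero p k)

end Crest.Agent.R188
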