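import Crest.Agent.R188.Reg1A

/-! Row 188, part IV: regular local rings are domains; regular systems of parameters. -/

set_option autoImplicit false

namespace Crest.Agent.R188

open Crest.Agent.R183 IsLocalRing

variable {R : Type} [CommRing R]

/-- regular local rings are domains. -/
theorem reg_domain (R : Type) [CommRing R] [IsRegularLocalRing R] : IsDomain R :=
  rl_domain (d := (maximalIdeal R).spanFinrank) IsRegularLocalRing.spanFinrank_maximalIdeal.symm

theorem Reg1_wr (rs : List R) : ∀ [IsLocalRing R] [IsNoetherianRing R],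
    ringKrullDim R = rs.length → Ideal.ofList rs = maximalIdeal R →
    RingTheory.Sequence.IsWeaklyRegular R rs := by
  generalize hn : rs.length = n
  induction n generalizing R with
  | zero =>
    intro _ _ _ _
    rw [List.length_eq_zero_iff.1 hn]
    exact .nil R R
  | succ n ih =>
    intro _ _ hd hrs
    obtain ⟨x, rs, rfl⟩ := List.exists_cons_of_length_eq_add_one hn
    have hsp : ∀ (S : Type) [CommRing S] (l : List S), sp l.get = Ideal.ofList l := fun S _ l => by
      rw [sp, Ideal.ofList, Set.range_list_get]
    have hn' : rs.length = n := by simpa using hn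
    obtain ⟨h1, -⟩ := reg_of_gen (x :: rs).get ((hsp _ _).trans hrs) (by rw [hd, hn])
    have hdom : IsDomain R := rl_domain (T := R) hd
    have hx : x ∈ maximalIdeal R := hrs ▸ Ideal.subset_span (by simp)
    have hx0 : x ≠ 0 := by
      rintro rfl
      have h2 := dim_le_of_gen rs.get (fun i => hrs ▸ Ideal.subset_span (by simp)) ⊥ (c := 1) (by
        rw [pow_one, bot_sup_eq, hsp, ← hrs, Ideal.ofList_cons]; simp)
      rw [ringKrullDim_eq_of_ringEquiv (RingEquiv.quotientBot R), hd, hn'] at h2
      have : n + 1 ≤ n := by exact_mod_cast h2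
      omega
    have : Nontrivial (R ⧸ Ideal.span {x}) := Ideal.Quotient.nontrivial_iff.2
      (ne_top_of_le_ne_top (maximalIdeal.isMaximal R).ne_top
        ((Ideal.span_singleton_le_iff_mem _).2 hx))
    have hl : IsLocalRing (R ⧸ Ideal.span {x}) := .of_surjective' _ Ideal.Quotient.mk_surjective
    have h2 := ringKrullDim_quotient_span_singleton_succ_eq_ringKrullDim_of_mem_nonZeroDivisors
      (mem_nonZeroDivisors_of_ne_zero hx0) hx
    obtain ⟨a, ha⟩ := exists_dim_nat (R := R) (I := Ideal.span {x})
      (Ideal.Quotient.nontrivial_iff.1 this)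
    rw [ha, hd] at h2
    obtain rfl : a = n := by
      have : a + 1 = n + 1 := by exact_mod_cast h2
      omega
    have c := ih (rs.map (Ideal.Quotient.mk (Ideal.span {x}))) (by simp [hn']) ha (by
      rw [← map_maximalIdeal_of_surjective _ Ideal.Quotient.mk_surjective, ← hrs, Ideal.ofList_cons,
        Ideal.map_sup, Ideal.map_quotient_self, bot_sup_eq, Ideal.map_ofList])
    rw [RingTheory.Sequence.isWeaklyRegular_cons_iff']
    refine ⟨fun a b h => mul_left_cancel₀ hx0 h, ?_⟩
    have e2 : QuotSMulTop x R ≃ₗ[R ⧸ Ideal.span {x}] R ⧸ Ideal.span {x} :=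
      (Submodule.quotEquivOfEq _ _ (by
        rw [← Submodule.ideal_span_singleton_smul, smul_eq_mul, Ideal.mul_top])
          : QuotSMulTop x R ≃ₗ[R] R ⧸ Ideal.span {x}).extendScalarsOfSurjective
        Ideal.Quotient.mk_surjective
    exact (e2.isWeaklyRegular_congr _).2 c

/-- a regular system of parameters is a regular sequence. -/
theorem reg_isRegular [IsRegularLocalRing R] (rs : List R) (hd : ringKrullDim R = rs.length)
    (hrs : Ideal.ofList rs = maximalIdeal R) : RingTheory.Sequence.IsRegular R rs :=
  .of_isWeaklyRegular_of_mem_maximalIdeal R (fun _ h => hrs ▸ Ideal.subset_span h)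
    (Reg1_wr rs hd hrs)

/-- a surjection from a ring of embedding dimension `≤ d` onto a ring of dimension `d` is
injective. -/
theorem injective_of_gen {A T : Type} [CommRing A] [IsLocalRing A] [IsNoetherianRing A] [CommRing T]
    {d : ℕ} (x : Fin d → A) (hx : sp x = maximalIdeal A) (φ : A →+* T)
    (hφ : Function.Surjective φ) (hd : ringKrullDim T = d) : Function.Injective φ := by
  obtain ⟨h1, h2⟩ := reg_of_gen x hx (hd ▸ ringKrullDim_le_of_surjective φ hφ)
  have : IsDomain A := rl_domain (T := A) h2
  rw [injective_iff_map_eq_zero]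
  intro a ha
  by_contra h0
  have := ringKrullDim_succ_le_of_surjective φ hφ (mem_nonZeroDivisors_of_ne_zero h0) ha
  rw [hd, h2] at this
  have h3 : d + 1 ≤ d := by exact_mod_cast this
  omega

end Crest.Agent.R188
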