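import Crest.Agent.R188.BInt
import Crest.Agent.R188.Ser1
import Crest.Agent.R188.Reg1
import Crest.Agent.R169.CM

/-! Row 188, envelopes: power series over `W(k)`. -/

set_option autoImplicit false

namespace Crest.Agent.R188

open Crest.Agent.R183 IsLocalRing RingTheory.Sequence

variable (p : ℕ) [hp : Fact p.Prime] (k : Type) [Field k] [CharP k p] [PerfectRing k p]

theorem ps_max (σ : Type) [Finite σ] : maximalIdeal (PS p k σ) = mxPS p k σ := by
  rw [maximalIdeal_ps, (WittVector.irreducible p (k := k)).maximalIdeal_eq, Ideal.map_span,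
    Set.image_singleton, map_natCast]
  rfl

theorem ps_complete_env (σ : Type) [Finite σ] :
    IsAdicComplete (maximalIdeal (PS p k σ)) (PS p k σ) := by
  have : IsAdicComplete (maximalIdeal (WittVector p k)) (WittVector p k) := by
    rw [(WittVector.irreducible p (k := k)).maximalIdeal_eq]
    infer_instance
  exact isAdicComplete_ps

theorem ps_dim (σ : Type) [Fintype σ] :
    IsRegularLocalRing (PS p k σ) ∧ ringKrullDim (PS p k σ) = (Fintype.card σ + 1 : ℕ) := by
  let e := Fintype.equivFin σ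
  refine reg_of_gen (Fin.cons (p : PS p k σ) fun i => MvPowerSeries.X (e.symm i)) ?_ ?_
  · rw [ps_max, mxPS, sp, Fin.range_cons, Ideal.span_insert]
    congr 2
    exact e.symm.surjective.range_comp MvPowerSeries.X
  · have h := ringKrullDim_succ_le_of_surjective
      (MvPowerSeries.map (σ := σ) (WittVector.constantCoeff : WittVector p k →+* k))
      (fun g => ⟨fun α => Function.surjInv (WittVector.constantCoeff_surjective p) (g α), by
        ext α
        rw [MvPowerSeries.coeff_map]
        exact Function.surjInv_eq (WittVector.constantCoeff_surjective p) _⟩)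
      (r := (p : PS p k σ)) (mem_nonZeroDivisors_of_ne_zero (by
        intro h
        have h2 := congrArg (MvPowerSeries.constantCoeff (σ := σ)) h
        rw [map_natCast, map_zero] at h2
        exact (WittVector.irreducible p (k := k)).ne_zero h2))
      (by rw [map_natCast, ← map_natCast (MvPowerSeries.C (σ := σ) (R := k)), CharP.cast_eq_zero,
        map_zero])
    refine le_trans ?_ h
    rw [ringKrullDim_eq_of_ringEquiv (MvPowerSeries.renameEquiv k e).toRingEquiv]
    push_cast
    gcongr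
    exact Reg1A_ps_dim k _

variable {m : ℕ} {ι : Type} [Fintype ι] {F : ι → PS p k (Fin (m + 1) ⊕ ι)}

theorem BEnvS2_le (h : CI p k m F) :
    (mxPS p k (Fin (m + 1))).map (psRn p k Sum.inl) ⊔ sp F ≤
      maximalIdeal (PS p k (Fin (m + 1) ⊕ ι)) := by
  rw [ps_max]
  refine sup_le ?_ (Ideal.span_le.2 ?_)
  · rw [mxPS, Ideal.map_sup, Ideal.map_span, Set.image_singleton, map_natCast]
    refine sup_le_sup_left ?_ _
    rw [Ideal.map_span]
    refine Ideal.span_mono ?_
    rintro _ ⟨_, ⟨i, rfl⟩, rfl⟩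
    exact ⟨Sum.inl i, (MvPowerSeries.rename_X _ _).symm⟩
  · rintro _ ⟨i, rfl⟩
    exact h.mem i

theorem CI.regular (h : CI p k m F) :
    IsWeaklyRegular (PS p k (Fin (m + 1) ⊕ ι))
      (((p : PS p k (Fin (m + 1))) :: List.ofFn MvPowerSeries.X).map (psRn p k Sum.inl) ++
        Finset.univ.toList.map F) := by
  obtain ⟨hreg, hdim⟩ := ps_dim p k (Fin (m + 1) ⊕ ι)
  obtain ⟨x, hx⟩ := reg_exists_gen hdim
  have hx' : Ideal.ofList (List.ofFn x) = maximalIdeal _ := (ser1_ofList_ofFn x).trans hx
  have hI : Ideal.ofList (((p : PS p k (Fin (m + 1))) :: List.ofFn MvPowerSeries.X).map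
      (psRn p k Sum.inl) ++ Finset.univ.toList.map F) =
      (mxPS p k (Fin (m + 1))).map (psRn p k Sum.inl) ⊔ sp F := by
    rw [Ideal.ofList_append, ← Ideal.map_ofList, Ideal.ofList_cons, ser1_ofList_ofFn]
    congr 1
    refine congrArg Ideal.span (Set.ext fun y => ?_)
    simp
  refine R169.isWeaklyRegular_of_sop (Fintype.card (Fin (m + 1) ⊕ ι) + 1) _ (List.ofFn x) _
    (List.length_ofFn) (by simp; omega) (fun r hr => hx' ▸ Ideal.subset_span hr) (fun r hr => ?_)
    (reg_isRegular _ (by rw [List.length_ofFn]; exact hdim) hx') ?_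
  · have h2 : r ∈ (mxPS p k (Fin (m + 1))).map (psRn p k Sum.inl) ⊔ sp F :=
      hI ▸ Ideal.subset_span hr
    exact BEnvS2_le p k h h2
  · obtain ⟨s, hs⟩ := h.prim
    rw [hI, ps_max]
    intro y hy
    exact ⟨s, Ideal.mem_sup_right (hs (Ideal.pow_mem_pow hy s))⟩

theorem CI.finite_env (h : CI p k m F) :
    letI := (psRn p k (Sum.inl : Fin (m + 1) → Fin (m + 1) ⊕ ι)).toAlgebra
    Module.Finite (PS p k (Fin (m + 1))) (PS p k (Fin (m + 1) ⊕ ι) ⧸ sp F) := by
  let := (psRn p k (Sum.inl : Fin (m + 1) → Fin (m + 1) ⊕ ι)).toAlgebra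
  have hle := BEnvS2_le p k h
  have : Nontrivial (PS p k (Fin (m + 1) ⊕ ι) ⧸ sp F) := Ideal.Quotient.nontrivial_iff.2
    (ne_top_of_le_ne_top (maximalIdeal.isMaximal _).ne_top (le_sup_right.trans hle))
  have : IsLocalRing (PS p k (Fin (m + 1) ⊕ ι) ⧸ sp F) :=
    IsLocalRing.of_surjective' (Ideal.Quotient.mk _) Ideal.Quotient.mk_surjective
  have hmax := map_maximalIdeal_of_surjective (Ideal.Quotient.mk (sp F)) Ideal.Quotient.mk_surjective
  have halg : algebraMap (PS p k (Fin (m + 1))) (PS p k (Fin (m + 1) ⊕ ι) ⧸ sp F) =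
      (Ideal.Quotient.mk (sp F)).comp (psRn p k Sum.inl) := rfl
  have := ps_complete_env p k (Fin (m + 1))
  obtain ⟨s, hs⟩ := h.prim
  refine finite_of_residue (maximalIdeal (PS p k (Fin (m + 1)))) (IsNoetherian.noetherian _) ?_
    (c := s) ?_ fun θ => ?_
  · rw [halg, ← Ideal.map_map, ← hmax, ps_max]
    exact Ideal.map_mono (le_sup_left.trans hle)
  · rw [halg, ← Ideal.map_map, ← hmax, ← Ideal.map_pow, ps_max, ps_max]
    refine (Ideal.map_mono hs).trans ?_
    rw [Ideal.map_sup, Ideal.map_quotient_self, sup_bot_eq]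
  · obtain ⟨y, rfl⟩ := Ideal.Quotient.mk_surjective θ
    refine ⟨MvPowerSeries.C (MvPowerSeries.constantCoeff y), ?_⟩
    rw [halg, RingHom.comp_apply, ← map_sub, ← hmax]
    refine Ideal.mem_map_of_mem _ ((ser1_mem_max _).2 ?_)
    have : psRn p k (Sum.inl : Fin (m + 1) → Fin (m + 1) ⊕ ι)
        (MvPowerSeries.C (MvPowerSeries.constantCoeff y)) =
        MvPowerSeries.C (MvPowerSeries.constantCoeff y) := MvPowerSeries.rename_C _ _
    rw [this, map_sub, MvPowerSeries.constantCoeff_C, sub_self]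
    exact zero_mem _

end Crest.Agent.R188
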