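import Crest.Agent.R188.BEnvT
import Crest.Agent.R188.BEnvA2
import Crest.Agent.R188.BEnvS
import Crest.Agent.R188.BEnvS2

/-! Row 188, part II: existence of the envelopes. -/

set_option autoImplicit false
set_option linter.style.haveILetI false

namespace Crest.Agent.R188

open Crest.Agent.R183 WittVector IsLocalRing RingTheory.Sequence

theorem env_kill {B : Type} [CommRing B] (x y τ π : B) {q ν N L k M m : ℕ}
    (h : ((x * y) ^ ν) ^ N ∈ Ideal.span {τ ^ (L * N)} ⊔ Ideal.span {π}) (h1 : L * N ≤ q)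
    (h2 : q * M ≤ L * N * k) (h3 : ν * N * k ≤ m) (h4 : m ≤ q) :
    x ^ m * y ^ q ∈ Ideal.span {π ^ M} ⊔ Ideal.span {τ ^ q - π} := by
  let f := Ideal.Quotient.mk (Ideal.span {τ ^ q - π})
  have e : f π = f τ ^ q := by
    rw [← map_pow, eq_comm]
    exact Ideal.Quotient.eq.2 (Ideal.subset_span rfl)
  have h5 : f τ ^ (L * N) ∣ ((f x * f y) ^ ν) ^ N := by
    obtain ⟨a, ha, b, hb, hab⟩ := Submodule.mem_sup.1 h
    have := congrArg f hab
    simp only [map_add, map_pow, map_mul] at this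
    rw [← this]
    refine dvd_add ?_ ?_
    · simpa using map_dvd f (Ideal.mem_span_singleton.1 ha)
    · exact ((pow_dvd_pow _ h1).trans (e ▸ map_dvd f (Ideal.mem_span_singleton.1 hb)))
  rw [← Ideal.mem_quotient_iff_mem_sup, Ideal.map_span, Set.image_singleton,
    Ideal.mem_span_singleton, map_pow, map_mul, map_pow, map_pow]
  change f π ^ M ∣ f x ^ m * f y ^ q
  rw [e, ← pow_mul]
  refine (pow_dvd_pow _ h2).trans ?_
  rw [pow_mul]
  refine (pow_dvd_pow_of_dvd h5 k).trans ?_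
  rw [← pow_mul, ← pow_mul, mul_pow, ← mul_assoc]
  exact mul_dvd_mul (pow_dvd_pow _ h3) (pow_dvd_pow _ (h3.trans h4))

theorem env_num {q ν s M N : ℕ} (hN : 1 ≤ N) (h : (s + 1) * ((ν + 1) * N) ≤ q) :
    q * M ≤ 4 * (s + 1) * (ν + 1) * M * N * (q / (s + 1) / ((ν + 1) * N)) ∧
      ν * N * (q / (s + 1) / ((ν + 1) * N)) ≤ q / (s + 1) := by
  have h0 : 0 < (ν + 1) * N := Nat.mul_pos (Nat.succ_pos ν) hN
  have h1 : (ν + 1) * N ≤ q / (s + 1) := (Nat.le_div_iff_mul_le (Nat.succ_pos s)).2 (by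
    rwa [mul_comm])
  have h2 : q < (s + 1) * (q / (s + 1) + 1) := Nat.lt_mul_div_succ _ (Nat.succ_pos s)
  generalize q / (s + 1) = m at *
  have h3 : m < (ν + 1) * N * (m / ((ν + 1) * N) + 1) := Nat.lt_mul_div_succ _ h0
  have h4 : (ν + 1) * N * (m / ((ν + 1) * N)) ≤ m := Nat.mul_div_le _ _
  have h5 : 1 ≤ m / ((ν + 1) * N) := (Nat.le_div_iff_mul_le h0).2 (by simpa using h1)
  generalize m / ((ν + 1) * N) = k at *
  refine ⟨?_, le_trans (Nat.mul_le_mul_right _ (Nat.mul_le_mul_right _ (Nat.le_succ ν))) h4⟩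
  have h6 : q ≤ (s + 1) * (2 * m) := h2.le.trans (Nat.mul_le_mul_left _ (by omega))
  have h7 : m ≤ (ν + 1) * N * (2 * k) := h3.le.trans (Nat.mul_le_mul_left _ (by omega))
  calc q * M ≤ (s + 1) * (2 * ((ν + 1) * N * (2 * k))) * M :=
        Nat.mul_le_mul_right _ (h6.trans (Nat.mul_le_mul_left _ (Nat.mul_le_mul_left _ h7)))
    _ = _ := by ring

theorem env_iter {P : Type} [CommRing P] {φ : P →+* P} {x : P} {p : ℕ} (h : φ x = x ^ p) (n : ℕ) :
    φ^[n] x = x ^ p ^ n := by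
  induction n with
  | zero => simp
  | succ n ih => rw [Function.iterate_succ_apply', ih, map_pow, h, ← pow_mul, ← pow_succ']

theorem envStmt : EnvStmt := by
  intro p hp k _ _ _ m ι _ F hci ve v vj ν hν
  classical
  letI := (psRn p k (Sum.inl : Fin (m + 1) → Fin (m + 1) ⊕ ι)).toAlgebra
  have halg : ∀ a, algebraMap (PS p k (Fin (m + 1))) (PS p k (Fin (m + 1) ⊕ ι)) a =
    psRn p k Sum.inl a := fun _ => rfl
  have hfin := hci.finite_env
  obtain ⟨l₀, g, hg1, hg2⟩ := ci_gens (A := PS p k (Fin (m + 1))) F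
  refine ⟨l₀, g, hg1, fun M s₀ => ?_⟩
  obtain ⟨s, hs1, hs2⟩ := exists_dwork p (ps_tf p k (Fin (m + 1) ⊕ ι)) _ (psPhi_lift p k _)
  have hs : Dw p (psPhi p k (Fin (m + 1) ⊕ ι)) s := ⟨hs1, hs2⟩
  have cA := ps_complete_env p k (Fin (m + 1))
  have cP := ps_complete_env p k (Fin (m + 1) ⊕ ι)
  have hrX : ∀ i, psRn p k (Sum.inl : Fin (m + 1) → Fin (m + 1) ⊕ ι) (MvPowerSeries.X i) =
      MvPowerSeries.X (Sum.inl i) := fun i => by simp [psRn]
  have hXm : ∀ (σ : Type) [Finite σ] (i : σ), MvPowerSeries.X i ∈ maximalIdeal (PS p k σ) :=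
    fun σ _ i => ps_max p k σ ▸ Ideal.mem_sup_right (Ideal.subset_span ⟨i, rfl⟩)
  have hpm : ∀ (σ : Type) [Finite σ], (p : PS p k σ) ∈ maximalIdeal (PS p k σ) :=
    fun σ _ => ps_max p k σ ▸ Ideal.mem_sup_left (Ideal.subset_span rfl)
  let t : PS p k (Fin (m + 1) ⊕ ι) := MvPowerSeries.X (Sum.inl 0)
  have ht : psPhi p k _ t = t ^ p := psPhi_X p k _ _
  have hξ : psRn p k Sum.inl (xi p k m) = t - (p : PS p k (Fin (m + 1) ⊕ ι)) := by
    rw [xi, map_sub, map_natCast, hrX]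
  have hI : envI p k m F = Ideal.span {t - (p : PS p k (Fin (m + 1) ⊕ ι))} ⊔ sp F := by
    rw [envI, hξ]
  rw [hI] at hν
  let L := 4 * (s₀ + 1) * (ν + 1) * M
  choose N hN1 hN using fun i => env_root hs ht (hν i) (by
    rw [map_pow, map_mul, psPhi_X, psPhi_X, ← mul_pow, ← pow_mul, ← pow_mul, mul_comm p]) L
  let n := ∑ i, (L * N i + (s₀ + 1) * ((ν + 1) * N i)) + L + 1
  have hn : ∀ i, L * N i + (s₀ + 1) * ((ν + 1) * N i) ≤ p ^ n := fun i => by
    have h1 := Finset.single_le_sum (f := fun i => L * N i + (s₀ + 1) * ((ν + 1) * N i))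
      (fun _ _ => Nat.zero_le _) (Finset.mem_univ i)
    have h2 : n < p ^ n := Nat.lt_pow_self hp.out.one_lt
    omega
  have hloc : (maximalIdeal (PS p k (Fin (m + 1)))).map
      (algebraMap _ (PS p k (Fin (m + 1) ⊕ ι))) ≤ maximalIdeal _ := by
    rw [ps_max, mxPS, Ideal.map_sup, Ideal.map_span, Set.image_singleton, map_natCast,
      Ideal.map_span]
    refine sup_le ((Ideal.span_singleton_le_iff_mem _).2 (hpm _)) (Ideal.span_le.2 ?_)
    rintro _ ⟨_, ⟨i, rfl⟩, rfl⟩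
    rw [halg, hrX]
    exact hXm _ _
  obtain ⟨B₀, θ₀, k1, k2, k3, k4, k5, k6⟩ := env_cover (ps_tf p k _) hs (MvPowerSeries.X 0)
    (by rw [halg, hrX, psPhi_X]) (hXm _ 0) (hpm _) ((p : PS p k (Fin (m + 1))) ::
      List.ofFn MvPowerSeries.X) (by rw [ps_max, Ideal.ofList_cons, ser1_ofList_ofFn, mxPS])
    hloc F (fun i => by rw [ps_max]; exact hci.mem i) hci.regular g hg2 n
  rw [halg, hrX] at k1
  obtain ⟨bA, hbA⟩ := psPhi_basis p k (Fin (m + 1)) n
  obtain ⟨bP, hbP⟩ := psPhi_basis p k (Fin (m + 1) ⊕ ι) n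
  obtain ⟨B, e, e1, e2⟩ := env_twist _ bA hbA B₀
  let θ := e.toRingHom.comp θ₀
  have hθ : ∀ y, θ y = e (θ₀ y) := fun _ => rfl
  have K1 : EKills p s t F n θ := fun i j hj => by rw [hθ, k1 i j hj, map_zero]
  have K6 : ∀ y ∈ maximalIdeal (PS p k (Fin (m + 1) ⊕ ι)),
      θ (MvPolynomial.C y) ∈ (⊥ : Ideal B.carrier).jacobson := fun y hy =>
    Ideal.mem_jacobson_bot.2 fun z => by
      obtain ⟨z, rfl⟩ := e.surjective z
      simpa [hθ] using (Ideal.mem_jacobson_bot.1 (k6 y hy) z).map e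
  let ψ := (θ.comp MvPolynomial.C).comp (psPhi p k (Fin (m + 1) ⊕ ι) ^ n)
  have hψ : ∀ y, ψ y = θ (MvPolynomial.C ((psPhi p k _)^[n] y)) := fun y => by
    simp only [ψ, RingHom.comp_apply, RingHom.coe_pow]
  have base : ∀ y, ψ (psRn p k Sum.inl y) = algebraMap _ B.carrier y := fun y => by
    rw [hψ, e1, k4, halg, hθ, RingHom.coe_pow]
    congr 3
    exact (Function.Semiconj.iterate_right
      (fun a => (psPhi_rn p k Sum.inl Sum.inl_injective a).symm) n y).symm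
  have hξ' : algebraMap _ B.carrier (xi p k m) =
      θ (MvPolynomial.C ((psPhi p k _)^[n] (t - (p : PS p k (Fin (m + 1) ⊕ ι))))) := by
    rw [← base, hξ, hψ]
  have hξ'' : algebraMap _ B.carrier (xi p k m) =
      θ (MvPolynomial.C t) ^ p ^ n - (p : B.carrier) := by
    rw [← base, hξ, map_sub, map_natCast, hψ, env_iter ht, map_pow, map_pow]
  have hψX : ∀ i, ψ (MvPowerSeries.X i) = θ (MvPolynomial.C (MvPowerSeries.X i)) ^ p ^ n :=
    fun i => by rw [hψ, env_iter (psPhi_X p k _ i), map_pow, map_pow]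
  refine ⟨B, ψ, θ (MvPolynomial.C (MvPowerSeries.X (Sum.inr ve))) ^ (p ^ n / (s₀ + 1)),
    base, fun i => ?_, fun y hy hy' => ?_, ?_, fun i => ?_, ?_⟩
  · rw [hξ', hψ]
    exact env_rel hs K1 i
  · rw [hξ', hψ]
    refine env_rigid hs ht (by omega) K1 _ (fun j => psPhi_X p k _ _) (fun j => K6 _ (hXm _ _))
      (K6 _ (hXm _ _)) ?_ (hI ▸ hy) hy'
    have := K6 _ (hpm _)
    rwa [map_natCast, map_natCast] at this
  · rw [hψX, ← pow_mul]
    exact pow_dvd_pow _ ((Nat.mul_le_mul_left _ (Nat.le_succ _)).trans (Nat.div_mul_le_self _ _))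
  · rw [hψX, hξ'']
    have h1 := hN i _ θ fun i j hj => K1 i j (by omega)
    rw [map_pow, map_pow, map_mul, map_mul] at h1
    obtain ⟨h2, h3⟩ := env_num (ν := ν) (M := M) (hN1 i) ((Nat.le_add_left _ _).trans (hn i))
    exact env_kill _ _ _ _ h1 ((Nat.le_add_right _ _).trans (hn i)) h2 h3 (Nat.div_le_self _ _)
  · let eq := Fintype.equivFin (Fin (m + 1) ⊕ ι → Fin (p ^ n))
    refine ⟨_, fun l => θ (MvPolynomial.C (bP (eq.symm l))), ?_, fun y => ?_⟩
    · rw [e2, Fintype.card_fun, Fintype.card_fun, Fintype.card_sum, pow_add, mul_assoc,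
        Fintype.card_fin (p ^ n)]
      exact Nat.mul_le_mul_left _ k5
    · obtain ⟨N', c, hc⟩ := env_gen hs ht (maximalIdeal_le_jacobson _ (hXm _ _)) K1
        (e.surjective.comp k2) (fun i j hj => by rw [hθ, k3 i j hj, map_zero]) y
      obtain ⟨f, rfl⟩ := hbP.2 c
      refine ⟨N', fun l => f (eq.symm l), ?_⟩
      rw [hξ'']
      convert hc using 2
      rw [map_sum, map_sum, ← eq.symm.sum_comp]
      simp only [map_mul]
      rfl

end Crest.Agent.R188
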