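import Crest.Agent.R188.BEnvD
import Crest.Agent.R183.Dwork

/-! Row 188, envelopes: consequences of the Witt vector relations. -/

set_option autoImplicit false

namespace Crest.Agent.R188

open Crest.Agent.R183 WittVector MvPolynomial

variable {p : ℕ} [Fact p.Prime] {P : Type} [CommRing P] {ι : Type} [Fintype ι] {φ : P →+* P}
  {s : P →+* WittVector p P} {t : P} {F : ι → P}

/-- the Witt vector identity attached to an element of `(t - p, F)`. -/
theorem env_witt {L : ℕ} {S : Type} [CommRing S] {θ : MvPolynomial (ι × ℕ) P →+* S}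
    (hθ : EKills p s t F L θ) {y : P} (hy : y ∈ Ideal.span {t - (p : P)} ⊔ sp F) :
    ∃ h : WittVector p S, ∀ l ≤ L,
      (WittVector.map (θ.comp C) (s y) -
        WittVector.map (θ.comp C) (s (t - (p : P))) * h).coeff l = 0 := by
  obtain ⟨a, ha, b, hb, rfl⟩ := Submodule.mem_sup.1 hy
  obtain ⟨c₀, rfl⟩ := Ideal.mem_span_singleton'.1 ha
  obtain ⟨c, rfl⟩ := Ideal.mem_span_range_iff_exists_fun.1 hb
  let ρ : P →+* WittVector p S := (WittVector.map (θ.comp C)).comp s
  have hρ : ∀ g, WittVector.map (θ.comp C) (s g) = ρ g := fun _ => rfl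
  refine ⟨ρ c₀ + ∑ i, ρ (c i) * WittVector.mk p fun k => θ (X (i, k)), fun l hl => ?_⟩
  have key : WittVector.map (θ.comp C) (s (c₀ * (t - (p : P)) + ∑ i, c i * F i)) -
      WittVector.map (θ.comp C) (s (t - (p : P))) *
        (ρ c₀ + ∑ i, ρ (c i) * WittVector.mk p fun k => θ (X (i, k))) =
      -∑ i, ρ (c i) * WittVector.map (θ.comp (eRn P i)) (eRel0 p s t (F i)) := by
    simp only [eRel0_map, hρ, map_add ρ, map_mul ρ, map_sum ρ]
    generalize ρ (t - (p : P)) = E
    simp only [mul_add, Finset.mul_sum, mul_sub, Finset.sum_sub_distrib]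
    rw [Finset.sum_congr rfl fun i _ => mul_left_comm E (ρ (c i)) _]
    ring
  rw [key]
  refine (mem_ker_truncate (L + 1) _).1 ?_ l (Nat.lt_succ_of_le hl)
  refine neg_mem (Ideal.sum_mem _ fun i _ => Ideal.mul_mem_left _ _ ?_)
  rw [mem_ker_truncate]
  intro k hk
  rw [map_coeff]
  exact hθ i k (Nat.lt_succ_iff.1 hk)

omit [Fintype ι] in
theorem env_rel (hs : Dw p φ s) {n : ℕ} {S : Type} [CommRing S]
    {θ : MvPolynomial (ι × ℕ) P →+* S} (hθ : EKills p s t F n θ) (i : ι) :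
    θ (C (φ^[n] (F i))) ∈ Ideal.span {θ (C (φ^[n] (t - (p : P))))} := by
  have e2 := env_ghost_eq_zero p n (WittVector.map (θ.comp (eRn P i)) (eRel0 p s t (F i)))
    fun k hk => by rw [map_coeff]; exact hθ i k hk
  rw [eRel0_map, map_sub, map_mul, env_ghost_map, env_ghost_map, hs.ghost, hs.ghost,
    sub_eq_zero] at e2
  exact Ideal.mem_span_singleton.2 ⟨_, e2.symm⟩

theorem env_root (hs : Dw p φ s) (ht : φ t = t ^ p) {y : P} (hy : y ∈ Ideal.span {t - (p : P)} ⊔ sp F)
    (hφy : φ y = y ^ p) (L : ℕ) : ∃ N : ℕ, 1 ≤ N ∧ ∀ (S : Type) [CommRing S]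
      (θ : MvPolynomial (ι × ℕ) P →+* S), EKills p s t F L θ →
      θ (C y) ^ N ∈ Ideal.span {θ (C t) ^ (L * N)} ⊔ Ideal.span {(p : S)} := by
  let I : Ideal (MvPolynomial (ι × ℕ) P) := Ideal.span {x | ∃ i, ∃ k ≤ L, x = eRel p s t F i k}
  have hI : EKills p s t F L (Ideal.Quotient.mk I) := fun i k hk =>
    Ideal.Quotient.eq_zero_iff_mem.2 (Ideal.subset_span ⟨i, k, hk, rfl⟩)
  obtain ⟨h, hh⟩ := env_witt hI hy
  rw [map_sub s, map_sub (WittVector.map _), hs.teich t ht, hs.teich y hφy, map_natCast,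
    map_natCast, map_teichmuller, map_teichmuller] at hh
  obtain ⟨κ, hκ⟩ := sumroot p (ι := Empty) _ _ Empty.elim L h (by simpa using hh)
  refine ⟨p ^ κ, Nat.one_le_pow _ _ (Fact.out : p.Prime).pos, fun S _ θ hθ => ?_⟩
  let f : MvPolynomial (ι × ℕ) P ⧸ I →+* S := Ideal.Quotient.lift I θ fun a ha =>
    (Ideal.span_le.2 (by rintro _ ⟨i, k, hk, rfl⟩; exact hθ i k hk) : I ≤ RingHom.ker θ) ha
  have h1 : wI (sp (Empty.elim : Empty → MvPolynomial (ι × ℕ) P ⧸ I))
      (Ideal.Quotient.mk I (C t)) L (L * p ^ κ) ≤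
      Ideal.span {Ideal.Quotient.mk I (C t) ^ (L * p ^ κ)} := by
    refine iSup_le fun α => iSup_le fun γ => iSup_le fun hn => ?_
    rcases α with _ | α
    · exact Ideal.mul_le_right.trans (Ideal.span_singleton_le_span_singleton.2
        (pow_dvd_pow _ (by simpa using hn)))
    · simp [sp, Set.range_eq_empty]
  have h2 := Ideal.mem_map_of_mem f (sup_le_sup_right h1 _ hκ)
  rwa [Ideal.map_sup, Ideal.map_span, Ideal.map_span, Set.image_singleton, Set.image_singleton,
    map_natCast, map_pow, map_pow] at h2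

end Crest.Agent.R188
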