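import Crest.Agent.R183.RegPS
import Crest.Agent.R169.CM

/-! Row 188, envelopes: deformations of a complete intersection are finite free. -/

set_option autoImplicit false

namespace Crest.Agent.R188

open Crest.Agent.R183 IsLocalRing RingTheory.Sequence

variable {A P : Type} [CommRing A] [CommRing P] [IsLocalRing A] [Algebra A P] {ι : Type}

theorem BEnvC_sum {M : Type} [AddCommGroup M] [Module A M] {κ : Type} [Fintype κ] (v : κ → M)
    (c : κ → A) : ∑ l, residue A (c l) • (TensorProduct.mk A (ResidueField A) M 1 ∘ v) l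
      = TensorProduct.mk A (ResidueField A) M 1 (∑ l, c l • v l) := by
  rw [map_sum]
  refine Finset.sum_congr rfl fun l _ => ?_
  rw [map_smul]
  exact algebraMap_smul (ResidueField A) (c l) _

theorem BEnvC_li_iff {M : Type} [AddCommGroup M] [Module A M] {κ : Type} [Fintype κ] (v : κ → M) :
    LinearIndependent (ResidueField A) (TensorProduct.mk A (ResidueField A) M 1 ∘ v) ↔
      ∀ c : κ → A, ∑ l, c l • v l ∈ (maximalIdeal A • ⊤ : Submodule A M) →
        ∀ l, c l ∈ maximalIdeal A := by
  have hker : ∀ x : M, TensorProduct.mk A (ResidueField A) M 1 x = 0 ↔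
      x ∈ (maximalIdeal A • ⊤ : Submodule A M) := fun x => by
    rw [← LinearMap.ker_tensorProductMk]
    rfl
  rw [Fintype.linearIndependent_iff]
  constructor
  · intro h c hc l
    rw [← residue_eq_zero_iff]
    exact h (fun l => residue A (c l)) (by rw [BEnvC_sum]; exact (hker _).2 hc) l
  · intro h d hd l
    choose c hc using fun l => residue_surjective (R := A) (d l)
    rw [← hc l, residue_eq_zero_iff]
    refine h c ((hker _).1 ?_) l
    rw [← BEnvC_sum]
    simpa only [hc] using hd

omit [IsLocalRing A] in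
theorem BEnvC_mem_iff (I : Ideal A) (J : Ideal P) (x : P) :
    Ideal.Quotient.mk J x ∈ (I • ⊤ : Submodule A (P ⧸ J)) ↔ x ∈ I.map (algebraMap A P) ⊔ J := by
  rw [Ideal.smul_top_eq_map, Submodule.restrictScalars_mem, ← Ideal.Quotient.mk_comp_algebraMap,
    ← Ideal.map_map, Ideal.mem_quotient_iff_mem_sup]

omit [IsLocalRing A] in
theorem BEnvC_mk_sum (J : Ideal P) {κ : Type} [Fintype κ] (c : κ → A) (g : κ → P) :
    Ideal.Quotient.mk J (∑ l, algebraMap A P (c l) * g l)
      = ∑ l, c l • Ideal.Quotient.mk J (g l) := by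
  rw [map_sum]
  refine Finset.sum_congr rfl fun l _ => ?_
  rw [← Algebra.smul_def]
  rfl

/-- a minimal generating family of `P / (F)`. -/
theorem ci_gens (F : ι → P) [Module.Finite A (P ⧸ sp F)] :
    ∃ (l₀ : ℕ) (g : Fin l₀ → P),
      (∀ y : P, ∃ c : Fin l₀ → A, y - ∑ l, algebraMap A P (c l) * g l ∈ sp F) ∧
      ∀ c : Fin l₀ → A, ∑ l, algebraMap A P (c l) * g l ∈
        (maximalIdeal A).map (algebraMap A P) ⊔ sp F → ∀ l, c l ∈ maximalIdeal A := by
  let w := Module.finBasis (ResidueField A) (TensorProduct A (ResidueField A) (P ⧸ sp F))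
  obtain ⟨v, hv⟩ := (TensorProduct.mk_surjective A (P ⧸ sp F) (ResidueField A)
    Ideal.Quotient.mk_surjective).comp_left w
  choose g hg using fun l => Ideal.Quotient.mk_surjective (v l)
  refine ⟨_, g, fun y => ?_, fun c hc => ?_⟩
  · have h1 := span_eq_top_of_tmul_eq_basis v w (congr_fun hv)
    obtain ⟨c, hc⟩ := (Submodule.mem_span_range_iff_exists_fun A).1
      (h1.ge (Submodule.mem_top (x := Ideal.Quotient.mk (sp F) y)))
    refine ⟨c, Ideal.Quotient.eq.1 ?_⟩
    rw [BEnvC_mk_sum, ← hc]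
    simp only [hg]
  · have h1 : LinearIndependent (ResidueField A)
        (TensorProduct.mk A (ResidueField A) (P ⧸ sp F) 1 ∘ v) := by
      rw [show TensorProduct.mk A (ResidueField A) (P ⧸ sp F) 1 ∘ v = w from hv]
      exact w.linearIndependent
    refine (BEnvC_li_iff v).1 h1 c ?_
    have h2 := (BEnvC_mem_iff _ _ _).2 hc
    rw [BEnvC_mk_sum] at h2
    simpa only [hg] using h2

/-- the maximal ideal of a local ring lies in the Jacobson radical of a finite algebra. -/
theorem ci_jac {B : Type} [CommRing B] [Algebra A B] [Module.Finite A B] {a : A}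
    (ha : a ∈ maximalIdeal A) : algebraMap A B a ∈ (⊥ : Ideal B).jacobson := by
  refine Ideal.mem_sInf.2 fun {J} hJ => ?_
  have := hJ.2
  have h1 := Ideal.isMaximal_comap_of_isIntegral_of_isMaximal (R := A) J
  rw [← Ideal.mem_comap, eq_maximalIdeal h1]
  exact ha

variable [IsNoetherianRing A] [IsLocalRing P] [IsNoetherianRing P] [Fintype ι]
  {B : Type} [CommRing B] [Algebra P B] [Algebra A B] [IsScalarTower A P B] [Module.Free P B]
  [Module.Finite P B]

omit [IsNoetherianRing A] [IsLocalRing P] [IsNoetherianRing P] [Fintype ι] [Module.Free P B]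
  [Module.Finite P B] [IsScalarTower A P B] [Algebra A P] in
theorem BEnvC_le (F : ι → P) (r : ι → B)
    (hr : ∀ i, r i + algebraMap P B (F i) ∈ (maximalIdeal A).map (algebraMap A B)) :
    (sp F).map (algebraMap P B) ≤ (maximalIdeal A).map (algebraMap A B) ⊔ sp r := by
  rw [Ideal.map_le_iff_le_comap, Ideal.span_le]
  rintro _ ⟨i, rfl⟩
  rw [SetLike.mem_coe, Ideal.mem_comap,
    show algebraMap P B (F i) = (r i + algebraMap P B (F i)) - r i by ring]
  exact Ideal.sub_mem _ (Ideal.mem_sup_left (hr i))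
    (Ideal.mem_sup_right (Ideal.subset_span ⟨i, rfl⟩))

omit [IsNoetherianRing A] [IsLocalRing P] [IsNoetherianRing P] [Fintype ι] [Module.Free P B]
  [Module.Finite P B] in
theorem BEnvC_le' (F : ι → P) (r : ι → B)
    (hr : ∀ i, r i + algebraMap P B (F i) ∈ (maximalIdeal A).map (algebraMap A B)) :
    (maximalIdeal A).map (algebraMap A B) ⊔ sp r ≤
      ((maximalIdeal A).map (algebraMap A P) ⊔ sp F).map (algebraMap P B) := by
  have h1 : (maximalIdeal A).map (algebraMap A B) ≤
      ((maximalIdeal A).map (algebraMap A P) ⊔ sp F).map (algebraMap P B) := by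
    rw [IsScalarTower.algebraMap_eq A P B, ← Ideal.map_map]
    exact Ideal.map_mono le_sup_left
  refine sup_le h1 ?_
  rw [Ideal.span_le]
  rintro _ ⟨i, rfl⟩
  rw [SetLike.mem_coe, show r i = (r i + algebraMap P B (F i)) - algebraMap P B (F i) by ring]
  exact Ideal.sub_mem _ (h1 (hr i))
    (Ideal.mem_map_of_mem _ (Ideal.mem_sup_right (Ideal.subset_span ⟨i, rfl⟩)))

theorem ci_finite [IsAdicComplete (maximalIdeal A) A]
    (hloc : (maximalIdeal A).map (algebraMap A P) ≤ maximalIdeal P) (F : ι → P)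
    [Module.Finite A (P ⧸ sp F)] (r : ι → B)
    (hr : ∀ i, r i + algebraMap P B (F i) ∈ (maximalIdeal A).map (algebraMap A B)) :
    Module.Finite A (B ⧸ sp r) := by
  have : IsHausdorff (maximalIdeal A) (B ⧸ sp r) := IsHausdorff.of_map (S := P) hloc
  refine finite_of_complete (maximalIdeal A) ?_
  obtain ⟨l₀, g, hg, -⟩ := ci_gens (A := A) F
  obtain ⟨n, β, hβ⟩ := Module.Finite.exists_fin (R := P) (M := B)
  let π : B →ₗ[A] (B ⧸ sp r) ⧸ (maximalIdeal A • ⊤ : Submodule A (B ⧸ sp r)) :=
    (Submodule.mkQ _).comp (Ideal.Quotient.mkₐ A (sp r)).toLinearMap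
  have hπ : ∀ x ∈ (maximalIdeal A).map (algebraMap A B) ⊔ sp r, π x = 0 := fun x hx =>
    (Submodule.Quotient.mk_eq_zero _).2 ((BEnvC_mem_iff _ _ _).2 hx)
  refine Module.Finite.of_surjective (Fintype.linearCombination A
    fun p : Fin n × Fin l₀ => π (g p.2 • β p.1)) ?_
  rw [← LinearMap.range_eq_top, Fintype.range_linearCombination, eq_top_iff]
  rintro z -
  obtain ⟨z, rfl⟩ := Submodule.mkQ_surjective _ z
  obtain ⟨b, rfl⟩ := Ideal.Quotient.mk_surjective z
  change π b ∈ _
  obtain ⟨p, rfl⟩ := (Submodule.mem_span_range_iff_exists_fun P).1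
    (hβ.ge (Submodule.mem_top (x := b)))
  rw [map_sum]
  refine Submodule.sum_mem _ fun j _ => ?_
  obtain ⟨c, hc⟩ := hg (p j)
  have e : p j • β j = (p j - ∑ l, algebraMap A P (c l) * g l) • β j
      + ∑ l, c l • (g l • β j) := by
    rw [sub_smul, Finset.sum_smul]
    simp only [mul_smul, algebraMap_smul]
    abel
  rw [e, map_add, hπ, zero_add, map_sum]
  · refine Submodule.sum_mem _ fun l _ => ?_
    rw [map_smul]
    exact Submodule.smul_mem _ _ (Submodule.subset_span ⟨(j, l), rfl⟩)
  · rw [Algebra.smul_def]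
    exact Ideal.mul_mem_right _ _ (BEnvC_le F r hr (Ideal.mem_map_of_mem _ hc))

theorem ci_nontrivial [Nontrivial B]
    (hloc : (maximalIdeal A).map (algebraMap A P) ≤ maximalIdeal P) (F : ι → P)
    (hF : ∀ i, F i ∈ maximalIdeal P) (r : ι → B)
    (hr : ∀ i, r i + algebraMap P B (F i) ∈ (maximalIdeal A).map (algebraMap A B)) :
    Nontrivial (B ⧸ sp r) := by
  have h1 : ((maximalIdeal A).map (algebraMap A P) ⊔ sp F) ≤ maximalIdeal P := by
    refine sup_le hloc ?_
    rw [Ideal.span_le]
    rintro _ ⟨i, rfl⟩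
    exact hF i
  have h2 : (maximalIdeal P).map (algebraMap P B) ≤ (⊥ : Ideal B).jacobson := by
    rw [Ideal.map_le_iff_le_comap]
    exact fun a ha => ci_jac ha
  have h3 : sp r ≤ (⊥ : Ideal B).jacobson :=
    le_sup_right.trans ((BEnvC_le' F r hr).trans ((Ideal.map_mono h1).trans h2))
  refine Ideal.Quotient.nontrivial_iff.2 fun h => ?_
  rw [h, top_le_iff, Ideal.jacobson_eq_top_iff] at h3
  exact bot_ne_top h3

theorem ci_rank (F : ι → P) {l₀ : ℕ} (g : Fin l₀ → P)
    (hg : ∀ c : Fin l₀ → A, ∑ l, algebraMap A P (c l) * g l ∈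
      (maximalIdeal A).map (algebraMap A P) ⊔ sp F → ∀ l, c l ∈ maximalIdeal A) (r : ι → B)
    (hr : ∀ i, r i + algebraMap P B (F i) ∈ (maximalIdeal A).map (algebraMap A B))
    [Module.Finite A (B ⧸ sp r)] [Module.Free A (B ⧸ sp r)] :
    Module.finrank P B * l₀ ≤ Module.finrank A (B ⧸ sp r) := by
  let β := Module.finBasis P B
  have h1 : LinearIndependent A fun p : Fin (Module.finrank P B) × Fin l₀ =>
      Ideal.Quotient.mk (sp r) (g p.2 • β p.1) := by
    refine Module.IsLocalRing.linearIndependent_of_flat _ ((BEnvC_li_iff _).2 fun c hc => ?_)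
    rw [← BEnvC_mk_sum, BEnvC_mem_iff] at hc
    have h2 := BEnvC_le' F r hr hc
    rw [← Submodule.restrictScalars_mem P, ← Ideal.smul_top_eq_map] at h2
    have h3 : ∀ x ∈ (((maximalIdeal A).map (algebraMap A P) ⊔ sp F) • ⊤ : Submodule P B), ∀ j,
        β.repr x j ∈ (maximalIdeal A).map (algebraMap A P) ⊔ sp F := by
      intro x hx j
      refine Submodule.smul_induction_on hx (fun a ha y _ => ?_) (fun x y hx hy => ?_)
      · rw [map_smul, Finsupp.smul_apply, smul_eq_mul]
        exact Ideal.mul_mem_right _ _ ha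
      · rw [map_add, Finsupp.add_apply]
        exact Ideal.add_mem _ hx hy
    rintro ⟨j, l⟩
    refine hg (fun l => c (j, l)) ?_ l
    have h4 := h3 _ h2 j
    have e : ∑ p : Fin (Module.finrank P B) × Fin l₀, algebraMap A B (c p) * (g p.2 • β p.1)
        = ∑ j, (∑ l, algebraMap A P (c (j, l)) * g l) • β j := by
      rw [Fintype.sum_prod_type]
      refine Finset.sum_congr rfl fun j _ => ?_
      rw [Finset.sum_smul]
      refine Finset.sum_congr rfl fun l _ => ?_
      rw [mul_smul, algebraMap_smul, Algebra.smul_def (c (j, l))]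
    rw [e, β.repr_sum_self] at h4
    exact h4
  simpa using h1.fintype_card_le_finrank

end Crest.Agent.R188
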