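import Crest.Agent.R188.BEnvC

/-! Row 188, envelopes: deformations of a complete intersection are finite free. -/

set_option autoImplicit false

namespace Crest.Agent.R188

open Crest.Agent.R183 IsLocalRing RingTheory.Sequence

variable {A P : Type} [CommRing A] [CommRing P] [IsLocalRing A] [Algebra A P] {ι : Type}

variable [IsNoetherianRing A] [IsLocalRing P] [IsNoetherianRing P] [Fintype ι]
  {B : Type} [CommRing B] [Algebra P B] [Algebra A B] [IsScalarTower A P B] [Module.Free P B]
  [Module.Finite P B]

theorem BEnvC2_ofList_neg {R : Type} [CommRing R] (rs : List R) :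
    Ideal.ofList (rs.map Neg.neg) = Ideal.ofList rs := by
  induction rs with
  | nil => rfl
  | cons r rs ih => rw [List.map_cons, Ideal.ofList_cons, Ideal.ofList_cons, ih, Ideal.span_singleton_neg]

theorem BEnvC2_neg {R M : Type} [CommRing R] [AddCommGroup M] [Module R M] (rs : List R)
    (h : IsWeaklyRegular M rs) : IsWeaklyRegular M (rs.map Neg.neg) := by
  refine ⟨fun i hi => ?_⟩
  have hi' : i < rs.length := by simpa using hi
  have h1 := h.regular_mod_prev i hi'
  rw [List.getElem_map, ← List.map_take, BEnvC2_ofList_neg]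
  intro x y hxy
  apply h1
  simpa using hxy

theorem BEnvC2_ofList {R κ : Type} [CommRing R] [Fintype κ] (r : κ → R) :
    Ideal.ofList (Finset.univ.toList.map r) = sp r := by
  unfold Ideal.ofList sp
  congr 1
  ext x
  simp

theorem ci_free (xs : List A) (hxs : maximalIdeal A = Ideal.ofList xs)
    (hloc : (maximalIdeal A).map (algebraMap A P) ≤ maximalIdeal P) (F : ι → P)
    (hF : ∀ i, F i ∈ maximalIdeal P)
    (hreg : IsWeaklyRegular P (xs.map (algebraMap A P) ++ Finset.univ.toList.map F)) (r : ι → B)
    (hr : ∀ i, r i + algebraMap P B (F i) ∈ (maximalIdeal A).map (algebraMap A B))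
    [Module.Finite A (B ⧸ sp r)] : Module.Free A (B ⧸ sp r) := by
  have hN : IsNoetherianRing B := IsNoetherianRing.of_finite P B
  have h1 : IsWeaklyRegular B ((xs.map (algebraMap A P) ++ Finset.univ.toList.map F).map
      (algebraMap P B)) := hreg.of_flat
  have hxsB : (xs.map (algebraMap A P)).map (algebraMap P B) = xs.map (algebraMap A B) := by
    rw [List.map_map]
    exact List.map_congr_left fun a _ => (IsScalarTower.algebraMap_apply A P B a).symm
  rw [List.map_append, hxsB, isWeaklyRegular_append_iff] at h1
  obtain ⟨h1, h2⟩ := h1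
  have hI : Ideal.ofList (xs.map (algebraMap A B)) = (maximalIdeal A).map (algebraMap A B) := by
    rw [hxs, Ideal.map_ofList]
  have h3 := BEnvC2_neg _ h2
  have h4 : IsWeaklyRegular (B ⧸ (Ideal.ofList (xs.map (algebraMap A B)) • ⊤ : Submodule B B))
      (Finset.univ.toList.map r) := by
    refine ((AddEquiv.refl _).isWeaklyRegular_congr ?_).1 h3
    rw [List.map_map, List.map_map, List.forall₂_map_left_iff, List.forall₂_map_right_iff,
      List.forall₂_same]
    intro i _ x
    obtain ⟨x, rfl⟩ := Submodule.Quotient.mk_surjective _ x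
    simp only [AddEquiv.refl_apply, Function.comp_apply]
    rw [← Submodule.Quotient.mk_smul, ← Submodule.Quotient.mk_smul, Submodule.Quotient.eq]
    have : (-(algebraMap P B (F i))) • x - r i • x = (-(r i + algebraMap P B (F i))) • x := by
      simp only [smul_eq_mul]; ring
    rw [this]
    exact Submodule.smul_mem_smul (neg_mem (hI ▸ hr i)) Submodule.mem_top
  have h5 : IsWeaklyRegular B (xs.map (algebraMap A B) ++ Finset.univ.toList.map r) :=
    (isWeaklyRegular_append_iff B _ _).2 ⟨h1, h4⟩
  have hjac : (maximalIdeal A).map (algebraMap A B) ≤ (⊥ : Ideal B).jacobson := by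
    rw [Ideal.map_le_iff_le_comap]
    intro a ha
    rw [Ideal.mem_comap, IsScalarTower.algebraMap_apply A P B]
    exact ci_jac (A := P) (hloc (Ideal.mem_map_of_mem _ ha))
  have h6 : IsWeaklyRegular B (Finset.univ.toList.map r ++ xs.map (algebraMap A B)) := by
    refine h5.of_perm_of_subset_jacobson_annihilator List.perm_append_comm fun s hs => ?_
    refine Ideal.jacobson_mono bot_le ?_
    rcases List.mem_append.1 hs with hs | hs
    · refine hjac ?_
      rw [← hI]
      exact Ideal.subset_span hs
    · obtain ⟨i, -, rfl⟩ := List.mem_map.1 hs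
      have := sub_mem (hjac (hr i)) (ci_jac (A := P) (B := B) (hF i))
      rwa [add_sub_cancel_right] at this
  have h7 := ((isWeaklyRegular_append_iff B _ _).1 h6).2
  have hE : (Ideal.ofList (Finset.univ.toList.map r) • ⊤ : Submodule B B) = sp r := by
    rw [BEnvC2_ofList, smul_eq_mul, Ideal.mul_top]
  have h8 : IsWeaklyRegular (B ⧸ sp r) (xs.map (algebraMap A B)) :=
    ((Submodule.quotEquivOfEq _ _ hE).isWeaklyRegular_congr _).1 h7
  exact Crest.Agent.R169.free_of_isWeaklyRegular (B ⧸ sp r) xs hxs
    ((isWeaklyRegular_map_algebraMap_iff B _ xs).1 h8)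

end Crest.Agent.R188
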