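import Crest.Agent.R188.BInt
import Crest.Agent.R183.EnvAuxB

/-! Row 188, envelopes: the relations `s(t - p) U_i = s(F_i)` between Witt vectors. -/

set_option autoImplicit false

namespace Crest.Agent.R188

open Crest.Agent.R183 WittVector MvPolynomial

variable (p : ℕ) [Fact p.Prime] {P : Type} [CommRing P] {ι : Type}

/-- `s` is the section `P → W(P)` attached to the Frobenius lift `φ`. -/
structure Dw (φ : P →+* P) (s : P →+* WittVector p P) : Prop where
  ghost : ∀ n b, ghostComponent n (s b) = φ^[n] b
  teich : ∀ b, φ b = b ^ p → s b = teichmuller p b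

/-- the relation `s(t - p) U - s(f)` in one set of envelope variables. -/
noncomputable def eRel0 (s : P →+* WittVector p P) (t f : P) : WittVector p (MvPolynomial ℕ P) :=
  WittVector.map (C : P →+* MvPolynomial ℕ P) (s (t - (p : P))) * WittVector.mk p X -
    WittVector.map (C : P →+* MvPolynomial ℕ P) (s f)

/-- the renaming of the envelope variables. -/
noncomputable def eRn (P : Type) [CommRing P] (i : ι) :
    MvPolynomial ℕ P →+* MvPolynomial (ι × ℕ) P :=
  (rename (Prod.mk i) : _ →ₐ[P] MvPolynomial (ι × ℕ) P).toRingHom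

/-- the relations. -/
noncomputable def eRel (s : P →+* WittVector p P) (t : P) (F : ι → P) (i : ι) (k : ℕ) :
    MvPolynomial (ι × ℕ) P :=
  eRn P i ((eRel0 p s t (F i)).coeff k)

/-- `θ` kills the relations of level `≤ L`. -/
def EKills (s : P →+* WittVector p P) (t : P) (F : ι → P) (L : ℕ) {S : Type} [CommRing S]
    (θ : MvPolynomial (ι × ℕ) P →+* S) : Prop :=
  ∀ i, ∀ k ≤ L, θ (eRel p s t F i k) = 0

theorem eRn_C (i : ι) (b : P) : eRn P i (C b) = C b := by simp [eRn]

theorem eRn_X (i : ι) (k : ℕ) : eRn P i (X k) = X (i, k) := by simp [eRn]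

theorem eRel0_map (s : P →+* WittVector p P) (t f : P) {S : Type} [CommRing S]
    (θ : MvPolynomial (ι × ℕ) P →+* S) (i : ι) :
    WittVector.map (θ.comp (eRn P i)) (eRel0 p s t f) =
      WittVector.map (θ.comp C) (s (t - (p : P))) * WittVector.mk p (fun k => θ (X (i, k))) -
        WittVector.map (θ.comp C) (s f) := by
  have e : ∀ x : WittVector p P, WittVector.map (θ.comp (eRn P i))
      (WittVector.map (C : P →+* MvPolynomial ℕ P) x) = WittVector.map (θ.comp C) x := by
    intro x
    ext k
    simp [eRn_C]
  rw [eRel0, map_sub, map_mul, e, e]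
  congr 2
  ext k
  simp [eRn_X]

end Crest.Agent.R188
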