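import Crest.Agent.R183.Tower

/-! Row 188, envelopes: perturbation of a monic tower, with rank. -/

set_option autoImplicit false

namespace Crest.Agent.R188

open Crest.Agent.R183 MvPolynomial

/-- `R183.pert` with surjectivity and rank. -/
theorem pert' {Λ ι : Type} [CommRing Λ] [Fintype ι] [LinearOrder ι] (𝔠 : Ideal Λ)
    [IsAdicComplete 𝔠 Λ] (h𝔠 : 𝔠 ≠ ⊤) (f : ι → MvPolynomial ι Λ) (D : ι → ℕ)
    (h : Tri (fun v => MvPolynomial.map (Ideal.Quotient.mk 𝔠) (f v)) D) :
    ∃ (B : FFAlg Λ) (π : MvPolynomial ι Λ →ₐ[Λ] B.carrier), (∀ v, π (f v) = 0) ∧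
      Function.Surjective π ∧ Module.finrank Λ B.carrier = ∏ v, D v := by
  classical
  have := finite_RedE D
  have : Nontrivial Λ := not_subsingleton_iff_nontrivial.1 fun _ => h𝔠 (Subsingleton.elim _ _)
  let g : RedE D × (ι →₀ ℕ) → MvPolynomial ι Λ := fun p =>
    monomial p.1.1 (1 : Λ) * p.2.prod fun v n => f v ^ n
  let Φ := Finsupp.linearCombination Λ g
  obtain ⟨hli, hsp⟩ := h.basis
  set g' : RedE D × (ι →₀ ℕ) → MvPolynomial ι (Λ ⧸ 𝔠) := fun p =>
    monomial p.1.1 1 * p.2.prod fun v n => MvPolynomial.map (Ideal.Quotient.mk 𝔠) (f v) ^ n with hg'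
  have hΦ : ∀ u, MvPolynomial.map (Ideal.Quotient.mk 𝔠) (Φ u) =
      Finsupp.linearCombination (Λ ⧸ 𝔠) g' (u.mapRange (Ideal.Quotient.mk 𝔠) (map_zero _)) := by
    intro u
    induction u using Finsupp.induction_linear with
    | zero => simp
    | add u v hu hv => rw [map_add, map_add, hu, hv, Finsupp.mapRange_add (map_add _), map_add]
    | single p c => simp [Φ, g, hg', smul_eq_C_mul, map_monomial, Finsupp.prod]
  have hker : ∀ p : MvPolynomial ι Λ, p ∈ 𝔠 • (⊤ : Submodule Λ (MvPolynomial ι Λ)) ↔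
      MvPolynomial.map (Ideal.Quotient.mk 𝔠) p = 0 := by
    intro p
    rw [← RingHom.mem_ker, MvPolynomial.ker_map, Ideal.mk_ker, Ideal.smul_top_eq_map]
    rfl
  have hs : ∀ p, ∃ u, p - Φ u ∈ 𝔠 • (⊤ : Submodule Λ (MvPolynomial ι Λ)) := by
    intro p
    have h1 : MvPolynomial.map (Ideal.Quotient.mk 𝔠) p ∈
        LinearMap.range (Finsupp.linearCombination (Λ ⧸ 𝔠) g') := by
      rw [Finsupp.range_linearCombination, hsp]
      trivial
    obtain ⟨u', hu'⟩ := h1
    obtain ⟨u, rfl⟩ := Finsupp.mapRange_surjective (Ideal.Quotient.mk 𝔠) (map_zero _)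
      Ideal.Quotient.mk_surjective u'
    exact ⟨u, (hker _).2 (by rw [map_sub, hΦ, hu', sub_self])⟩
  have hi : ∀ u, Φ u ∈ 𝔠 • (⊤ : Submodule Λ (MvPolynomial ι Λ)) →
      u ∈ 𝔠 • (⊤ : Submodule Λ (RedE D × (ι →₀ ℕ) →₀ Λ)) := by
    intro u hu
    rw [hker, hΦ] at hu
    have h1 := linearIndependent_iff.1 hli _ hu
    refine (pert_mem _ _).2 fun p => Ideal.Quotient.eq_zero_iff_mem.1 ?_
    simpa using DFunLike.congr_fun h1 p
  let K : Submodule Λ (RedE D × (ι →₀ ℕ) →₀ Λ) :=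
    Finsupp.submodule fun p => if p.2 = 0 then ⊥ else ⊤
  have hK : ∀ (N : ℕ) (p : MvPolynomial ι Λ), p ∈ sp f → p ∈ K.map Φ ⊔ 𝔠 ^ N • ⊤ := by
    intro N p hp
    obtain ⟨c, rfl⟩ := Ideal.mem_span_range_iff_exists_fun.1 hp
    refine Submodule.sum_mem _ fun i _ => ?_
    have h1 : (LinearMap.range Φ ⊔ 𝔠 ^ N • ⊤).map (LinearMap.mulRight Λ (f i)) ≤
        K.map Φ ⊔ 𝔠 ^ N • ⊤ := by
      rw [Submodule.map_sup, Submodule.map_smul'', Finsupp.range_linearCombination,
        Submodule.map_span]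
      refine sup_le_sup (Submodule.span_le.2 ?_) (Submodule.smul_mono le_rfl le_top)
      rintro _ ⟨_, ⟨q, rfl⟩, rfl⟩
      refine ⟨Finsupp.single (q.1, q.2 + Finsupp.single i 1) 1, fun r => ?_, ?_⟩
      · simp only
        split_ifs with hr
        · rw [Finsupp.single_eq_of_ne]
          · exact zero_mem _
          · rintro rfl
            simpa using DFunLike.congr_fun hr i
        · trivial
      · simp only [Φ, g, Finsupp.linearCombination_single, one_smul, LinearMap.mulRight_apply]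
        rw [Finsupp.prod_add_index' (fun _ => pow_zero _) fun _ _ _ => pow_add _ _ _,
          Finsupp.prod_single_index (h := fun v n => f v ^ n) (pow_zero _), pow_one, mul_assoc]
    exact h1 (Submodule.mem_map_of_mem (pert_surj Φ 𝔠 hs N Submodule.mem_top))
  let J : Ideal (MvPolynomial ι Λ) :=
    ⨅ N : ℕ, sp f ⊔ (𝔠 ^ N).map (algebraMap Λ (MvPolynomial ι Λ))
  let e : (RedE D →₀ Λ) →ₗ[Λ] (RedE D × (ι →₀ ℕ) →₀ Λ) := Finsupp.lmapDomain Λ Λ fun α => (α, 0)
  have he : ∀ v α, e v (α, 0) = v α := fun v α =>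
    Finsupp.mapDomain_apply (f := fun α : RedE D => (α, (0 : ι →₀ ℕ)))
      (fun _ _ h => congrArg Prod.fst h) v α
  let π := Ideal.Quotient.mkₐ Λ J
  have hπ : ∀ v, π (f v) = 0 := fun v => Ideal.Quotient.eq_zero_iff_mem.2
    (Ideal.mem_iInf.2 fun N => Ideal.mem_sup_left (Ideal.subset_span ⟨v, rfl⟩))
  let ρ : (RedE D →₀ Λ) →ₗ[Λ] MvPolynomial ι Λ ⧸ J := π.toLinearMap ∘ₗ Φ ∘ₗ e
  have hinj : Function.Injective ρ := by
    refine (injective_iff_map_eq_zero ρ).2 fun v hv => Finsupp.ext fun α => ?_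
    refine IsHausdorff.haus (I := 𝔠) inferInstance (v α) fun N => ?_
    have h1 : Φ (e v) ∈ sp f ⊔ (𝔠 ^ N).map (algebraMap Λ (MvPolynomial ι Λ)) :=
      Ideal.mem_iInf.1 (Ideal.Quotient.eq_zero_iff_mem.1 hv) N
    obtain ⟨p, hp, c, hc, h2⟩ := Submodule.mem_sup.1 h1
    obtain ⟨_, ⟨k, hk, rfl⟩, c', hc', rfl⟩ := Submodule.mem_sup.1 (hK N p hp)
    have h3 : Φ (e v - k) ∈ 𝔠 ^ N • (⊤ : Submodule Λ (MvPolynomial ι Λ)) := by
      rw [map_sub, ← h2, add_assoc, add_sub_cancel_left]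
      refine add_mem hc' ?_
      rw [Ideal.smul_top_eq_map]
      exact hc
    have h4 := (pert_mem _ _).1 (pert_inj Φ 𝔠 hs hi N _ h3) (α, 0)
    have h5 : k (α, 0) = 0 := by simpa using hk (α, 0)
    rw [Finsupp.sub_apply, he, h5, sub_zero] at h4
    rw [SModEq.zero]
    simpa using h4
  have : IsHausdorff 𝔠 (MvPolynomial ι Λ ⧸ J) := by
    refine ⟨fun y hy => ?_⟩
    obtain ⟨p, rfl⟩ := Ideal.Quotient.mk_surjective y
    refine Ideal.Quotient.eq_zero_iff_mem.2 (Ideal.mem_iInf.2 fun N => ?_)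
    have h1 := SModEq.zero.1 (hy N)
    have h2 : (⊤ : Submodule Λ (MvPolynomial ι Λ ⧸ J)) = Submodule.map π.toLinearMap ⊤ := by
      rw [Submodule.map_top, eq_comm, LinearMap.range_eq_top]
      exact Ideal.Quotient.mk_surjective
    rw [h2, ← Submodule.map_smul'', Ideal.smul_top_eq_map] at h1
    obtain ⟨c, hc, h3⟩ := h1
    have h4 : p - c ∈ J := Ideal.Quotient.eq.1 h3.symm
    simpa using add_mem (Ideal.mem_iInf.1 h4 N) (Ideal.mem_sup_right hc)
  have := pert_prec (J := RedE D) 𝔠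
  have hsurj : Function.Surjective ρ := by
    refine surjective_of_mkQ_comp_surjective (I := 𝔠) fun y => ?_
    obtain ⟨y, rfl⟩ := Submodule.Quotient.mk_surjective _ y
    obtain ⟨p, rfl⟩ := Ideal.Quotient.mk_surjective y
    obtain ⟨u, hu⟩ := hs p
    have h1 : ∀ u, π (Φ u) ∈ LinearMap.range ρ := by
      intro u
      induction u using Finsupp.induction_linear with
      | zero => simp
      | add u v hu hv => rw [map_add, map_add]; exact add_mem hu hv
      | single q c =>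
        by_cases hq : q.2 = 0
        · exact ⟨Finsupp.single q.1 c, by simp [ρ, e, ← hq]⟩
        · obtain ⟨v, hv⟩ := Finsupp.support_nonempty_iff.2 hq
          have h2 : π (q.2.prod fun v n => f v ^ n) = 0 := by
            rw [Finsupp.prod, map_prod]
            refine Finset.prod_eq_zero hv ?_
            rw [map_pow, hπ, zero_pow (Finsupp.mem_support_iff.1 hv)]
          simp only [Φ, g, Finsupp.linearCombination_single, map_smul, map_mul, h2, mul_zero,
            smul_zero]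
          exact zero_mem _
    obtain ⟨v, hv⟩ := h1 u
    refine ⟨v, ?_⟩
    rw [LinearMap.comp_apply, hv, Submodule.mkQ_apply, eq_comm, Submodule.Quotient.eq]
    have h2 := Submodule.mem_map_of_mem (f := π.toLinearMap) hu
    rw [Submodule.map_smul'', map_sub] at h2
    exact Submodule.smul_mono le_rfl le_top h2
  let E := LinearEquiv.ofBijective ρ ⟨hinj, hsurj⟩
  have : Nonempty (RedE D) := ⟨⟨0, fun v => (h v).1⟩⟩
  have hcard : Nat.card (RedE D) = ∏ v, D v := by
    have e : RedE D ≃ ∀ v, Fin (D v) :=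
      { toFun := fun α v => ⟨α.1 v, α.2 v⟩
        invFun := fun a => ⟨Finsupp.equivFunOnFinite.symm fun v => (a v).1, fun v => (a v).2⟩
        left_inv := fun α => Subtype.ext (Finsupp.ext fun _ => rfl)
        right_inv := fun _ => rfl }
    rw [Nat.card_congr e, Nat.card_pi]
    simp
  refine ⟨{ carrier := MvPolynomial ι Λ ⧸ J, free := Module.Free.of_equiv E,
            finite := Module.Finite.equiv E, nontriv := hinj.nontrivial }, π, hπ,
    Ideal.Quotient.mk_surjective, ?_⟩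
  have := Fintype.ofFinite (RedE D)
  rw [← hcard, Nat.card_eq_fintype_card, ← Module.finrank_finsupp_self Λ]
  exact E.finrank_eq.symm

end Crest.Agent.R188
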