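import Crest.Agent.R188.BEnvD
import Crest.Agent.R188.BEnvP

/-! Row 188, envelopes: the finite free cover of `P` cut out by the relations of levels `1, …, n`. -/

set_option autoImplicit false

namespace Crest.Agent.R188

open Crest.Agent.R183 WittVector MvPolynomial

variable {p : ℕ} [Fact p.Prime] {P : Type} [CommRing P] {ι : Type} [Fintype ι] {φ : P →+* P}
  {s : P →+* WittVector p P} {t : P}

/-- envelope variables. -/
def BEnvL_U {n : ℕ} (k : Fin n) (i : ι) : (Fin n)ᵒᵈ ×ₗ ι := toLex (OrderDual.toDual k, i)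

theorem BEnvL_tri {R κ : Type} [CommRing R] [LinearOrder κ] (q : ℕ) (hq : 1 ≤ q)
    (f : κ → MvPolynomial κ R) (h : ∀ v, f v - X v ^ q ∈ supported R (Set.Ioi v)) :
    Tri f fun _ => q := by
  classical
  refine fun v => ⟨hq, fun α hα => ?_⟩
  have key : ∀ w, w ≤ v → α w = 0 := by
    intro w hw
    by_contra h0
    have h1 : w ∈ (f v - X v ^ q).vars :=
      (mem_vars_iff_mem_support w).2 ⟨α, hα, Finsupp.mem_support_iff.2 h0⟩
    exact absurd (mem_supported.1 (h v) h1) (not_lt.2 hw)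
  exact ⟨by rw [key _ le_rfl]; exact hq, fun w hw => key w hw.le⟩

theorem env_level1 (htf : ∀ b : P, (p : P) * b = 0 → b = 0) (hs : Dw p φ s) (ht : φ t = t ^ p)
    (F : ι → P) (𝔠 : Ideal P) [IsAdicComplete 𝔠 P] (h𝔠 : 𝔠 ≠ ⊤) (ht𝔠 : t ∈ 𝔠) (hp𝔠 : (p : P) ∈ 𝔠)
    (n : ℕ) : ∃ (B : FFAlg P) (π : MvPolynomial (ι × ℕ) P →ₐ[P] B.carrier),
      Function.Surjective π ∧ (∀ i k, n ≤ k → π (X (i, k)) = 0) ∧
      (∀ i, ∀ k < n, π (eRel p s t F i (k + 1)) = 0) ∧
      Module.finrank P B.carrier = (p ^ n) ^ Fintype.card ι := by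
  classical
  have hp : p.Prime := Fact.out
  let _ : LinearOrder ι := LinearOrder.lift' (Fintype.equivFin ι) (Fintype.equivFin ι).injective
  let ev : MvPolynomial (ι × ℕ) P →ₐ[P] MvPolynomial ((Fin n)ᵒᵈ ×ₗ ι) P :=
    aeval fun ik => if h : ik.2 < n then X (BEnvL_U ⟨ik.2, h⟩ ik.1) else 0
  have ev_C : ∀ b, ev (C b) = C b := fun b => ev.commutes b
  have ev_X : ∀ i (k : Fin n), ev (X (i, k.1)) = X (BEnvL_U k i) := fun i k => by simp [ev, k.2]
  let f : (Fin n)ᵒᵈ ×ₗ ι → MvPolynomial ((Fin n)ᵒᵈ ×ₗ ι) P := fun v =>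
    -ev (eRel p s t F (ofLex v).2 ((OrderDual.ofDual (ofLex v).1).1 + 1))
  have hsE : ∀ k, ghostComponent k (s (t - (p : P))) = t ^ p ^ k - (p : P) := fun k => by
    rw [map_sub, map_sub, hs.teich t ht, ghostComponent_teichmuller, map_natCast, map_natCast]
  have hw := fun i => witt_coord p htf (s (t - (p : P))) (s (F i)) 𝔠
    (fun k => by
      rw [hsE]
      exact sub_mem (Ideal.pow_mem_of_mem _ ht𝔠 _ (pow_pos hp.pos k)) hp𝔠)
    (fun k => by
      obtain ⟨δ, h1, h2⟩ := env_delta p (t ^ p ^ k)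
      refine ⟨δ, ?_, (Ideal.span_le.2 (Set.singleton_subset_iff.2 hp𝔠)) h2⟩
      rw [hsE, hsE, ← h1, ← pow_mul, ← pow_succ])
  let θ : ι → MvPolynomial ℕ P →+* MvPolynomial ((Fin n)ᵒᵈ ×ₗ ι) (P ⧸ 𝔠) := fun i =>
    (MvPolynomial.map (Ideal.Quotient.mk 𝔠)).comp (ev.toRingHom.comp (eRn P i))
  have θ_apply : ∀ i x, θ i x = MvPolynomial.map (Ideal.Quotient.mk 𝔠) (ev (eRn P i x)) :=
    fun _ _ => rfl
  have θ_C : ∀ i b, θ i (C b) = C (Ideal.Quotient.mk 𝔠 b) := fun i b => by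
    rw [θ_apply, eRn_C, ev_C, map_C]
  have θ_X : ∀ i (k : Fin n), θ i (X k.1) = X (BEnvL_U k i) := fun i k => by
    rw [θ_apply, eRn_X, ev_X, map_X]
  have θ_ker : ∀ i, 𝔠.map (C : _ →+* MvPolynomial ℕ P) ≤ RingHom.ker (θ i) := fun i =>
    Ideal.map_le_iff_le_comap.2 fun x hx => by
      change θ i (C _) = 0
      rw [θ_C, Ideal.Quotient.eq_zero_iff_mem.2 hx, map_zero]
  have htri : Tri (fun v => MvPolynomial.map (Ideal.Quotient.mk 𝔠) (f v)) fun _ => p := by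
    refine BEnvL_tri p hp.one_le _ fun v => ?_
    obtain ⟨k, i, rfl⟩ : ∃ k i, v = BEnvL_U k i := ⟨OrderDual.ofDual (ofLex v).1, _, rfl⟩
    obtain ⟨c, hc, h0⟩ := (hw i).2 k.1
    have h1 : θ i ((eRel0 p s t (F i)).coeff (k.1 + 1) + X k.1 ^ p - c) = 0 := θ_ker i h0
    rw [map_sub, map_add, map_pow, θ_X, sub_eq_zero] at h1
    change MvPolynomial.map (Ideal.Quotient.mk 𝔠)
      (-ev (eRn P i ((eRel0 p s t (F i)).coeff (k.1 + 1)))) - _ ∈ _
    rw [map_neg, ← θ_apply, ← neg_add', h1]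
    refine neg_mem ?_
    clear h0 h1
    rw [supported_eq_adjoin_X] at hc
    induction hc using Algebra.adjoin_induction with
    | mem x hx =>
      obtain ⟨j, hj, rfl⟩ := hx
      have hj' : j < k.1 := hj
      rw [θ_X i ⟨j, hj'.trans k.2⟩]
      exact Algebra.subset_adjoin ⟨_, Prod.Lex.toLex_lt_toLex.2 (Or.inl hj'), rfl⟩
    | algebraMap b =>
      rw [algebraMap_eq, θ_C]
      exact Subalgebra.algebraMap_mem _ _
    | add x y _ _ hx hy => rw [map_add]; exact add_mem hx hy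
    | mul x y _ _ hx hy => rw [map_mul]; exact mul_mem hx hy
  obtain ⟨B, π, hπ, hsurj, hrk⟩ := pert' 𝔠 h𝔠 f _ htri
  refine ⟨B, π.comp ev, hsurj.comp fun y => ?_, fun i k hk => ?_, fun i k hk => ?_, ?_⟩
  · induction y using MvPolynomial.induction_on with
    | C a => exact ⟨C a, ev_C a⟩
    | add x y hx hy =>
      obtain ⟨x, rfl⟩ := hx
      obtain ⟨y, rfl⟩ := hy
      exact ⟨x + y, map_add _ _ _⟩
    | mul_X x v hx =>
      obtain ⟨x, rfl⟩ := hx
      exact ⟨x * X ((ofLex v).2, (OrderDual.ofDual (ofLex v).1).1), (map_mul ev _ _).trans (congrArg _ (ev_X _ _))⟩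
  · simp [ev, hk.not_gt]
  · change π (ev _) = 0
    rw [← neg_eq_zero, ← map_neg]
    exact hπ (BEnvL_U ⟨k, hk⟩ i)
  · rw [hrk, Finset.prod_const, Finset.card_univ, ← pow_mul]
    simp

omit [Fintype ι] in
theorem eRel_zero (hs : Dw p φ s) (F : ι → P) (i : ι) :
    eRel p s t F i 0 = C (t - (p : P)) * X (i, 0) - C (F i) := by
  have h0 : ∀ b, (s b).coeff 0 = b := fun b => by rw [← env_ghost_zero, hs.ghost]; rfl
  rw [eRel, eRel0, ← constantCoeff_apply, map_sub, map_mul]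
  simp only [constantCoeff_apply, map_coeff, h0, coeff_mk, map_sub (eRn P i), map_mul, eRn_C, eRn_X]

end Crest.Agent.R188
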