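import Crest.Agent.R188.BEnvL
import Crest.Agent.R188.BEnvC2

/-! Row 188, envelopes: the cover of the base and its twist. -/

set_option autoImplicit false
set_option linter.style.haveILetI false

namespace Crest.Agent.R188

open Crest.Agent.R183 WittVector MvPolynomial IsLocalRing RingTheory.Sequence

theorem env_cover {p : ℕ} [Fact p.Prime] {A P : Type} [CommRing A] [CommRing P] [IsLocalRing A]
    [IsNoetherianRing A] [IsLocalRing P] [IsNoetherianRing P] [IsAdicComplete (maximalIdeal A) A]
    [IsAdicComplete (maximalIdeal P) P] [Algebra A P] {ι : Type} [Fintype ι] {φ : P →+* P}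
    {s : P →+* WittVector p P} (htf : ∀ b : P, (p : P) * b = 0 → b = 0) (hs : Dw p φ s) (t : A)
    (ht : φ (algebraMap A P t) = algebraMap A P t ^ p) (htm : t ∈ maximalIdeal A)
    (hpm : (p : A) ∈ maximalIdeal A) (xs : List A) (hxs : maximalIdeal A = Ideal.ofList xs)
    (hloc : (maximalIdeal A).map (algebraMap A P) ≤ maximalIdeal P) (F : ι → P)
    (hF : ∀ i, F i ∈ maximalIdeal P)
    (hreg : IsWeaklyRegular P (xs.map (algebraMap A P) ++ Finset.univ.toList.map F))
    [Module.Finite A (P ⧸ sp F)] {l₀ : ℕ} (g : Fin l₀ → P)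
    (hg : ∀ c : Fin l₀ → A, ∑ l, algebraMap A P (c l) * g l ∈
      (maximalIdeal A).map (algebraMap A P) ⊔ sp F → ∀ l, c l ∈ maximalIdeal A) (n : ℕ) :
    ∃ (B : FFAlg A) (θ : MvPolynomial (ι × ℕ) P →+* B.carrier),
      EKills p s (algebraMap A P t) F n θ ∧ Function.Surjective θ ∧
      (∀ i k, n ≤ k → θ (X (i, k)) = 0) ∧
      (∀ a, algebraMap A B.carrier a = θ (C (algebraMap A P a))) ∧
      (p ^ n) ^ Fintype.card ι * l₀ ≤ Module.finrank A B.carrier ∧
      ∀ y ∈ maximalIdeal P, θ (C y) ∈ (⊥ : Ideal B.carrier).jacobson := by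
  obtain ⟨B₁, π, h1, h2, h3, h4⟩ := env_level1 htf hs ht F (maximalIdeal P)
    (maximalIdeal.isMaximal P).ne_top (hloc (Ideal.mem_map_of_mem _ htm))
    (hloc (map_natCast (algebraMap A P) p ▸ Ideal.mem_map_of_mem _ hpm)) n
  letI : Algebra A B₁.carrier := ((algebraMap P B₁.carrier).comp (algebraMap A P)).toAlgebra
  have : IsScalarTower A P B₁.carrier := IsScalarTower.of_algebraMap_eq fun _ => rfl
  have hC : ∀ y, π (C y) = algebraMap P B₁.carrier y := fun y => π.commutes y
  let r : ι → B₁.carrier := fun i => π (eRel p s (algebraMap A P t) F i 0)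
  have hr : ∀ i, r i + algebraMap P B₁.carrier (F i) ∈
      (maximalIdeal A).map (algebraMap A B₁.carrier) := fun i => by
    simp only [r, eRel_zero hs, map_sub, map_mul, hC, sub_add_cancel]
    refine Ideal.mul_mem_right _ _ ?_
    have := Ideal.mem_map_of_mem (algebraMap A B₁.carrier) (sub_mem htm hpm)
    rwa [map_sub, map_natCast, ← map_natCast (algebraMap P B₁.carrier)] at this
  have f1 := ci_finite hloc F r hr
  have f2 := ci_free xs hxs hloc F hF hreg r hr
  have f3 := ci_nontrivial hloc F hF r hr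
  have f4 := ci_rank F g hg r hr
  refine ⟨⟨B₁.carrier ⧸ sp r, f2, f1, f3⟩, (Ideal.Quotient.mk (sp r)).comp π.toRingHom, ?_,
    Ideal.Quotient.mk_surjective.comp h1, fun i k hk => ?_, fun a => ?_, h4 ▸ f4, fun y hy => ?_⟩
  · intro i k hk
    change Ideal.Quotient.mk (sp r) (π _) = 0
    rcases k with _ | k
    · exact Ideal.Quotient.eq_zero_iff_mem.2 (Ideal.subset_span ⟨i, rfl⟩)
    · rw [h3 i k hk, map_zero]
  · change Ideal.Quotient.mk (sp r) (π _) = 0
    rw [h2 i k hk, map_zero]
  · change _ = Ideal.Quotient.mk (sp r) (π _)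
    rw [hC]
    rfl
  · change Ideal.Quotient.mk (sp r) (π _) ∈ _
    rw [hC]
    exact ci_jac (A := P) (B := B₁.carrier ⧸ sp r) hy

theorem env_twist_aux {A₀ A B κ : Type} [CommRing A₀] [CommRing A] [Nontrivial A₀] [Nontrivial A]
    [CommRing B] [Algebra A B] [Module.Free A B] [Fintype κ] (ψ : A₀ →+* A)
    (b : κ → A) (hb : Function.Bijective fun f : κ → A₀ => ∑ i, ψ (f i) * b i) :
    letI : Algebra A₀ B := ((algebraMap A B).comp ψ).toAlgebra
    Module.finrank A₀ B = Fintype.card κ * Module.finrank A B := by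
  letI : Algebra A₀ A := ψ.toAlgebra
  letI : Algebra A₀ B := ((algebraMap A B).comp ψ).toAlgebra
  have : IsScalarTower A₀ A B := IsScalarTower.of_algebraMap_eq' rfl
  have h' : Function.Bijective (Fintype.linearCombination A₀ b) := by
    convert hb using 1
    funext f
    simp only [Fintype.linearCombination_apply, Algebra.smul_def]
    rfl
  let e := LinearEquiv.ofBijective _ h'
  have := Module.Free.of_equiv e
  rw [← Module.finrank_mul_finrank A₀ A B, ← e.finrank_eq, Module.finrank_fintype_fun_eq_card]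

theorem env_twist {A κ : Type} [CommRing A] [Nontrivial A] [Fintype κ] (ψ : A →+* A) (b : κ → A)
    (hb : Function.Bijective fun f : κ → A => ∑ i, ψ (f i) * b i) (B : FFAlg A) :
    ∃ (B' : FFAlg A) (e : B.carrier ≃+* B'.carrier),
      (∀ s, algebraMap A B'.carrier s = e (algebraMap A B.carrier (ψ s))) ∧
      Module.finrank A B'.carrier = Fintype.card κ * Module.finrank A B.carrier := by
  obtain ⟨h1, h2⟩ := regPS_trans (B := B.carrier) ψ (regPS_free_of_bij ψ b hb)
  have h3 := env_twist_aux (B := B.carrier) ψ b hb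
  exact ⟨@FFAlg.mk A _ B.carrier B.cr ((algebraMap A B.carrier).comp ψ).toAlgebra h1 h2 B.nontriv,
    RingEquiv.refl _, fun s => rfl, h3⟩

end Crest.Agent.R188
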