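import Crest.Agent.R188.BGeoD

/-! Row 188, part II (geometry): a complete intersection cover of `D`. -/

set_option autoImplicit false

namespace Crest.Agent.R188

open Crest.Agent.R183 IsLocalRing MvPowerSeries

variable {p : ℕ} [Fact p.Prime] {k : Type} [Field k] [CharP k p] [PerfectRing k p] {d : ℕ}
  {G : PS p k (Fin d)} {T : Type} [CommRing T] [IsLocalRing T] {π : PS p k (Fin d) →+* T}

theorem geoE_dim {P A B : Type} [CommRing P] [CommRing A] [CommRing B] (φ : P →+* A) (ψ : P →+* B)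
    (hφ : Function.Surjective φ) (hψ : Function.Surjective ψ)
    (h : RingHom.ker φ ≤ RingHom.ker ψ) : ringKrullDim B ≤ ringKrullDim A := by
  refine ringKrullDim_le_of_surjective (φ.liftOfSurjective hφ ⟨ψ, h⟩) fun b => ?_
  obtain ⟨x, rfl⟩ := hψ b
  exact ⟨φ x, RingHom.liftOfRightInverse_comp_apply _ _ _ _ x⟩

theorem geoE_surj {m : ℕ} {B : Type} [CommRing B] (θ : PS p k (Fin (m + 1) ⊕ Fin d) →+* B)
    (hθ : Function.Surjective θ) (u : Fin (m + 1) → PS p k (Fin d))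
    (hu : ∀ i, u i ∈ mxPS p k (Fin d))
    (h : ∀ i, θ (X (Sum.inl i)) = θ (psRn p k Sum.inr (u i))) :
    Function.Surjective (θ.comp (psRn p k Sum.inr)) := by
  obtain ⟨r, hrC, hrX⟩ := exists_ps_subst (σ := Fin (m + 1) ⊕ Fin d) (Sum.elim u X) (by
    rintro (i | i)
    · exact hu i
    · exact Ideal.mem_sup_right (Ideal.subset_span ⟨i, rfl⟩))
  intro b
  obtain ⟨y, rfl⟩ := hθ b
  refine ⟨r y, ?_⟩
  have := ps_sub_mem (RingHom.id _) ((psRn p k Sum.inr).comp r) (RingHom.ker θ) (fun i => by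
      rw [← mxPS_eq]
      exact Ideal.mem_sup_right (Ideal.subset_span ⟨i, rfl⟩))
    (fun w => by
      rw [RingHom.comp_apply, hrC, psRn_C, RingHom.id_apply, sub_self]
      exact zero_mem _)
    (by
      rintro (i | i)
      · rw [RingHom.comp_apply, hrX, RingHom.id_apply, RingHom.mem_ker, map_sub, h, Sum.elim_inl,
          sub_self]
      · rw [RingHom.comp_apply, hrX, RingHom.id_apply, Sum.elim_inr, psRn_X, sub_self]
        exact zero_mem _) y
  rw [RingHom.mem_ker, map_sub, sub_eq_zero] at this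
  exact this.symm

/-- the map `W⟦t, z, X⟧ → D`. -/
theorem geo_kappa1 (h : Mixed p k d G T π) {𝔭 : Ideal T} [𝔭.IsPrime] {m : ℕ}
    {η : PS p k (Fin (m + 1)) →+* T ⧸ 𝔭} (hη : NN p k π 𝔭 m η) :
    ∃ κ₁ : PS p k (Fin (m + 1) ⊕ Fin d) →+* T ⧸ 𝔭, (∀ y, κ₁ (psRn p k Sum.inl y) = η y) ∧
      ∀ y, κ₁ (psRn p k Sum.inr y) = Ideal.Quotient.mk 𝔭 (π y) := by
  have := h.reg
  have := h.compl
  have : IsLocalRing (T ⧸ 𝔭) :=
    IsLocalRing.of_surjective' (Ideal.Quotient.mk 𝔭) Ideal.Quotient.mk_surjective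
  have := isAdicComplete_quot 𝔭
  have hm := map_maximalIdeal_of_surjective (Ideal.Quotient.mk 𝔭) Ideal.Quotient.mk_surjective
  have h1 : ∀ i, η (X i) ∈ maximalIdeal (T ⧸ 𝔭) := fun i => hm ▸ hη.loc i
  have h2 : ∀ i, Ideal.Quotient.mk 𝔭 (π (X i)) ∈ maximalIdeal (T ⧸ 𝔭) := fun i => by
    rw [← hm, h.max]
    exact Ideal.mem_map_of_mem _ (Ideal.subset_span ⟨i, rfl⟩)
  obtain ⟨κ₁, hC, hX⟩ := exists_ps_hom (σ := Fin (m + 1) ⊕ Fin d) (maximalIdeal (T ⧸ 𝔭))
    (η.comp C) (Sum.elim (fun i => η (X i)) fun i => Ideal.Quotient.mk 𝔭 (π (X i))) (by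
      rintro (i | i)
      · exact h1 i
      · exact h2 i)
  refine ⟨κ₁, fun y => ?_, fun y => ?_⟩
  · refine (RingHom.congr_fun (ps_hom_ext (maximalIdeal (T ⧸ 𝔭)) η (κ₁.comp (psRn p k Sum.inl))
      (fun w => ?_) (fun i => ?_) h1) y).symm
    · rw [RingHom.comp_apply, psRn_C, hC, RingHom.comp_apply]
    · rw [RingHom.comp_apply, psRn_X, hX, Sum.elim_inl]
  · refine (RingHom.congr_fun (ps_hom_ext (maximalIdeal (T ⧸ 𝔭)) ((Ideal.Quotient.mk 𝔭).comp π)
      (κ₁.comp (psRn p k Sum.inr)) (fun w => ?_) (fun i => ?_) h2) y).symm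
    · rw [RingHom.comp_apply, RingHom.comp_apply, psRn_C, hC, RingHom.comp_apply, hη.const]
    · rw [RingHom.comp_apply, RingHom.comp_apply, psRn_X, hX, Sum.elim_inr]

/-- `W⟦t, z, X⟧ / (p, t, z, f(X))` is a quotient of `T / p`. -/
theorem geo_dim1 (h : Mixed p k d G T π) (m : ℕ) {n : ℕ} (hn : n + 1 = d) :
    ringKrullDim (PS p k (Fin (m + 1) ⊕ Fin d) ⧸
      ((mxPS p k (Fin (m + 1))).map (psRn p k Sum.inl) ⊔
        Ideal.span {psRn p k Sum.inr ((p : PS p k (Fin d)) - G)})) ≤ n := by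
  have := h.reg
  have := reg_domain T
  set I := (mxPS p k (Fin (m + 1))).map (psRn p k Sum.inl) ⊔
    Ideal.span {psRn p k (Sum.inr : Fin d → Fin (m + 1) ⊕ Fin d) ((p : PS p k (Fin d)) - G)}
    with hI
  have h1 := geoE_surj (Ideal.Quotient.mk I) Ideal.Quotient.mk_surjective 0
    (fun _ => zero_mem _) fun i => by
      rw [Pi.zero_apply, map_zero, map_zero, Ideal.Quotient.eq_zero_iff_mem, ← psRn_X]
      exact Ideal.mem_sup_left (Ideal.mem_map_of_mem _
        (Ideal.mem_sup_right (Ideal.subset_span ⟨i, rfl⟩)))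
  have h2 := geoE_dim ((Ideal.Quotient.mk (Ideal.span {(p : T)})).comp π) _
    (Ideal.Quotient.mk_surjective.comp h.surj) h1 fun x hx => by
      rw [RingHom.mem_ker, RingHom.comp_apply, Ideal.Quotient.eq_zero_iff_mem] at hx ⊢
      obtain ⟨t, ht⟩ := Ideal.mem_span_singleton.1 hx
      obtain ⟨x', rfl⟩ := h.surj t
      have h3 : x - p * x' ∈ RingHom.ker π := by
        rw [RingHom.mem_ker, map_sub, map_mul, map_natCast, ht, sub_self]
      rw [h.ker] at h3
      obtain ⟨c, hc⟩ := Ideal.mem_span_singleton.1 h3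
      rw [sub_eq_iff_eq_add.1 hc, map_add, map_mul, map_mul]
      refine add_mem (Ideal.mul_mem_right _ _ (Ideal.mem_sup_right
        (Ideal.mem_span_singleton_self _))) (Ideal.mul_mem_right _ _ (Ideal.mem_sup_left ?_))
      rw [map_natCast, ← map_natCast (psRn p k (Sum.inl : Fin (m + 1) → Fin (m + 1) ⊕ Fin d))]
      exact Ideal.mem_map_of_mem _ (Ideal.mem_sup_left (Ideal.mem_span_singleton_self _))
  have h3 := ringKrullDim_quotient_succ_le_of_nonZeroDivisor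
    (mem_nonZeroDivisors_of_ne_zero h.p_ne)
  rw [h.dim, ← hn, Nat.cast_add, Nat.cast_one, ENat.WithBot.add_le_add_one_right_iff] at h3
  exact h2.trans h3

/-- `W⟦t, z, X⟧ / (ξ, 𝔮(X))` is, modulo `z`, a quotient of `T / 𝔮`. -/
theorem geo_dim2 (h : Mixed p k d G T π) (m : ℕ) (𝔮 : Ideal T) {b : ℕ}
    (hb : ringKrullDim (T ⧸ 𝔮) = b) :
    ringKrullDim (PS p k (Fin (m + 1) ⊕ Fin d) ⧸
      (Ideal.span {psRn p k Sum.inl (xi p k m)} ⊔ (𝔮.comap π).map (psRn p k Sum.inr))) ≤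
        (m + b : ℕ) := by
  classical
  set I := Ideal.span {psRn p k (Sum.inl : Fin (m + 1) → Fin (m + 1) ⊕ Fin d) (xi p k m)} ⊔
    (𝔮.comap π).map (psRn p k Sum.inr) with hI
  set s : Finset (PS p k (Fin (m + 1) ⊕ Fin d) ⧸ I) :=
    Finset.univ.image fun j : Fin m => Ideal.Quotient.mk I (X (Sum.inl j.succ)) with hs
  have : RingHomSurjective (Ideal.Quotient.mk I) := ⟨Ideal.Quotient.mk_surjective⟩
  have h0 := ringKrullDim_le_ringKrullDim_quotient_add_card s (by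
    intro y hy
    obtain ⟨j, -, rfl⟩ := Finset.mem_image.1 hy
    refine Ring.le_comap_jacobson (Ideal.Quotient.mk I) ?_
    rw [IsLocalRing.ringJacobson_eq_maximalIdeal, ← mxPS_eq]
    exact Ideal.mem_sup_right (Ideal.subset_span ⟨_, rfl⟩))
  let θ : PS p k (Fin (m + 1) ⊕ Fin d) →+* (PS p k (Fin (m + 1) ⊕ Fin d) ⧸ I) ⧸
      Ideal.span (s : Set (PS p k (Fin (m + 1) ⊕ Fin d) ⧸ I)) :=
    (Ideal.Quotient.mk _).comp (Ideal.Quotient.mk I)
  have hθ : Function.Surjective θ :=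
    Ideal.Quotient.mk_surjective.comp Ideal.Quotient.mk_surjective
  have h1 := geoE_surj (B := (PS p k (Fin (m + 1) ⊕ Fin d) ⧸ I) ⧸
      Ideal.span (s : Set (PS p k (Fin (m + 1) ⊕ Fin d) ⧸ I))) θ hθ (Fin.cons (p : PS p k (Fin d)) 0)
    (fun i : Fin (m + 1) => by
      refine Fin.cases ?_ (fun j => ?_) i
      · rw [Fin.cons_zero]
        exact Ideal.mem_sup_left (Ideal.mem_span_singleton_self _)
      · rw [Fin.cons_succ]
        exact zero_mem _)
    fun i : Fin (m + 1) => by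
      refine Fin.cases ?_ (fun j => ?_) i
      · rw [Fin.cons_zero, RingHom.comp_apply, RingHom.comp_apply]
        congr 1
        rw [Ideal.Quotient.eq]
        refine Ideal.mem_sup_left ?_
        rw [xi, map_sub, psRn_X, map_natCast, map_natCast]
        exact Ideal.mem_span_singleton_self _
      · rw [Fin.cons_succ, Pi.zero_apply, map_zero, map_zero, RingHom.comp_apply,
          Ideal.Quotient.eq_zero_iff_mem]
        exact Ideal.subset_span (Finset.mem_image.2 ⟨j, Finset.mem_univ _, rfl⟩)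
  have h2 := geoE_dim ((Ideal.Quotient.mk 𝔮).comp π) _
    (Ideal.Quotient.mk_surjective.comp h.surj) h1 fun x hx => by
      rw [RingHom.mem_ker, RingHom.comp_apply, Ideal.Quotient.eq_zero_iff_mem] at hx
      have hx' : psRn p k Sum.inr x ∈ I :=
        Ideal.mem_sup_right (Ideal.mem_map_of_mem _ (Ideal.mem_comap.2 hx))
      rw [RingHom.mem_ker, RingHom.comp_apply, RingHom.comp_apply,
        Ideal.Quotient.eq_zero_iff_mem.2 hx', map_zero]
  have h3 : s.card ≤ m := Finset.card_image_le.trans (by simp)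
  rw [hb] at h2
  refine h0.trans ?_
  rw [Nat.cast_add, add_comm (m : WithBot ℕ∞)]
  exact add_le_add h2 (by exact_mod_cast h3)

theorem geo_t0 (h : Mixed p k d G T π) {𝔭 𝔮 : Ideal T} [𝔭.IsPrime]
    (hc : ∃ c : ℕ, maximalIdeal T ^ c ≤ 𝔭 ⊔ 𝔮) {m b : ℕ} (hb : ringKrullDim (T ⧸ 𝔮) = b)
    (hd : m + 1 + b = d) {η : PS p k (Fin (m + 1)) →+* T ⧸ 𝔭} (hη : NN p k π 𝔭 m η)
    (κ₁ : PS p k (Fin (m + 1) ⊕ Fin d) →+* T ⧸ 𝔭) (h₁ : ∀ y, κ₁ (psRn p k Sum.inl y) = η y)
    (h₂ : ∀ y, κ₁ (psRn p k Sum.inr y) = Ideal.Quotient.mk 𝔭 (π y)) :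
    ∃ F : Fin d → PS p k (Fin (m + 1) ⊕ Fin d), (∀ j, κ₁ (F j) = 0) ∧ CI p k m F ∧
      psRn p k Sum.inr ((p : PS p k (Fin d)) - G) ∈ sp F ∧
      ∃ s : ℕ, mxPS p k (Fin (m + 1) ⊕ Fin d) ^ s ≤
        envI p k m F ⊔ (𝔮.comap π).map (psRn p k Sum.inr) := by
  obtain rfl : d = (m + b) + 1 := by omega
  have : IsLocalRing (T ⧸ 𝔭) :=
    IsLocalRing.of_surjective' (Ideal.Quotient.mk 𝔭) Ideal.Quotient.mk_surjective
  have hs : Function.Surjective κ₁ := fun y => by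
    obtain ⟨t, rfl⟩ := Ideal.Quotient.mk_surjective y
    obtain ⟨x, rfl⟩ := h.surj t
    exact ⟨_, h₂ x⟩
  have e₁ : κ₁.comp (psRn p k Sum.inl) = η := RingHom.ext h₁
  have e₂ : κ₁.comp (psRn p k Sum.inr) = (Ideal.Quotient.mk 𝔭).comp π := RingHom.ext h₂
  have key : ∀ (c : ℕ) (I : Ideal (PS p k (Fin (m + 1) ⊕ Fin (m + b + 1)))),
      (maximalIdeal T ^ c).map (Ideal.Quotient.mk 𝔭) ≤ I.map κ₁ →
      maximalIdeal (PS p k (Fin (m + 1) ⊕ Fin (m + b + 1))) ^ c ≤ RingHom.ker κ₁ ⊔ I := by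
    intro c I hI
    rw [Ideal.map_pow, map_maximalIdeal_of_surjective _ Ideal.Quotient.mk_surjective,
      ← map_maximalIdeal_of_surjective κ₁ hs, ← Ideal.map_pow, Ideal.map_le_iff_le_comap,
      Ideal.comap_map_of_surjective κ₁ hs, sup_comm] at hI
    exact hI
  obtain ⟨F', s, hF', hs'⟩ := exists_sop_fam (κ := Bool) (RingHom.ker κ₁) (m + b)
    (fun t => if t then (mxPS p k (Fin (m + 1))).map (psRn p k Sum.inl) ⊔
        Ideal.span {psRn p k Sum.inr ((p : PS p k (Fin (m + b + 1))) - G)}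
      else Ideal.span {psRn p k Sum.inl (xi p k m)} ⊔ (𝔮.comap π).map (psRn p k Sum.inr))
    (by
      rintro (_ | _)
      · exact geo_dim2 h m 𝔮 hb
      · exact geo_dim1 h m rfl)
    (by
      rintro (_ | _)
      · obtain ⟨c, hc⟩ := hc
        refine ⟨c, key c _ ((Ideal.map_mono hc).trans ?_)⟩
        refine le_trans ?_ (Ideal.map_mono le_sup_right)
        rw [Ideal.map_sup, Ideal.map_quotient_self, bot_sup_eq, Ideal.map_map, e₂, ← Ideal.map_map,
          Ideal.map_comap_of_surjective π h.surj]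
      · obtain ⟨c, hc⟩ := hη.prim
        refine ⟨c, key c _ (hc.trans ?_)⟩
        refine le_trans ?_ (Ideal.map_mono le_sup_left)
        rw [Ideal.map_map, e₁])
  have hF : ∀ j, κ₁ ((Fin.cons (psRn p k Sum.inr ((p : PS p k (Fin (m + b + 1))) - G)) F' :
      Fin (m + b + 1) → PS p k (Fin (m + 1) ⊕ Fin (m + b + 1))) j) = 0 := by
    intro j
    refine Fin.cases ?_ (fun j => hF' j) j
    have : π (p - G) = 0 := by
      rw [← RingHom.mem_ker, h.ker]
      exact Ideal.mem_span_singleton_self _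
    rw [Fin.cons_zero, h₂, this, map_zero]
  have h0 : psRn p k Sum.inr ((p : PS p k (Fin (m + b + 1))) - G) ∈
      sp (Fin.cons (psRn p k Sum.inr ((p : PS p k (Fin (m + b + 1))) - G)) F' :
        Fin (m + b + 1) → PS p k (Fin (m + 1) ⊕ Fin (m + b + 1))) := Ideal.subset_span ⟨0, rfl⟩
  have h1 : sp F' ≤ sp (Fin.cons (psRn p k Sum.inr ((p : PS p k (Fin (m + b + 1))) - G)) F' :
      Fin (m + b + 1) → PS p k (Fin (m + 1) ⊕ Fin (m + b + 1))) := by
    refine Ideal.span_mono ?_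
    rintro _ ⟨j, rfl⟩
    exact ⟨j.succ, rfl⟩
  refine ⟨_, hF, ⟨fun j => ?_, s, ?_⟩, h0, s, ?_⟩
  · rw [mxPS_eq]
    exact le_maximalIdeal (RingHom.ker_ne_top κ₁) (hF j)
  · rw [mxPS_eq]
    exact (hs' true).trans (sup_le (sup_le_sup_left ((Ideal.span_singleton_le_iff_mem _).2 h0) _)
      (h1.trans le_sup_right))
  · rw [mxPS_eq]
    exact (hs' false).trans (sup_le (sup_le_sup_right le_sup_left _)
      ((h1.trans le_sup_right).trans le_sup_left))

end Crest.Agent.R188
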