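import Crest.Agent.R188.BGeoC

/-! Row 188, part II (geometry): operations on complete intersections. -/

set_option autoImplicit false

namespace Crest.Agent.R188

open Crest.Agent.R183 IsLocalRing MvPowerSeries

variable {p : ℕ} [Fact p.Prime] {k : Type} [Field k] {m : ℕ}

theorem geoF_fg (σ : Type) [Finite σ] : (mxPS p k σ).FG :=
  Submodule.FG.sup (Submodule.fg_span (Set.finite_singleton _))
    (Submodule.fg_span (Set.finite_range _))

theorem geoF_X {σ : Type} (i : σ) : (X i : PS p k σ) ∈ mxPS p k σ :=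
  Ideal.mem_sup_right (Ideal.subset_span ⟨i, rfl⟩)

theorem geoF_pow {ι : Type} [Finite ι] (F : ι → PS p k (Fin (m + 1) ⊕ ι))
    (h : ∀ i, (X (Sum.inr i) : PS p k (Fin (m + 1) ⊕ ι)) ∈
      ((mxPS p k (Fin (m + 1))).map (psRn p k Sum.inl) ⊔ sp F).radical) :
    ∃ s : ℕ, mxPS p k (Fin (m + 1) ⊕ ι) ^ s ≤
      (mxPS p k (Fin (m + 1))).map (psRn p k Sum.inl) ⊔ sp F := by
  refine Ideal.exists_pow_le_of_le_radical_of_fg (sup_le ?_ ?_) (geoF_fg _)
  · rw [Ideal.span_singleton_le_iff_mem,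
      ← map_natCast (psRn p k (Sum.inl : Fin (m + 1) → Fin (m + 1) ⊕ ι))]
    exact Ideal.le_radical (Ideal.mem_sup_left (Ideal.mem_map_of_mem _
      (Ideal.mem_sup_left (Ideal.mem_span_singleton_self _))))
  · rw [Ideal.span_le]
    rintro _ ⟨i | i, rfl⟩
    · rw [← psRn_X]
      exact Ideal.le_radical (Ideal.mem_sup_left (Ideal.mem_map_of_mem _ (geoF_X i)))
    · exact h i

theorem geoF_tr {ι ι' : Type} [Finite ι] {F : ι → PS p k (Fin (m + 1) ⊕ ι)} (h : CI p k m F)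
    (f : ι → ι') (F' : ι' → PS p k (Fin (m + 1) ⊕ ι'))
    (hF : ∀ i, psRn p k (Sum.map id f) (F i) ∈ sp F') {y : PS p k (Fin (m + 1) ⊕ ι)}
    (hy : y ∈ mxPS p k (Fin (m + 1) ⊕ ι)) : psRn p k (Sum.map id f) y ∈
      ((mxPS p k (Fin (m + 1))).map (psRn p k Sum.inl) ⊔ sp F').radical := by
  obtain ⟨s, hs⟩ := h.prim
  refine ⟨s, ?_⟩
  rw [← map_pow, ← Ideal.mem_comap]
  refine (?_ : _ ≤ Ideal.comap (psRn p k (Sum.map id f)) _) (hs (Ideal.pow_mem_pow hy s))
  refine sup_le ?_ ?_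
  · rw [Ideal.map_le_iff_le_comap]
    intro x hx
    rw [Ideal.mem_comap, Ideal.mem_comap, psRn_psRn]
    exact Ideal.mem_sup_left (Ideal.mem_map_of_mem (psRn p k Sum.inl) hx)
  · rw [Ideal.span_le]
    rintro _ ⟨i, rfl⟩
    exact Ideal.mem_sup_right (hF i)

/-- products of copies. -/
theorem CI.prod {ι : Type} [Finite ι] {F : ι → PS p k (Fin (m + 1) ⊕ ι)} (h : CI p k m F)
    (L : Type) [Finite L] :
    CI p k m fun x : L × ι => psRn p k (Sum.map id (Prod.mk x.1)) (F x.2) := by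
  refine ⟨fun x => psRn_mx _ (Ideal.mem_map_of_mem _ (h.mem x.2)), geoF_pow _ fun x => ?_⟩
  have := geoF_tr h (Prod.mk x.1)
    (fun x : L × ι => psRn p k (Sum.map id (Prod.mk x.1)) (F x.2))
    (fun i => Ideal.subset_span ⟨(x.1, i), rfl⟩) (geoF_X (Sum.inr x.2))
  rwa [psRn_X] at this

/-- adding variables. -/
theorem CI.add_vars {ι κ : Type} [Finite ι] [Finite κ] {F : ι → PS p k (Fin (m + 1) ⊕ ι)}
    (h : CI p k m F) (u : κ → PS p k (Fin (m + 1) ⊕ ι))
    (hu : ∀ l, u l ∈ mxPS p k (Fin (m + 1) ⊕ ι)) :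
    CI p k m (Sum.elim (fun i => psRn p k (Sum.map id (Sum.inl : ι → ι ⊕ κ)) (F i))
      fun l => X (Sum.inr (Sum.inr l)) - psRn p k (Sum.map id (Sum.inl : ι → ι ⊕ κ)) (u l)) := by
  have hF := fun y hy => geoF_tr h (Sum.inl : ι → ι ⊕ κ)
    (Sum.elim (fun i => psRn p k (Sum.map id (Sum.inl : ι → ι ⊕ κ)) (F i))
      fun l => X (Sum.inr (Sum.inr l)) - psRn p k (Sum.map id (Sum.inl : ι → ι ⊕ κ)) (u l))
    (fun i => Ideal.subset_span ⟨Sum.inl i, rfl⟩) (y := y) hy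
  refine ⟨?_, geoF_pow _ ?_⟩
  · rintro (i | l)
    · exact psRn_mx _ (Ideal.mem_map_of_mem _ (h.mem i))
    · exact sub_mem (geoF_X _) (psRn_mx _ (Ideal.mem_map_of_mem _ (hu l)))
  · rintro (i | l)
    · have := hF _ (geoF_X (Sum.inr i))
      rwa [psRn_X] at this
    · rw [← sub_add_cancel (X (Sum.inr (Sum.inr l)))
        (psRn p k (Sum.map id (Sum.inl : ι → ι ⊕ κ)) (u l))]
      exact add_mem (Ideal.le_radical (Ideal.mem_sup_right (Ideal.subset_span ⟨Sum.inr l, rfl⟩)))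
        (hF _ (hu l))

variable [CharP k p] [PerfectRing k p]

theorem CI.finite {ι : Type} [Finite ι] {F : ι → PS p k (Fin (m + 1) ⊕ ι)} (h : CI p k m F) :
    ((Ideal.Quotient.mk (envI p k m F)).comp (psRn p k Sum.inl)).Finite := by
  rcases subsingleton_or_nontrivial (PS p k (Fin (m + 1) ⊕ ι) ⧸ envI p k m F) with h0 | h0
  · exact RingHom.Finite.of_surjective _ fun y => ⟨0, Subsingleton.elim _ _⟩
  have : IsLocalRing (PS p k (Fin (m + 1) ⊕ ι) ⧸ envI p k m F) :=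
    IsLocalRing.of_surjective' (Ideal.Quotient.mk _) Ideal.Quotient.mk_surjective
  have hm := map_maximalIdeal_of_surjective (Ideal.Quotient.mk (envI p k m F))
    Ideal.Quotient.mk_surjective
  let : Algebra (PS p k (Fin (m + 1))) (PS p k (Fin (m + 1) ⊕ ι) ⧸ envI p k m F) :=
    ((Ideal.Quotient.mk (envI p k m F)).comp (psRn p k Sum.inl)).toAlgebra
  have := ps_complete (p := p) (k := k) (Fin (m + 1))
  obtain ⟨s, hs⟩ := h.prim
  refine finite_of_residue (maximalIdeal (PS p k (Fin (m + 1)))) (IsNoetherian.noetherian _) ?_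
    (c := s) ?_ fun θ => ?_
  · rw [RingHom.algebraMap_toAlgebra, ← Ideal.map_map, ← hm, ← mxPS_eq, ← mxPS_eq]
    exact Ideal.map_mono (psRn_mx _)
  · rw [RingHom.algebraMap_toAlgebra, ← Ideal.map_map, ← hm, ← mxPS_eq, ← mxPS_eq,
      ← Ideal.map_pow]
    refine (Ideal.map_mono hs).trans ?_
    rw [Ideal.map_sup]
    refine sup_le le_rfl ((Ideal.map_mono (le_sup_right : sp F ≤ envI p k m F)).trans ?_)
    exact (Ideal.map_quotient_self (envI p k m F)).le.trans bot_le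
  · obtain ⟨y, rfl⟩ := Ideal.Quotient.mk_surjective θ
    obtain ⟨w, hw⟩ := ps_residue y
    refine ⟨C w, ?_⟩
    rw [RingHom.algebraMap_toAlgebra, RingHom.comp_apply, psRn_C, ← map_sub, ← hm, ← mxPS_eq]
    exact Ideal.mem_map_of_mem _ hw

/-- maps to a finite `Ã`-algebra `C`. -/
theorem geo_kappa0 {ι L D C : Type} [Finite ι] [Finite L] [CommRing D] [CommRing C]
    (α : PS p k (Fin (m + 1)) →+* C) (hα : α.Finite) (κ₁ : PS p k (Fin (m + 1) ⊕ ι) →+* D)
    (hnil : ∀ j, ∃ s : ℕ, κ₁ (X (Sum.inr j)) ^ s ∈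
      (mxPS p k (Fin (m + 1))).map (κ₁.comp (psRn p k Sum.inl)))
    (σ : L → (D →+* C)) (hσ : ∀ l y, σ l (κ₁ (psRn p k Sum.inl y)) = α y) :
    ∃ κ₀ : PS p k (Fin (m + 1) ⊕ (L × ι)) →+* C, (∀ y, κ₀ (psRn p k Sum.inl y) = α y) ∧
      ∀ l y, κ₀ (psRn p k (Sum.map id (Prod.mk l)) y) = σ l (κ₁ y) := by
  let : Algebra (PS p k (Fin (m + 1))) C := α.toAlgebra
  have : Module.Finite (PS p k (Fin (m + 1))) C := hα
  have := ps_complete (p := p) (k := k) (Fin (m + 1))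
  have h1 : IsPrecomplete (maximalIdeal (PS p k (Fin (m + 1)))) C := norm_precomplete_of_finite _
  have h2 : IsAdicComplete (maximalIdeal (PS p k (Fin (m + 1)))) C := {}
  have h3 := (IsAdicComplete.map_algebraMap_iff (S := C) _ _).2 h2
  rw [← mxPS_eq, RingHom.algebraMap_toAlgebra] at h3
  set I := (mxPS p k (Fin (m + 1))).map α ⊔
    sp fun x : L × ι => σ x.1 (κ₁ (X (Sum.inr x.2))) with hI
  obtain ⟨N, hN⟩ : ∃ N : ℕ, I ^ N ≤ (mxPS p k (Fin (m + 1))).map α := by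
    refine Ideal.exists_pow_le_of_le_radical_of_fg (sup_le Ideal.le_radical ?_)
      (Submodule.FG.sup ((geoF_fg _).map α) (Submodule.fg_span (Set.finite_range _)))
    rw [Ideal.span_le]
    rintro _ ⟨⟨l, j⟩, rfl⟩
    obtain ⟨s, hs⟩ := hnil j
    refine ⟨s, ?_⟩
    have h4 := Ideal.mem_map_of_mem (σ l) hs
    rwa [Ideal.map_map, show (σ l).comp (κ₁.comp (psRn p k Sum.inl)) = α from
      RingHom.ext (hσ l), map_pow] at h4
  have h4 : IsAdicComplete I C := isAdicComplete_of_pow_le le_sup_left hN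
  have h5 : ∀ i, α (X i) ∈ I := fun i => Ideal.mem_sup_left (Ideal.mem_map_of_mem _ (geoF_X i))
  have h6 : ∀ l j, σ l (κ₁ (X (Sum.inr j))) ∈ I := fun l j =>
    Ideal.mem_sup_right (Ideal.subset_span ⟨(l, j), rfl⟩)
  obtain ⟨κ₀, hC, hX⟩ := exists_ps_hom (σ := Fin (m + 1) ⊕ (L × ι)) I (α.comp MvPowerSeries.C)
    (Sum.elim (fun i => α (X i)) fun x => σ x.1 (κ₁ (X (Sum.inr x.2)))) (by
      rintro (i | x)
      · exact h5 i
      · exact h6 x.1 x.2)
  refine ⟨κ₀, fun y => ?_, fun l y => ?_⟩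
  · refine (RingHom.congr_fun (ps_hom_ext I α (κ₀.comp (psRn p k Sum.inl))
      (fun w => ?_) (fun i => ?_) h5) y).symm
    · rw [RingHom.comp_apply, psRn_C, hC, RingHom.comp_apply]
    · rw [RingHom.comp_apply, psRn_X, hX, Sum.elim_inl]
  · refine (RingHom.congr_fun (ps_hom_ext I ((σ l).comp κ₁)
      (κ₀.comp (psRn p k (Sum.map id (Prod.mk l)))) (fun w => ?_) ?_ ?_) y).symm
    · rw [RingHom.comp_apply, RingHom.comp_apply, psRn_C, hC, RingHom.comp_apply, ← hσ l, psRn_C]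
    · rintro (i | j)
      · rw [RingHom.comp_apply, RingHom.comp_apply, psRn_X, hX, ← psRn_X, hσ]
        rfl
      · rw [RingHom.comp_apply, RingHom.comp_apply, psRn_X, hX]
        rfl
    · rintro (i | j)
      · rw [RingHom.comp_apply, ← psRn_X, hσ]
        exact h5 i
      · exact h6 l j

end Crest.Agent.R188
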