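import Crest.Agent.R188.BGeoB
import Crest.Agent.R188.BGeoE
import Crest.Agent.R188.BGeoF

/-! Row 188, part II (geometry): assembly. -/

set_option autoImplicit false

namespace Crest.Agent.R188

open Crest.Agent.R183 IsLocalRing MvPowerSeries
open scoped TensorProduct

section
variable {p : ℕ} [Fact p.Prime] {k : Type} [Field k] {m : ℕ}

theorem envI_map_le {ι ι' : Type} [Finite ι] (f : ι → ι') {F : ι → PS p k (Fin (m + 1) ⊕ ι)}
    {F' : ι' → PS p k (Fin (m + 1) ⊕ ι')}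
    (h : ∀ i, ∃ i', F' i' = psRn p k (Sum.map id f) (F i)) :
    (envI p k m F).map (psRn p k (Sum.map id f)) ≤ envI p k m F' := by
  rw [envI, Ideal.map_sup, Ideal.map_span, Set.image_singleton, psRn_psRn, bp_sp_map']
  refine sup_le_sup le_rfl (Ideal.span_le.2 ?_)
  rintro _ ⟨i, rfl⟩
  obtain ⟨i', h'⟩ := h i
  exact Ideal.subset_span ⟨i', h'⟩
where
  bp_sp_map' {S S' : Type} [CommRing S] [CommRing S'] (f : S →+* S') {ι : Type} (w : ι → S) :
      (sp w).map f = sp fun k => f (w k) := by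
    rw [Ideal.map_span, ← Set.range_comp]
    rfl

theorem geo_fin₂ {d s : ℕ} {ι' : Type} {F : Fin d → PS p k (Fin (m + 1) ⊕ Fin d)}
    {Q : Ideal (PS p k (Fin d))}
    (hs : mxPS p k (Fin (m + 1) ⊕ Fin d) ^ s ≤ envI p k m F ⊔ Q.map (psRn p k Sum.inr))
    (f : Fin d → ι') {F' : ι' → PS p k (Fin (m + 1) ⊕ ι')}
    (h : ∀ i, ∃ i', F' i' = psRn p k (Sum.map id f) (F i)) :
    (mxPS p k (Fin (m + 1)) ^ s).map (psRn p k Sum.inl) ≤
      envI p k m F' ⊔ Q.map (psRn p k fun j => Sum.inr (f j)) := by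
  have e₁ : (psRn p k Sum.inl : PS p k (Fin (m + 1)) →+* PS p k (Fin (m + 1) ⊕ ι')) =
      (psRn p k (Sum.map id f)).comp (psRn p k Sum.inl) :=
    RingHom.ext fun y => (psRn_psRn Sum.inl (Sum.map id f) y).symm
  have e₂ : (psRn p k (fun j => Sum.inr (f j)) : PS p k (Fin d) →+* PS p k (Fin (m + 1) ⊕ ι')) =
      (psRn p k (Sum.map id f)).comp (psRn p k Sum.inr) :=
    RingHom.ext fun y => (psRn_psRn Sum.inr (Sum.map id f) y).symm
  have h1 : (mxPS p k (Fin (m + 1)) ^ s).map (psRn p k Sum.inl) ≤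
      envI p k m F ⊔ Q.map (psRn p k Sum.inr) := by
    rw [Ideal.map_pow]
    exact (Ideal.pow_right_mono (psRn_mx _) _).trans hs
  rw [e₁, e₂, ← Ideal.map_map, ← Ideal.map_map]
  refine (Ideal.map_mono h1).trans ?_
  rw [Ideal.map_sup]
  exact sup_le_sup_right (envI_map_le f h) _

end

theorem geoStmt : GeoStmt := by
  intro p _ k _ _ _ d G T _ _ π h 𝔭 𝔮 h𝔭 h𝔮 hp hc a b ha hb hab
  obtain ⟨m, η, rfl, hη⟩ := geo_nn h 𝔭 hp ha
  refine ⟨m, rfl, ?_⟩
  obtain ⟨κ₁, h₁, h₂⟩ := geo_kappa1 h hη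
  obtain ⟨F₁, hF₁, hci₁, hf, s₂, hs₂⟩ := geo_t0 h hc hb hab hη κ₁ h₁ h₂
  let η' : Ab p k m →+* T ⧸ 𝔭 := Ideal.Quotient.lift _ η fun a ha => by
    rwa [← RingHom.mem_ker, hη.ker]
  let _ : Algebra (Ab p k m) (T ⧸ 𝔭) := η'.toAlgebra
  have hinj : Function.Injective (algebraMap (Ab p k m) (T ⧸ 𝔭)) :=
    RingHom.lift_injective_of_ker_le_ideal _ _ hη.ker.le
  have hfin : Module.Finite (Ab p k m) (T ⧸ 𝔭) :=
    RingHom.Finite.of_comp_finite (f := Ideal.Quotient.mk _) (g := η') hη.fin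
  have : IsDomain (Ab p k m) := hinj.isDomain _
  obtain ⟨C, _, _, _, _, n, σ, hC, hσ, hgen, hS⟩ :=
    exists_compositum (A := Ab p k m) (D := T ⧸ 𝔭)
  obtain ⟨fl⟩ := exists_flagD_of_split hC hS
  choose l hl using fun i => hσ (fl.σ i)
  let α : PS p k (Fin (m + 1)) →+* C := (algebraMap (Ab p k m) C).comp (Ideal.Quotient.mk _)
  have hα : α.Finite :=
    RingHom.Finite.comp (RingHom.finite_algebraMap.2 inferInstance)
      (RingHom.Finite.of_surjective _ Ideal.Quotient.mk_surjective)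
  have hκ₁ : κ₁.comp (psRn p k Sum.inl) = η := RingHom.ext h₁
  obtain ⟨κ₀, hk₁, hk₂⟩ := geo_kappa0 α hα κ₁ (fun j => by
      obtain ⟨c, hc⟩ := hη.prim
      refine ⟨c, ?_⟩
      rw [hκ₁, ← psRn_X Sum.inr j, h₂, ← map_pow]
      refine hc (Ideal.mem_map_of_mem _ (Ideal.pow_mem_pow ?_ c))
      rw [h.max]
      exact Ideal.subset_span ⟨j, rfl⟩)
    (fun l => (σ l : T ⧸ 𝔭 →+* C)) fun l y => by
      rw [h₁]
      exact (σ l).commutes (Ideal.Quotient.mk _ y)
  let F₀ : Fin n × Fin d → PS p k (Fin (m + 1) ⊕ (Fin n × Fin d)) :=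
    fun x => psRn p k (Sum.map id (Prod.mk x.1)) (F₁ x.2)
  have hci₀ : CI p k m F₀ := hci₁.prod (Fin n)
  have hαker : ∀ y, α y = 0 ↔ y ∈ Ideal.span {xi p k m} := fun y => by
    rw [← Ideal.Quotient.eq_zero_iff_mem, ← map_eq_zero_iff _ hC]
    rfl
  have hle : envI p k m F₀ ≤ RingHom.ker κ₀ := by
    refine sup_le (Ideal.span_le.2 ?_) (Ideal.span_le.2 ?_)
    · rintro _ rfl
      exact (hk₁ _).trans ((hαker _).2 (Ideal.mem_span_singleton_self _))
    · rintro _ ⟨x, rfl⟩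
      exact (hk₂ _ _).trans (by rw [hF₁, map_zero])
  have hmin : RingHom.ker κ₀ ∈ (envI p k m F₀).minimalPrimes :=
    mem_minimalPrimes_of_finite (psRn p k Sum.inl) hci₀.finite (RingHom.ker_isPrime κ₀) hle
      fun y hy => by
        have h3 : y ∈ Ideal.span {xi p k m} := (hαker y).1 ((hk₁ y).symm.trans hy)
        obtain ⟨c, rfl⟩ := Ideal.mem_span_singleton'.1 h3
        rw [Ideal.mem_comap, map_mul]
        exact Ideal.mul_mem_left _ _ (Ideal.mem_sup_left (Ideal.mem_span_singleton_self _))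
  obtain ⟨e, ν, he, hν⟩ := exists_link hmin
  obtain ⟨v, jt, hjt⟩ := Submodule.fg_iff_exists_fin_generating_family.1
    (IsNoetherian.noetherian (RingHom.ker κ₀))
  have hjt' : ∀ i, jt i ∈ RingHom.ker κ₀ := fun i => hjt ▸ Submodule.subset_span ⟨i, rfl⟩
  let u : Option (Fin v) → PS p k (Fin (m + 1) ⊕ (Fin n × Fin d)) :=
    fun o => o.elim ((p : PS p k _) * e) jt
  have hu : ∀ o, u o ∈ mxPS p k (Fin (m + 1) ⊕ (Fin n × Fin d)) := by
    rintro (_ | i)
    · exact Ideal.mul_mem_right _ _ (Ideal.mem_sup_left (Ideal.mem_span_singleton_self _))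
    · rw [mxPS_eq]
      exact le_maximalIdeal (RingHom.ker_ne_top κ₀) (hjt' i)
  obtain ⟨ret, r₁, r₂, r₃⟩ := exists_ret u hu
  let inc : PS p k (Fin (m + 1) ⊕ (Fin n × Fin d)) →+*
      PS p k (Fin (m + 1) ⊕ ((Fin n × Fin d) ⊕ Option (Fin v))) := psRn p k (Sum.map id Sum.inl)
  let F : (Fin n × Fin d) ⊕ Option (Fin v) →
      PS p k (Fin (m + 1) ⊕ ((Fin n × Fin d) ⊕ Option (Fin v))) :=
    Sum.elim (fun i => inc (F₀ i)) fun l => X (Sum.inr (Sum.inr l)) - inc (u l)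
  have hinc : (envI p k m F₀).map inc ≤ envI p k m F :=
    envI_map_le Sum.inl fun i => ⟨Sum.inl i, rfl⟩
  have hV : ∀ o, X (Sum.inr (Sum.inr o)) - inc (u o) ∈ envI p k m F := fun o =>
    Ideal.mem_sup_right (Ideal.subset_span ⟨Sum.inr o, rfl⟩)
  have hret : ∀ y, y - inc (ret y) ∈ envI p k m F := fun y => by
    refine Ideal.span_le.2 ?_ (r₃ y)
    rintro _ ⟨o, rfl⟩
    exact hV o
  have hbase : ∀ y, inc (psRn p k Sum.inl y) = psRn p k Sum.inl y := fun y => psRn_psRn _ _ y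
  have hw : ∀ (i : Fin n) (y : PS p k (Fin d)),
      psRn p k (fun j => Sum.inr (Sum.inl (i, j))) y =
        inc (psRn p k (Sum.map id (Prod.mk i)) (psRn p k Sum.inr y)) := fun i y => by
    rw [psRn_psRn, psRn_psRn]
    rfl
  have hren : ∀ i : Fin n, (envI p k m F₁).map (psRn p k (Sum.map id (Prod.mk i))) ≤
      envI p k m F₀ := fun i => envI_map_le _ fun j => ⟨(i, j), rfl⟩
  have hp0 : κ₀ (p : PS p k _) ≠ 0 := fun h0 => by
    rw [map_natCast, ← map_natCast (algebraMap (Ab p k m) C), map_eq_zero_iff _ hC] at h0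
    have h3 := congrArg (algebraMap (Ab p k m) (T ⧸ 𝔭)) h0
    rw [map_natCast, map_zero, ← map_natCast (Ideal.Quotient.mk 𝔭),
      Ideal.Quotient.eq_zero_iff_mem] at h3
    exact hp h3
  have hfs : FaithfulSMul (Ab p k m) (T ⧸ 𝔭) := (faithfulSMul_iff_algebraMap_injective _ _).2 hinj
  refine ⟨{
    finD := hfin
    injD := hinj
    constD := hη.const
    locD := fun i => h.max ▸ hη.loc i
    C := C
    domC := inferInstance
    injC := hC
    r := Module.finrank (Ab p k m) (T ⧸ 𝔭)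
    r_pos := Module.finrank_pos
    fl := fl
    ι := (Fin n × Fin d) ⊕ Option (Fin v)
    F := F
    ci := hci₀.add_vars u hu
    ve := Sum.inr none
    v := v
    vj := fun i => Sum.inr (some i)
    ν := ν
    nil := fun i => ?_
    κ := κ₀.comp ret
    κ_surj := fun c => ?_
    κ_ker := ?_
    κ_base := fun y => ?_
    κ_e := ?_
    w := fun i j => Sum.inl (l i, j)
    κ_w := fun i y => ?_
    f_mem := fun i => ?_
    fin₂ := ⟨s₂, fun i => ?_⟩ }⟩
  · rw [← Ideal.Quotient.eq_zero_iff_mem, map_pow, map_mul, Ideal.Quotient.eq.2 (hV none),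
      Ideal.Quotient.eq.2 (hV (some i)), ← map_mul, ← map_mul, ← map_pow, ← map_pow,
      Ideal.Quotient.eq_zero_iff_mem]
    refine hinc (Ideal.mem_map_of_mem _ ?_)
    have h3 := hν _ (Ideal.mul_mem_left _ (p : PS p k _) (hjt' i))
    rwa [← mul_assoc, mul_comm e] at h3
  · have h3 : c ∈ Algebra.adjoin (Ab p k m) (⋃ l, Set.range (σ l)) := hgen ▸ Algebra.mem_top
    have h4 : c ∈ κ₀.range := by
      induction h3 using Algebra.adjoin_induction with
      | mem x hx =>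
        obtain ⟨i, s, rfl⟩ := Set.mem_iUnion.1 hx
        obtain ⟨s, rfl⟩ := Ideal.Quotient.mk_surjective s
        obtain ⟨s, rfl⟩ := h.surj s
        exact ⟨_, (hk₂ i (psRn p k Sum.inr s)).trans (by rw [h₂]; rfl)⟩
      | algebraMap r =>
        obtain ⟨r, rfl⟩ := Ideal.Quotient.mk_surjective r
        exact ⟨_, hk₁ r⟩
      | add x y _ _ hx hy => exact add_mem hx hy
      | mul x y _ _ hx hy => exact mul_mem hx hy
    obtain ⟨y, rfl⟩ := h4
    exact ⟨inc y, congrArg κ₀ (r₁ y)⟩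
  · refine le_antisymm (fun y hy => ?_) (sup_le (sup_le (Ideal.span_le.2 ?_) (Ideal.span_le.2 ?_))
      (Ideal.span_le.2 ?_))
    · have h3 : ret y ∈ Ideal.span (Set.range jt) := hjt.ge (show κ₀ (ret y) = 0 from hy)
      have h4 : (Ideal.span (Set.range jt)).map inc ≤ envI p k m F ⊔
          sp fun i => X (Sum.inr (Sum.inr (some i))) := by
        rw [Ideal.map_span, Ideal.span_le]
        rintro _ ⟨_, ⟨i, rfl⟩, rfl⟩
        have h5 := sub_mem (Ideal.mem_sup_right (S := envI p k m F) (Ideal.subset_span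
          (s := Set.range fun i => X (Sum.inr (Sum.inr (some i)))) ⟨i, rfl⟩))
          (Ideal.mem_sup_left (hV (some i)))
        rwa [sub_sub_cancel] at h5
      have h5 := add_mem (Ideal.mem_sup_left (hret y)) (h4 (Ideal.mem_map_of_mem inc h3))
      rwa [sub_add_cancel] at h5
    · rintro _ rfl
      rw [← hbase]
      exact (congrArg κ₀ (r₁ _)).trans (hle (Ideal.mem_sup_left (Ideal.mem_span_singleton_self _)))
    · rintro _ ⟨i | o, rfl⟩
      · exact (congrArg κ₀ (r₁ _)).trans (hle (Ideal.mem_sup_right (Ideal.subset_span ⟨i, rfl⟩)))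
      · show κ₀ (ret (X (Sum.inr (Sum.inr o)) - inc (u o))) = 0
        rw [map_sub, r₂, r₁, sub_self, map_zero]
    · rintro _ ⟨i, rfl⟩
      exact (congrArg κ₀ (r₂ _)).trans (hjt' i)
  · rw [← hbase]
    exact (congrArg κ₀ (r₁ _)).trans (hk₁ y)
  · show κ₀ (ret (X (Sum.inr (Sum.inr none)))) ≠ 0
    rw [r₂]
    show κ₀ ((p : PS p k _) * e) ≠ 0
    rw [map_mul]
    exact mul_ne_zero hp0 he
  · rw [hw, ← hl i]
    exact (congrArg κ₀ (r₁ _)).trans ((hk₂ _ _).trans (by rw [h₂]; rfl))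
  · rw [hw]
    exact hinc (Ideal.mem_map_of_mem _ (hren _ (Ideal.mem_map_of_mem _ (Ideal.mem_sup_right hf))))
  · exact geo_fin₂ hs₂ (fun j => Sum.inl (l i, j)) fun j => ⟨Sum.inl (l i, j), by
      show inc (psRn p k _ _) = _
      rw [psRn_psRn, Sum.map_comp_map]
      rfl⟩

end Crest.Agent.R188
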