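import Crest.Agent.R188.Reg1A

/-! Row 188, part II (geometry): commutative algebra. -/

set_option autoImplicit false

namespace Crest.Agent.R188

open Crest.Agent.R183 IsLocalRing

theorem geoA_dim_le {R : Type} [CommRing R] {I : Ideal R} {n : ℕ} :
    ringKrullDim (R ⧸ I) ≤ n ↔
      ∀ q : LTSeries (PrimeSpectrum.zeroLocus (R := R) I), q.length ≤ n := by
  rw [ringKrullDim_quotient, Order.krullDim, iSup_le_iff]
  exact forall_congr' fun q => by exact_mod_cast Iff.rfl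

theorem geoA_zero {R : Type} [CommRing R] [IsLocalRing R] [IsNoetherianRing R] {I : Ideal R}
    (h : ringKrullDim (R ⧸ I) ≤ (0 : ℕ)) : ∃ s : ℕ, maximalIdeal R ^ s ≤ I := by
  refine Ideal.exists_pow_le_of_le_radical_of_fg ?_ (IsNoetherian.noetherian _)
  rw [Ideal.radical_eq_sInf]
  refine le_sInf fun P hP => ?_
  by_contra hlt
  have h1 : P ≤ maximalIdeal R := le_maximalIdeal hP.2.ne_top
  let a : PrimeSpectrum.zeroLocus (R := R) I := ⟨⟨P, hP.2⟩, hP.1⟩
  let b : PrimeSpectrum.zeroLocus (R := R) I := ⟨⟨maximalIdeal R, inferInstance⟩, hP.1.trans h1⟩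
  have hab : a < b := lt_of_le_not_ge h1 hlt
  have := geoA_dim_le.1 h ((RelSeries.singleton _ b).cons a hab)
  simp at this

theorem geoA_step {R : Type} [CommRing R] [IsLocalRing R] {I : Ideal R} {n : ℕ}
    (h : ringKrullDim (R ⧸ I) ≤ (n + 1 : ℕ)) {y : R}
    (hy : ∀ P ∈ I.minimalPrimes, P ≠ maximalIdeal R → y ∉ P) :
    ringKrullDim (R ⧸ (I ⊔ Ideal.span {y})) ≤ n := by
  refine geoA_dim_le.2 fun q => ?_
  have hsub : PrimeSpectrum.zeroLocus (R := R) (I ⊔ Ideal.span {y} : Ideal R) ⊆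
      PrimeSpectrum.zeroLocus (R := R) I := PrimeSpectrum.zeroLocus_anti_mono_ideal le_sup_left
  let q' : LTSeries (PrimeSpectrum.zeroLocus (R := R) I) :=
    q.map (Set.inclusion hsub) fun _ _ h => h
  have h0 : I ⊔ Ideal.span {y} ≤ q.head.1.asIdeal := q.head.2
  have := q.head.1.isPrime
  obtain ⟨r, hr1, hr2⟩ := Ideal.exists_minimalPrimes_le (le_sup_left.trans h0)
  by_cases hm : r = maximalIdeal R
  · rcases Nat.eq_zero_or_pos q.length with h1 | h1
    · omega
    · have h2 : q.head < q.last := q.strictMono (by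
        rw [Fin.lt_def]
        simpa using h1)
      have h3 : q.last.1.asIdeal ≤ maximalIdeal R := le_maximalIdeal q.last.1.isPrime.ne_top
      exact absurd (h3.trans (hm ▸ hr2)) (not_le_of_gt h2)
  · let a : PrimeSpectrum.zeroLocus (R := R) I := ⟨⟨r, hr1.isPrime⟩, hr1.1.2⟩
    have ha : a < q'.head := lt_of_le_not_ge hr2 fun h1 =>
      hy r hr1 hm (h1 (h0 (Ideal.mem_sup_right (Ideal.mem_span_singleton_self y))))
    have := geoA_dim_le.1 h (q'.cons a ha)
    simpa [q'] using this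

/-- simultaneous systems of parameters inside `Q`. -/
theorem exists_sop_fam {R κ : Type} [CommRing R] [IsLocalRing R] [IsNoetherianRing R] [Finite κ]
    (Q : Ideal R) (n : ℕ) (I : κ → Ideal R) (hd : ∀ i, ringKrullDim (R ⧸ I i) ≤ n)
    (hc : ∀ i, ∃ c : ℕ, maximalIdeal R ^ c ≤ Q ⊔ I i) :
    ∃ (F : Fin n → R) (s : ℕ), (∀ j, F j ∈ Q) ∧ ∀ i, maximalIdeal R ^ s ≤ I i ⊔ sp F := by
  induction n generalizing I with
  | zero =>
    choose s hs using fun i => geoA_zero (hd i)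
    obtain ⟨t, ht⟩ := (Set.finite_range s).bddAbove
    exact ⟨Fin.elim0, t, fun j => j.elim0, fun i =>
      ((Ideal.pow_le_pow_right (ht ⟨i, rfl⟩)).trans (hs i)).trans le_sup_left⟩
  | succ n ih =>
    let S : Set (Ideal R) := {P | (∃ i, P ∈ (I i).minimalPrimes) ∧ P ≠ maximalIdeal R}
    have hS : S.Finite :=
      (Set.finite_iUnion fun i => Ideal.finite_minimalPrimes_of_isNoetherianRing R (I i)).subset
        fun P hP => Set.mem_iUnion.2 hP.1
    have h1 : ¬ (Q : Set R) ⊆ ⋃ P ∈ S, (P : Set R) := by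
      rw [Ideal.subset_union_prime_finite hS ⊤ ⊤ fun P hP _ _ => hP.1.elim fun _ h => h.isPrime]
      rintro ⟨P, ⟨⟨i, hi⟩, hP⟩, hQ⟩
      obtain ⟨c, hc⟩ := hc i
      exact hP (le_antisymm (le_maximalIdeal hi.isPrime.ne_top)
        (hi.isPrime.le_of_pow_le (hc.trans (sup_le hQ hi.1.2))))
    obtain ⟨y, hy1, hy2⟩ := Set.not_subset.1 h1
    obtain ⟨F, s, hF, hs⟩ := ih (fun i => I i ⊔ Ideal.span {y})
      (fun i => geoA_step (hd i) fun P hP hm hy => hy2 (Set.mem_biUnion (show P ∈ S from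
        ⟨⟨i, hP⟩, hm⟩) hy))
      fun i => (hc i).imp fun c hc => hc.trans (sup_le_sup_left le_sup_left _)
    refine ⟨Fin.cons y F, s, Fin.cases hy1 hF, fun i => (hs i).trans ?_⟩
    rw [sp, sp, Fin.range_cons, Ideal.span_insert, sup_assoc]

/-- a linking element for a minimal prime. -/
theorem exists_link {R : Type} [CommRing R] [IsNoetherianRing R] {I P : Ideal R}
    (hP : P ∈ I.minimalPrimes) : ∃ (e : R) (ν : ℕ), e ∉ P ∧ ∀ y ∈ P, (e * y) ^ ν ∈ I := by
  classical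
  have := hP.isPrime
  obtain ⟨ν, hν⟩ := I.exists_radical_pow_le_of_fg (IsNoetherian.noetherian _)
  have hx : ∀ Q : Ideal R, ∃ x, x ∉ P ∧ (Q ∈ I.minimalPrimes → Q ≠ P → x ∈ Q) := fun Q => by
    by_cases h : Q ∈ I.minimalPrimes ∧ Q ≠ P
    · have h1 : ¬ Q ≤ P := fun h2 => h.2 (le_antisymm h2 (hP.2 h.1.1 h2))
      obtain ⟨x, hx1, hx2⟩ := SetLike.not_le_iff_exists.1 h1
      exact ⟨x, hx2, fun _ _ => hx1⟩
    · exact ⟨1, (Ideal.ne_top_iff_one _).1 this.ne_top, fun h1 h2 => absurd ⟨h1, h2⟩ h⟩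
  choose x hx1 hx2 using hx
  let S := (Ideal.finite_minimalPrimes_of_isNoetherianRing R I).toFinset
  refine ⟨∏ Q ∈ S, x Q, ν, fun h => ?_, fun y hy => hν (Ideal.pow_mem_pow ?_ ν)⟩
  · obtain ⟨Q, -, h'⟩ := Ideal.IsPrime.prod_mem_iff.1 h
    exact hx1 Q h'
  · rw [← Ideal.sInf_minimalPrimes]
    refine Submodule.mem_sInf.2 fun Q hQ => ?_
    by_cases e : Q = P
    · exact Ideal.mul_mem_left _ _ (e ▸ hy)
    · exact Ideal.mul_mem_right _ _
        (Ideal.prod_mem _ ((Set.Finite.mem_toFinset _).2 hQ) (hx2 Q hQ e))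

/-- incomparability. -/
theorem mem_minimalPrimes_of_finite {A R : Type} [CommRing A] [CommRing R] (φ : A →+* R)
    {I P : Ideal R} (hfin : ((Ideal.Quotient.mk I).comp φ).Finite) (hP : P.IsPrime) (hIP : I ≤ P)
    (h : P.comap φ ≤ I.comap φ) : P ∈ I.minimalPrimes := by
  refine ⟨⟨hP, hIP⟩, fun Q hQ hQP x hx => ?_⟩
  by_contra hxQ
  let _ := ((Ideal.Quotient.mk I).comp φ).toAlgebra
  have : Module.Finite A (R ⧸ I) := hfin
  have hk : RingHom.ker (Ideal.Quotient.mk I) ≤ Q := by simpa using hQ.2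
  have := hQ.1
  have hp : (Q.map (Ideal.Quotient.mk I)).IsPrime :=
    Ideal.map_isPrime_of_surjective Ideal.Quotient.mk_surjective hk
  have h1 := Ideal.comap_lt_comap_of_integral_mem_sdiff (R := A)
    (Ideal.map_mono (f := Ideal.Quotient.mk I) hQP) (x := Ideal.Quotient.mk I x)
    ⟨Ideal.mem_map_of_mem _ hx, fun h2 => hxQ (by
      rwa [SetLike.mem_coe, ← Ideal.mem_comap, Ideal.comap_map_mk hQ.2] at h2)⟩
    (Algebra.IsIntegral.isIntegral _)
  refine not_le_of_gt h1 ?_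
  rw [RingHom.algebraMap_toAlgebra, ← Ideal.comap_comap, ← Ideal.comap_comap,
    Ideal.comap_map_mk hQ.2, Ideal.comap_map_mk hIP]
  exact h.trans (Ideal.comap_mono hQ.2)

/-- completeness only depends on the topology. -/
theorem isAdicComplete_of_pow_le {R : Type} [CommRing R] {I J : Ideal R} (hJI : J ≤ I) {N : ℕ}
    (hIJ : I ^ N ≤ J) [IsAdicComplete J R] : IsAdicComplete I R := by
  have h1 : ∀ n, I ^ ((N + 1) * n) ≤ J ^ n := fun n => by
    rw [pow_mul]
    exact Ideal.pow_right_mono ((Ideal.pow_le_pow_right (Nat.le_succ N)).trans hIJ) n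
  have hH : IsHausdorff I R := ⟨fun x hx => IsHausdorff.haus' (I := J) x fun n =>
    (hx ((N + 1) * n)).mono (Submodule.smul_mono_left (h1 n))⟩
  have hP : IsPrecomplete I R := ⟨fun f hf => by
    obtain ⟨L, hL⟩ := IsPrecomplete.prec' (I := J) (fun n => f ((N + 1) * n)) fun {m n} hmn =>
      (hf (Nat.mul_le_mul_left _ hmn)).mono (Submodule.smul_mono_left (h1 m))
    exact ⟨L, fun n => (hf (by nlinarith)).trans
      ((hL n).mono (Submodule.smul_mono_left (Ideal.pow_right_mono hJI n)))⟩⟩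
  exact {}

theorem exists_pow_le_of_gen {R κ : Type} [CommRing R] [Finite κ] (x : κ → R) (I : Ideal R)
    (h : ∀ i, ∃ s : ℕ, x i ^ s ∈ I) : ∃ s : ℕ, sp x ^ s ≤ I := by
  refine Ideal.exists_pow_le_of_le_radical_of_fg (Ideal.span_le.2 ?_)
    (Submodule.fg_span (Set.finite_range x))
  rintro _ ⟨i, rfl⟩
  exact h i

end Crest.Agent.R188
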