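import Crest.Agent.R188.BInt
import Crest.Agent.R183.D0B

/-! Row 188, part II (geometry): the compositum of the conjugates and the flag. -/

set_option autoImplicit false

namespace Crest.Agent.R188

open Crest.Agent.R183 IsLocalRing
open scoped TensorProduct

section Aux

variable {C S : Type} [CommRing C] [IsDomain C] [CommRing S] [Algebra C S]

/-- a non-torsion common eigenvector. -/
theorem bgeoB_eigen [IsNoetherianRing C] [IsNoetherianRing S]
    (hS : ∀ P : Ideal S, P.IsPrime → (∀ c : C, algebraMap C S c ∈ P → c = 0) →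
      ∀ s : S, ∃ t : C, s - algebraMap C S t ∈ P)
    (M : Type) [AddCommGroup M] [Module C M] [Module S M] [IsScalarTower C S M]
    [Module.Finite C M] (h : Module.finrank C M ≠ 0) :
    ∃ y : M, (∀ c : C, c • y = 0 → c = 0) ∧ ∀ s : S, ∃ t : C, s • y = t • y := by
  let T := d0b_tors C S M
  have hT : T ≠ ⊤ := by
    intro hT
    apply h
    rw [Module.finrank_eq_zero_iff_isTorsion]
    intro x
    have hx : x ∈ T := hT ▸ Submodule.mem_top
    obtain ⟨c, hc, hx⟩ := hx
    exact ⟨⟨c, mem_nonZeroDivisors_of_ne_zero hc⟩, hx⟩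
  have : Nontrivial (M ⧸ T) := Submodule.Quotient.nontrivial_iff.2 hT
  obtain ⟨P, hP⟩ := associatedPrimes.nonempty S (M ⧸ T)
  obtain ⟨hPp, xb, hx⟩ := isAssociatedPrime_iff.1 hP
  obtain ⟨x, rfl⟩ := Submodule.Quotient.mk_surjective T xb
  have hmem : ∀ s : S, s ∈ P ↔ s • x ∈ T := by
    intro s
    rw [hx, Submodule.mem_colon_singleton, Submodule.mem_bot, ← Submodule.Quotient.mk_smul,
      Submodule.Quotient.mk_eq_zero]
  have hfin : Module.Finite C (T.restrictScalars C) := inferInstance
  obtain ⟨c, hc, hcT⟩ := d0b_kill (C := C) (M := T.restrictScalars C) (by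
    rintro ⟨z, d, hd, hz⟩
    exact ⟨⟨d, mem_nonZeroDivisors_of_ne_zero hd⟩, Subtype.ext hz⟩)
  refine ⟨c • x, fun d hd => ?_, fun s => ?_⟩
  · by_contra hd0
    apply hPp.ne_top
    rw [Ideal.eq_top_iff_one, hmem, one_smul]
    exact ⟨d * c, mul_ne_zero hd0 hc, by rw [mul_smul, hd]⟩
  · have h0 : ∀ d : C, algebraMap C S d ∈ P → d = 0 := by
      intro d hd
      rw [hmem, algebraMap_smul] at hd
      obtain ⟨e, he, hed⟩ := hd
      by_contra hd0
      apply hPp.ne_top
      rw [Ideal.eq_top_iff_one, hmem, one_smul]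
      exact ⟨e * d, mul_ne_zero he hd0, by rw [mul_smul, hed]⟩
    obtain ⟨t, ht⟩ := hS P hPp h0 s
    refine ⟨t, ?_⟩
    have h1 : c • ((s - algebraMap C S t) • x) = 0 :=
      congrArg Subtype.val (hcT ⟨_, (hmem _).1 ht⟩)
    rw [sub_smul, smul_sub, algebraMap_smul, sub_eq_zero] at h1
    rw [smul_comm s c x, h1, smul_comm]

/-- a stable flag of full rank. -/
theorem bgeoB_flag [IsNoetherianRing C] [IsNoetherianRing S]
    (hS : ∀ P : Ideal S, P.IsPrime → (∀ c : C, algebraMap C S c ∈ P → c = 0) →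
      ∀ s : S, ∃ t : C, s - algebraMap C S t ∈ P) (r : ℕ) :
    ∀ (M : Type) [AddCommGroup M] [Module C M] [Module S M] [IsScalarTower C S M]
      [Module.Finite C M], Module.finrank C M = r →
      ∃ η : Fin r → M, (∀ a : Fin r → C, ∑ i, a i • η i = 0 → ∀ i, a i = 0) ∧
        (∀ (s : S) (m : Fin r), ∃ a : Fin r → C, (∀ i, m < i → a i = 0) ∧
          s • η m = ∑ i, a i • η i) ∧
        ∃ c : C, c ≠ 0 ∧ ∀ x : M, ∃ a : Fin r → C, c • x = ∑ i, a i • η i := by
  induction r with
  | zero =>
    intro M _ _ _ _ _ h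
    obtain ⟨c, hc, hx⟩ := d0b_kill (Module.finrank_eq_zero_iff_isTorsion.1 h)
    exact ⟨Fin.elim0, fun _ _ i => i.elim0, fun _ m => m.elim0, c, hc,
      fun x => ⟨Fin.elim0, by rw [hx]; simp⟩⟩
  | succ r ih =>
    intro M _ _ _ _ _ h
    obtain ⟨y, hy1, hy2⟩ := bgeoB_eigen hS M (by omega)
    let N : Submodule S M := Submodule.span S {y}
    have hyN : y ∈ N := Submodule.mem_span_singleton_self y
    have hN : ∀ x, x ∈ N → ∃ t : C, x = t • y := by
      intro x hx
      obtain ⟨s, rfl⟩ := Submodule.mem_span_singleton.1 hx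
      exact hy2 s
    have hN1 : Module.finrank C N = 1 := by
      have hb : Function.Bijective (LinearMap.toSpanSingleton C N ⟨y, hyN⟩) := by
        constructor
        · rw [← LinearMap.ker_eq_bot, LinearMap.ker_eq_bot']
          intro t ht
          exact hy1 t (congrArg Subtype.val ht)
        · rintro ⟨x, hx⟩
          obtain ⟨t, rfl⟩ := hN x hx
          exact ⟨t, rfl⟩
      rw [← (LinearEquiv.ofBijective _ hb).finrank_eq, Module.finrank_self]
    have hq : Module.finrank C (M ⧸ N) = r := by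
      rw [Submodule.finrank_quotient, h, hN1]; rfl
    obtain ⟨ηb, h1, h2, c, hc, h3⟩ := ih (M ⧸ N) hq
    choose η hη using fun i => Submodule.Quotient.mk_surjective N (ηb i)
    have hsum : ∀ a : Fin r → C, (Submodule.Quotient.mk (∑ i, a i • η i) : M ⧸ N) =
        ∑ i, a i • ηb i := by
      intro a
      have := map_sum (N.mkQ) (fun i => a i • η i) Finset.univ
      simp only [Submodule.mkQ_apply, Submodule.Quotient.mk_smul, hη] at this
      exact this
    have hlift : ∀ (x : M) (a : Fin r → C), (Submodule.Quotient.mk x : M ⧸ N) = ∑ i, a i • ηb i →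
        ∃ t : C, x = ∑ i, (Fin.cons t a : Fin (r + 1) → C) i • (Fin.cons y η : Fin (r + 1) → M) i := by
      intro x a hx
      rw [← hsum, Submodule.Quotient.eq] at hx
      obtain ⟨t, ht⟩ := hN _ hx
      refine ⟨t, ?_⟩
      rw [Fin.sum_univ_succ]
      simp only [Fin.cons_zero, Fin.cons_succ]
      rw [← ht]; abel
    refine ⟨Fin.cons y η, fun a ha => ?_, fun s m => ?_, c, hc, fun x => ?_⟩
    · rw [Fin.sum_univ_succ] at ha
      simp only [Fin.cons_zero, Fin.cons_succ] at ha
      have h4 : ∀ i, a (Fin.succ i) = 0 := by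
        apply h1
        rw [← hsum, Submodule.Quotient.mk_eq_zero, ← neg_eq_iff_add_eq_zero.2 ha]
        exact neg_mem (Submodule.smul_of_tower_mem _ _ hyN)
      simp only [h4, zero_smul, Finset.sum_const_zero, add_zero] at ha
      exact Fin.cases (hy1 _ ha) h4
    · refine Fin.cases ?_ (fun m => ?_) m
      · obtain ⟨t, ht⟩ := hy2 s
        refine ⟨Fin.cons t 0, fun i => Fin.cases (fun h => absurd h (lt_irrefl _))
          (fun i _ => rfl) i, ?_⟩
        rw [Fin.sum_univ_succ]
        simp [ht]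
      · obtain ⟨a, ha1, ha2⟩ := h2 s m
        obtain ⟨t, ht⟩ := hlift (s • η m) a (by rw [Submodule.Quotient.mk_smul, hη, ha2])
        refine ⟨Fin.cons t a, fun i => Fin.cases (fun h => absurd h (Fin.not_lt_zero _))
          (fun i hi => ha1 i (Fin.succ_lt_succ_iff.1 hi)) i, ?_⟩
        rw [Fin.cons_succ]
        exact ht
    · obtain ⟨a, ha⟩ := h3 (Submodule.Quotient.mk x)
      obtain ⟨t, ht⟩ := hlift (c • x) a (by rw [Submodule.Quotient.mk_smul, ha])
      exact ⟨_, ht⟩

end Aux

/-- the flag, when all primes of `C ⊗ D` over `(0)` have residue ring `C`. -/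
theorem exists_flagD_of_split {A D C : Type} [CommRing A] [IsDomain A] [IsNoetherianRing A]
    [CommRing D] [Algebra A D] [Module.Finite A D] [CommRing C] [IsDomain C] [Algebra A C]
    [Module.Finite A C] (hinj : Function.Injective (algebraMap A C))
    (hS : ∀ P : Ideal (C ⊗[A] D), P.IsPrime → (∀ c : C, algebraMap C (C ⊗[A] D) c ∈ P → c = 0) →
      ∀ s : D, ∃ t : C, (1 : C) ⊗ₜ[A] s - algebraMap C (C ⊗[A] D) t ∈ P) :
    Nonempty (FlagD A D C (Module.finrank A D)) := by
  classical
  have : FaithfulSMul A C := (faithfulSMul_iff_algebraMap_injective A C).2 hinj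
  have : IsNoetherianRing C := IsNoetherianRing.of_finite A C
  have : IsNoetherianRing (C ⊗[A] D) := IsNoetherianRing.of_finite C (C ⊗[A] D)
  let ι : D →ₐ[A] C ⊗[A] D := Algebra.TensorProduct.includeRight
  have hι : ∀ (c : C) (s : D), c ⊗ₜ[A] s = c • ι s := by
    intro c s
    simp [ι, TensorProduct.smul_tmul']
  have hS' : ∀ P : Ideal (C ⊗[A] D), P.IsPrime →
      (∀ c : C, algebraMap C (C ⊗[A] D) c ∈ P → c = 0) → ∀ s : C ⊗[A] D, ∃ t : C,
      s - algebraMap C (C ⊗[A] D) t ∈ P := by
    intro P hP h0 s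
    induction s using TensorProduct.induction_on with
    | zero => exact ⟨0, by simp⟩
    | tmul c s =>
      obtain ⟨t, ht⟩ := hS P hP h0 s
      refine ⟨c * t, ?_⟩
      rw [hι, map_mul, Algebra.smul_def, ← mul_sub]
      exact P.mul_mem_left _ ht
    | add x y hx hy =>
      obtain ⟨t, ht⟩ := hx
      obtain ⟨t', ht'⟩ := hy
      refine ⟨t + t', ?_⟩
      rw [map_add, add_sub_add_comm]
      exact P.add_mem ht ht'
  obtain ⟨η, h1, h2, c, hc, h3⟩ := bgeoB_flag hS' (Module.finrank A D) (C ⊗[A] D)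
    (TensorProduct.isBaseChange A D C).finrank_eq
  obtain ⟨ρ, hρ1, hρ2, hρ3⟩ := d0b_rep η h1 h2
  obtain ⟨g, hg, c', hc'⟩ := (Algebra.IsIntegral.isIntegral (R := A) c).isAlgebraic.exists_nonzero_dvd
    (mem_nonZeroDivisors_of_ne_zero hc)
  obtain ⟨v₀, hv₀⟩ := h3 (algebraMap C (C ⊗[A] D) c')
  have hg1 : algebraMap C (C ⊗[A] D) (algebraMap A C g) = ∑ i, v₀ i • η i := by
    rw [← hv₀, hc', map_mul, Algebra.smul_def]
  choose σ hσ using exists_diag_algHom ((ρ.restrictScalars A).comp ι) fun s => hρ1 _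
  refine ⟨⟨(ρ.restrictScalars A).comp ι, σ, fun s => hρ1 _, fun s i => (hσ i s).symm, g, hg, v₀, η,
    fun m => ?_, fun s m => hρ2 (ι s) m, ?_⟩⟩
  · have h4 : (ρ (η m)).mulVec v₀ = Pi.single m (algebraMap A C g) := by
      apply hρ3
      rw [← hg1, mul_comm, ← Algebra.smul_def]
      simp [Pi.single_apply]
    rw [← h4]
    generalize η m = x
    induction x using TensorProduct.induction_on with
    | zero => rw [map_zero, Matrix.zero_mulVec]; exact zero_mem _
    | tmul t s =>
      rw [hι, map_smul, Matrix.smul_mulVec]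
      exact Submodule.smul_mem _ _ (Submodule.subset_span ⟨s, rfl⟩)
    | add x y hx hy => rw [map_add, Matrix.add_mulVec]; exact add_mem hx hy
  · rw [← hg1, ← IsScalarTower.algebraMap_apply]

/-- the compositum of the conjugates of a finite extension of domains. -/
theorem exists_compositum {A D : Type} [CommRing A] [IsDomain A] [IsNoetherianRing A] [CommRing D]
    [Algebra A D] [Module.Finite A D] :
    ∃ (C : Type) (_ : CommRing C) (_ : IsDomain C) (_ : Algebra A C) (_ : Module.Finite A C)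
      (n : ℕ) (σ : Fin n → (D →ₐ[A] C)), Function.Injective (algebraMap A C) ∧
      Function.Surjective σ ∧ Algebra.adjoin A (⋃ l, Set.range (σ l)) = ⊤ ∧
      ∀ P : Ideal (C ⊗[A] D), P.IsPrime → (∀ c : C, algebraMap C (C ⊗[A] D) c ∈ P → c = 0) →
        ∀ s : D, ∃ t : C, (1 : C) ⊗ₜ[A] s - algebraMap C (C ⊗[A] D) t ∈ P := by
  classical
  let L := AlgebraicClosure (FractionRing A)
  have hL : Function.Injective (algebraMap A L) := by
    rw [IsScalarTower.algebraMap_eq A (FractionRing A) L, RingHom.coe_comp]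
    exact (algebraMap (FractionRing A) L).injective.comp (IsFractionRing.injective A _)
  obtain ⟨s, hs⟩ := Module.Finite.fg_top (R := A) (M := D)
  let X : Set L := ⋃ φ : D →ₐ[A] L, φ '' s
  have hX : X.Finite := Set.finite_iUnion fun φ => s.finite_toSet.image φ
  let C : Subalgebra A L := Algebra.adjoin A X
  have hC : Module.Finite A C := Algebra.finite_adjoin_of_finite_of_isIntegral hX (by
    intro x hx
    obtain ⟨φ, y, -, rfl⟩ := Set.mem_iUnion.1 hx
    exact (Algebra.IsIntegral.isIntegral (R := A) y).map φ)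
  have hmem : ∀ (φ : D →ₐ[A] L) (y : D), φ y ∈ C := by
    intro φ y
    have hy : y ∈ Submodule.span A (s : Set D) := hs ▸ Submodule.mem_top
    induction hy using Submodule.span_induction with
    | mem x hx => exact Algebra.subset_adjoin (Set.mem_iUnion.2 ⟨φ, x, hx, rfl⟩)
    | zero => rw [map_zero]; exact zero_mem _
    | add x y _ _ hx hy => rw [map_add]; exact add_mem hx hy
    | smul c x _ hx => rw [map_smul]; exact C.smul_mem hx c
  have hfin : Finite (D →ₐ[A] C) := Finite.of_injective (fun τ : D →ₐ[A] C => C.val.comp τ)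
    fun τ τ' h => AlgHom.ext fun y => Subtype.ext (DFunLike.congr_fun h y)
  let e := Finite.equivFin (D →ₐ[A] C)
  refine ⟨C, inferInstance, inferInstance, inferInstance, hC, _, e.symm, ?_, e.symm.surjective,
    ?_, ?_⟩
  · intro a b h
    exact hL (congrArg Subtype.val h)
  · refine top_le_iff.1 ((Algebra.adjoin_adjoin_coe_preimage (R := A) (s := X)).symm.le.trans
      (Algebra.adjoin_mono ?_))
    intro x hx
    obtain ⟨φ, y, -, hy⟩ := Set.mem_iUnion.1 hx
    refine Set.mem_iUnion.2 ⟨e (φ.codRestrict C (hmem φ)), y, ?_⟩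
    rw [Equiv.symm_apply_apply]
    exact Subtype.ext hy
  · intro P hP h0 y
    have hinj : Function.Injective (algebraMap C ((C ⊗[A] D) ⧸ P)) := by
      rw [injective_iff_map_eq_zero]
      intro c hc
      exact h0 c (Ideal.Quotient.eq_zero_iff_mem.1 hc)
    have : FaithfulSMul C ((C ⊗[A] D) ⧸ P) := (faithfulSMul_iff_algebraMap_injective _ _).2 hinj
    have : Module.Finite C ((C ⊗[A] D) ⧸ P) :=
      Module.Finite.of_surjective (Ideal.Quotient.mkₐ C P).toLinearMap Ideal.Quotient.mk_surjective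
    let ψ : ((C ⊗[A] D) ⧸ P) →ₐ[C] L := IsAlgClosed.lift
    have hψ : RingHom.ker ψ = ⊥ := by
      refine Ideal.eq_bot_of_comap_eq_bot (R := C) ?_
      rw [eq_bot_iff]
      intro c hc
      rw [Ideal.mem_comap, RingHom.mem_ker, AlgHom.commutes] at hc
      exact Subtype.ext hc
    let φ : D →ₐ[A] L := (ψ.restrictScalars A).comp
      ((Ideal.Quotient.mkₐ A P).comp Algebra.TensorProduct.includeRight)
    refine ⟨⟨φ y, hmem φ y⟩, ?_⟩
    rw [← Ideal.Quotient.eq_zero_iff_mem, ← Ideal.mem_bot, ← hψ, RingHom.mem_ker, map_sub, map_sub,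
      sub_eq_zero]
    exact (ψ.commutes ⟨φ y, hmem φ y⟩).symm

end Crest.Agent.R188
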