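import Crest.Agent.R188.BInt
import Crest.Agent.R188.Ser1
import Crest.Agent.R188.BGeoA

/-! Row 188, part II (geometry): power series over `W(k)`. -/

set_option autoImplicit false

namespace Crest.Agent.R188

open Crest.Agent.R183 IsLocalRing MvPowerSeries

variable {p : ℕ} [Fact p.Prime] {k : Type} [Field k]

theorem psRn_X {σ τ : Type} [Finite σ] (f : σ → τ) (i : σ) : psRn p k f (X i) = X (f i) := by
  exact rename_X f i

theorem psRn_C {σ τ : Type} [Finite σ] (f : σ → τ) (w : WittVector p k) :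
    psRn p k f (C w) = C w := by
  exact rename_C f w

theorem psRn_psRn {σ τ υ : Type} [Finite σ] [Finite τ] (f : σ → τ) (g : τ → υ) (y : PS p k σ) :
    psRn p k g (psRn p k f y) = psRn p k (g ∘ f) y := by
  exact rename_rename f g y

theorem psRn_mx {σ τ : Type} [Finite σ] (f : σ → τ) :
    (mxPS p k σ).map (psRn p k f) ≤ mxPS p k τ := by
  rw [Ideal.map_le_iff_le_comap]
  refine sup_le ?_ ?_
  · rw [Ideal.span_le, Set.singleton_subset_iff, SetLike.mem_coe, Ideal.mem_comap, map_natCast]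
    exact Ideal.mem_sup_left (Ideal.mem_span_singleton_self _)
  · rw [Ideal.span_le]
    rintro _ ⟨i, rfl⟩
    rw [SetLike.mem_coe, Ideal.mem_comap, psRn_X]
    exact Ideal.mem_sup_right (Ideal.subset_span ⟨f i, rfl⟩)

theorem mxPS_map {σ R : Type} [CommRing R] (φ : PS p k σ →+* R) :
    (mxPS p k σ).map φ = Ideal.span {(p : R)} ⊔ sp fun i => φ (X i) := by
  rw [mxPS, Ideal.map_sup, Ideal.map_span, Ideal.map_span, Set.image_singleton, map_natCast,
    ← Set.range_comp]
  rfl

variable [CharP k p] [PerfectRing k p]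

theorem bgeoc_max : maximalIdeal (WittVector p k) = Ideal.span {(p : WittVector p k)} :=
  (IsLocalRing.eq_maximalIdeal
    (PrincipalIdealRing.isMaximal_of_irreducible (WittVector.irreducible p))).symm

theorem mxPS_eq (σ : Type) [Finite σ] : mxPS p k σ = maximalIdeal (PS p k σ) := by
  rw [maximalIdeal_ps, bgeoc_max, Ideal.map_span, Set.image_singleton, map_natCast, mxPS]

theorem ps_complete (σ : Type) [Finite σ] :
    IsAdicComplete (maximalIdeal (PS p k σ)) (PS p k σ) := by
  have : IsAdicComplete (maximalIdeal (WittVector p k)) (WittVector p k) := by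
    rw [bgeoc_max]; infer_instance
  exact isAdicComplete_ps

theorem ps_residue {σ : Type} [Finite σ] (y : PS p k σ) :
    ∃ w : WittVector p k, y - C w ∈ mxPS p k σ := by
  refine ⟨constantCoeff y, Ideal.mem_sup_right ?_⟩
  rw [← ker_constantCoeff, RingHom.mem_ker, map_sub, constantCoeff_C, sub_self]

omit [CharP k p] [PerfectRing k p] in
/-- two homomorphisms which are congruent on constants and variables are congruent. -/
theorem ps_sub_mem {σ R : Type} [Finite σ] [CommRing R] [IsLocalRing R] [IsNoetherianRing R]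
    (f g : PS p k σ →+* R) (J : Ideal R) (hf : ∀ i, f (X i) ∈ maximalIdeal R)
    (hC : ∀ w, f (C w) - g (C w) ∈ J) (hX : ∀ i, f (X i) - g (X i) ∈ J) (y : PS p k σ) :
    f y - g y ∈ J := by
  by_cases hJ : J = ⊤
  · rw [hJ]; exact Submodule.mem_top
  have : Nontrivial (R ⧸ J) := Ideal.Quotient.nontrivial_iff.2 hJ
  have : IsLocalRing (R ⧸ J) := IsLocalRing.of_surjective' _ Ideal.Quotient.mk_surjective
  have hloc : IsLocalHom (Ideal.Quotient.mk J) :=
    IsLocalHom.of_surjective _ Ideal.Quotient.mk_surjective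
  have h := ps_hom_ext (maximalIdeal (R ⧸ J)) ((Ideal.Quotient.mk J).comp f)
    ((Ideal.Quotient.mk J).comp g) (fun c => Ideal.Quotient.eq.2 (hC c))
    (fun i => Ideal.Quotient.eq.2 (hX i)) (fun i => map_nonunit (Ideal.Quotient.mk J) _ (hf i))
  exact Ideal.Quotient.eq.1 (RingHom.congr_fun h y)

/-- substitution of elements of the maximal ideal. -/
theorem exists_ps_subst {σ τ : Type} [Finite σ] [Finite τ] (u : σ → PS p k τ)
    (hu : ∀ i, u i ∈ mxPS p k τ) :
    ∃ φ : PS p k σ →+* PS p k τ, (∀ w, φ (C w) = C w) ∧ ∀ i, φ (X i) = u i := by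
  have := ps_complete (p := p) (k := k) τ
  exact exists_ps_hom (maximalIdeal (PS p k τ)) C u fun i => mxPS_eq (p := p) (k := k) τ ▸ hu i

/-- adding variables `V_l` with relations `V_l - u_l`. -/
theorem exists_ret {σ ι κ : Type} [Finite σ] [Finite ι] [Finite κ] (u : κ → PS p k (σ ⊕ ι))
    (hu : ∀ l, u l ∈ mxPS p k (σ ⊕ ι)) :
    ∃ ret : PS p k (σ ⊕ (ι ⊕ κ)) →+* PS p k (σ ⊕ ι),
      (∀ y, ret (psRn p k (Sum.map id Sum.inl) y) = y) ∧
      (∀ l, ret (X (Sum.inr (Sum.inr l))) = u l) ∧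
      ∀ y, y - psRn p k (Sum.map id Sum.inl) (ret y) ∈
        sp fun l => X (Sum.inr (Sum.inr l)) - psRn p k (Sum.map id (Sum.inl : ι → ι ⊕ κ)) (u l) := by
  have hXm : ∀ {τ : Type} (i : τ), (X i : PS p k τ) ∈ mxPS p k τ := fun i =>
    Ideal.mem_sup_right (Ideal.subset_span ⟨i, rfl⟩)
  obtain ⟨ret, hC, hX⟩ := exists_ps_subst (p := p) (k := k) (σ := σ ⊕ (ι ⊕ κ)) (τ := σ ⊕ ι)
    (Sum.elim (fun s => X (Sum.inl s)) (Sum.elim (fun i => X (Sum.inr i)) u)) (by
      rintro (s | i | l)
      · exact hXm _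
      · exact hXm _
      · exact hu l)
  refine ⟨ret, fun y => ?_, fun l => hX _, fun y => ?_⟩
  · have := ps_complete (p := p) (k := k) (σ ⊕ ι)
    have h := ps_hom_ext (maximalIdeal (PS p k (σ ⊕ ι))) (RingHom.id _)
      (ret.comp (psRn p k (Sum.map id Sum.inl)))
      (fun c => by rw [RingHom.comp_apply, psRn_C, hC, RingHom.id_apply])
      (fun i => by
        rw [RingHom.comp_apply, psRn_X, hX, RingHom.id_apply]
        rcases i with s | i <;> rfl)
      (fun i => mxPS_eq (p := p) (k := k) (σ ⊕ ι) ▸ hXm i)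
    exact (RingHom.congr_fun h y).symm
  · have hm : ∀ i, RingHom.id (PS p k (σ ⊕ (ι ⊕ κ))) (X i) ∈
        maximalIdeal (PS p k (σ ⊕ (ι ⊕ κ))) := fun i => by
      rw [← mxPS_eq]; exact hXm i
    have h := ps_sub_mem (RingHom.id (PS p k (σ ⊕ (ι ⊕ κ))))
      ((psRn p k (Sum.map id (Sum.inl : ι → ι ⊕ κ))).comp ret)
      (sp fun l => X (Sum.inr (Sum.inr l)) -
        psRn p k (Sum.map id (Sum.inl : ι → ι ⊕ κ)) (u l)) hm (fun w => ?_) (fun i => ?_) y
    · rw [RingHom.comp_apply, RingHom.id_apply] at h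
      exact h
    · rw [RingHom.comp_apply, hC, psRn_C, RingHom.id_apply, sub_self]
      exact Ideal.zero_mem _
    · rw [RingHom.comp_apply, hX, RingHom.id_apply]
      rcases i with s | i | l
      · rw [Sum.elim_inl, psRn_X, Sum.map_inl, id, sub_self]
        exact Ideal.zero_mem _
      · rw [Sum.elim_inr, Sum.elim_inl, psRn_X, Sum.map_inr, sub_self]
        exact Ideal.zero_mem _
      · rw [Sum.elim_inr, Sum.elim_inr]
        exact Ideal.subset_span ⟨l, rfl⟩

end Crest.Agent.R188
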