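import Crest.Agent.R188.BGeoC
import Crest.Agent.R188.Reg1

/-! Row 188, part II (geometry): Noether normalisation. -/

set_option autoImplicit false

namespace Crest.Agent.R188

open Crest.Agent.R183 IsLocalRing MvPowerSeries

/-- `η : Ã = W⟦t, z⟧ → D = T / 𝔭` is finite with kernel `(ξ)`. -/
structure NN (p : ℕ) [Fact p.Prime] (k : Type) [Field k] {d : ℕ} {T : Type} [CommRing T]
    [IsLocalRing T] (π : PS p k (Fin d) →+* T) (𝔭 : Ideal T) (m : ℕ)
    (η : PS p k (Fin (m + 1)) →+* T ⧸ 𝔭) : Prop where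
  const : ∀ w, η (C w) = Ideal.Quotient.mk 𝔭 (π (C w))
  loc : ∀ i, η (X i) ∈ (maximalIdeal T).map (Ideal.Quotient.mk 𝔭)
  ker : RingHom.ker η = Ideal.span {xi p k m}
  prim : ∃ c : ℕ, (maximalIdeal T ^ c).map (Ideal.Quotient.mk 𝔭) ≤ (mxPS p k (Fin (m + 1))).map η
  fin : η.Finite

theorem bgeoD_map_sp {A B ι : Type} [CommRing A] [CommRing B] (f : A →+* B) (x : ι → A) :
    (sp x).map f = sp fun i => f (x i) := by
  rw [Ideal.map_span, ← Set.range_comp]
  rfl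

/-- the kernel of a finite local map from a ring of embedding dimension `≤ n` modulo `ξ`. -/
theorem bgeoD_ker {A D : Type} [CommRing A] [IsLocalRing A] [IsNoetherianRing A] [CommRing D]
    [IsLocalRing D] [IsNoetherianRing D] {n : ℕ} (η : A →+* D) (ξ : A) (x : Fin n → A)
    (hx : maximalIdeal A = Ideal.span {ξ} ⊔ sp x) (hξ : η ξ = 0)
    (hloc : (maximalIdeal A).map η ≤ maximalIdeal D) {c : ℕ}
    (hc : maximalIdeal D ^ c ≤ (maximalIdeal A).map η) (hd : ringKrullDim D = n) :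
    RingHom.ker η = Ideal.span {ξ} := by
  have hle : Ideal.span {ξ} ≤ RingHom.ker η := by
    rw [Ideal.span_le, Set.singleton_subset_iff]
    exact hξ
  have hne : RingHom.ker η ≠ ⊤ := RingHom.ker_ne_top η
  obtain ⟨b, hb⟩ := exists_dim_nat hne
  have hxm : ∀ i, x i ∈ maximalIdeal A := fun i =>
    hx ▸ Ideal.mem_sup_right (Ideal.subset_span ⟨i, rfl⟩)
  have h1 : ringKrullDim (A ⧸ RingHom.ker η) ≤ n :=
    dim_le_of_gen x hxm _ (c := 1) (by rw [pow_one, hx]; exact sup_le_sup_right hle _)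
  obtain ⟨F, s, hF, hs⟩ := exists_sop_fam (κ := Unit) (maximalIdeal A) b (fun _ => RingHom.ker η)
    (fun _ => hb.le) (fun _ => ⟨1, by rw [pow_one]; exact le_sup_left⟩)
  have h2 : ringKrullDim (D ⧸ (⊥ : Ideal D)) ≤ b := by
    refine dim_le_of_gen (fun j => η (F j)) (fun j => hloc (Ideal.mem_map_of_mem η (hF j))) ⊥
      (c := c * s) ?_
    rw [pow_mul]
    refine (Ideal.pow_right_mono hc s).trans ?_
    rw [← Ideal.map_pow]
    refine (Ideal.map_mono (hs ())).trans ?_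
    rw [Ideal.map_sup, bgeoD_map_sp, (Ideal.map_eq_bot_iff_le_ker η).2 le_rfl]
  rw [ringKrullDim_eq_of_ringEquiv (RingEquiv.quotientBot D), hd, ← hb] at h2
  have h3 : ringKrullDim (A ⧸ RingHom.ker η) = n := le_antisymm h1 h2
  have hξm : Ideal.span {ξ} ≠ ⊤ := fun e => hne (top_le_iff.1 (e ▸ hle))
  have : Nontrivial (A ⧸ Ideal.span {ξ}) := Ideal.Quotient.nontrivial_iff.2 hξm
  have : IsLocalRing (A ⧸ Ideal.span {ξ}) := .of_surjective' _ Ideal.Quotient.mk_surjective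
  have hinj := injective_of_gen (fun i => Ideal.Quotient.mk (Ideal.span {ξ}) (x i))
    (by rw [← map_maximalIdeal_of_surjective (Ideal.Quotient.mk (Ideal.span {ξ}))
      Ideal.Quotient.mk_surjective, hx, Ideal.map_sup, Ideal.map_quotient_self, bot_sup_eq,
      bgeoD_map_sp])
    (Ideal.Quotient.factor hle) (Ideal.Quotient.factor_surjective hle) h3
  refine le_antisymm (fun y hy => ?_) hle
  rw [← Ideal.Quotient.eq_zero_iff_mem]
  apply hinj
  rw [map_zero, Ideal.Quotient.factor_mk, Ideal.Quotient.eq_zero_iff_mem]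
  exact hy

theorem geo_nn {p : ℕ} [Fact p.Prime] {k : Type} [Field k] [CharP k p] [PerfectRing k p] {d : ℕ}
    {G : PS p k (Fin d)} {T : Type} [CommRing T] [IsLocalRing T] {π : PS p k (Fin d) →+* T}
    (h : Mixed p k d G T π) (𝔭 : Ideal T) [𝔭.IsPrime] (hp : (p : T) ∉ 𝔭) {a : ℕ}
    (ha : ringKrullDim (T ⧸ 𝔭) = a) :
    ∃ (m : ℕ) (η : PS p k (Fin (m + 1)) →+* T ⧸ 𝔭), a = m + 1 ∧ NN p k π 𝔭 m η := by
  have hreg := h.reg
  have hcompl := h.compl
  have : IsLocalRing (T ⧸ 𝔭) := .of_surjective' _ Ideal.Quotient.mk_surjective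
  have hmD : (maximalIdeal T).map (Ideal.Quotient.mk 𝔭) = maximalIdeal (T ⧸ 𝔭) :=
    map_maximalIdeal_of_surjective _ Ideal.Quotient.mk_surjective
  have hcD : IsAdicComplete (maximalIdeal (T ⧸ 𝔭)) (T ⧸ 𝔭) := isAdicComplete_quot 𝔭
  have hpT : (p : T) ∈ maximalIdeal T := by
    have h1 : π ((p : PS p k (Fin d)) - G) = 0 := by
      rw [← RingHom.mem_ker, h.ker]
      exact Ideal.subset_span rfl
    rw [map_sub, map_natCast, sub_eq_zero] at h1
    rw [h1, h.max, ← bgeoD_map_sp]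
    exact Ideal.mem_map_of_mem π h.G_mem
  have hpD : (p : T ⧸ 𝔭) ∈ maximalIdeal (T ⧸ 𝔭) := by
    rw [← hmD, ← map_natCast (Ideal.Quotient.mk 𝔭)]
    exact Ideal.mem_map_of_mem _ hpT
  have hp0 : (p : T ⧸ 𝔭) ≠ 0 := by
    rw [← map_natCast (Ideal.Quotient.mk 𝔭), Ne, Ideal.Quotient.eq_zero_iff_mem]
    exact hp
  have hsp : Ideal.span {(p : T ⧸ 𝔭)} ≤ maximalIdeal (T ⧸ 𝔭) := by
    rw [Ideal.span_le, Set.singleton_subset_iff]
    exact hpD
  obtain ⟨b, hb⟩ := exists_dim_nat (I := Ideal.span {(p : T ⧸ 𝔭)})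
    fun e => (maximalIdeal.isMaximal (T ⧸ 𝔭)).ne_top (top_le_iff.1 (e ▸ hsp))
  have hba := ringKrullDim_succ_le_of_surjective (Ideal.Quotient.mk (Ideal.span {(p : T ⧸ 𝔭)}))
    Ideal.Quotient.mk_surjective (mem_nonZeroDivisors_of_ne_zero hp0)
    (Ideal.Quotient.eq_zero_iff_mem.2 (Ideal.subset_span rfl))
  rw [hb, ha] at hba
  have hba' : b + 1 ≤ a := by exact_mod_cast hba
  obtain ⟨m, rfl⟩ : ∃ m, a = m + 1 := ⟨a - 1, by omega⟩
  obtain ⟨z, s, hz, hs⟩ := exists_sop_fam (κ := Unit) (maximalIdeal (T ⧸ 𝔭)) m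
    (fun _ => Ideal.span {(p : T ⧸ 𝔭)})
    (fun _ => by rw [hb]; exact_mod_cast (by omega : b ≤ m))
    (fun _ => ⟨1, by rw [pow_one]; exact le_sup_left⟩)
  have hx : ∀ i, (Fin.cons (p : T ⧸ 𝔭) z : Fin (m + 1) → T ⧸ 𝔭) i ∈ maximalIdeal (T ⧸ 𝔭) :=
    fun i => Fin.cases hpD hz i
  obtain ⟨η, hC, hX⟩ := exists_ps_hom (maximalIdeal (T ⧸ 𝔭))
    (((Ideal.Quotient.mk 𝔭).comp π).comp (C : WittVector p k →+* PS p k (Fin d)))
    (Fin.cons (p : T ⧸ 𝔭) z : Fin (m + 1) → T ⧸ 𝔭) hx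
  have hloc : (mxPS p k (Fin (m + 1))).map η ≤ maximalIdeal (T ⧸ 𝔭) := by
    rw [mxPS_map]
    refine sup_le hsp ?_
    rw [Ideal.span_le]
    rintro _ ⟨i, rfl⟩
    change η (X i) ∈ maximalIdeal (T ⧸ 𝔭)
    rw [hX]
    exact hx i
  have hprim : maximalIdeal (T ⧸ 𝔭) ^ s ≤ (mxPS p k (Fin (m + 1))).map η := by
    rw [mxPS_map]
    refine (hs ()).trans (sup_le_sup_left ?_ _)
    refine Ideal.span_mono ?_
    rintro _ ⟨j, rfl⟩
    exact ⟨j.succ, hX j.succ⟩
  have hloc' := hloc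
  have hprim' := hprim
  rw [mxPS_eq] at hloc' hprim'
  refine ⟨m, η, rfl, hC, fun i => by rw [hmD, hX]; exact hx i, ?_,
    ⟨s, by rw [Ideal.map_pow, hmD]; exact hprim⟩, ?_⟩
  · refine bgeoD_ker η (xi p k m) X ?_ ?_ hloc' hprim' ha
    · rw [← mxPS_eq]
      have hX0 : (X 0 : PS p k (Fin (m + 1))) ∈ sp (X : Fin (m + 1) → PS p k (Fin (m + 1))) :=
        Ideal.subset_span ⟨0, rfl⟩
      refine le_antisymm (sup_le ?_ le_sup_right) (sup_le ?_ le_sup_right)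
      · rw [Ideal.span_le, Set.singleton_subset_iff]
        have e : (p : PS p k (Fin (m + 1))) = X 0 - xi p k m := by
          rw [xi, sub_sub_cancel]
        rw [e]
        exact sub_mem (Ideal.mem_sup_right hX0) (Ideal.mem_sup_left (Ideal.subset_span rfl))
      · rw [Ideal.span_le, Set.singleton_subset_iff]
        exact sub_mem (Ideal.mem_sup_right hX0) (Ideal.mem_sup_left (Ideal.subset_span rfl))
    · rw [xi, map_sub, hX, map_natCast]
      exact sub_self _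
  · let _ : Algebra (PS p k (Fin (m + 1))) (T ⧸ 𝔭) := η.toAlgebra
    have := ps_complete (p := p) (k := k) (Fin (m + 1))
    refine finite_of_residue (maximalIdeal (PS p k (Fin (m + 1)))) (IsNoetherian.noetherian _)
      hloc' hprim' fun θ => ?_
    obtain ⟨t, rfl⟩ := Ideal.Quotient.mk_surjective θ
    obtain ⟨y, rfl⟩ := h.surj t
    obtain ⟨w, hw⟩ := ps_residue y
    refine ⟨C w, ?_⟩
    have h1 := Ideal.mem_map_of_mem ((Ideal.Quotient.mk 𝔭).comp π) hw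
    rw [mxPS_map, map_sub] at h1
    change _ - η (C w) ∈ _
    rw [hC]
    refine (sup_le hsp ?_ : _ ≤ maximalIdeal (T ⧸ 𝔭)) h1
    rw [← hmD, h.max, bgeoD_map_sp]
    exact le_rfl

end Crest.Agent.R188
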