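import Crest.Agent.R188.BInt
import Crest.Agent.R188.Res

/-! Row 188, comparison step: towers of subquotients and their stable lengths. -/

set_option autoImplicit false

namespace Crest.Agent.R188

open Crest.Agent.R183 IsLocalRing
open scoped ENNReal TensorProduct

section Tw
variable {Λ V : Type} [CommRing Λ] [AddCommGroup V] [Module Λ V]

/-- stable length of the tower `(Z N + B N) / B N`. -/
noncomputable def prel (lam : LenFn Λ) (Z B : ℕ → Submodule Λ V) : ℝ≥0∞ :=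
  ⨆ N, ⨅ N', lam.rel (Z N') (B N)

/-- a tower of subquotient complexes `W N / U N` of `(V, D)`. -/
structure TwCx (D : V →ₗ[Λ] V) (W U : ℕ → ℤ → Submodule Λ V) : Prop where
  dd : D ∘ₗ D = 0
  antiW : ∀ i, Antitone fun N => W N i
  antiU : ∀ i, Antitone fun N => U N i
  le : ∀ N i, U N i ≤ W N i
  subW : ∀ N, Sub D (W N)
  subU : ∀ N, Sub D (U N)

/-- stable length of the homology tower. -/
noncomputable def ph (lam : LenFn Λ) (D : V →ₗ[Λ] V) (W U : ℕ → ℤ → Submodule Λ V) (i : ℤ) :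
    ℝ≥0∞ :=
  prel lam (fun N => Zc D (W N) (U N) i) fun N => Bd D (W N) (U N) i

/-- the tower `ϖ ^ N V`. -/
def pw (ϖ : Λ) (V : Type) [AddCommGroup V] [Module Λ V] (N : ℕ) : Submodule Λ V :=
  Ideal.span {ϖ ^ N} • ⊤

end Tw

/-- alternating sum. -/
noncomputable def pchi (h : ℤ → ℝ≥0∞) : ℝ := ∑ᶠ i : ℤ, (-1 : ℝ) ^ i * (h i).toReal

section Act
variable {T Λ M : Type} [CommRing T] [CommRing Λ] [AddCommGroup M] [Module Λ M]

/-- action of a matrix over `T` on vectors with entries in a `Λ`-module with a `T`-action `θ`. -/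
def eact (θ : T →+* Module.End Λ M) {ι ι' : Type} [Fintype ι'] (P : Matrix ι ι' T) :
    (ι' → M) →ₗ[Λ] (ι → M) where
  toFun v b := ∑ b', θ (P b b') (v b')
  map_add' v w := by ext b; simp [Finset.sum_add_distrib]
  map_smul' r v := by ext b; simp [Finset.smul_sum]

/-- a tower of `θ`-stable subquotients `W N / U N` of `M`. -/
structure CTw (θ : T →+* Module.End Λ M) (W U : ℕ → Submodule Λ M) : Prop where
  antiW : Antitone W
  antiU : Antitone U
  le : ∀ N, U N ≤ W N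
  stW : ∀ N y, ∀ v ∈ W N, θ y v ∈ W N
  stU : ∀ N y, ∀ v ∈ U N, θ y v ∈ U N

/-- stable homology lengths of `F ⊗ (W N / U N)`. -/
noncomputable def phF (lam : LenFn Λ) (θ : T →+* Module.End Λ M) (F : FC T)
    (W U : ℕ → Submodule Λ M) (i : ℤ) : ℝ≥0∞ :=
  ph lam (eact θ F.d) (fun N j => gr F.deg j (W N)) (fun N j => gr F.deg j (U N)) i

/-- the action through a ring homomorphism `T → Λ`. -/
def thS (τ : T →+* Λ) (M : Type) [AddCommGroup M] [Module Λ M] : T →+* Module.End Λ M :=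
  (algebraMap Λ (Module.End Λ M)).comp τ

/-- the action on a `Λ`-algebra through a ring homomorphism. -/
def thM (Λ : Type) [CommRing Λ] {S : Type} [CommRing S] [Algebra Λ S] (t : T →+* S) :
    T →+* Module.End Λ S :=
  (Algebra.lmul Λ S).toRingHom.comp t

/-- the action on `Γ ^ r` through a matrix representation. -/
def thL (Λ : Type) [CommRing Λ] {Γ : Type} [CommRing Γ] [Algebra Λ Γ] {r : ℕ}
    (ρ : T →+* Matrix (Fin r) (Fin r) Γ) : T →+* Module.End Λ (Fin r → Γ) where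
  toFun y := (Matrix.mulVecLin (ρ y)).restrictScalars Λ
  map_one' := by ext v; simp
  map_mul' y z := by ext v; simp
  map_zero' := by ext v; simp
  map_add' y z := by ext v; simp [Matrix.add_mulVec]

/-- the ideal of elements acting null-homotopically. -/
def HI (F : FC T) : Ideal T where
  carrier := {y | Htpy F.deg F.d y}
  add_mem' h h' := F.htpy_add h h'
  zero_mem' := ⟨0, by simp, by simp⟩
  smul_mem' c _ h := F.htpy_mul h c

/-- the homology of `F` is supported on a set meeting `V(I)` at most in the closed point. -/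
def HF [IsLocalRing T] (I : Ideal T) (F : FC T) : Prop :=
  ∃ c : ℕ, maximalIdeal T ^ c ≤ I ⊔ HI F

end Act

/-- standing hypotheses of the comparison. -/
structure CH (p : ℕ) {T : Type} [CommRing T] [IsLocalRing T] (𝔭 : Ideal T) {m : ℕ} {A : Type}
    [CommRing A] [IsLocalRing A] (x : Fin (m + 1) → A) [Algebra A (T ⧸ 𝔭)] {Λ : Type} [CommRing Λ]
    [Algebra A Λ] (lam : LenFn Λ) (𝔍 : Ideal Λ) : Prop where
  noethT : IsNoetherianRing T
  noethA : IsNoetherianRing A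
  prime : 𝔭.IsPrime
  max : sp x = maximalIdeal A
  x0 : x 0 = (p : A)
  reg : ∀ e : ℕ, 1 ≤ e → RingTheory.Sequence.IsWeaklyRegular A (List.ofFn fun i => x i ^ e)
  fin : Module.Finite A (T ⧸ 𝔭)
  inj : Function.Injective (algebraMap A (T ⧸ 𝔭))
  loc : ∀ i, algebraMap A (T ⧸ 𝔭) (x i) ∈ (maximalIdeal T).map (Ideal.Quotient.mk 𝔭)
  res : ∀ y : T ⧸ 𝔭, ∃ s : A, y - algebraMap A (T ⧸ 𝔭) s ∈
    (maximalIdeal T).map (Ideal.Quotient.mk 𝔭)
  flat : Module.Flat A Λ
  q_ne : lam.q ((maximalIdeal A).map (algebraMap A Λ)) ≠ ⊤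
  al : ∀ N : ℕ, ∃ α : Λ, lam.Kills α ∧ ∀ y ∈ 𝔍, α * y ∈ Ideal.span {(p : Λ) ^ N}

/-- the action of `T` on `Λ ⊗_A D`. -/
noncomputable def th0 {T : Type} [CommRing T] (𝔭 : Ideal T) (A : Type) [CommRing A]
    [Algebra A (T ⧸ 𝔭)] (Λ : Type) [CommRing Λ] [Algebra A Λ] :
    T →+* Module.End Λ (Λ ⊗[A] (T ⧸ 𝔭)) :=
  thM Λ ((Algebra.TensorProduct.includeRight : (T ⧸ 𝔭) →ₐ[A] Λ ⊗[A] (T ⧸ 𝔭)).toRingHom.comp
    (Ideal.Quotient.mk 𝔭))

/-- the triangular representation of `T` over `Γ = Λ / 𝔍`. -/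
def rhoG {T : Type} [CommRing T] {𝔭 : Ideal T} {A C : Type} [CommRing A] [CommRing C]
    [Algebra A (T ⧸ 𝔭)] [Algebra A C] {r : ℕ} (fl : FlagD A (T ⧸ 𝔭) C r) {Γ : Type} [CommRing Γ]
    [Algebra A Γ] (ω : C →ₐ[A] Γ) : T →+* Matrix (Fin r) (Fin r) Γ :=
  ((RingHom.mapMatrix ω.toRingHom).comp fl.ρ.toRingHom).comp (Ideal.Quotient.mk 𝔭)

end Crest.Agent.R188
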