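import Crest.Agent.R188.CTw2

/-! Row 188, comparison step: free complexes with coefficients in towers. -/

set_option autoImplicit false

namespace Crest.Agent.R188

open Crest.Agent.R183 IsLocalRing
open scoped ENNReal TensorProduct

variable {T Λ M : Type} [CommRing T] [CommRing Λ] [AddCommGroup M] [Module Λ M] (lam : LenFn Λ)
  {θ : T →+* Module.End Λ M}

theorem eact_apply {ι ι' : Type} [Fintype ι'] (P : Matrix ι ι' T) (v : ι' → M) (b : ι) :
    eact θ P v b = ∑ b', θ (P b b') (v b') := rfl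

theorem eact_mul {ι ι' ι'' : Type} [Fintype ι'] [Fintype ι''] (P : Matrix ι ι' T)
    (Q : Matrix ι' ι'' T) : eact θ (P * Q) = eact θ P ∘ₗ eact θ Q := by
  refine LinearMap.ext fun v => funext fun b => ?_
  simp only [LinearMap.comp_apply, eact_apply, Matrix.mul_apply, map_sum, map_mul, LinearMap.sum_apply,
    Module.End.mul_apply]
  exact Finset.sum_comm

theorem eact_add {ι ι' : Type} [Fintype ι'] (P Q : Matrix ι ι' T) :
    eact θ (P + Q) = eact θ P + eact θ Q := by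
  refine LinearMap.ext fun v => funext fun b => ?_
  simp only [LinearMap.add_apply, Pi.add_apply, eact_apply, Matrix.add_apply, map_add,
    Finset.sum_add_distrib]

theorem eact_smul_one {ι : Type} [Fintype ι] [DecidableEq ι] (y : T) (v : ι → M) :
    eact θ (y • (1 : Matrix ι ι T)) v = fun b => θ y (v b) := by
  funext b
  rw [eact_apply, Finset.sum_eq_single b]
  · simp
  · intro b' _ hb
    simp [Matrix.one_apply_ne (Ne.symm hb)]
  · simp

theorem eact_mem_gr {ι ι' : Type} [Fintype ι'] {P : Matrix ι ι' T} {deg : ι → ℕ} {deg' : ι' → ℕ}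
    {i j : ℤ} (h : ∀ b b', P b b' ≠ 0 → (deg' b' : ℤ) = i → (deg b : ℤ) = j) {L : Submodule Λ M}
    (hL : ∀ y, ∀ v ∈ L, θ y v ∈ L) {v : ι' → M} (hv : v ∈ gr deg' i L) :
    eact θ P v ∈ gr deg j L := by
  rw [mem_gr] at hv ⊢
  intro b
  rw [eact_apply]
  refine ⟨Submodule.sum_mem _ fun b' _ => hL _ _ (hv b').1, fun hb => Finset.sum_eq_zero fun b' _ => ?_⟩
  by_cases h0 : P b b' = 0
  · simp [h0]
  · rw [(hv b').2 fun e => hb (h b b' h0 e), map_zero]

theorem eact_thS (τ : T →+* Λ) {ι ι' : Type} [Fintype ι'] (P : Matrix ι ι' T) :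
    eact (thS τ M) P = mact (P.map τ) M := by
  refine LinearMap.ext fun v => funext fun b => ?_
  rw [eact_apply, mact_apply]
  simp [thS]

/-- the homotopy as an operator. -/
theorem htpy_eact (θ : T →+* Module.End Λ M) (F : FC T) {y : T} (hy : y ∈ HI F) :
    ∃ H : (F.ι → M) →ₗ[Λ] (F.ι → M),
      (∀ (i : ℤ) (L : Submodule Λ M), (∀ y, ∀ v ∈ L, θ y v ∈ L) →
        ∀ v ∈ gr F.deg i L, H v ∈ gr F.deg (i + 1) L) ∧
      ∀ v, eact θ F.d (H v) + H (eact θ F.d v) = fun b => θ y (v b) := by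
  obtain ⟨H, hH, hP⟩ : Htpy F.deg F.d y := hy
  refine ⟨eact θ H, fun i L hL v hv => eact_mem_gr (fun b b' h0 e => ?_) hL hv, fun v => ?_⟩
  · rw [hH b b' h0]; push_cast; rw [e]
  · rw [← eact_smul_one, ← hP, eact_add, eact_mul, eact_mul]
    rfl

theorem CTw.pw (θ : T →+* Module.End Λ M) (ϖ : Λ) : CTw θ (fun _ => ⊤) (pw ϖ M) := by
  refine ⟨fun _ _ _ => le_rfl, pw_anti ϖ M, fun _ => le_top, fun _ _ _ _ => trivial, fun N y v hv => ?_⟩
  obtain ⟨u, rfl⟩ := mem_pw.1 hv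
  exact mem_pw.2 ⟨θ y u, map_smul _ _ _⟩

theorem CTw.twCx {W U : ℕ → Submodule Λ M} (h : CTw θ W U) (F : FC T) :
    TwCx (eact θ F.d) (fun N j => gr F.deg j (W N)) fun N j => gr F.deg j (U N) := by
  have key : ∀ L : Submodule Λ M, (∀ y, ∀ v ∈ L, θ y v ∈ L) →
      Sub (eact θ F.d) fun j => gr F.deg j L := by
    intro L hL i
    rintro _ ⟨v, hv, rfl⟩
    refine eact_mem_gr (fun b b' h0 e => ?_) hL hv
    rw [← e, F.d_deg b b' h0]; push_cast; ring
  refine ⟨?_, fun i N N' hN => gr_mono _ _ (h.antiW hN), fun i N N' hN => gr_mono _ _ (h.antiU hN),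
    fun N i => gr_mono _ _ (h.le N), fun N => key _ (h.stW N), fun N => key _ (h.stU N)⟩
  rw [← eact_mul, F.dd]
  refine LinearMap.ext fun v => funext fun b => ?_
  simp [eact_apply]

theorem FC.exists_gcx (F : FC T) : ∃ d : ℕ, GCx d F.deg F.d := by
  exact ⟨Finset.univ.sup F.deg, fun b => Finset.le_sup (f := F.deg) (Finset.mem_univ b), F.d_deg, F.dd⟩

theorem phF_eq_zero (F : FC T) {d : ℕ} (hd : ∀ b, F.deg b ≤ d) (W U : ℕ → Submodule Λ M) {i : ℤ}
    (hi : i < 0 ∨ (d : ℤ) < i) : phF lam θ F W U i = 0 := by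
  have hG : GCx d F.deg F.d := ⟨hd, F.d_deg, F.dd⟩
  have hb : ∀ L : Submodule Λ M, gr F.deg i L = ⊥ := by
    intro L
    refine eq_bot_iff.2 fun v hv => ?_
    rw [mem_gr] at hv
    rw [Submodule.mem_bot]
    funext b
    refine (hv b).2 fun e => ?_
    have := hd b
    omega
  refine le_antisymm ((ph_le_terms lam _ _ i).trans (prel_le_of_forall lam fun N => ⟨N, ?_⟩)) zero_le
  rw [hb, lam.rel_of_le bot_le]

theorem phF_les (F : FC T) {W W' U : ℕ → Submodule Λ M} (h₁ : CTw θ W' U) (h₂ : CTw θ W W') :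
    ∃ α β γ : ℤ → ℝ≥0∞, ∀ i, phF lam θ F W' U i = γ (i + 1) + α i ∧
      phF lam θ F W U i = α i + β i ∧ phF lam θ F W W' i = β i + γ i :=
  ph_les lam (h₁.twCx F) (h₂.twCx F)

theorem pchi_phF_add (F : FC T) {W W' U : ℕ → Submodule Λ M} (h₁ : CTw θ W' U) (h₂ : CTw θ W W')
    (f₁ : ∀ i, phF lam θ F W' U i ≠ ⊤) (f₂ : ∀ i, phF lam θ F W W' i ≠ ⊤) :
    (∀ i, phF lam θ F W U i ≠ ⊤) ∧
      pchi (phF lam θ F W U) = pchi (phF lam θ F W' U) + pchi (phF lam θ F W W') := by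
  obtain ⟨α, β, γ, H⟩ := phF_les lam F h₁ h₂
  obtain ⟨d, hd⟩ := FC.exists_gcx F
  refine ⟨fun i => ?_, pchi_of_les H f₁ f₂ (lo := 0) (hi := d)
    (fun i hi => phF_eq_zero lam F hd.deg_le _ _ hi) fun i hi => phF_eq_zero lam F hd.deg_le _ _ hi⟩
  obtain ⟨e₁, e₂, e₃⟩ := H i
  have a := f₁ i
  have b := f₂ i
  rw [e₁] at a
  rw [e₃] at b
  rw [e₂]
  exact ENNReal.add_ne_top.2 ⟨(ENNReal.add_ne_top.1 a).2, (ENNReal.add_ne_top.1 b).1⟩

/-- change of coefficients along a map with null kernel and cokernel (`ph_transport` for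
`f.compLeft`, `prel_gr`). -/
theorem phF_transport (F : FC T) {M' : Type} [AddCommGroup M'] [Module Λ M']
    {θ' : T →+* Module.End Λ M'} (f : M' →ₗ[Λ] M) {W U : ℕ → Submodule Λ M}
    {W' U' : ℕ → Submodule Λ M'} (h : CTw θ W U) (h' : CTw θ' W' U')
    (hW : ∀ N, (W' N).map f ≤ W N) (hU : ∀ N, (U' N).map f ≤ U N)
    (hc : ∀ N y, ∀ v ∈ W' N, θ y (f v) - f (θ' y v) ∈ U N)
    (hker : prel lam (fun N => W' N ⊓ (U N).comap f) U' = 0)
    (hcok : prel lam W (fun N => (W' N).map f ⊔ U N) = 0) (i : ℤ) :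
    phF lam θ' F W' U' i = phF lam θ F W U i := by
  refine ph_transport lam (f.compLeft F.ι) (h.twCx F) (h'.twCx F) (fun N j => ?_) (fun N j => ?_)
    (fun N j v hv => ?_) (fun j => ?_) (fun j => ?_) i
  · rw [← gr_map]; exact gr_mono _ _ (hW N)
  · rw [← gr_map]; exact gr_mono _ _ (hU N)
  · rw [mem_gr] at hv ⊢
    intro b
    have e : (eact θ F.d (f.compLeft F.ι v) - f.compLeft F.ι (eact θ' F.d v)) b =
        ∑ b', (θ (F.d b b') (f (v b')) - f (θ' (F.d b b') (v b'))) := by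
      simp [eact_apply, map_sum, Finset.sum_sub_distrib]
    rw [e]
    refine ⟨Submodule.sum_mem _ fun b' _ => hc N _ _ (hv b').1,
      fun hb => Finset.sum_eq_zero fun b' _ => ?_⟩
    by_cases h0 : F.d b b' = 0
    · simp [h0]
    · have : v b' = 0 := (hv b').2 fun e => hb (by rw [← e, F.d_deg b b' h0]; push_cast; ring)
      simp [this]
  · have e : (fun N => gr F.deg j (W' N) ⊓ (gr F.deg j (U N)).comap (f.compLeft F.ι)) =
        fun N => gr F.deg j (W' N ⊓ (U N).comap f) := by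
      funext N
      ext v
      simp only [Submodule.mem_inf, Submodule.mem_comap, mem_gr]
      constructor
      · rintro ⟨a, b⟩ c
        exact ⟨⟨(a c).1, (b c).1⟩, (a c).2⟩
      · intro a
        refine ⟨fun c => ⟨(a c).1.1, (a c).2⟩, fun c => ⟨(a c).1.2, fun hc => ?_⟩⟩
        simp [(a c).2 hc]
    rw [e]
    exact prel_gr lam _ _ hker
  · have e : (fun N => (gr F.deg j (W' N)).map (f.compLeft F.ι) ⊔ gr F.deg j (U N)) =
        fun N => gr F.deg j ((W' N).map f ⊔ U N) := by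
      funext N
      rw [gr_sup, gr_map]
    rw [e]
    exact prel_gr lam _ _ hcok

end Crest.Agent.R188
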