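import Crest.Agent.R188.CEa

/-! Row 188, comparison step: functoriality in the free complex (auxiliary proofs). -/

set_option autoImplicit false

namespace Crest.Agent.R188

open Crest.Agent.R183 IsLocalRing
open scoped ENNReal TensorProduct

theorem ceba_prel_zero {Λ V : Type} [CommRing Λ] [AddCommGroup V] [Module Λ V] (lam : LenFn Λ)
    {Z B : ℕ → Submodule Λ V} (h : ∀ N, Z N ≤ B N) : prel lam Z B = 0 :=
  le_antisymm (prel_le_of_forall lam fun N => ⟨N, (lam.rel_of_le (h N)).le⟩) bot_le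

theorem ceba_transport {Λ V : Type} [CommRing Λ] [AddCommGroup V] [Module Λ V] (lam : LenFn Λ)
    {D : V →ₗ[Λ] V} {V' : Type} [AddCommGroup V'] [Module Λ V'] {D' : V' →ₗ[Λ] V'}
    (f : V' →ₗ[Λ] V) {W U : ℕ → ℤ → Submodule Λ V} {W' U' : ℕ → ℤ → Submodule Λ V'}
    (h : TwCx D W U) (h' : TwCx D' W' U') (hW : ∀ N i, ∀ v ∈ W' N i, f v ∈ W N i)
    (hU : ∀ N i, ∀ v ∈ U' N i, f v ∈ U N i) (hc : ∀ v, D (f v) = f (D' v))
    (hker : ∀ N i, ∀ v ∈ W' N i, f v ∈ U N i → v ∈ U' N i)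
    (hcok : ∀ N i, ∀ v ∈ W N i, ∃ u ∈ W' N i, v - f u ∈ U N i) (i : ℤ) :
    ph lam D' W' U' i = ph lam D W U i := by
  refine ph_transport lam f h h' (fun N i => ?_) (fun N i => ?_) (fun N i v _ => ?_)
    (fun i => ceba_prel_zero lam fun N v hv => hker N i v hv.1 hv.2)
    (fun i => ceba_prel_zero lam fun N v hv => ?_) i
  · rintro _ ⟨v, hv, rfl⟩
    exact hW N i v hv
  · rintro _ ⟨v, hv, rfl⟩
    exact hU N i v hv
  · rw [hc, sub_self]
    exact Submodule.zero_mem _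
  · obtain ⟨u, hu, h1⟩ := hcok N i v hv
    exact Submodule.mem_sup.2 ⟨f u, ⟨u, hu, rfl⟩, v - f u, h1, by abel⟩

variable {T Λ M : Type} [CommRing T] [CommRing Λ] [AddCommGroup M] [Module Λ M] (lam : LenFn Λ)
  {θ : T →+* Module.End Λ M} {W U : ℕ → Submodule Λ M}

theorem ceba_sub_les (h : CTw θ W U) (F : FC T) (p : F.ι → Prop) [DecidablePred p]
    (hp : F.IsSub p) :
    ∃ α β γ : ℤ → ℝ≥0∞, ∀ i, phF lam θ (F.sub p hp) W U i = γ (i + 1) + α i ∧
      phF lam θ F W U i = α i + β i ∧ phF lam θ (F.quo p hp) W U i = β i + γ i := by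
  have hF := h.twCx F
  let Mid : ℕ → ℤ → Submodule Λ (F.ι → M) := fun N j =>
    gr F.deg j (W N) ⊓ Submodule.pi {b | ¬ p b} fun _ => U N
  have hMid : ∀ N j v, v ∈ Mid N j ↔ v ∈ gr F.deg j (W N) ∧ ∀ b, ¬ p b → v b ∈ U N :=
    fun N j v => Iff.rfl
  have hanti : ∀ i, Antitone fun N => Mid N i := fun i N N' hN v hv =>
    (hMid _ _ _).2 ⟨hF.antiW i hN hv.1, fun b hb => h.antiU hN (((hMid _ _ _).1 hv).2 b hb)⟩
  have hsub : ∀ N, Sub (eact θ F.d) (Mid N) := by
    rintro N i _ ⟨v, hv, rfl⟩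
    obtain ⟨h1, h2⟩ := (hMid _ _ _).1 hv
    refine (hMid _ _ _).2 ⟨hF.subW N i ⟨v, h1, rfl⟩, fun b hb => ?_⟩
    rw [eact_apply]
    refine Submodule.sum_mem _ fun b' _ => ?_
    by_cases h0 : F.d b b' = 0
    · rw [h0, map_zero]
      exact Submodule.zero_mem _
    · exact h.stU N _ _ (h2 b' fun h3 => hb (hp _ _ h0 h3))
  have h₁ : TwCx (eact θ F.d) Mid fun N j => gr F.deg j (U N) :=
    ⟨hF.dd, hanti, hF.antiU, fun N i v hv =>
      (hMid _ _ _).2 ⟨hF.le N i hv, fun b _ => (mem_gr.1 hv b).1⟩, hsub, hF.subU⟩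
  have h₂ : TwCx (eact θ F.d) (fun N j => gr F.deg j (W N)) Mid :=
    ⟨hF.dd, hF.antiW, hanti, fun N i v hv => hv.1, hF.subW, hsub⟩
  obtain ⟨α, β, γ, H⟩ := ph_les lam h₁ h₂
  let j : ({b // p b} → M) →ₗ[Λ] (F.ι → M) :=
    LinearMap.pi fun b => if hb : p b then LinearMap.proj (⟨b, hb⟩ : {b // p b}) else 0
  have hj : ∀ v b, j v b = if hb : p b then v ⟨b, hb⟩ else 0 := fun v b => by
    simp only [j, LinearMap.pi_apply]
    split_ifs <;> rfl
  have hjgr : ∀ (L : Submodule Λ M) (i : ℤ) (v : {b // p b} → M),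
      v ∈ gr (F.sub p hp).deg i L → j v ∈ gr F.deg i L := by
    intro L i v hv
    refine mem_gr.2 fun b => ?_
    rw [hj]
    split_ifs with hb
    · exact mem_gr.1 hv ⟨b, hb⟩
    · exact ⟨L.zero_mem, fun _ => rfl⟩
  let q : (F.ι → M) →ₗ[Λ] ({b // ¬ p b} → M) := LinearMap.funLeft Λ M Subtype.val
  have e1 : ∀ i, phF lam θ (F.sub p hp) W U i =
      ph lam (eact θ F.d) Mid (fun N j => gr F.deg j (U N)) i := by
    refine ceba_transport lam j h₁ (h.twCx (F.sub p hp)) (fun N i v hv => ?_)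
      (fun N i v hv => hjgr _ _ _ hv) (fun v => funext fun b => ?_) (fun N i v hv h1 => ?_)
      fun N i v hv => ?_
    · refine (hMid _ _ _).2 ⟨hjgr _ _ _ hv, fun b hb => ?_⟩
      rw [hj, dif_neg hb]
      exact Submodule.zero_mem _
    · refine Eq.trans ?_ (hj _ b).symm
      rw [eact_apply, ← Fintype.sum_subtype_add_sum_subtype p]
      have e2 : ∑ b' : {b // ¬ p b}, θ (F.d b b'.1) (j v b'.1) = 0 :=
        Finset.sum_eq_zero fun b' _ => by rw [hj, dif_neg b'.2, map_zero]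
      rw [e2, add_zero]
      split_ifs with hb
      · change _ = ∑ b' : {b // p b}, θ (F.d b b'.1) (v b')
        exact Finset.sum_congr rfl fun b' _ => by rw [hj, dif_pos b'.2]
      · refine Finset.sum_eq_zero fun b' _ => ?_
        have : F.d b b'.1 = 0 := by
          by_contra h0
          exact hb (hp _ _ h0 b'.2)
        rw [this, map_zero]
        rfl
    · refine mem_gr.2 fun b => ⟨?_, (mem_gr.1 hv b).2⟩
      have h2 := (mem_gr.1 h1 b.1).1
      rwa [hj, dif_pos b.2] at h2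
    · obtain ⟨h1, h2⟩ := (hMid _ _ _).1 hv
      refine ⟨fun b => v b.1, mem_gr.2 fun b => mem_gr.1 h1 b.1, mem_gr.2 fun b => ?_⟩
      rw [Pi.sub_apply, hj]
      split_ifs with hb
      · rw [sub_self]
        exact ⟨Submodule.zero_mem _, fun _ => rfl⟩
      · rw [sub_zero]
        exact ⟨h2 b hb, (mem_gr.1 h1 b).2⟩
  have e2 : ∀ i, ph lam (eact θ F.d) (fun N j => gr F.deg j (W N)) Mid i =
      phF lam θ (F.quo p hp) W U i := by
    refine ceba_transport lam q (h.twCx (F.quo p hp)) h₂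
      (fun N i v hv => mem_gr.2 fun b => mem_gr.1 hv b.1) (fun N i v hv => ?_)
      (fun v => funext fun b => ?_) (fun N i v hv h1 => ?_) fun N i v hv => ?_
    · obtain ⟨h1, h2⟩ := (hMid _ _ _).1 hv
      exact mem_gr.2 fun b => ⟨h2 b.1 b.2, (mem_gr.1 h1 b.1).2⟩
    · change ∑ b' : {b // ¬ p b}, θ (F.d b.1 b'.1) (v b'.1) = ∑ b', θ (F.d b.1 b') (v b')
      rw [← Fintype.sum_subtype_add_sum_subtype p]
      have e3 : ∑ b' : {b // p b}, θ (F.d b.1 b'.1) (v b'.1) = 0 := by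
        refine Finset.sum_eq_zero fun b' _ => ?_
        have : F.d b.1 b'.1 = 0 := by
          by_contra h0
          exact b.2 (hp _ _ h0 b'.2)
        rw [this, map_zero]
        rfl
      rw [e3, zero_add]
    · exact (hMid _ _ _).2 ⟨hv, fun b hb => (mem_gr.1 h1 ⟨b, hb⟩).1⟩
    · refine ⟨fun b => if hb : p b then 0 else v ⟨b, hb⟩, mem_gr.2 fun b => ?_, ?_⟩
      · split_ifs with hb
        · exact ⟨Submodule.zero_mem _, fun _ => rfl⟩
        · exact mem_gr.1 hv ⟨b, hb⟩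
      · have e3 : q (fun b => if hb : p b then 0 else v ⟨b, hb⟩) = v :=
          funext fun b => dif_neg b.2
        rw [e3, sub_self]
        exact Submodule.zero_mem _
  exact ⟨α, β, γ, fun i => ⟨(e1 i).trans (H i).1, (H i).2.1, (e2 i).symm.trans (H i).2.2⟩⟩

theorem ceba_ext (h : CTw θ W U) (F : FC T) (p : F.ι → Prop) [DecidablePred p]
    (hp : F.IsSub p) (f₁ : ∀ i, phF lam θ (F.sub p hp) W U i ≠ ⊤)
    (f₂ : ∀ i, phF lam θ (F.quo p hp) W U i ≠ ⊤) :
    pchi (phF lam θ F W U) =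
      pchi (phF lam θ (F.sub p hp) W U) + pchi (phF lam θ (F.quo p hp) W U) := by
  obtain ⟨α, β, γ, H⟩ := ceba_sub_les lam h F p hp
  obtain ⟨d, hd⟩ := F.exists_gcx
  exact pchi_of_les H f₁ f₂ (lo := 0) (hi := d)
    (fun i hi => phF_eq_zero lam (F.sub p hp) (fun b => hd.deg_le b.1) W U hi)
    fun i hi => phF_eq_zero lam (F.quo p hp) (fun b => hd.deg_le b.1) W U hi

theorem ceba_eact_one {ι : Type} [Fintype ι] [DecidableEq ι] (v : ι → M) :
    eact θ (1 : Matrix ι ι T) v = v := by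
  have h := eact_smul_one (θ := θ) (1 : T) v
  rw [one_smul, map_one] at h
  exact h

theorem ceba_iso (h : CTw θ W U) {F F' : FC T} (e : F.Iso F') (i : ℤ) :
    phF lam θ F W U i = phF lam θ F' W U i := by
  obtain ⟨α, β, hα, h1, h2⟩ := e
  have hm : ∀ (L : Submodule Λ M), (∀ y, ∀ v ∈ L, θ y v ∈ L) → ∀ (i : ℤ) (v : F.ι → M),
      v ∈ gr F.deg i L → eact θ α v ∈ gr F'.deg i L := fun L hL i v hv =>
    eact_mem_gr (fun b b' hb e => by rw [hα.deg b b' hb, e]) hL hv
  have hβ : ∀ (L : Submodule Λ M), (∀ y, ∀ v ∈ L, θ y v ∈ L) → ∀ (v : F'.ι → M),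
      (∀ b, v b ∈ L) → ∀ b, eact θ β v b ∈ L := fun L hL v hv b => by
    rw [eact_apply]
    exact Submodule.sum_mem _ fun b' _ => hL _ _ (hv b')
  refine ceba_transport lam (eact θ α) (h.twCx F') (h.twCx F) (fun N i v hv => hm _ (h.stW N) i v hv)
    (fun N i v hv => hm _ (h.stU N) i v hv) (fun v => ?_) (fun N i v hv h3 => ?_)
    (fun N i v hv => ?_) i
  · rw [← LinearMap.comp_apply, ← LinearMap.comp_apply, ← eact_mul, ← eact_mul, hα.comm]
  · refine mem_gr.2 fun b => ⟨?_, (mem_gr.1 hv b).2⟩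
    have h4 := hβ _ (h.stU N) _ (fun b => (mem_gr.1 h3 b).1) b
    rwa [← LinearMap.comp_apply, ← eact_mul, h2, ceba_eact_one] at h4
  · refine ⟨fun b => if (F.deg b : ℤ) = i then eact θ β v b else 0, mem_gr.2 fun b => ?_, ?_⟩
    · split_ifs with hb
      · exact ⟨hβ _ (h.stW N) _ (fun b => (mem_gr.1 hv b).1) b, fun h0 => absurd hb h0⟩
      · exact ⟨Submodule.zero_mem _, fun _ => rfl⟩
    · have e3 : eact θ α (fun b => if (F.deg b : ℤ) = i then eact θ β v b else 0) = v := by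
        funext b'
        have e4 : eact θ α (eact θ β v) b' = v b' := by
          rw [← LinearMap.comp_apply, ← eact_mul, h1, ceba_eact_one]
        rw [eact_apply] at e4 ⊢
        by_cases hb : (F'.deg b' : ℤ) = i
        · rw [← e4]
          refine Finset.sum_congr rfl fun b _ => ?_
          by_cases h0 : α b' b = 0
          · rw [h0, map_zero]
            rfl
          · rw [if_pos (by rw [← hα.deg b' b h0, hb])]
        · rw [(mem_gr.1 hv b').2 hb]
          refine Finset.sum_eq_zero fun b _ => ?_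
          by_cases h0 : α b' b = 0
          · rw [h0, map_zero]
            rfl
          · rw [if_neg (by rw [← hα.deg b' b h0]; exact hb), map_zero]
      rw [e3, sub_self]
      exact Submodule.zero_mem _

end Crest.Agent.R188
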