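import Mathlib

/-! Row 188: regular sequences in prime ideals of Cohen–Macaulay local rings. -/

set_option autoImplicit false
set_option linter.unusedSectionVars false

namespace Crest.Agent.R188

open IsLocalRing RingTheory.Sequence CategoryTheory CategoryTheory.Abelian
open scoped Pointwise

variable {T : Type} [CommRing T] [IsLocalRing T] [IsNoetherianRing T]

/-- `M` has depth at least `r`. -/
def Dep (T : Type) [CommRing T] [IsLocalRing T] (M : Type) [AddCommGroup M] [Module T M] (r : ℕ) :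
    Prop :=
  ∃ ys : List T, ys.length = r ∧ (∀ y ∈ ys, y ∈ maximalIdeal T) ∧ IsWeaklyRegular M ys

theorem cm_lt (M : Type) [AddCommGroup M] [Module T M] [Module.Finite T M] [Nontrivial M] :
    maximalIdeal T • (⊤ : Submodule T M) < ⊤ :=
  (Submodule.top_ne_ideal_smul_of_le_jacobson_annihilator (maximalIdeal_le_jacobson _)).symm.lt_top

theorem Dep.quot {M : Type} [AddCommGroup M] [Module T M] [Module.Finite T M] [Nontrivial M] {r : ℕ}
    (h : Dep T M (r + 1)) {x : T} (hx : x ∈ maximalIdeal T) (hr : IsSMulRegular M x) :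
    Dep T (QuotSMulTop x M) r := by
  obtain ⟨ys, hl, hm, hy⟩ := h
  have := nontrivial_quotSMulTop_of_mem_maximalIdeal M hx
  let N := ModuleCat.of T (T ⧸ maximalIdeal T)
  have hN : Module.support T N = PrimeSpectrum.zeroLocus (maximalIdeal T) := by
    rw [Module.support_eq_zeroLocus, Ideal.annihilator_quotient]
  have h1 := ModuleCat.subsingleton_ext_of_exists_isRegular (maximalIdeal T) N hN.subset
    (ModuleCat.of T M) (cm_lt M) ys hm (IsRegular.of_isWeaklyRegular_of_mem_maximalIdeal M hm hy)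
  have h2 : ∀ i < r, Subsingleton (Ext N (ModuleCat.of T (QuotSMulTop x M)) i) := by
    intro i hi
    have zero1 := AddCommGrpCat.isZero_of_iff_subsingleton.mpr (h1 i (by omega))
    have zero2 := AddCommGrpCat.isZero_of_iff_subsingleton.mpr (h1 (i + 1) (by omega))
    exact AddCommGrpCat.subsingleton_of_isZero <| ShortComplex.Exact.isZero_of_both_zeros
      ((Ext.covariant_sequence_exact₃' N
        (IsSMulRegular.smulShortComplex_shortExact (M := ModuleCat.of T M) hr)) i (i + 1) rfl)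
      (zero1.eq_zero_of_src _) (zero2.eq_zero_of_tgt _)
  obtain ⟨rs, a, b, c⟩ := ModuleCat.exists_isRegular_of_exists_subsingleton_ext (maximalIdeal T) r
    (ModuleCat.of T (QuotSMulTop x M)) (cm_lt _) N hN h2
  exact ⟨rs, a, b, c.toIsWeaklyRegular⟩

theorem cm_ass_step {M : Type} [AddCommGroup M] [Module T M] [Module.Finite T M] {x : T}
    (hx : x ∈ maximalIdeal T) (hr : IsSMulRegular M x) {𝔭 : Ideal T}
    (hp : 𝔭 ∈ associatedPrimes T M) : ∃ 𝔭' ∈ associatedPrimes T (QuotSMulTop x M), 𝔭 < 𝔭' := by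
  obtain ⟨hprime, z₀, hz₀⟩ := isAssociatedPrime_iff.1 hp
  have hz : ∀ a, a ∈ 𝔭 ↔ a • z₀ = 0 := fun a => by rw [hz₀]; simp
  let N : Submodule T M := Submodule.torsionBySet T M 𝔭
  have hN : ∀ z, z ∈ N ↔ ∀ a ∈ 𝔭, a • z = 0 := fun z => by
    simp [N, Submodule.mem_torsionBySet_iff]
  have hex : ∃ z ∈ N, z ∉ x • (⊤ : Submodule T M) := by
    by_contra hcon
    push Not at hcon
    have h1 : N = ⊥ := by
      refine Submodule.eq_bot_of_le_smul_of_le_jacobson_bot (maximalIdeal T) N
        (IsNoetherian.noetherian _) (fun z hzN => ?_) (maximalIdeal_le_jacobson _)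
      obtain ⟨w, -, rfl⟩ := (Submodule.mem_smul_pointwise_iff_exists _ _ _).1 (hcon z hzN)
      refine Submodule.smul_mem_smul hx ((hN w).2 fun a ha => hr ?_)
      have := (hN _).1 hzN a ha
      simpa [smul_comm x a] using this
    have h2 : z₀ ∈ N := (hN _).2 fun a ha => (hz a).1 ha
    rw [h1, Submodule.mem_bot] at h2
    exact hprime.ne_top ((Ideal.eq_top_iff_one _).2 ((hz 1).2 (by rw [h2, smul_zero])))
  obtain ⟨z, hzN, hzx⟩ := hex
  have hne : (Submodule.Quotient.mk z : QuotSMulTop x M) ≠ 0 := fun h =>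
    hzx ((Submodule.Quotient.mk_eq_zero _).1 h)
  obtain ⟨P, hP, hle⟩ := exists_le_isAssociatedPrime_of_isNoetherianRing T _ hne
  refine ⟨P, hP, lt_of_le_of_ne (fun a ha => hle ?_) fun h => ?_⟩
  · rw [Submodule.mem_colon_singleton, Submodule.mem_bot, ← Submodule.Quotient.mk_smul,
      (hN z).1 hzN a ha, Submodule.Quotient.mk_zero]
  · have hxP : x ∈ P := hle (by
      rw [Submodule.mem_colon_singleton, Submodule.mem_bot, ← Submodule.Quotient.mk_smul,
        Submodule.Quotient.mk_eq_zero]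
      exact Submodule.smul_mem_pointwise_smul _ _ _ trivial)
    have h0 : z₀ = 0 := hr (by simpa using (hz x).1 (h ▸ hxP))
    exact hprime.ne_top ((Ideal.eq_top_iff_one _).2 ((hz 1).2 (by rw [h0, smul_zero])))

theorem cm_ass (ys : List T) (M : Type) [AddCommGroup M] [Module T M] [Module.Finite T M]
    (hm : ∀ y ∈ ys, y ∈ maximalIdeal T) (hy : IsWeaklyRegular M ys) (𝔭 : PrimeSpectrum T)
    (hp : 𝔭.asIdeal ∈ associatedPrimes T M) : (ys.length : ℕ∞) ≤ Order.coheight 𝔭 := by
  induction ys generalizing M 𝔭 with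
  | nil => simp
  | cons x ys ih =>
    rw [isWeaklyRegular_cons_iff] at hy
    obtain ⟨P, hP, hlt⟩ := cm_ass_step (hm x List.mem_cons_self) hy.1 hp
    have := ih _ (fun y h => hm y (List.mem_cons_of_mem _ h)) hy.2 ⟨P, hP.isPrime⟩ hP
    rw [List.length_cons, Nat.cast_succ]
    exact (add_le_add_left this 1).trans (Order.coheight_add_one_le (b := 𝔭) hlt)

omit [IsLocalRing T] [IsNoetherianRing T] in
theorem cm_height_add {d : ℕ} (hd : ringKrullDim T = d) (𝔭 : PrimeSpectrum T) :
    𝔭.asIdeal.height + Order.coheight 𝔭 ≤ d := by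
  have : Nonempty (PrimeSpectrum T) := ⟨𝔭⟩
  have h := Order.krullDim_eq_iSup_height_add_coheight_of_nonempty (α := PrimeSpectrum T)
  rw [show Order.krullDim (PrimeSpectrum T) = d from hd] at h
  have h' : ((d : ℕ∞) : WithBot ℕ∞) = _ := h
  rw [WithBot.coe_inj] at h'
  rw [h', PrimeSpectrum.height_eq_orderHeight]
  exact le_iSup (fun a : PrimeSpectrum T => Order.height a + Order.coheight a) 𝔭

omit [IsLocalRing T] [IsNoetherianRing T] in
theorem cm_coheight (𝔭 : PrimeSpectrum T) :
    (Order.coheight 𝔭 : WithBot ℕ∞) = ringKrullDim (T ⧸ 𝔭.asIdeal) := by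
  rw [Order.coheight_eq_krullDim_Ici, ringKrullDim_quotient]
  rfl

theorem cm_main {d : ℕ} (hd : ringKrullDim T = d) (𝔮 : Ideal T) [𝔮.IsPrime] (c : ℕ) :
    ∀ (M : Type) [AddCommGroup M] [Module T M] [Module.Finite T M] [Nontrivial M] (r : ℕ),
      Dep T M (r + c) → ((d : ℕ∞) ≤ 𝔮.height + r) →
      ∃ xs : List T, xs.length = c ∧ (∀ x ∈ xs, x ∈ 𝔮) ∧ IsWeaklyRegular M xs ∧
        Dep T (M ⧸ (Ideal.ofList xs • ⊤ : Submodule T M)) r := by
  induction c with
  | zero =>
    intro M _ _ _ _ r h _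
    obtain ⟨ys, a, b, e⟩ := h
    refine ⟨[], rfl, by simp, .nil T M, ys, a, b, ?_⟩
    exact ((Submodule.quotEquivOfEqBot _ (by simp)).isWeaklyRegular_congr ys).2 e
  | succ c ih =>
    intro M _ _ _ _ r h hq
    obtain ⟨x, hxq, hx⟩ : ∃ x ∈ 𝔮, IsSMulRegular M x := by
      by_contra hcon
      push Not at hcon
      obtain ⟨P, hP, hle⟩ := (𝔮.subset_union_prime_finite (associatedPrimes.finite T M) (f := id)
        0 0 fun _ h _ _ => h.isPrime).1 (by
          intro x hx
          have := biUnion_associatedPrimes_eq_zero_divisors T M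
          simp only [id]
          rw [this]
          have h1 := hcon x hx
          by_contra h2
          refine h1 fun z w hzw => ?_
          by_contra h3
          exact h2 ⟨z - w, sub_ne_zero.2 h3, by rw [smul_sub]; exact sub_eq_zero.2 hzw⟩)
      obtain ⟨ys, a, b, e⟩ := h
      have h1 := cm_ass ys M b e ⟨P, hP.isPrime⟩ hP
      have h2 := cm_height_add hd ⟨P, hP.isPrime⟩
      have h3 : 𝔮.height ≤ P.height := Ideal.height_mono hle
      have h4 : 𝔮.height + ((r + (c + 1) : ℕ) : ℕ∞) ≤ 𝔮.height + r :=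
        ((add_le_add h3 (a ▸ h1)).trans h2).trans hq
      rw [ENat.add_le_add_iff_left (Ideal.height_ne_top Ideal.IsPrime.ne_top')] at h4
      have : r + (c + 1) ≤ r := by exact_mod_cast h4
      omega
    have hxm : x ∈ maximalIdeal T := le_maximalIdeal Ideal.IsPrime.ne_top' hxq
    have := nontrivial_quotSMulTop_of_mem_maximalIdeal M hxm
    obtain ⟨xs, a, b, e, ys, a', b', e'⟩ := ih (QuotSMulTop x M) r (Dep.quot h hxm hx) hq
    refine ⟨x :: xs, by simp [a], by simpa using ⟨hxq, b⟩, .cons hx e, ys, a', b', ?_⟩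
    exact ((Submodule.quotOfListConsSMulTopEquivQuotSMulTopInner M x xs).isWeaklyRegular_congr
      ys).2 e'

omit [IsLocalRing T] in
/-- a prime containing a regular sequence of length `c` has height at least `c`. -/
theorem cm_le_height (xs : List T) (h : IsWeaklyRegular T xs) (𝔭 : Ideal T) [𝔭.IsPrime]
    (hx : ∀ x ∈ xs, x ∈ 𝔭) : (xs.length : ℕ∞) ≤ 𝔭.height := by
  have h1 := h.isRegular_of_isLocalization_of_mem (Localization.AtPrime 𝔭) 𝔭 hx
  have h2 := ringKrullDim_add_length_eq_ringKrullDim_of_isRegular _ h1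
  rw [IsLocalization.AtPrime.ringKrullDim_eq_height 𝔭 (Localization.AtPrime 𝔭),
    List.length_map] at h2
  have h3 : Nontrivial (Localization.AtPrime 𝔭 ⧸
      Ideal.ofList (xs.map (algebraMap T (Localization.AtPrime 𝔭)))) := by
    have := h1.quot_ofList_smul_nontrivial ⊤
    rwa [smul_eq_mul, Ideal.mul_top] at this
  have h4 : ((xs.length : ℕ∞) : WithBot ℕ∞) ≤ 𝔭.height := by
    rw [← h2]
    exact le_add_of_nonneg_left ringKrullDim_nonneg_of_nontrivial
  exact_mod_cast h4

/-- in a Cohen–Macaulay local ring a prime of height `c` is minimal over a regular sequence of length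
`c`, and the dimension formula holds. -/
theorem cm_regseq {d : ℕ} (hd : ringKrullDim T = d) (h : Dep T T d) (𝔮 : Ideal T) [hq : 𝔮.IsPrime] :
    ∃ xs : List T, IsWeaklyRegular T xs ∧ 𝔮 ∈ (Ideal.ofList xs).minimalPrimes ∧
      (xs.length : ℕ∞) = 𝔮.height ∧ ringKrullDim (T ⧸ 𝔮) + xs.length = d := by
  obtain ⟨c, hc⟩ : ∃ c : ℕ, 𝔮.height = c :=
    ⟨_, (ENat.natCast_toNat (Ideal.height_ne_top hq.ne_top)).symm⟩
  have h0 := cm_height_add hd ⟨𝔮, hq⟩
  have hcd : c ≤ d := by
    have : (c : ℕ∞) ≤ d := hc ▸ le_self_add.trans h0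
    exact_mod_cast this
  obtain ⟨xs, a, b, e, ys, a', b', e'⟩ := cm_main hd 𝔮 c T (d - c)
    (by rwa [Nat.sub_add_cancel hcd]) (by rw [hc]; exact_mod_cast (by omega : d ≤ c + (d - c)))
  have hmin : 𝔮 ∈ (Ideal.ofList xs).minimalPrimes := by
    refine Ideal.mem_minimalPrimes_of_height_le (Ideal.span_le.2 b) ?_
    rw [Ideal.height_eq_inf_minimalPrimes (Ideal.ofList xs), hc, ← a]
    refine le_iInf₂ fun J hJ => ?_
    have := hJ.isPrime
    exact cm_le_height xs e J fun x hx => hJ.1.2 (Ideal.subset_span hx)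
  refine ⟨xs, e, hmin, by rw [a, hc], ?_⟩
  have h1 := cm_ass ys _ b' e' ⟨𝔮, hq⟩ (Module.associatedPrimes.minimalPrimes_annihilator_subset_associatedPrimes T _ (by
    rw [smul_eq_mul, Ideal.mul_top, Ideal.annihilator_quotient]; exact hmin))
  rw [← cm_coheight ⟨𝔮, hq⟩, a]
  have h2 : Order.coheight (⟨𝔮, hq⟩ : PrimeSpectrum T) + c = d := by
    refine le_antisymm (by rw [add_comm, ← hc]; exact h0) ?_
    refine le_trans ?_ (add_le_add_left h1 _)
    rw [a']
    exact_mod_cast (by omega : d ≤ d - c + c)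
  exact_mod_cast congrArg (fun x : ℕ∞ => (x : WithBot ℕ∞)) h2

end Crest.Agent.R188
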