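import Crest.Agent.R183.Kos
import Crest.Agent.R183.Cx

/-! Row 188 (Serre positivity), part IV: finite free complexes (in the matrix format of row 183),
homology lengths, resolutions, Euler characteristics, and the statements of the core cases. -/

set_option autoImplicit false

namespace Crest.Agent.R188

open Crest.Agent.R183 IsLocalRing
open scoped ENNReal TensorProduct

section Cx
variable {Λ : Type} [CommRing Λ] {ι : Type} [Fintype ι]

/-- cycles of degree `j` of `P ⊗ M`. -/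
def Zt (deg : ι → ℕ) (P : Matrix ι ι Λ) (M : Type) [AddCommGroup M] [Module Λ M] (j : ℤ) :
    Submodule Λ (ι → M) :=
  gr deg j ⊤ ⊓ LinearMap.ker (mact P M)

/-- boundaries of degree `j` of `P ⊗ M`. -/
def Bt (deg : ι → ℕ) (P : Matrix ι ι Λ) (M : Type) [AddCommGroup M] [Module Λ M] (j : ℤ) :
    Submodule Λ (ι → M) :=
  (gr deg (j + 1) ⊤).map (mact P M)

/-- the `lam`-length of `H_j(P ⊗ M)`. -/
noncomputable def hl (lam : LenFn Λ) (deg : ι → ℕ) (P : Matrix ι ι Λ) (M : Type) [AddCommGroup M]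
    [Module Λ M] (j : ℤ) : ℝ≥0∞ :=
  lam.rel (Zt deg P M j) (Bt deg P M j)

/-- the Euler characteristic `∑_{j = 0}^{d} (-1)^j lam (H_j (P ⊗ M))`. -/
noncomputable def chiG (lam : LenFn Λ) (d : ℕ) (deg : ι → ℕ) (P : Matrix ι ι Λ) (M : Type)
    [AddCommGroup M] [Module Λ M] : ℝ :=
  chi 0 d (hl lam deg P M)

/-- `ε` induces `H_0(P) ≅ N`, and `P` is exact in the degrees `1 ≤ j < n`. -/
structure IsRes (n : ℤ) (deg : ι → ℕ) (P : Matrix ι ι Λ) {N : Type} [AddCommGroup N] [Module Λ N]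
    (ε : (ι → Λ) →ₗ[Λ] N) : Prop where
  surj : (gr deg 0 (⊤ : Submodule Λ Λ)).map ε = ⊤
  ker : gr deg 0 (⊤ : Submodule Λ Λ) ⊓ LinearMap.ker ε = Bt deg P Λ 0
  ex : ∀ j : ℤ, 1 ≤ j → j < n → Zt deg P Λ j ≤ Bt deg P Λ j

/-- a complex in degrees `[0, d]` with `H_0 = N`, exact in the degrees `1 ≤ j < n`. -/
def PRes (d : ℕ) (n : ℤ) (deg : ι → ℕ) (P : Matrix ι ι Λ) (N : Type) [AddCommGroup N]
    [Module Λ N] : Prop :=
  GCx d deg P ∧ ∃ ε : (ι → Λ) →ₗ[Λ] N, IsRes n deg P ε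

/-- a finite free resolution of `N` of length at most `d`. -/
def Resol (d : ℕ) (deg : ι → ℕ) (P : Matrix ι ι Λ) (N : Type) [AddCommGroup N] [Module Λ N] :
    Prop :=
  PRes d (d + 1) deg P N

/-- degrees of the mapping cone. -/
def cdg (deg : ι → ℕ) : ι ⊕ ι → ℕ := Sum.elim deg fun b => deg b + 1

/-- the mapping cone of multiplication by `x`. -/
def cone [DecidableEq ι] (x : Λ) (P : Matrix ι ι Λ) : Matrix (ι ⊕ ι) (ι ⊕ ι) Λ :=
  Matrix.fromBlocks P (x • (1 : Matrix ι ι Λ)) 0 (-P)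

end Cx

/-- `N` has a finite free resolution of length at most `d`. -/
def HasRes (Λ : Type) [CommRing Λ] (d : ℕ) (N : Type) [AddCommGroup N] [Module Λ N] : Prop :=
  ∃ (ι : Type) (_ : Fintype ι) (_ : DecidableEq ι) (deg : ι → ℕ) (P : Matrix ι ι Λ),
    Resol d deg P N

/-- every finitely generated module has a finite free resolution of length at most `d`. -/
def GlDim (Λ : Type) [CommRing Λ] (d : ℕ) : Prop :=
  ∀ (N : Type) [AddCommGroup N] [Module Λ N], Module.Finite Λ N → HasRes Λ d N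

/-- Mathlib's `Tor`. -/
noncomputable abbrev torM (Λ : Type) [CommRing Λ] (j : ℕ) (M N : Type) [AddCommGroup M]
    [Module Λ M] [AddCommGroup N] [Module Λ N] : ModuleCat.{0} Λ :=
  ((CategoryTheory.Tor (ModuleCat.{0} Λ) j).obj (ModuleCat.of Λ M)).obj (ModuleCat.of Λ N)

/-- Serre's intersection multiplicity. -/
noncomputable def chiT (Λ : Type) [CommRing Λ] (d : ℕ) (M N : Type) [AddCommGroup M]
    [Module Λ M] [AddCommGroup N] [Module Λ N] : ℤ :=
  ∑ i ∈ Finset.range (d + 1), (-1 : ℤ) ^ i * ((Module.length Λ (torM Λ i M N)).toNat : ℤ)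

/-- the supports of `M` and `N` meet at most in the closed point. -/
def Meet (Λ : Type) [CommRing Λ] [IsLocalRing Λ] (M N : Type) [AddCommGroup M]
    [Module Λ M] [AddCommGroup N] [Module Λ N] : Prop :=
  ∃ c : ℕ, maximalIdeal Λ ^ c ≤ Module.annihilator Λ M ⊔ Module.annihilator Λ N

/-- vanishing and positivity for the pair of ideals `𝔭`, `𝔮`. -/
def PairCase (Λ : Type) [CommRing Λ] [IsLocalRing Λ] (d : ℕ) (𝔭 𝔮 : Ideal Λ) : Prop :=
  (∃ c : ℕ, maximalIdeal Λ ^ c ≤ 𝔭 ⊔ 𝔮) → ∀ a b : ℕ, ringKrullDim (Λ ⧸ 𝔭) = a →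
    ringKrullDim (Λ ⧸ 𝔮) = b →
      (a + b < d → chiT Λ d (Λ ⧸ 𝔭) (Λ ⧸ 𝔮) = 0) ∧ (a + b = d → 0 < chiT Λ d (Λ ⧸ 𝔭) (Λ ⧸ 𝔮))

/-- vanishing and positivity for prime ideals. -/
def PrimeCase (Λ : Type) [CommRing Λ] [IsLocalRing Λ] (d : ℕ) : Prop :=
  ∀ 𝔭 𝔮 : Ideal Λ, 𝔭.IsPrime → 𝔮.IsPrime → PairCase Λ d 𝔭 𝔮

/-- vanishing and positivity for finitely generated modules. -/
def GenCase (Λ : Type) [CommRing Λ] [IsLocalRing Λ] (d : ℕ) : Prop :=
  ∀ (M N : Type) [AddCommGroup M] [Module Λ M] [AddCommGroup N] [Module Λ N],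
    Module.Finite Λ M → Module.Finite Λ N → Meet Λ M N →
      (Module.supportDim Λ M + Module.supportDim Λ N < d → chiT Λ d M N = 0) ∧
      (Module.supportDim Λ M + Module.supportDim Λ N = d → 0 < chiT Λ d M N)

/-- The setting of the core case: `T = W(k)⟦z₁, …, z_d⟧ / (p - G)` with `G ∈ (z)`, `k` algebraically
closed of characteristic `p`, and `p ≠ 0` in `T`. -/
structure Mixed (p : ℕ) [Fact p.Prime] (k : Type) [Field k] (d : ℕ)
    (G : MvPowerSeries (Fin d) (WittVector p k)) (T : Type) [CommRing T] [IsLocalRing T]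
    (π : MvPowerSeries (Fin d) (WittVector p k) →+* T) : Prop where
  reg : IsRegularLocalRing T
  dim : ringKrullDim T = d
  compl : IsAdicComplete (maximalIdeal T) T
  G_mem : G ∈ sp (MvPowerSeries.X : Fin d → MvPowerSeries (Fin d) (WittVector p k))
  surj : Function.Surjective π
  ker : RingHom.ker π = Ideal.span {(p : MvPowerSeries (Fin d) (WittVector p k)) - G}
  max : maximalIdeal T = sp fun i => π (MvPowerSeries.X i)
  p_ne : (p : T) ≠ 0

/-- finitely generated modules whose support meets `V(I)` at most in the closed point. -/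
def Phi {Λ : Type} [CommRing Λ] [IsLocalRing Λ] (I : Ideal Λ) (M : Type) [AddCommGroup M]
    [Module Λ M] : Prop :=
  Module.Finite Λ M ∧ ∃ c : ℕ, maximalIdeal Λ ^ c ≤ I ⊔ Module.annihilator Λ M

/-- `ν` is additive on short exact sequences in `Phi I`. -/
def AddOn {Λ : Type} [CommRing Λ] [IsLocalRing Λ] (I : Ideal Λ)
    (ν : ∀ (M : Type) [AddCommGroup M] [Module Λ M], ℝ) : Prop :=
  ∀ (M₁ M₂ M₃ : Type) [AddCommGroup M₁] [Module Λ M₁] [AddCommGroup M₂] [Module Λ M₂]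
    [AddCommGroup M₃] [Module Λ M₃] (f : M₁ →ₗ[Λ] M₂) (g : M₂ →ₗ[Λ] M₃),
    Function.Injective f → Function.Surjective g → Function.Exact f g → Phi I M₂ →
      ν M₂ = ν M₁ + ν M₃

/-- **(E\*) for primes** (part I). -/
def EstarP (Λ : Type) [CommRing Λ] [IsLocalRing Λ] (d : ℕ) : Prop :=
  ∀ (I : Ideal Λ) (n : ℕ) (ν : ∀ (M : Type) [AddCommGroup M] [Module Λ M], ℝ),
    ringKrullDim (Λ ⧸ I) ≤ n → AddOn I ν → ∀ 𝔮 : Ideal Λ, 𝔮.IsPrime →
      (∃ c : ℕ, maximalIdeal Λ ^ c ≤ I ⊔ 𝔮) → ∀ b : ℕ, ringKrullDim (Λ ⧸ 𝔮) = b → b + n < d →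
        ν (Λ ⧸ 𝔮) = 0

/-- **(E\*)** for modules (follows from `EstarP` by dévissage). -/
def Estar (Λ : Type) [CommRing Λ] [IsLocalRing Λ] (d : ℕ) : Prop :=
  ∀ (I : Ideal Λ) (n : ℕ) (ν : ∀ (M : Type) [AddCommGroup M] [Module Λ M], ℝ),
    ringKrullDim (Λ ⧸ I) ≤ n → AddOn I ν → ∀ (M : Type) [AddCommGroup M] [Module Λ M], Phi I M →
      Module.supportDim Λ M + n < d → ν M = 0

/-- **Part I**, as used by part IV. -/
def CoreE : Prop :=
  ∀ (p : ℕ) [Fact p.Prime] (k : Type) [Field k] [IsAlgClosed k] [CharP k p] (d : ℕ)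
    (G : MvPowerSeries (Fin d) (WittVector p k)) (T : Type) [CommRing T] [IsLocalRing T]
    (π : MvPowerSeries (Fin d) (WittVector p k) →+* T), Mixed p k d G T π → EstarP T d

/-- **The core case** (parts II–III): mixed characteristic, `p ∉ 𝔭`; `P` resolves `T / 𝔮`. -/
def CorePos : Prop :=
  ∀ (p : ℕ) [Fact p.Prime] (k : Type) [Field k] [IsAlgClosed k] [CharP k p] (d : ℕ)
    (G : MvPowerSeries (Fin d) (WittVector p k)) (T : Type) [CommRing T] [IsLocalRing T]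
    (π : MvPowerSeries (Fin d) (WittVector p k) →+* T), Mixed p k d G T π → Estar T d →
    ∀ 𝔭 𝔮 : Ideal T, 𝔭.IsPrime → 𝔮.IsPrime → (p : T) ∉ 𝔭 →
      (∃ c : ℕ, maximalIdeal T ^ c ≤ 𝔭 ⊔ 𝔮) → ∀ a b : ℕ, ringKrullDim (T ⧸ 𝔭) = a →
      ringKrullDim (T ⧸ 𝔮) = b → a + b = d →
      ∀ (ι : Type) [Fintype ι] [DecidableEq ι] (deg : ι → ℕ) (P : Matrix ι ι T),
        Resol d deg P (T ⧸ 𝔮) → 0 < chiG (lenFn T) d deg P (T ⧸ 𝔭)

end Crest.Agent.R188
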