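import Crest.Agent.R188.EStar
import Crest.Agent.R188.CM
import Crest.Agent.R188.TDefs

/-! Row 188: `E*` in the format of `TDefs`. -/

set_option autoImplicit false

namespace Crest.Agent.R188

open IsLocalRing
open Crest.Agent.R183 (Zc Bd mact gr)

variable {T : Type} [CommRing T]

theorem ffr_of_glDim {d : ℕ} (h : GlDim T d) : FFR T := by
  intro N _ _ hN
  obtain ⟨ι, _, _, deg, P, hG, ε, hε⟩ := h N hN
  refine ⟨⟨ι, deg, P, hG.P_deg, hG.sq⟩, fun i hi => ?_, ε, hε.surj, ?_⟩
  · by_cases h1 : 1 ≤ i ∧ i < d + 1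
    · refine le_trans ?_ ((hε.ex i h1.1 h1.2).trans le_sup_left)
      exact inf_le_inf_left _ (le_of_eq (Submodule.comap_bot _))
    · refine inf_le_left.trans (le_trans (fun x hx => ?_) bot_le)
      rw [Submodule.mem_bot]
      funext b
      have h2 := hx b trivial
      have h3 := hG.deg_le b
      have h4 : ¬ (deg b : ℤ) = i := by omega
      simpa [h4] using h2
  · exact hε.ker.trans (sup_bot_eq _).symm

theorem inPhi_iff [IsLocalRing T] [IsNoetherianRing T] (I : Ideal T) (M : Type) [AddCommGroup M]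
    [Module T M] : InPhi I M ↔ Phi I M := by
  refine and_congr_right fun _ => ⟨fun h => ?_, ?_⟩
  · refine Ideal.exists_pow_le_of_le_radical_of_fg ?_ (IsNoetherian.noetherian _)
    rw [Ideal.radical_eq_sInf]
    refine le_sInf fun J hJ => ?_
    rw [eq_maximalIdeal (h J hJ.2 (le_sup_left.trans hJ.1) (le_sup_right.trans hJ.1))]
  · rintro ⟨c, hc⟩ 𝔭 hp h1 h2
    have h3 : maximalIdeal T ≤ 𝔭 := hp.le_of_pow_le (hc.trans (sup_le h1 h2))
    rw [← (maximalIdeal.isMaximal T).eq_of_le hp.ne_top h3]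
    exact maximalIdeal.isMaximal T

theorem nice_of_dep [IsLocalRing T] [IsNoetherianRing T] [IsDomain T] {d : ℕ}
    (hd : ringKrullDim T = d) (h : Dep T T d) (hg : GlDim T d) (hc : Consts T) : Nice T :=
  ⟨inferInstance, inferInstance, inferInstance, ffr_of_glDim hg, fun 𝔮 _ => by
    obtain ⟨xs, a, b, c, -⟩ := cm_regseq hd h 𝔮
    exact ⟨xs, a, b, c⟩, hc⟩

theorem estarP_of_dep [IsLocalRing T] [IsNoetherianRing T] [IsDomain T] {d : ℕ}
    (hd : ringKrullDim T = d) (h : Dep T T d) (hg : GlDim T d) (hc : Consts T) : EstarP T d := by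
  classical
  intro I n ν hdim hadd 𝔮 hq hm b hb hbn
  let μ : AddFn T :=
    { good := fun M _ _ => InPhi I M
      val := fun M _ _ => if InPhi I M then ν M else 0
      good_zero := (phiFn I).good_zero
      good_iff := (phiFn I).good_iff
      add := fun M₁ M₂ M₃ _ _ _ _ _ _ f g h1 h2 h3 h4 => by
        obtain ⟨g1, g3⟩ := ((phiFn I).good_iff M₁ M₂ M₃ f g h1 h2 h3).1 h4
        rw [if_pos h4, if_pos (show InPhi I M₁ from g1), if_pos (show InPhi I M₃ from g3)]
        exact hadd M₁ M₂ M₃ f g h1 h2 h3 ((inPhi_iff I M₂).1 h4)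
      junk := fun M _ _ h => if_neg h }
  have hg' : InPhi I (T ⧸ 𝔮) :=
    (inPhi_iff I _).2 ⟨inferInstance, by rwa [Ideal.annihilator_quotient]⟩
  obtain ⟨xs, -, -, h1, h2⟩ := cm_regseq hd h 𝔮
  have h3 : b + xs.length = d := by
    rw [hb] at h2
    exact_mod_cast h2
  have := estar (nice_of_dep hd h hg hc) I n hdim μ (fun _ _ _ => Iff.rfl) 𝔮 hq hg' (by
    rw [← h1]
    exact_mod_cast (by omega : n < xs.length))
  exact (if_pos hg').symm.trans this

theorem consts_of_infinite [IsLocalRing T] [Infinite (ResidueField T)] : Consts T := by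
  choose s hs using residue_surjective (R := T)
  refine ⟨Set.range s, Set.infinite_range_of_injective fun a b h => by rw [← hs a, ← hs b, h], ?_⟩
  rintro _ ⟨a, rfl⟩ _ ⟨b, rfl⟩ hne
  rw [← residue_ne_zero_iff_isUnit, map_sub, hs, hs, sub_ne_zero]
  rintro rfl
  exact hne rfl

theorem consts_of_witt {p : ℕ} [Fact p.Prime] {k : Type} [Field k] [IsAlgClosed k] [CharP k p] {d : ℕ}
    [IsLocalRing T]
    (π : MvPowerSeries (Fin d) (WittVector p k) →+* T) : Consts T := by
  let s : k → T := fun c => π (MvPowerSeries.C (WittVector.teichmuller p c))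
  have hu : ∀ a b : k, a ≠ b → IsUnit (s a - s b) := fun a b hab => by
    rw [← map_sub, ← map_sub]
    refine ((WittVector.isUnit_of_coeff_zero_ne_zero _ ?_).map _).map _
    rw [← WittVector.constantCoeff_apply, map_sub]
    simpa [sub_eq_zero] using hab
  refine ⟨Set.range s, Set.infinite_range_of_injective fun a b h => ?_, ?_⟩
  · by_contra hab
    have := hu a b hab
    rw [h, sub_self] at this
    exact not_isUnit_zero this
  · rintro _ ⟨a, rfl⟩ _ ⟨b, rfl⟩ hne
    exact hu a b fun h => hne (by rw [h])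

end Crest.Agent.R188
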