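import Crest.Agent.R188.CEa
import Crest.Agent.R188.CoreE0
import Crest.Agent.R188.CEbA

/-! Row 188, comparison step: functoriality in the free complex. -/

set_option autoImplicit false

namespace Crest.Agent.R188

open Crest.Agent.R183 IsLocalRing
open scoped ENNReal TensorProduct

variable {T Λ M : Type} [CommRing T] [CommRing Λ] [AddCommGroup M] [Module Λ M] (lam : LenFn Λ)
  {θ : T →+* Module.End Λ M} {W U : ℕ → Submodule Λ M}

/-- subcomplexes spanned by basis vectors: apply `ph_les` to the intermediate tower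
`{v ∈ gr W | v b ∈ U for ¬ p b}` and `ph_transport` to extension by zero and to restriction. -/
theorem phF_sub_les (h : CTw θ W U) (F : FC T) (p : F.ι → Prop) [DecidablePred p]
    (hp : F.IsSub p) :
    ∃ α β γ : ℤ → ℝ≥0∞, ∀ i, phF lam θ (F.sub p hp) W U i = γ (i + 1) + α i ∧
      phF lam θ F W U i = α i + β i ∧ phF lam θ (F.quo p hp) W U i = β i + γ i :=
  ceba_sub_les lam h F p hp

theorem pchi_phF_ext (h : CTw θ W U) (F : FC T) (p : F.ι → Prop) [DecidablePred p]
    (hp : F.IsSub p) (f₁ : ∀ i, phF lam θ (F.sub p hp) W U i ≠ ⊤)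
    (f₂ : ∀ i, phF lam θ (F.quo p hp) W U i ≠ ⊤) :
    pchi (phF lam θ F W U) =
      pchi (phF lam θ (F.sub p hp) W U) + pchi (phF lam θ (F.quo p hp) W U) :=
  ceba_ext lam h F p hp f₁ f₂

theorem phF_iso (h : CTw θ W U) {F F' : FC T} (e : F.Iso F') (i : ℤ) :
    phF lam θ F W U i = phF lam θ F' W U i :=
  ceba_iso lam h e i

theorem cebb_kill (h : CTw θ W U) (F : FC T) {y : T} (hy : y ∈ HI F) (N : ℕ) (i : ℤ)
    {z : F.ι → M} (hz : z ∈ Zc (eact θ F.d) (fun j => gr F.deg j (W N))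
      (fun j => gr F.deg j (U N)) i) :
    (fun b => θ y (z b)) ∈ Bd (eact θ F.d) (fun j => gr F.deg j (W N))
      (fun j => gr F.deg j (U N)) i := by
  obtain ⟨H, h1, h2⟩ := htpy_eact θ F hy
  rw [cxa_mem_Zc] at hz
  rw [cxa_mem_Bd]
  refine ⟨H z, h1 i _ (h.stW N) z hz.1, ?_⟩
  rw [← h2 z, add_sub_cancel_left]
  have := h1 (i - 1) _ (h.stU N) _ hz.2
  rwa [sub_add_cancel] at this

theorem cebb_inl (F : FC T) (y : T) (w : (F.cone y).ι → M) (b : F.ι) :
    eact θ (F.cone y).d w (Sum.inl b) =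
      eact θ F.d (fun b' => w (Sum.inl b')) b + θ y (w (Sum.inr b)) := by
  have h1 := congrFun (eact_smul_one (θ := θ) y fun b' => w (Sum.inr b')) b
  rw [← h1]
  exact Fintype.sum_sum_type _

theorem cebb_inr (F : FC T) (y : T) (w : (F.cone y).ι → M) (b : F.ι) :
    eact θ (F.cone y).d w (Sum.inr b) = -eact θ F.d (fun b' => w (Sum.inr b')) b := by
  refine (Fintype.sum_sum_type _).trans ?_
  change ∑ b', θ 0 (w (Sum.inl b')) + ∑ b', θ (-F.d b b') (w (Sum.inr b')) = _
  simp [eact_apply]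

/-- exact complexes are contractible (`FC.htpy_of_killed` with `y = 1`). -/
theorem phF_exa (h : CTw θ W U) {F : FC T} (hF : Exa (F.act T) (F.G T) ⊥) (i : ℤ) :
    phF lam θ F W U i = 0 := by
  obtain ⟨k, hk⟩ := F.htpy_of_killed (y := 1) fun i x hx => by
    rw [one_smul]
    exact hF i hx
  rw [one_pow] at hk
  refine le_antisymm (prel_le_of_forall lam fun N => ⟨N, le_of_eq (lam.rel_of_le fun z hz => ?_)⟩)
    zero_le
  have := cebb_kill h F (y := 1) hk N i hz
  simpa using this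

/-- if `y` acts as zero on homology, the homology embeds into that of the cone. -/
theorem phF_le_cone (h : CTw θ W U) (F : FC T) {y y' : T} (hy' : y' ∈ HI F)
    (hy : ∀ N, ∀ v ∈ W N, θ (y - y') v ∈ U N) (i : ℤ) :
    phF lam θ F W U i ≤ phF lam θ (F.cone y) W U i := by
  let f : (F.ι → M) →ₗ[Λ] ((F.cone y).ι → M) :=
    { toFun := fun v => Sum.elim v 0
      map_add' := fun v w => by
        funext b
        rcases b with b | b
        · rfl
        · exact (add_zero (0 : M)).symm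
      map_smul' := fun r v => by
        funext b
        rcases b with b | b
        · rfl
        · exact (smul_zero r).symm }
  have hf1 : ∀ v b, f v (Sum.inl b) = v b := fun _ _ => rfl
  have hf2 : ∀ v b, f v (Sum.inr b) = 0 := fun _ _ => rfl
  have hd1 : ∀ b, (F.cone y).deg (Sum.inl b) = F.deg b := fun _ => rfl
  have hd2 : ∀ b, (F.cone y).deg (Sum.inr b) = F.deg b + 1 := fun _ => rfl
  have hgr : ∀ (j : ℤ) (L : Submodule Λ M), ∀ v ∈ gr F.deg j L, f v ∈ gr (F.cone y).deg j L := by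
    intro j L v hv
    rw [mem_gr] at hv ⊢
    rintro (b | b)
    · exact hv b
    · exact ⟨L.zero_mem, fun _ => rfl⟩
  refine prel_le lam lam fun N => ⟨N, fun N' => ⟨N', ?_⟩⟩
  refine le_trans ?_ (lam.rel_mono_left (V := (Zc (eact θ F.d) (fun j => gr F.deg j (W N'))
    (fun j => gr F.deg j (U N')) i).map f) ?_ _)
  · rw [LenFn.rel_map_comap]
    refine lam.rel_anti_right _ fun v hv => ?_
    rw [Submodule.mem_comap, cxa_mem_Bd] at hv
    obtain ⟨w, hw, hv⟩ := hv
    rw [mem_gr] at hw hv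
    have hw1 : (fun b => w (Sum.inl b)) ∈ gr F.deg (i + 1) (W N) := mem_gr.2 fun b => hw (Sum.inl b)
    have hw2 : (fun b => w (Sum.inr b)) ∈ gr F.deg i (W N) := mem_gr.2 fun b =>
      ⟨(hw (Sum.inr b)).1, fun hb => (hw (Sum.inr b)).2 (by rw [hd2]; push_cast; omega)⟩
    have hw3 : eact θ F.d (fun b => w (Sum.inr b)) ∈ gr F.deg (i - 1) (U N) := by
      refine mem_gr.2 fun b => ?_
      have h1 := hv (Sum.inr b)
      rw [Pi.sub_apply, hf2, cebb_inr, zero_sub, neg_neg, hd2] at h1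
      exact ⟨h1.1, fun hb => h1.2 (by push_cast; omega)⟩
    have h1 := cebb_kill h F hy' N i (cxa_mem_Zc.2 ⟨hw2, hw3⟩)
    have h2 : (fun b => θ (y - y') (w (Sum.inr b))) ∈ gr F.deg i (U N) := mem_gr.2 fun b =>
      ⟨hy N _ (mem_gr.1 hw2 b).1, fun hb => by rw [(mem_gr.1 hw2 b).2 hb, map_zero]⟩
    have h3 : v - eact θ F.d (fun b => w (Sum.inl b)) - (fun b => θ y (w (Sum.inr b))) ∈
        gr F.deg i (U N) := by
      refine mem_gr.2 fun b => ?_
      have h4 := hv (Sum.inl b)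
      rw [Pi.sub_apply, hf1, cebb_inl, hd1, ← sub_sub] at h4
      exact h4
    have h4 : v = (fun b => θ y' (w (Sum.inr b))) + (eact θ F.d (fun b => w (Sum.inl b)) +
        ((v - eact θ F.d (fun b => w (Sum.inl b)) - fun b => θ y (w (Sum.inr b))) +
          fun b => θ (y - y') (w (Sum.inr b)))) := by
      funext b
      simp only [Pi.add_apply, Pi.sub_apply, map_sub, LinearMap.sub_apply]
      abel
    rw [h4]
    exact add_mem h1 (Submodule.add_mem_sup (Submodule.mem_map_of_mem hw1) (add_mem h3 h2))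
  · rintro _ ⟨v, hv, rfl⟩
    have hv' := cxa_mem_Zc.1 hv
    refine cxa_mem_Zc.2 ⟨hgr _ _ v hv'.1, ?_⟩
    have : eact θ (F.cone y).d (f v) = f (eact θ F.d v) := by
      funext b
      rcases b with b | b
      · rw [cebb_inl, hf2, map_zero, add_zero]
        rfl
      · rw [cebb_inr, hf2]
        have : (fun b' => f v (Sum.inr b')) = 0 := rfl
        rw [this, map_zero, Pi.zero_apply, neg_zero]
    rw [this]
    exact hgr _ _ _ hv'.2

theorem phF_le_kos (h : CTw θ W U) (F : FC T) {I : Ideal T}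
    (hI : ∀ y ∈ I, ∀ N, ∀ v ∈ W N, θ y v ∈ U N) (ys : List T) (hys : ∀ y ∈ ys, y ∈ I ⊔ HI F)
    (i : ℤ) : phF lam θ F W U i ≤ phF lam θ (F.kos ys) W U i := by
  induction ys with
  | nil => exact le_rfl
  | cons x xs ih =>
    refine (ih fun y hy => hys y (List.mem_cons_of_mem _ hy)).trans ?_
    obtain ⟨a, ha, y', hy', rfl⟩ := Submodule.mem_sup.1 (hys x List.mem_cons_self)
    refine phF_le_cone lam h (F.kos xs) (y' := y') (F.htpy_kos xs (Or.inr hy')) ?_ i
    rw [add_sub_cancel_right]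
    exact hI a ha

/-- complexes with good homology (`AddFn.htpy_of_gdF`, `inPhi_iff`). -/
theorem hf_of_gdF [IsLocalRing T] [IsNoetherianRing T] (I : Ideal T) {F : FC T}
    (h : (phiFn I).gdF F T) : HF I F := by
  obtain ⟨𝔞, h1, h2⟩ := (phiFn I).htpy_of_gdF F h
  obtain ⟨-, c, hc⟩ := (inPhi_iff I _).1 h1
  rw [Ideal.annihilator_quotient] at hc
  have h3 : maximalIdeal T ^ c ≤ (I ⊔ HI F).radical := by
    refine hc.trans (sup_le (le_sup_left.trans Ideal.le_radical) fun y hy => ?_)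
    obtain ⟨k, hk⟩ := h2 y hy
    exact ⟨k, Ideal.mem_sup_right hk⟩
  obtain ⟨k, hk⟩ := Ideal.exists_pow_le_of_le_radical_of_fg h3 (IsNoetherian.noetherian _)
  exact ⟨c * k, by rwa [pow_mul]⟩

/-- an additive function attached to a tower killed by `I`, and its vanishing. -/
theorem pchi_eq_zero_of_estar [IsLocalRing T] [IsNoetherianRing T] {d : ℕ} (hG : GlDim T d)
    (hE : Estar T d) (h : CTw θ W U) (I : Ideal T) {n : ℕ} (hI : ringKrullDim (T ⧸ I) ≤ n)
    (hfin : ∀ F : FC T, HF I F → ∀ i, phF lam θ F W U i ≠ ⊤) (𝔮 : Ideal T)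
    (h𝔮 : ∃ c : ℕ, maximalIdeal T ^ c ≤ I ⊔ 𝔮) {b : ℕ} (hb : ringKrullDim (T ⧸ 𝔮) = b)
    (hbn : b + n < d) (F : FC T) (hF : F.Res (T ⧸ 𝔮)) : pchi (phF lam θ F W U) = 0 := by
  obtain ⟨ν, hν, hv⟩ := exists_addFn (ffr_of_glDim hG) (phiFn I) (fun N _ _ h => h.1)
    (fun F => pchi (phF lam θ F W U))
    (fun F p _ hp g1 g2 => pchi_phF_ext lam h F p hp (hfin _ (hf_of_gdF I g1))
      (hfin _ (hf_of_gdF I g2)))
    (fun F F' e _ => congrArg pchi (funext fun i => phF_iso lam h e i))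
    (fun F hF => by
      rw [show phF lam θ F W U = fun _ => 0 from funext fun i => phF_exa lam h hF i]
      simp [pchi])
  have hP : Phi I (T ⧸ 𝔮) := ⟨inferInstance, by rwa [Ideal.annihilator_quotient]⟩
  rw [← hv F (T ⧸ 𝔮) ((inPhi_iff I _).2 hP) hF]
  refine hE I n (fun M _ _ => ν.val M) hI ?_ (T ⧸ 𝔮) hP ?_
  · intro M₁ M₂ M₃ _ _ _ _ _ _ f g hf hg hfg h2
    exact ν.add M₁ M₂ M₃ f g hf hg hfg ((hν M₂).2 ((inPhi_iff I _).2 h2))
  · rw [Module.supportDim_quotient_eq_ringKrullDim, hb]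
    exact_mod_cast hbn

end Crest.Agent.R188
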