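import Crest.Agent.R188.CV0

/-! Row 188, comparison step: the modules `Λ`, `Γ = Λ / 𝔍` and `Γ ^ r`. -/

set_option autoImplicit false

namespace Crest.Agent.R188

open Crest.Agent.R183 IsLocalRing
open scoped ENNReal TensorProduct

section
variable {T Λ : Type} [CommRing T] [CommRing Λ] (lam : LenFn Λ)

/-- `Λ → Λ / 𝔍` has null kernel at each level. -/
theorem phF_quot (𝔍 : Ideal Λ) (ϖ : Λ)
    (hal : ∀ N : ℕ, ∃ α : Λ, lam.Kills α ∧ ∀ y ∈ 𝔍, α * y ∈ Ideal.span {ϖ ^ N})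
    (τ : T →+* Λ) (F : FC T) (i : ℤ) :
    phF lam (thS τ Λ) F (fun _ => ⊤) (pw ϖ Λ) i =
      phF lam (thS τ (Λ ⧸ 𝔍)) F (fun _ => ⊤) (pw ϖ (Λ ⧸ 𝔍)) i := by
  refine phF_transport lam F 𝔍.mkQ (CTw.pw _ ϖ) (CTw.pw _ ϖ) (fun _ => le_top) (fun N => ?_)
    (fun N y v _ => ?_) ?_ ?_ i
  · rintro _ ⟨v, hv, rfl⟩
    obtain ⟨u, rfl⟩ := mem_pw.1 hv
    exact mem_pw.2 ⟨𝔍.mkQ u, map_smul _ _ _⟩
  · have : thS τ (Λ ⧸ 𝔍) y (𝔍.mkQ v) = 𝔍.mkQ (thS τ Λ y v) := (map_smul 𝔍.mkQ (τ y) v).symm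
    rw [this, sub_self]
    exact zero_mem _
  · refine le_antisymm (prel_le_of_forall lam fun N => ⟨N, le_of_eq ?_⟩) zero_le
    obtain ⟨α, hα, h⟩ := hal N
    refine ALe.rel_eq_zero hα ⟨1, fun v hv => ?_⟩
    obtain ⟨u', hu⟩ := mem_pw.1 hv.2
    obtain ⟨u, rfl⟩ := 𝔍.mkQ_surjective u'
    have h1 : v - ϖ ^ N • u ∈ 𝔍 := by
      rw [← Submodule.ker_mkQ 𝔍, LinearMap.mem_ker, map_sub, map_smul, sub_eq_zero]
      exact hu
    obtain ⟨c, hc⟩ := Ideal.mem_span_singleton'.1 (h _ h1)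
    refine mem_pw.2 ⟨c + α * u, ?_⟩
    simp only [pow_one, smul_eq_mul] at hc ⊢
    linear_combination -hc
  · refine le_antisymm (prel_le_of_forall lam fun N => ⟨N, le_of_eq (lam.rel_of_le ?_)⟩) zero_le
    rw [Submodule.map_top, Submodule.range_mkQ]
    exact le_sup_left

/-- the flag filtration `W n N = {v | v j ∈ ϖ^N Γ for j ≥ n}` of `Γ ^ r`; the graded pieces are
compared with `Γ` by `phF_transport` along `LinearMap.single`. -/
theorem phF_flag {Γ : Type} [CommRing Γ] [Algebra Λ Γ] {r : ℕ}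
    (ρ : T →+* Matrix (Fin r) (Fin r) Γ) (hut : ∀ y i j, j < i → ρ y i j = 0)
    (τ : Fin r → (T →+* Λ)) (hτ : ∀ y i, ρ y i i = algebraMap Λ Γ (τ i y)) (ϖ : Λ) (F : FC T)
    (hfin : ∀ j i, phF lam (thS (τ j) Γ) F (fun _ => ⊤) (pw ϖ Γ) i ≠ ⊤) :
    (∀ i, phF lam (thL Λ ρ) F (fun _ => ⊤) (pw ϖ (Fin r → Γ)) i ≠ ⊤) ∧
      pchi (phF lam (thL Λ ρ) F (fun _ => ⊤) (pw ϖ (Fin r → Γ))) =
        ∑ j, pchi (phF lam (thS (τ j) Γ) F (fun _ => ⊤) (pw ϖ Γ)) := by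
  classical
  let W : ℕ → ℕ → Submodule Λ (Fin r → Γ) := fun n N =>
    Submodule.pi {j : Fin r | n ≤ j.val} fun _ => pw ϖ Γ N
  have hW : ∀ n N v, v ∈ W n N ↔ ∀ j : Fin r, n ≤ j.val → v j ∈ pw ϖ Γ N := fun n N v => Iff.rfl
  have hmul : ∀ (N : ℕ) (c v : Γ), v ∈ pw ϖ Γ N → c * v ∈ pw ϖ Γ N := by
    intro N c v hv
    obtain ⟨u, rfl⟩ := mem_pw.1 hv
    exact mem_pw.2 ⟨c * u, mul_smul_comm _ _ _⟩
  have hth : ∀ y v i, thL Λ ρ y v i = ∑ j, ρ y i j * v j := fun y v i => rfl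
  have hst : ∀ n N y, ∀ v ∈ W n N, thL Λ ρ y v ∈ W n N := by
    intro n N y v hv i hi
    rw [hth]
    refine Submodule.sum_mem _ fun j _ => ?_
    rcases lt_or_ge j i with h | h
    · rw [hut y i j h, zero_mul]
      exact zero_mem _
    · exact hmul N _ _ ((hW _ _ _).1 hv j (le_trans (show n ≤ i.val from hi) h))
  have hanti : ∀ n, Antitone (W n) := fun n N N' h v hv j hj => pw_anti ϖ Γ h (hv j hj)
  have hct : ∀ n n', n ≤ n' → CTw (thL Λ ρ) (W n') (W n) := fun n n' h =>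
    ⟨hanti n', hanti n, fun N v hv j hj => hv j (le_trans h hj), hst n', hst n⟩
  have h0 : W 0 = pw ϖ (Fin r → Γ) := by
    funext N
    ext v
    rw [hW, mem_pw]
    constructor
    · intro h
      choose u hu using fun j => mem_pw.1 (h j (Nat.zero_le _))
      exact ⟨u, funext hu⟩
    · rintro ⟨u, rfl⟩ j _
      exact mem_pw.2 ⟨u j, rfl⟩
  have hr : W r = fun _ => ⊤ := by
    funext N
    exact eq_top_iff.2 fun v _ j hj => absurd j.2 (not_lt.2 hj)
  have hstep : ∀ (j : Fin r) (i : ℤ), phF lam (thS (τ j) Γ) F (fun _ => ⊤) (pw ϖ Γ) i =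
      phF lam (thL Λ ρ) F (W (j.val + 1)) (W j.val) i := by
    intro j i
    refine phF_transport lam F (LinearMap.single Λ (fun _ => Γ) j) (hct _ _ (Nat.le_succ _))
      (CTw.pw _ ϖ) (fun N => ?_) (fun N => ?_) (fun N y v _ => ?_) ?_ ?_ i
    · rintro _ ⟨v, -, rfl⟩ k hk
      have : k ≠ j := fun e => by subst e; exact absurd hk (by simp)
      simp [this]
    · rintro _ ⟨v, hv, rfl⟩ k _
      by_cases e : k = j
      · subst e
        simpa using hv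
      · simp [e]
    · intro k hk
      have e1 : thL Λ ρ y (LinearMap.single Λ (fun _ => Γ) j v) k = ρ y k j * v := by
        rw [hth, Finset.sum_eq_single j]
        · simp
        · intro b _ hb
          simp [hb]
        · simp
      rw [Pi.sub_apply, e1]
      by_cases e : k = j
      · subst e
        have e2 : thS (τ k) Γ y v = τ k y • v := rfl
        rw [hτ, e2, ← Algebra.smul_def]
        simp
      · have hlt : j < k := lt_of_le_of_ne hk (Ne.symm e)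
        rw [hut y k j hlt]
        simp [e]
    · refine le_antisymm (prel_le_of_forall lam fun N => ⟨N, le_of_eq (lam.rel_of_le ?_)⟩) zero_le
      intro v hv
      simpa using (hW _ _ _).1 hv.2 j le_rfl
    · refine le_antisymm (prel_le_of_forall lam fun N => ⟨N, le_of_eq (lam.rel_of_le ?_)⟩) zero_le
      intro v hv
      have e : v = LinearMap.single Λ (fun _ => Γ) j (v j) +
          (v - LinearMap.single Λ (fun _ => Γ) j (v j)) := by abel
      rw [e]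
      refine Submodule.add_mem_sup ⟨v j, trivial, rfl⟩ fun k hk => ?_
      by_cases e : k = j
      · subst e
        simp
      · have hlt : j < k := lt_of_le_of_ne hk (Ne.symm e)
        simpa [e] using hv k hlt
  let a : ℕ → ℝ := fun k =>
    if h : k < r then pchi (phF lam (thS (τ ⟨k, h⟩) Γ) F (fun _ => ⊤) (pw ϖ Γ)) else 0
  have key : ∀ n, n ≤ r → (∀ i, phF lam (thL Λ ρ) F (W n) (W 0) i ≠ ⊤) ∧
      pchi (phF lam (thL Λ ρ) F (W n) (W 0)) = ∑ k ∈ Finset.range n, a k := by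
    intro n
    induction n with
    | zero =>
      intro _
      have hz : phF lam (thL Λ ρ) F (W 0) (W 0) = fun _ => 0 := by
        funext i
        exact le_antisymm ((ph_le_terms lam _ _ i).trans
          (prel_le_of_forall lam fun N => ⟨N, le_of_eq (lam.rel_of_le le_rfl)⟩)) zero_le
      rw [hz]
      exact ⟨fun _ => ENNReal.zero_ne_top, by simp [pchi]⟩
    | succ n ih =>
      intro hn
      obtain ⟨i1, i2⟩ := ih (by omega)
      have e : phF lam (thL Λ ρ) F (W (n + 1)) (W n) =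
          phF lam (thS (τ ⟨n, hn⟩) Γ) F (fun _ => ⊤) (pw ϖ Γ) :=
        funext fun i => (hstep ⟨n, hn⟩ i).symm
      obtain ⟨p1, p2⟩ := pchi_phF_add lam F (hct 0 n (Nat.zero_le _)) (hct n (n + 1) (Nat.le_succ _))
        i1 (by rw [e]; exact hfin _)
      refine ⟨p1, ?_⟩
      rw [p2, i2, e, Finset.sum_range_succ]
      simp only [a, dif_pos (show n < r from hn)]
  obtain ⟨k1, k2⟩ := key r le_rfl
  rw [hr, h0] at k1 k2
  refine ⟨k1, ?_⟩
  rw [k2, Finset.sum_range]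
  exact Finset.sum_congr rfl fun j _ => by simp only [a, dif_pos j.2]

/-- the honest homology of `F ⊗ Λ`: `ϖ ^ s` is null-homotopic over `Λ`. -/
theorem phF_eq_hl (τ : T →+* Λ) (F : FC T) {ϖ : Λ} (hϖ : IsSMulRegular Λ ϖ) {s : ℕ}
    (hs : ϖ ^ s ∈ (HI F).map τ) (i : ℤ) :
    phF lam (thS τ Λ) F (fun _ => ⊤) (pw ϖ Λ) i = hl lam F.deg (F.d.map τ) Λ i := by
  have h1 : (HI F).map τ ≤ HI (F.map τ) :=
    Ideal.map_le_iff_le_comap.2 fun y hy => F.htpy_map τ hy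
  have h2 : Htpy F.deg (F.d.map τ) (ϖ ^ s) := h1 hs
  obtain ⟨H, hH, hc⟩ := h2.exists_op (N := Λ)
  have tw := (CTw.pw (thS τ Λ) ϖ).twCx F
  unfold phF
  rw [eact_thS] at tw ⊢
  exact ph_eq_of_htpy lam F.deg tw.dd (fun i v hv => tw.subW 0 i ⟨v, hv, rfl⟩) hϖ (mact H Λ)
    (fun i v hv => hH i ⊤ v hv) hc i

end

theorem psi_key {A D C E : Type} [CommRing A] [CommRing D] [CommRing C] [CommRing E] [Algebra A D]
    [Algebra A C] [Algebra A E] {r : ℕ} (fl : FlagD A D C r) (a : C →ₐ[A] E) (b : D →ₐ[A] E) :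
    ∃ e : Fin r → E, ∀ s, ∑ i, a ((fl.ρ s).mulVec fl.v₀ i) * e i = algebraMap A E fl.g * b s := by
  let β := Algebra.TensorProduct.lift a b fun _ _ => Commute.all _ _
  have hβ : ∀ (c : C) (w : C ⊗[A] D), β (c • w) = a c * β w := fun c w => by
    rw [Algebra.smul_def, map_mul]
    simp [β, Algebra.TensorProduct.algebraMap_apply]
  refine ⟨fun i => β (fl.η i), fun s => ?_⟩
  have h1 : ∑ i, (fl.ρ s).mulVec fl.v₀ i • fl.η i =
      algebraMap A (C ⊗[A] D) fl.g * ((1 : C) ⊗ₜ[A] s) := by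
    rw [← fl.sum, mul_comm, Finset.mul_sum]
    simp only [mul_smul_comm, fl.eta, Finset.smul_sum, smul_smul,
      Matrix.mulVec, dotProduct, Finset.sum_smul]
    rw [Finset.sum_comm]
    simp only [mul_comm]
  have h2 := congrArg β h1
  rw [map_sum, map_mul, AlgHom.commutes] at h2
  simpa only [hβ, β, Algebra.TensorProduct.lift_tmul, map_one, one_mul] using h2

theorem psi_zero {A D C Λ E : Type} [CommRing A] [CommRing D] [CommRing C] [CommRing Λ] [CommRing E]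
    [Algebra A D] [Algebra A C] [Algebra A Λ] [Algebra Λ E] {r : ℕ} (fl : FlagD A D C r)
    (𝔍 I : Ideal Λ) (ω : C →ₐ[A] Λ ⧸ 𝔍) (f : D →ₗ[A] (Fin r → Λ ⧸ 𝔍))
    (hf : ∀ s i, f s i = ω ((fl.ρ s).mulVec fl.v₀ i)) (π : Λ ⊗[A] D →ₐ[Λ] E)
    (hK : ∀ l ∈ 𝔍 ⊔ I, π (algebraMap Λ _ l) = 0) {v : Λ ⊗[A] D}
    (hv : f.liftBaseChange Λ v ∈ I • (⊤ : Submodule Λ (Fin r → Λ ⧸ 𝔍))) :
    π (algebraMap A Λ fl.g • v) = 0 := by
  let : Algebra A E := ((algebraMap Λ E).comp (algebraMap A Λ)).toAlgebra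
  have : IsScalarTower A Λ E := IsScalarTower.of_algebraMap_eq fun _ => rfl
  simp only [AlgHom.commutes] at hK
  let a : (Λ ⧸ 𝔍) →ₐ[Λ] E := Ideal.Quotient.liftₐ 𝔍 (Algebra.ofId _ _)
    fun l hl => hK l (Ideal.mem_sup_left hl)
  obtain ⟨e, he⟩ := psi_key fl ((a.restrictScalars A).comp ω)
    ((π.restrictScalars A).comp Algebra.TensorProduct.includeRight)
  let φ : (Fin r → Λ ⧸ 𝔍) →ₗ[Λ] E :=
    { toFun := fun w => ∑ i, a (w i) * e i
      map_add' := fun w w' => by simp [add_mul, Finset.sum_add_distrib]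
      map_smul' := fun c w => by simp [Finset.smul_sum] }
  have h1 : ∀ v, φ (f.liftBaseChange Λ v) = π (algebraMap A Λ fl.g • v) := by
    intro v
    induction v with
    | zero => simp
    | add v w hv hw => simp only [map_add, smul_add, hv, hw]
    | tmul l s =>
      have e1 : l ⊗ₜ[A] s = l • ((1 : Λ) ⊗ₜ[A] s) := by simp [TensorProduct.smul_tmul']
      rw [LinearMap.liftBaseChange_tmul, map_smul, e1, smul_comm, map_smul, map_smul,
        algebraMap_smul, Algebra.smul_def fl.g]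
      refine congrArg (l • ·) (Eq.trans ?_ (he s))
      change ∑ i, a (f s i) * e i = _
      simp only [hf]
      rfl
  rw [← h1]
  refine Submodule.smul_induction_on hv (fun l hl w _ => ?_) fun w w' h h' => ?_
  · rw [map_smul, Algebra.smul_def, hK l (Ideal.mem_sup_right hl), zero_mul]
  · rw [map_add, h, h', add_zero]

/-- the comparison map `Λ ⊗_A D → Γ ^ r`, `l ⊗ s ↦ l • ω(ρ(s) v₀)`.  For the last property map
`Γ ^ r → (Λ ⊗ D) / 𝔍`, `e_i ↦` the image of `η i`; the composite is multiplication by `g`. -/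
theorem exists_psi {T : Type} [CommRing T] {𝔭 : Ideal T} {A C : Type} [CommRing A] [CommRing C]
    [Algebra A (T ⧸ 𝔭)] [Algebra A C] {r : ℕ} (fl : FlagD A (T ⧸ 𝔭) C r) {Λ : Type} [CommRing Λ]
    [Algebra A Λ] (𝔍 : Ideal Λ) (ω : C →ₐ[A] Λ ⧸ 𝔍) :
    ∃ ψ : Λ ⊗[A] (T ⧸ 𝔭) →ₗ[Λ] (Fin r → Λ ⧸ 𝔍),
      (∀ y v, ψ (th0 𝔭 A Λ y v) = thL Λ (rhoG fl ω) y (ψ v)) ∧
      (∀ u, algebraMap A Λ fl.g • u ∈ LinearMap.range ψ) ∧
      ∀ (I : Ideal Λ) (v : Λ ⊗[A] (T ⧸ 𝔭)), ψ v ∈ I • (⊤ : Submodule Λ (Fin r → Λ ⧸ 𝔍)) →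
        algebraMap A Λ fl.g • v ∈ (𝔍 ⊔ I) • (⊤ : Submodule Λ (Λ ⊗[A] (T ⧸ 𝔭))) := by
  classical
  let f : (T ⧸ 𝔭) →ₗ[A] (Fin r → Λ ⧸ 𝔍) :=
    { toFun := fun s i => ω ((fl.ρ s).mulVec fl.v₀ i)
      map_add' := fun s t => by ext i; simp [Matrix.add_mulVec]
      map_smul' := fun c s => by ext i; simp [Matrix.smul_mulVec] }
  have hf : ∀ s i, f s i = ω ((fl.ρ s).mulVec fl.v₀ i) := fun _ _ => rfl
  refine ⟨f.liftBaseChange Λ, fun y v => ?_, fun u => ?_, fun I v hv => ?_⟩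
  · induction v with
    | zero => simp
    | add v w hv hw => simp only [map_add, hv, hw]
    | tmul l s =>
      have e : th0 𝔭 A Λ y (l ⊗ₜ s) = l ⊗ₜ (Ideal.Quotient.mk 𝔭 y * s) := by
        simp [th0, thM]
      rw [e, LinearMap.liftBaseChange_tmul, LinearMap.liftBaseChange_tmul, map_smul]
      congr 1
      ext i
      rw [hf, map_mul, ← Matrix.mulVec_mulVec]
      exact (RingHom.map_mulVec ω.toRingHom _ _ i)
  · have h1 : ∀ w ∈ Submodule.span C (Set.range fun s => (fl.ρ s).mulVec fl.v₀),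
        (fun i => ω (w i)) ∈ LinearMap.range (f.liftBaseChange Λ) := fun w hw => by
      induction hw using Submodule.span_induction with
      | mem w hw =>
        obtain ⟨s, rfl⟩ := hw
        exact ⟨1 ⊗ₜ s, by rw [LinearMap.liftBaseChange_tmul, one_smul]; rfl⟩
      | zero => exact ⟨0, by ext i; simp⟩
      | add w w' _ _ h h' =>
        convert Submodule.add_mem _ h h' using 1
        ext i
        simp
      | smul c w _ h =>
        obtain ⟨l, hl⟩ := Ideal.Quotient.mk_surjective (ω c)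
        convert Submodule.smul_mem _ l h using 1
        ext i
        rw [Pi.smul_apply, Pi.smul_apply, smul_eq_mul, map_mul, ← hl]
        rfl
    choose l hl using fun i => Ideal.Quotient.mk_surjective (u i)
    convert Submodule.sum_mem _ fun i (_ : i ∈ Finset.univ) =>
      Submodule.smul_mem _ (l i) (h1 _ (fl.span_v i)) using 1
    ext j
    rw [Finset.sum_apply, Finset.sum_eq_single j (fun i _ hi => by simp [Pi.single_eq_of_ne' hi])
      (by simp)]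
    simp only [Pi.smul_apply, Pi.single_eq_same, AlgHom.commutes, ← hl j]
    rw [Algebra.smul_def, Algebra.smul_def, mul_comm]
    rfl
  · rw [Ideal.smul_top_eq_map]
    refine Ideal.Quotient.eq_zero_iff_mem.1 (psi_zero fl 𝔍 I ω f hf (Ideal.Quotient.mkₐ Λ _)
      (fun l hl => ?_) hv)
    exact Ideal.Quotient.eq_zero_iff_mem.2 (Ideal.mem_map_of_mem (algebraMap Λ _) hl)

variable {p : ℕ} {T : Type} [CommRing T] [IsLocalRing T] {𝔭 : Ideal T} {m : ℕ} {A : Type}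
  [CommRing A] [IsLocalRing A] {x : Fin (m + 1) → A} [Algebra A (T ⧸ 𝔭)] {Λ : Type} [CommRing Λ]
  [Algebra A Λ] {lam : LenFn Λ} {𝔍 : Ideal Λ}

theorem CH.reg_p (h : CH p 𝔭 x lam 𝔍) : IsSMulRegular Λ (p : Λ) := by
  have := h.flat
  have h1 := h.reg 1 le_rfl
  rw [List.ofFn_succ, RingTheory.Sequence.isWeaklyRegular_cons_iff, pow_one, h.x0] at h1
  have h2 := h1.1.of_flat (S := Λ)
  rwa [map_natCast] at h2

/-- `ph_fin` for `z = x`, using `CH.exists_lift` and flat base change of regular sequences. -/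
theorem CH.phF_ne_top (h : CH p 𝔭 x lam 𝔍) (τ : T →+* Λ) (σ : (T ⧸ 𝔭) →ₐ[A] Λ ⧸ 𝔍)
    (hτ : ∀ y, Ideal.Quotient.mk 𝔍 (τ y) = σ (Ideal.Quotient.mk 𝔭 y)) {F : FC T} (hF : HF 𝔭 F)
    (i : ℤ) : phF lam (thS τ Λ) F (fun _ => ⊤) (pw (p : Λ) Λ) i ≠ ⊤ := by
  have := h.flat
  obtain ⟨c, hc⟩ := hF
  obtain ⟨d, hd⟩ := F.exists_gcx
  obtain ⟨y, hy, -⟩ := h.exists_lift
  have z0 : algebraMap A Λ (x 0) = (p : Λ) := by rw [h.x0, map_natCast]
  have key := ph_fin lam (hd.map τ) (e := c + 1) (Nat.le_add_left 1 c)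
    (fun k => algebraMap A Λ (x k)) ?_ ?_ 𝔍 ?_ ?_ i
  · rw [phF, eact_thS]
    simpa only [z0] using key
  · have h1 := (h.reg (c + 1) (Nat.le_add_left 1 c)).of_flat (S := Λ)
    rw [List.map_ofFn] at h1
    convert h1 using 2
    funext k
    simp
  · have e : sp (fun k => algebraMap A Λ (x k)) = (maximalIdeal A).map (algebraMap A Λ) := by
      rw [← h.max, Ideal.map_span, ← Set.range_comp]
      rfl
    rw [e]
    exact h.q_ne
  · simpa only [z0] using h.al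
  · intro k
    have h1 : y k ^ (c + 1) ∈ 𝔭 ⊔ HI F :=
      hc (Ideal.pow_le_pow_right (Nat.le_succ c) (Ideal.pow_mem_pow (hy k).1 _))
    obtain ⟨u, hu, w, hw, huw⟩ := Submodule.mem_sup.1 h1
    refine ⟨τ w, F.htpy_map τ hw, ?_⟩
    have h2 : Ideal.Quotient.mk 𝔭 w = algebraMap A (T ⧸ 𝔭) (x k ^ (c + 1)) := by
      rw [map_pow, ← (hy k).2, ← map_pow, ← huw, map_add, Ideal.Quotient.eq_zero_iff_mem.2 hu,
        zero_add]
    rw [← Ideal.Quotient.eq, hτ, h2, AlgHom.commutes, ← map_pow]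
    rfl

/-- the kernel tower of `ψ` is null by `exists_colon`. -/
theorem CH.phF_range (h : CH p 𝔭 x lam 𝔍) {L : Type} [AddCommGroup L] [Module Λ L]
    (θ : T →+* Module.End Λ L) (ψ : Λ ⊗[A] (T ⧸ 𝔭) →ₗ[Λ] L) {g : A} (hg : g ≠ 0)
    (h₁ : ∀ y v, ψ (th0 𝔭 A Λ y v) = θ y (ψ v))
    (h₃ : ∀ (I : Ideal Λ) (v : Λ ⊗[A] (T ⧸ 𝔭)), ψ v ∈ I • (⊤ : Submodule Λ L) →
      algebraMap A Λ g • v ∈ (𝔍 ⊔ I) • (⊤ : Submodule Λ (Λ ⊗[A] (T ⧸ 𝔭)))) (F : FC T) (i : ℤ) :
    phF lam (th0 𝔭 A Λ) F (fun _ => ⊤) (pw (p : Λ) _) i =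
      phF lam θ F (fun N => LinearMap.range ψ ⊔ pw (p : Λ) L N) (pw (p : Λ) L) i := by
  have := h.flat
  have := h.prime
  have := h.noethT
  have hw := CTw.pw θ (p : Λ)
  obtain ⟨c, hc⟩ := exists_colon (Λ := Λ) (S := T ⧸ 𝔭) (p : A) g
    fun e => hg (h.inj (by rw [e, map_zero]))
  rw [map_natCast] at hc
  refine phF_transport lam F ψ ⟨fun N N' hN => sup_le_sup_left (hw.antiU hN) _, hw.antiU,
    fun N => le_sup_right, fun N y v hv => ?_, hw.stU⟩ (CTw.pw _ _) (fun N => ?_) (fun N => ?_)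
    (fun N y v _ => ?_) ?_ ?_ i
  · obtain ⟨_, ⟨a, rfl⟩, b, hb, rfl⟩ := Submodule.mem_sup.1 hv
    rw [map_add, ← h₁]
    exact Submodule.add_mem_sup ⟨_, rfl⟩ (hw.stU N y b hb)
  · rw [Submodule.map_top]
    exact le_sup_left
  · rintro _ ⟨v, hv, rfl⟩
    obtain ⟨u, rfl⟩ := mem_pw.1 hv
    exact mem_pw.2 ⟨ψ u, map_smul _ _ _⟩
  · rw [h₁, sub_self]
    exact Submodule.zero_mem _
  · refine le_antisymm (prel_le_of_forall lam fun N => ⟨N + c, ?_⟩) zero_le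
    obtain ⟨α, hα, hα'⟩ := h.al (N + c)
    refine (ALe.rel_eq_zero hα ⟨1, fun v hv => hc N _ ?_⟩).le
    have h1 := h₃ _ v hv.2
    rw [pow_one, smul_comm]
    refine Submodule.smul_induction_on
      (p := fun w => α • w ∈ pw (p : Λ) (Λ ⊗[A] (T ⧸ 𝔭)) (N + c)) h1 (fun r hr n _ => ?_)
      fun a b ha hb => ?_
    · obtain ⟨j, hj, k, hk, rfl⟩ := Submodule.mem_sup.1 hr
      rw [smul_smul, mul_add]
      exact Submodule.smul_mem_smul
        (Ideal.add_mem _ (hα' j hj) (Ideal.mul_mem_left _ _ hk)) Submodule.mem_top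
    · rw [smul_add]
      exact Submodule.add_mem _ ha hb
  · refine le_antisymm (prel_le_of_forall lam fun N => ⟨N, (lam.rel_of_le ?_).le⟩) zero_le
    rw [Submodule.map_top]

end Crest.Agent.R188
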