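import Crest.Agent.R188.RegL0
import Crest.Agent.R188.Res
import Crest.Agent.R188.TDefs

/-! Row 188: regular local rings have finite global dimension. -/

set_option autoImplicit false
set_option linter.unusedSectionVars false

namespace Crest.Agent.R188

open IsLocalRing RingTheory.Sequence
open Crest.Agent.R183 (Zc Bd mact gr)
open scoped Pointwise

variable {T : Type} [CommRing T]

theorem rl_res_free (M : Type) [AddCommGroup M] [Module T M] [Module.Finite T M] [Module.Free T M] :
    ∃ F : FC T, (∀ b, F.deg b = 0) ∧ F.Res M := by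
  classical
  let b := Module.Free.chooseBasis T M
  let F : FC T := ⟨Module.Free.ChooseBasisIndex T M, fun _ => 0, 0, fun _ _ h => absurd rfl h, by simp⟩
  have h0 : F.G T 0 = ⊤ := eq_top_iff.2 fun x _ b _ => by simp [F]
  have h1 : ∀ i : ℤ, i ≠ 0 → F.G T i = ⊥ := fun i hi => eq_bot_iff.2 fun x hx => by
    funext b
    simpa [F, hi.symm] using hx b trivial
  refine ⟨F, fun _ => rfl, fun i hi => ?_, b.equivFun.symm.toLinearMap, ?_, ?_⟩
  · refine inf_le_left.trans ?_
    rw [h1 i hi]; exact bot_le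
  · rw [h0, Submodule.map_top, LinearEquiv.range]
  · rw [LinearEquiv.ker, inf_bot_eq, Bd, h1 (0 + 1) (by norm_num), Submodule.map_bot]
    simp

theorem rl_res [IsRegularLocalRing T] {d : ℕ} (hd : ringKrullDim T = d) (n : ℕ) :
    ∀ (M : Type) [AddCommGroup M] [Module T M] [Module.Finite T M], Dep T M (d - n) →
      ∃ F : FC T, (∀ b, F.deg b ≤ n) ∧ F.Res M := by
  have free : ∀ (n : ℕ) (M : Type) [AddCommGroup M] [Module T M] [Module.Finite T M]
      [Module.Free T M], ∃ F : FC T, (∀ b, F.deg b ≤ n) ∧ F.Res M := fun n M _ _ _ _ =>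
    (rl_res_free M).imp fun F h => ⟨fun b => (h.1 b).le.trans (Nat.zero_le _), h.2⟩
  induction n with
  | zero =>
    intro M _ _ _ h
    have := reg_free hd M h
    exact free 0 M
  | succ n ih =>
    intro M _ _ _ h
    rcases subsingleton_or_nontrivial M with h0 | h0
    · exact free _ M
    obtain ⟨m, π, hπ⟩ := Module.Finite.exists_fin' T M
    have hZ : Dep T (LinearMap.ker π) (d - n) := by
      by_cases hn : d ≤ n
      · rw [Nat.sub_eq_zero_of_le hn]; exact ⟨[], rfl, by simp, .nil _ _⟩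
      · rw [show d - n = d - (n + 1) + 1 by omega]
        refine Dep.syz π hπ ?_ h
        obtain ⟨ys, a, b, c⟩ := (reg_dep hd).anti (show d - (n + 1) + 1 ≤ d by omega)
        refine ⟨ys, a, b, ?_⟩
        exact ((TensorProduct.rid T (Fin m → T)).isWeaklyRegular_congr ys).1
          (c.isWeaklyRegular_lTensor (M₂ := Fin m → T))
    obtain ⟨F, hF1, hF2⟩ := ih _ hZ
    obtain ⟨F', hF1', hF2'⟩ := rl_res_free (T := T) (Fin m → T)
    obtain ⟨α, hα, hr⟩ := FC.Res.cone (LinearMap.ker π).subtype π (Submodule.injective_subtype _) hπ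
      (LinearMap.exact_subtype_ker_map π) hF2 hF2'
    refine ⟨_, ?_, hr⟩
    rintro (b | b)
    · exact (hF1' b).le.trans (Nat.zero_le _)
    · exact Nat.succ_le_succ (hF1 b)

theorem FC.Res.resol {F : FC T} {M : Type} [AddCommGroup M] [Module T M] {d : ℕ} (h : F.Res M)
    (hd : ∀ b, F.deg b ≤ d) : Resol d F.deg F.d M := by
  obtain ⟨h1, π, h2, h3⟩ := h
  refine ⟨⟨hd, F.d_deg, F.dd⟩, π, h2, h3.trans (sup_bot_eq _), fun j hj _ => ?_⟩
  refine le_trans ?_ ((h1 j (by omega)).trans (sup_bot_eq _).le)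
  exact inf_le_inf_left _ (le_of_eq (Submodule.comap_bot _).symm)

theorem rl_glDim [IsRegularLocalRing T] {d : ℕ} (hd : ringKrullDim T = d) : GlDim T d := by
  intro N _ _ _
  obtain ⟨F, h1, h2⟩ := rl_res hd d N (by rw [Nat.sub_self]; exact ⟨[], rfl, by simp, .nil _ _⟩)
  exact ⟨F.ι, inferInstance, inferInstance, F.deg, F.d, h2.resol h1⟩

end Crest.Agent.R188
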