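import Crest.Agent.R188.Reg2A
import Crest.Agent.R188.Reg1
import Crest.Agent.R188.RegL1

/-! Row 188, part IV: existence of finite free resolutions over regular local rings. -/

set_option autoImplicit false

namespace Crest.Agent.R188

open Crest.Agent.R183 IsLocalRing

variable {R : Type} [CommRing R]

theorem reg_glDim [IsRegularLocalRing R] {d : ℕ} (hd : ringKrullDim R = d) : GlDim R d :=
  rl_glDim hd

end Crest.Agent.R188
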