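import Crest.Agent.R188.CL
import Crest.Agent.R188.CEb
import Crest.Agent.R188.Reg2

/-! Row 188, comparison step: the main statement. -/

set_option autoImplicit false

namespace Crest.Agent.R188

open Crest.Agent.R183 IsLocalRing
open scoped ENNReal TensorProduct

/-- a resolution in matrix format as a free complex. -/
def Resol.fc {T : Type} [CommRing T] {ι : Type} [Fintype ι] [DecidableEq ι] {d : ℕ} {deg : ι → ℕ}
    {P : Matrix ι ι T} {N : Type} [AddCommGroup N] [Module T N] (h : Resol d deg P N) : FC T :=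
  ⟨ι, deg, P, h.1.P_deg, h.1.sq⟩

theorem Resol.fc_res {T : Type} [CommRing T] {ι : Type} [Fintype ι] [DecidableEq ι] {d : ℕ}
    {deg : ι → ℕ} {P : Matrix ι ι T} {N : Type} [AddCommGroup N] [Module T N]
    (h : Resol d deg P N) : h.fc.Res N := by
  obtain ⟨hG, ε, hε⟩ := id h
  refine ⟨fun i hi => ?_, ε, hε.surj, ?_⟩
  · by_cases h1 : 1 ≤ i ∧ i < d + 1
    · refine le_trans ?_ ((hε.ex i h1.1 h1.2).trans le_sup_left)
      exact inf_le_inf_left _ (le_of_eq (Submodule.comap_bot _))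
    · refine inf_le_left.trans (le_trans (fun x hx => ?_) bot_le)
      rw [Submodule.mem_bot]
      funext b
      have h2 := hx b trivial
      have h3 := hG.deg_le b
      have h4 : ¬ (deg b : ℤ) = i := by omega
      simpa [Resol.fc, h4] using h2
  · exact hε.ker.trans (sup_bot_eq _).symm

theorem cmp_dim {T : Type} [CommRing T] {𝔭 : Ideal T} [𝔭.IsPrime] {m : ℕ}
    (hm : ringKrullDim (T ⧸ 𝔭) = (m + 1 : ℕ)) {g : T} (hg : g ∉ 𝔭) :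
    ringKrullDim (T ⧸ (𝔭 ⊔ Ideal.span {g})) ≤ m := by
  have h1 : Ideal.Quotient.mk 𝔭 g ∈ nonZeroDivisors (T ⧸ 𝔭) :=
    mem_nonZeroDivisors_of_ne_zero fun h => hg (Ideal.Quotient.eq_zero_iff_mem.1 h)
  have hs : Function.Surjective (Ideal.Quotient.factor (le_sup_left : 𝔭 ≤ 𝔭 ⊔ Ideal.span {g})) :=
    Ideal.Quotient.factor_surjective _
  have h2 := ringKrullDim_succ_le_of_surjective _ hs h1 (by
    rw [Ideal.Quotient.factor_mk, Ideal.Quotient.eq_zero_iff_mem]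
    exact Ideal.mem_sup_right (Ideal.mem_span_singleton_self g))
  rw [hm] at h2
  push_cast at h2
  generalize ringKrullDim (T ⧸ (𝔭 ⊔ Ideal.span {g})) = a at h2 ⊢
  induction a with
  | bot => exact bot_le
  | coe a =>
    have h3 : a + 1 ≤ (m : ℕ∞) + 1 := by exact_mod_cast h2
    exact_mod_cast (ENat.add_le_add_iff_right (by simp)).1 h3

section
variable {p : ℕ} {T : Type} [CommRing T] [IsLocalRing T] {𝔭 : Ideal T} {m : ℕ} {A : Type}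
  [CommRing A] [IsLocalRing A] {x : Fin (m + 1) → A} [Algebra A (T ⧸ 𝔭)] {Λ : Type} [CommRing Λ]
  [Algebra A Λ] {lam : LenFn Λ} {𝔍 : Ideal Λ} {C : Type} [CommRing C] [Algebra A C] {r : ℕ}

theorem CH.flag (h : CH p 𝔭 x lam 𝔍) (fl : FlagD A (T ⧸ 𝔭) C r) (ω : C →ₐ[A] Λ ⧸ 𝔍)
    (τ : Fin r → (T →+* Λ))
    (hτ : ∀ i y, Ideal.Quotient.mk 𝔍 (τ i y) = ω (fl.σ i (Ideal.Quotient.mk 𝔭 y))) {F : FC T}
    (hF : HF 𝔭 F) :
    (∀ i, phF lam (thL Λ (rhoG fl ω)) F (fun _ => ⊤) (pw (p : Λ) (Fin r → Λ ⧸ 𝔍)) i ≠ ⊤) ∧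
      pchi (phF lam (thL Λ (rhoG fl ω)) F (fun _ => ⊤) (pw (p : Λ) (Fin r → Λ ⧸ 𝔍))) =
        ∑ j, pchi (phF lam (thS (τ j) Λ) F (fun _ => ⊤) (pw (p : Λ) Λ)) := by
  have h1 : ∀ j, phF lam (thS (τ j) Λ) F (fun _ => ⊤) (pw (p : Λ) Λ) =
      phF lam (thS (τ j) (Λ ⧸ 𝔍)) F (fun _ => ⊤) (pw (p : Λ) (Λ ⧸ 𝔍)) := fun j =>
    funext fun i => phF_quot lam 𝔍 (p : Λ) h.al (τ j) F i
  simp only [h1]
  refine phF_flag lam (rhoG fl ω) (fun y i j hij => ?_) τ (fun y i => ?_) (p : Λ) F fun j i => ?_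
  · change ω (fl.ρ (Ideal.Quotient.mk 𝔭 y) i j) = 0
    rw [fl.ut _ i j hij, map_zero]
  · change ω (fl.ρ (Ideal.Quotient.mk 𝔭 y) i i) = Ideal.Quotient.mk 𝔍 (τ i y)
    rw [fl.diag, hτ]
  · rw [← h1]
    exact h.phF_ne_top (τ j) (ω.comp (fl.σ j)) (hτ j) hF i

theorem cTw_range {M L : Type} [AddCommGroup M] [Module Λ M] [AddCommGroup L] [Module Λ L]
    {θ' : T →+* Module.End Λ M} {θ : T →+* Module.End Λ L} (ψ : M →ₗ[Λ] L)
    (hψ : ∀ y v, ψ (θ' y v) = θ y (ψ v)) (ϖ : Λ) :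
    CTw θ (fun N => LinearMap.range ψ ⊔ pw ϖ L N) (pw ϖ L) ∧
      CTw θ (fun _ => ⊤) fun N => LinearMap.range ψ ⊔ pw ϖ L N := by
  have h0 := CTw.pw θ ϖ
  have ha : Antitone fun N => LinearMap.range ψ ⊔ pw ϖ L N := fun N N' hN =>
    sup_le_sup_left (h0.antiU hN) _
  have hs : ∀ N y, ∀ v ∈ LinearMap.range ψ ⊔ pw ϖ L N, θ y v ∈ LinearMap.range ψ ⊔ pw ϖ L N := by
    intro N y v hv
    obtain ⟨_, ⟨u, rfl⟩, w, hw, rfl⟩ := Submodule.mem_sup.1 hv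
    rw [map_add, ← hψ]
    exact Submodule.add_mem_sup ⟨_, rfl⟩ (h0.stU N y w hw)
  exact ⟨⟨ha, h0.antiU, fun N => le_sup_right, hs, h0.stU⟩,
    ⟨h0.antiW, ha, fun N => le_top, h0.stW, hs⟩⟩

end

theorem cmpStmt : CmpStmt := by
  intro p T _ _ d hd hE 𝔭 𝔮 h𝔭 hc _ m b hm hb hmb ι _ _ deg P hP A _ _ _ x hx hx0 hreg _ _ hinj
    hloc hres C _ _ r hr fl Λ _ _ _ lam _ hq 𝔍 ω τ hτ hal hs hpos
  have h : CH p 𝔭 x lam 𝔍 := ⟨inferInstance, inferInstance, h𝔭, hx, hx0, hreg, inferInstance, hinj,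
    hloc, hres, inferInstance, hq, hal⟩
  obtain ⟨ψ, ψ₁, ψ₂, ψ₃⟩ := exists_psi fl 𝔍 ω
  set θ := thL Λ (rhoG fl ω) with hθ
  obtain ⟨tw₁, tw₂⟩ := cTw_range ψ ψ₁ (p : Λ)
  have hq𝔮 : 𝔮 ≤ HI hP.fc := fun y hy =>
    hP.fc_res.htpy (by rwa [Ideal.annihilator_quotient])
  have hF : HF 𝔭 hP.fc := by
    obtain ⟨c, hc⟩ := hc
    exact ⟨c, hc.trans (sup_le_sup_left hq𝔮 _)⟩
  have hrange : ∀ F : FC T, HF 𝔭 F → ∀ i,
      phF lam θ F (fun N => LinearMap.range ψ ⊔ pw (p : Λ) _ N) (pw (p : Λ) _) i =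
        hl (lenFn T) F.deg F.d (T ⧸ 𝔭) i * lam.q ((maximalIdeal A).map (algebraMap A Λ)) :=
    fun F hF i => by rw [← h.phF_range θ ψ fl.g_ne ψ₁ ψ₃ F i, h.phF_V0 hF]
  have hfin₁ : ∀ F : FC T, HF 𝔭 F → ∀ i,
      phF lam θ F (fun N => LinearMap.range ψ ⊔ pw (p : Λ) _ N) (pw (p : Λ) _) i ≠ ⊤ :=
    fun F hF i => by
      rw [hrange F hF]
      exact ENNReal.mul_ne_top (h.hl_ne_top hF i) hq
  have hfin₂ : ∀ F : FC T, HF 𝔭 F → ∀ i,
      phF lam θ F (fun _ => ⊤) (fun N => LinearMap.range ψ ⊔ pw (p : Λ) _ N) i ≠ ⊤ := by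
    intro F hF i
    obtain ⟨α, β, γ, H⟩ := phF_les lam F tw₁ tw₂
    have a1 := (h.flag fl ω τ hτ hF).1 i
    have a2 := hfin₁ F hF (i - 1)
    rw [(H i).2.1] at a1
    rw [(H (i - 1)).1, sub_add_cancel] at a2
    rw [(H i).2.2]
    exact ENNReal.add_ne_top.2 ⟨(ENNReal.add_ne_top.1 a1).2, (ENNReal.add_ne_top.1 a2).1⟩
  obtain ⟨g, hg⟩ := Ideal.Quotient.mk_surjective (algebraMap A (T ⧸ 𝔭) fl.g)
  have hgp : g ∉ 𝔭 := fun h0 => fl.g_ne (hinj (by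
    rw [← hg, map_zero, Ideal.Quotient.eq_zero_iff_mem.2 h0]))
  have hkill : ∀ y ∈ 𝔭 ⊔ Ideal.span {g}, ∀ N : ℕ, ∀ v ∈ (⊤ : Submodule Λ (Fin r → Λ ⧸ 𝔍)),
      θ y v ∈ LinearMap.range ψ ⊔ pw (p : Λ) _ N := by
    intro y hy N v _
    obtain ⟨u, hu, w, hw, rfl⟩ := Submodule.mem_sup.1 hy
    obtain ⟨a, rfl⟩ := Ideal.mem_span_singleton'.1 hw
    have e1 : θ u = 0 := by
      have : rhoG fl ω u = 0 := by
        change (RingHom.mapMatrix ω.toRingHom) (fl.ρ (Ideal.Quotient.mk 𝔭 u)) = 0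
        rw [Ideal.Quotient.eq_zero_iff_mem.2 hu, map_zero, map_zero]
      refine LinearMap.ext fun v => ?_
      change (rhoG fl ω u).mulVec v = 0
      rw [this, Matrix.zero_mulVec]
    have e2 : ∀ v, θ g v = algebraMap A Λ fl.g • v := by
      intro v
      change ((fl.ρ (Ideal.Quotient.mk 𝔭 g)).map ω).mulVec v = _
      rw [hg, AlgHom.commutes, Matrix.algebraMap_eq_diagonal,
        Matrix.diagonal_map (map_zero ω)]
      funext i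
      rw [Matrix.mulVec_diagonal, Pi.algebraMap_apply, AlgHom.commutes, Pi.smul_apply,
        Algebra.smul_def]
      rfl
    rw [map_add, e1, zero_add, mul_comm, map_mul, Module.End.mul_apply, e2]
    exact Submodule.mem_sup_left (ψ₂ _)
  have hfin₃ : ∀ F : FC T, HF (𝔭 ⊔ Ideal.span {g}) F → ∀ i,
      phF lam θ F (fun _ => ⊤) (fun N => LinearMap.range ψ ⊔ pw (p : Λ) _ N) i ≠ ⊤ := by
    rintro F ⟨c, hc⟩ i
    obtain ⟨y, hy, hy'⟩ := h.exists_lift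
    obtain ⟨c', hc'⟩ := hy' c
    refine ne_top_of_le_ne_top (hfin₂ (F.kos (List.ofFn fun i => y i ^ c)) ⟨c', hc'.trans
      (sup_le_sup_left (fun z hz => F.htpy_kos _ (Or.inl hz)) _)⟩ i)
      (phF_le_kos lam tw₂ F hkill _ (fun z hz => ?_) i)
    obtain ⟨k, rfl⟩ := List.mem_ofFn.1 hz
    exact hc (Ideal.pow_mem_pow (hy k).1 c)
  have hQ := pchi_eq_zero_of_estar lam (reg_glDim hd) hE tw₂ (𝔭 ⊔ Ideal.span {g}) (cmp_dim hm hgp)
    hfin₃ 𝔮 (by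
      obtain ⟨c, hc⟩ := hc
      exact ⟨c, hc.trans (sup_le_sup_right le_sup_left _)⟩) hb (by omega) hP.fc hP.fc_res
  have hadd := (pchi_phF_add lam hP.fc tw₁ tw₂ (hfin₁ _ hF) (hfin₂ _ hF)).2
  rw [hQ, add_zero, (h.flag fl ω τ hτ hF).2, funext (hrange _ hF)] at hadd
  have hL : ∀ j, pchi (phF lam (thS (τ j) Λ) hP.fc (fun _ => ⊤) (pw (p : Λ) Λ)) =
      chiG lam d deg (P.map (τ j)) Λ := by
    intro j
    obtain ⟨s, hs⟩ := hs j
    rw [pchi_eq_chi (lo := 0) (hi := d) fun i hi =>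
      phF_eq_zero lam hP.fc hP.1.deg_le _ _ hi,
      funext (phF_eq_hl lam (τ j) hP.fc h.reg_p (Ideal.map_mono hq𝔮 hs))]
    rfl
  have hR : pchi (fun i => hl (lenFn T) hP.fc.deg hP.fc.d (T ⧸ 𝔭) i *
      lam.q ((maximalIdeal A).map (algebraMap A Λ))) = chiG (lenFn T) d deg P (T ⧸ 𝔭) *
        (lam.q ((maximalIdeal A).map (algebraMap A Λ))).toReal := by
    rw [pchi_eq_chi (lo := 0) (hi := d) fun i hi => ?_]
    · simp only [chiG, chi, Finset.sum_mul, ENNReal.toReal_mul, mul_assoc]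
      rfl
    · rcases hi with hi | hi
      · rw [hl_neg _ hi, zero_mul]
      · rw [show hl (lenFn T) hP.fc.deg hP.fc.d (T ⧸ 𝔭) i = 0 from hl_high _ hP.1 hi, zero_mul]
  rw [hR] at hadd
  simp only [hL] at hadd
  have : Nonempty (Fin r) := ⟨⟨0, hr⟩⟩
  have h0 : 0 < ∑ j, chiG lam d deg (P.map (τ j)) Λ :=
    Finset.sum_pos (fun j _ => hpos j) Finset.univ_nonempty
  rw [hadd] at h0
  exact (pos_iff_pos_of_mul_pos h0).2 (lt_of_le_of_ne ENNReal.toReal_nonneg fun e => by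
    rw [← e, mul_zero] at h0
    exact lt_irrefl _ h0)

end Crest.Agent.R188
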