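import Crest.Agent.R188.TDefs

/-! Row 188, part IV: basic facts on homology lengths; the long exact sequence in the module. -/

set_option autoImplicit false

namespace Crest.Agent.R188

open Crest.Agent.R183 IsLocalRing
open scoped ENNReal TensorProduct

variable {Λ : Type} [CommRing Λ] {ι : Type} [Fintype ι] {d : ℕ} {deg : ι → ℕ} {P : Matrix ι ι Λ}
  {M : Type} [AddCommGroup M] [Module Λ M]

theorem mem_Zt {j : ℤ} {v : ι → M} :
    v ∈ Zt deg P M j ↔ v ∈ gr deg j (⊤ : Submodule Λ M) ∧ mact P M v = 0 := Iff.rfl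

theorem mem_Bt {j : ℤ} {v : ι → M} :
    v ∈ Bt deg P M j ↔ ∃ w ∈ gr deg (j + 1) (⊤ : Submodule Λ M), mact P M w = v := Iff.rfl

theorem Bt_le_Zt (h : GCx d deg P) (j : ℤ) : Bt deg P M j ≤ Zt deg P M j := by
  rintro v ⟨w, hw, rfl⟩
  refine ⟨?_, cxa_DD h.mact_sq w⟩
  have := h.mact_mem (N := M) hw
  rwa [add_sub_cancel_right] at this

theorem GCx_mono (h : GCx d deg P) {d' : ℕ} (hd : d ≤ d') : GCx d' deg P :=
  ⟨fun b => (h.deg_le b).trans hd, h.P_deg, h.sq⟩

theorem hl_eq_st (lam : LenFn Λ) (j : ℤ) :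
    hl lam deg P M j =
      st lam (mact P M) (fun i => gr deg i (⊤ : Submodule Λ M)) (fun _ => ⊥) (fun _ => ⊥) j := by
  unfold hl st Zc Bd Zt Bt
  rw [sup_bot_eq, Submodule.comap_bot]

theorem hl_eq_zero_of_le (lam : LenFn Λ) {j : ℤ} (h : Zt deg P M j ≤ Bt deg P M j) :
    hl lam deg P M j = 0 :=
  lam.rel_of_le h

theorem hl_neg (lam : LenFn Λ) {j : ℤ} (hj : j < 0) : hl lam deg P M j = 0 := by
  refine hl_eq_zero_of_le lam fun v hv => ?_
  have : v = 0 := funext fun b => ((mem_gr.1 hv.1) b).2 (by omega)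
  rw [this]
  exact Submodule.zero_mem _

theorem hl_high (lam : LenFn Λ) (h : GCx d deg P) {j : ℤ} (hj : (d : ℤ) < j) :
    hl lam deg P M j = 0 := by
  refine hl_eq_zero_of_le lam (le_trans inf_le_left ?_)
  rw [h.gr_eq_bot (Or.inr hj)]
  exact bot_le

theorem hl_subsingleton (lam : LenFn Λ) [Subsingleton M] (j : ℤ) : hl lam deg P M j = 0 := by
  refine hl_eq_zero_of_le lam fun v _ => ?_
  rw [Subsingleton.elim v 0]
  exact Submodule.zero_mem _

theorem tb_inj (lam : LenFn Λ) {M' : Type} [AddCommGroup M'] [Module Λ M'] (f : M →ₗ[Λ] M')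
    (hf : Function.Injective f) (j : ℤ) :
    hl lam deg P M j =
      st lam (mact P M') (fun i => gr deg i (LinearMap.range f)) (fun _ => ⊥) (fun _ => ⊥) j := by
  have hF : Function.Injective (f.compLeft ι) := fun v w hvw =>
    funext fun b => hf (congrFun hvw b)
  have hg : ∀ i, gr deg i (LinearMap.range f) = (gr deg i ⊤).map (f.compLeft ι) := fun i => by
    rw [← gr_map, Submodule.map_top]
  unfold hl st
  rw [← lam.rel_map_of_injective (f.compLeft ι) hF]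
  congr 1
  · ext v
    rw [cxa_mem_Zc, hg]
    constructor
    · rintro ⟨w, hw, rfl⟩
      refine ⟨⟨w, hw.1, rfl⟩, ?_⟩
      rw [mact_compLeft, (mem_Zt.1 hw).2, map_zero]
      exact Submodule.zero_mem _
    · rintro ⟨⟨w, hw, rfl⟩, h0⟩
      refine ⟨w, mem_Zt.2 ⟨hw, hF ?_⟩, rfl⟩
      rw [← mact_compLeft, map_zero]
      exact h0
  · unfold Bd Bt
    beta_reduce
    rw [sup_bot_eq, hg, ← Submodule.map_comp, ← Submodule.map_comp]
    congr 1
    exact LinearMap.ext fun v => (mact_compLeft P f v).symm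

theorem tb_surj (lam : LenFn Λ) (h : GCx d deg P) {M' : Type} [AddCommGroup M'] [Module Λ M']
    (g : M →ₗ[Λ] M') (hg : Function.Surjective g) (j : ℤ) :
    hl lam deg P M' j =
      st lam (mact P M) (fun i => gr deg i ⊤) (fun i => gr deg i (LinearMap.ker g))
        (fun i => gr deg i (LinearMap.ker g)) j := by
  have hG : ∀ i, (gr deg i (⊤ : Submodule Λ M)).map (g.compLeft ι) = gr deg i ⊤ := fun i => by
    rw [← gr_map, Submodule.map_top, LinearMap.range_eq_top.2 hg]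
  have hK : ∀ i (v : ι → M), v ∈ gr deg i (LinearMap.ker g) ↔
      v ∈ gr deg i (⊤ : Submodule Λ M) ∧ g.compLeft ι v = 0 := by
    intro i v
    rw [mem_gr, mem_gr]
    exact ⟨fun H => ⟨fun b => ⟨trivial, (H b).2⟩, funext fun b => (H b).1⟩,
      fun H b => ⟨congrFun H.2 b, (H.1 b).2⟩⟩
  have hZ : (Zc (mact P M) (fun i => gr deg i ⊤) (fun i => gr deg i (LinearMap.ker g)) j).map
      (g.compLeft ι) = Zt deg P M' j := by
    ext v
    constructor
    · rintro ⟨w, hw, rfl⟩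
      obtain ⟨a, b⟩ := cxa_mem_Zc.1 hw
      refine mem_Zt.2 ⟨hG j ▸ Submodule.mem_map_of_mem a, ?_⟩
      rw [mact_compLeft]
      exact ((hK _ _).1 b).2
    · intro hv
      obtain ⟨a, b⟩ := mem_Zt.1 hv
      rw [← hG j] at a
      obtain ⟨w, hw, rfl⟩ := a
      refine ⟨w, cxa_mem_Zc.2 ⟨hw, (hK _ _).2 ⟨h.mact_mem hw, ?_⟩⟩, rfl⟩
      rw [← mact_compLeft]
      exact b
  unfold hl st
  rw [← hZ, lam.rel_map_comap, ← lam.rel_inf_right, ← lam.rel_inf_right _ (Bd _ _ _ _)]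
  congr 1
  ext v
  simp only [Submodule.mem_inf, Submodule.mem_comap, and_congr_right_iff]
  intro hv
  rw [cxa_mem_Bd, mem_Bt]
  constructor
  · rintro ⟨w', hw', e⟩
    rw [← hG] at hw'
    obtain ⟨w, hw, rfl⟩ := hw'
    refine ⟨w, hw, (hK _ _).2 ⟨Submodule.sub_mem _ (cxa_mem_Zc.1 hv).1 ((h.sub ⊤).cxa_mem' hw), ?_⟩⟩
    rw [map_sub, ← e, mact_compLeft, sub_self]
  · rintro ⟨w, hw, e⟩
    refine ⟨g.compLeft ι w, hG _ ▸ Submodule.mem_map_of_mem hw, ?_⟩
    have := ((hK _ _).1 e).2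
    rw [map_sub, sub_eq_zero] at this
    rw [mact_compLeft, this]

theorem hl_congr (lam : LenFn Λ) {M' : Type} [AddCommGroup M'] [Module Λ M'] (e : M ≃ₗ[Λ] M')
    (j : ℤ) : hl lam deg P M j = hl lam deg P M' j := by
  rw [tb_inj lam e.toLinearMap e.injective j, LinearEquiv.range, hl_eq_st]

theorem chiG_congr (lam : LenFn Λ) {M' : Type} [AddCommGroup M'] [Module Λ M'] (e : M ≃ₗ[Λ] M') :
    chiG lam d deg P M = chiG lam d deg P M' := by
  unfold chiG
  rw [funext (hl_congr lam e)]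

theorem chiG_of_le (lam : LenFn Λ) (h : GCx d deg P) {d' : ℕ} (hd : d ≤ d') :
    chiG lam d' deg P M = chiG lam d deg P M := by
  unfold chiG chi
  symm
  refine Finset.sum_subset (Finset.Icc_subset_Icc_right (by exact_mod_cast hd)) fun j hj hj' => ?_
  rw [Finset.mem_Icc] at hj hj'
  rw [hl_high lam h (by omega), ENNReal.toReal_zero, mul_zero]

/-- the long exact homology sequence of `0 → P ⊗ M₁ → P ⊗ M₂ → P ⊗ M₃ → 0`, in terms of lengths. -/
theorem hl_les (lam : LenFn Λ) (h : GCx d deg P) {M₁ M₂ M₃ : Type} [AddCommGroup M₁] [Module Λ M₁]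
    [AddCommGroup M₂] [Module Λ M₂] [AddCommGroup M₃] [Module Λ M₃] (f : M₁ →ₗ[Λ] M₂)
    (g : M₂ →ₗ[Λ] M₃) (hf : Function.Injective f) (hg : Function.Surjective g)
    (hfg : Function.Exact f g) :
    ∃ α β γ : ℤ → ℝ≥0∞, ∀ j, hl lam deg P M₁ j = γ (j + 1) + α j ∧
      hl lam deg P M₂ j = α j + β j ∧ hl lam deg P M₃ j = β j + γ j := by
  obtain ⟨α, β, γ, H⟩ := h_add (lam := lam) (h.mact_sq (N := M₂)) (h.sub ⊤) (h.sub (LinearMap.range f))
    (U := fun _ => ⊥) (fun i => by simp) (fun i => gr_mono deg i le_top) (fun _ => bot_le)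
  refine ⟨α, β, γ, fun j => ⟨?_, ?_, ?_⟩⟩
  · rw [tb_inj lam f hf j]
    exact (H j).1
  · rw [hl_eq_st]
    exact (H j).2.1
  · rw [tb_surj lam h g hg j, hfg.linearMap_ker_eq]
    exact (H j).2.2

theorem chiG_add (lam : LenFn Λ) (h : GCx d deg P) {M₁ M₂ M₃ : Type} [AddCommGroup M₁]
    [Module Λ M₁] [AddCommGroup M₂] [Module Λ M₂] [AddCommGroup M₃] [Module Λ M₃]
    (f : M₁ →ₗ[Λ] M₂) (g : M₂ →ₗ[Λ] M₃) (hf : Function.Injective f) (hg : Function.Surjective g)
    (hfg : Function.Exact f g) (h₁ : ∀ j, hl lam deg P M₁ j ≠ ⊤)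
    (h₃ : ∀ j, hl lam deg P M₃ j ≠ ⊤) :
    chiG lam d deg P M₂ = chiG lam d deg P M₁ + chiG lam d deg P M₃ := by
  obtain ⟨α, β, γ, H⟩ := hl_les lam h f g hf hg hfg
  exact chi_add_of_les H h₁ h₃ (hl_neg lam (by omega)) (hl_high lam h (by omega))

theorem PRes.mono {n n' : ℤ} {N : Type} [AddCommGroup N] [Module Λ N] (h : PRes d n deg P N)
    (hn : n' ≤ n) {d' : ℕ} (hd : d ≤ d') : PRes d' n' deg P N := by
  obtain ⟨h1, ε, h2⟩ := h
  exact ⟨GCx_mono h1 hd, ε, h2.surj, h2.ker, fun j a b => h2.ex j a (b.trans_le hn)⟩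

theorem Resol.pres {N : Type} [AddCommGroup N] [Module Λ N] (h : Resol d deg P N) (n : ℤ) :
    PRes d n deg P N := by
  obtain ⟨h1, ε, h2⟩ := h
  refine ⟨h1, ε, h2.surj, h2.ker, fun j a _ => ?_⟩
  rcases lt_or_ge (d : ℤ) j with hj | hj
  · refine le_trans inf_le_left ?_
    rw [h1.gr_eq_bot (Or.inr hj)]
    exact bot_le
  · exact h2.ex j a (by omega)

theorem Resol.mono {N : Type} [AddCommGroup N] [Module Λ N] (h : Resol d deg P N) {d' : ℕ}
    (hd : d ≤ d') : Resol d' deg P N :=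
  (h.pres _).mono le_rfl hd

theorem PRes.congr {n : ℤ} {N N' : Type} [AddCommGroup N] [Module Λ N] [AddCommGroup N']
    [Module Λ N'] (h : PRes d n deg P N) (e : N ≃ₗ[Λ] N') : PRes d n deg P N' := by
  obtain ⟨h1, ε, h2⟩ := h
  refine ⟨h1, e.toLinearMap ∘ₗ ε, ?_, ?_, h2.ex⟩
  · rw [Submodule.map_comp, h2.surj, Submodule.map_top, LinearEquiv.range]
  · rw [LinearMap.ker_comp, LinearEquiv.ker, Submodule.comap_bot]
    exact h2.ker

theorem HasRes.congr {N N' : Type} [AddCommGroup N] [Module Λ N] [AddCommGroup N']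
    [Module Λ N'] (h : HasRes Λ d N) (e : N ≃ₗ[Λ] N') : HasRes Λ d N' := by
  obtain ⟨ι, _, _, deg, P, h⟩ := h
  exact ⟨ι, inferInstance, inferInstance, deg, P, PRes.congr h e⟩

theorem PRes.finite {n : ℤ} {N : Type} [AddCommGroup N] [Module Λ N] (h : PRes d n deg P N) :
    Module.Finite Λ N := by
  obtain ⟨-, ε, h2⟩ := h
  refine Module.Finite.of_surjective ε fun y => ?_
  have : y ∈ (gr deg 0 (⊤ : Submodule Λ Λ)).map ε := by rw [h2.surj]; trivial
  obtain ⟨x, -, hx⟩ := this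
  exact ⟨x, hx⟩

/-- the homology of the resolution itself. -/
theorem PRes.hl_self (lam : LenFn Λ) {n : ℤ} {N : Type} [AddCommGroup N] [Module Λ N]
    (h : PRes d n deg P N) :
    hl lam deg P Λ 0 = lam.toFun N ∧ ∀ j : ℤ, j ≠ 0 → j < n → hl lam deg P Λ j = 0 := by
  obtain ⟨h1, ε, h2⟩ := h
  refine ⟨?_, fun j h0 hn => ?_⟩
  · have hZ : Zt deg P Λ 0 = gr deg 0 ⊤ := by
      refine inf_eq_left.2 fun v hv => ?_
      have := h1.mact_mem (N := Λ) hv
      rw [h1.gr_eq_bot (Or.inl (by omega))] at this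
      exact this
    unfold hl
    rw [hZ, ← h2.ker, lam.rel_inf_right, ← Submodule.comap_bot, ← lam.rel_map_comap, h2.surj, lam.rel_bot]
    exact lam.congr Submodule.topEquiv
  · rcases lt_or_gt_of_ne h0 with hj | hj
    · exact hl_neg lam hj
    · exact hl_eq_zero_of_le lam (h2.ex j (by omega) hn)

end Crest.Agent.R188
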