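import Crest.Agent.R188.CDefs
import Crest.Agent.R188.TBasic

/-! Row 188, comparison step: calculus of stable lengths. -/

set_option autoImplicit false

namespace Crest.Agent.R188

open Crest.Agent.R183 IsLocalRing
open scoped ENNReal TensorProduct

variable {Λ V : Type} [CommRing Λ] [AddCommGroup V] [Module Λ V] (lam : LenFn Λ)

/-- the general comparison principle. -/
theorem prel_le {Λ' V' : Type} [CommRing Λ'] [AddCommGroup V'] [Module Λ' V'] (lam' : LenFn Λ')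
    {Z B : ℕ → Submodule Λ V} {Z' B' : ℕ → Submodule Λ' V'}
    (h : ∀ N, ∃ N₁, ∀ N₁', ∃ N', lam.rel (Z N') (B N) ≤ lam'.rel (Z' N₁') (B' N₁)) :
    prel lam Z B ≤ prel lam' Z' B' := by
  refine iSup_le fun N => ?_
  obtain ⟨N₁, hN₁⟩ := h N
  refine le_iSup_of_le N₁ (le_iInf fun N₁' => ?_)
  obtain ⟨N', hN'⟩ := hN₁ N₁'
  exact iInf_le_of_le N' hN'

theorem prel_le_of_forall {Z B : ℕ → Submodule Λ V} {c : ℝ≥0∞}
    (h : ∀ N, ∃ N', lam.rel (Z N') (B N) ≤ c) : prel lam Z B ≤ c := by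
  refine iSup_le fun N => ?_
  obtain ⟨N', hN'⟩ := h N
  exact iInf_le_of_le N' hN'

theorem prel_congr {Λ' V' : Type} [CommRing Λ'] [AddCommGroup V'] [Module Λ' V'] (lam' : LenFn Λ')
    {Z B : ℕ → Submodule Λ V} {Z' B' : ℕ → Submodule Λ' V'} (hZ : Antitone Z) (hZ' : Antitone Z')
    (h : ∀ N N', N ≤ N' → lam.rel (Z N') (B N) = lam'.rel (Z' N') (B' N)) :
    prel lam Z B = prel lam' Z' B' := by
  refine le_antisymm (prel_le lam lam' fun N => ⟨N, fun N₁ => ⟨max N N₁, ?_⟩⟩)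
    (prel_le lam' lam fun N => ⟨N, fun N₁ => ⟨max N N₁, ?_⟩⟩)
  · rw [h N _ (le_max_left _ _)]
    exact lam'.rel_mono_left (hZ' (le_max_right _ _)) _
  · rw [← h N _ (le_max_left _ _)]
    exact lam.rel_mono_left (hZ (le_max_right _ _)) _

/-- eventually constant towers. -/
theorem prel_eq_of_eventually {Z B : ℕ → Submodule Λ V} (hZ : Antitone Z) (hB : Antitone B)
    {c : ℝ≥0∞} (N₀ : ℕ) (h : ∀ N, N₀ ≤ N → ∃ N₁, ∀ N', N₁ ≤ N' → lam.rel (Z N') (B N) = c) :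
    prel lam Z B = c := by
  refine le_antisymm (prel_le_of_forall lam fun N => ?_) ?_
  · obtain ⟨N₁, hN₁⟩ := h (max N N₀) (le_max_right _ _)
    exact ⟨N₁, (lam.rel_anti_right _ (hB (le_max_left N N₀))).trans (hN₁ N₁ le_rfl).le⟩
  · obtain ⟨N₁, hN₁⟩ := h N₀ le_rfl
    refine le_iSup_of_le N₀ (le_iInf fun N' => ?_)
    rw [← hN₁ (max N' N₁) (le_max_right _ _)]
    exact lam.rel_mono_left (hZ (le_max_left _ _)) _

/-- additivity.  `≤`: `rel (Z N') (U N) ≤ rel (Z N') (U' N₁) + rel (Z N₁ ⊓ U' N₁) (U N)` for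
`N₁ ≤ N'` (`rel_triangle`, `rel_inf_right`).  `≥`: `rel_add'`, and `⨅`/`⨆` of monotone families in
`ℝ≥0∞` commute with `+` (`ENNReal.iInf_add_iInf`, `ENNReal.iSup_add_iSup_of_monotone`). -/
theorem prel_add' {Z U U' : ℕ → Submodule Λ V} (hZ : Antitone Z) (hU : Antitone U)
    (hU' : Antitone U') (h : ∀ N, U N ≤ U' N) :
    prel lam Z U = prel lam Z U' + prel lam (fun N => Z N ⊓ U' N) U := by
  refine le_antisymm (iSup_le fun N => ?_) ?_
  · have h1 : (⨅ N₁, lam.rel (Z N₁ ⊓ U' N₁) (U N)) ≤ prel lam (fun N => Z N ⊓ U' N) U :=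
      le_iSup (fun N => ⨅ N₁, lam.rel (Z N₁ ⊓ U' N₁) (U N)) N
    refine le_trans ?_ (add_le_add_right h1 _)
    rw [ENNReal.add_iInf]
    refine le_iInf fun N₁ => ?_
    have h2 : (⨅ N', lam.rel (Z N') (U' N₁)) ≤ prel lam Z U' :=
      le_iSup (fun N => ⨅ N', lam.rel (Z N') (U' N)) N₁
    refine le_trans ?_ (add_le_add_left h2 _)
    rw [ENNReal.iInf_add]
    refine le_iInf fun N'' => iInf_le_of_le (max N'' N₁) ?_
    refine (lam.rel_triangle _ (Z N₁ ⊓ U' N₁) _).trans (add_le_add_left ?_ _)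
    rw [← lam.rel_inf_right, ← inf_assoc, inf_eq_left.2 (hZ (le_max_right N'' N₁)),
      lam.rel_inf_right]
    exact lam.rel_mono_left (hZ (le_max_left _ _)) _
  · have m1 : Monotone fun N => ⨅ N', lam.rel (Z N') (U' N) := fun N M hNM =>
      iInf_mono fun N' => lam.rel_anti_right _ (hU' hNM)
    have m2 : Monotone fun N => ⨅ N', lam.rel (Z N' ⊓ U' N') (U N) := fun N M hNM =>
      iInf_mono fun N' => lam.rel_anti_right _ (hU hNM)
    unfold prel
    rw [ENNReal.iSup_add_iSup_of_monotone m1 m2]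
    refine iSup_mono fun N => le_iInf fun N' => ?_
    rw [lam.rel_add' (Z N') (h N)]
    refine add_le_add (iInf_le _ N') (iInf_le_of_le (max N' N) ?_)
    exact lam.rel_mono_left (inf_le_inf (hZ (le_max_left _ _)) (hU' (le_max_right _ _))) _

theorem prel_gr {M ι : Type} [AddCommGroup M] [Module Λ M] [Fintype ι] (deg : ι → ℕ) (i : ℤ)
    {Z B : ℕ → Submodule Λ M} (h : prel lam Z B = 0) :
    prel lam (fun N => gr deg i (Z N)) (fun N => gr deg i (B N)) = 0 := by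
  unfold prel at h ⊢
  rw [ENNReal.iSup_eq_zero] at h ⊢
  intro N
  simp only [rel_gr]
  rw [← ENNReal.mul_iInf (fun h' => absurd h' (ENNReal.natCast_ne_top _)), h N, mul_zero]

variable {D : V →ₗ[Λ] V}

theorem TwCx.antiZ {W U : ℕ → ℤ → Submodule Λ V} (h : TwCx D W U) (i : ℤ) :
    Antitone fun N => Zc D (W N) (U N) i := by
  intro N M hNM
  exact inf_le_inf (h.antiW i hNM) (Submodule.comap_mono (h.antiU (i - 1) hNM))

theorem TwCx.antiB {W U : ℕ → ℤ → Submodule Λ V} (h : TwCx D W U) (i : ℤ) :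
    Antitone fun N => Bd D (W N) (U N) i := by
  intro N M hNM
  exact sup_le_sup (Submodule.map_mono (h.antiW (i + 1) hNM)) (h.antiU i hNM)

theorem ph_le_terms (W U : ℕ → ℤ → Submodule Λ V) (i : ℤ) :
    ph lam D W U i ≤ prel lam (fun N => W N i) fun N => U N i := by
  refine prel_le lam lam fun N => ⟨N, fun N₁ => ⟨N₁, ?_⟩⟩
  exact (lam.rel_mono_left inf_le_left _).trans (lam.rel_anti_right _ le_sup_right)

/-- the long exact sequence for `U ≤ W' ≤ W` (compare `R183.h_add`; take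
`α i = prel Z(W'/U) B(W/U)`, `β i = prel Z(W/U) B(W/W')`, `γ (i+1) = prel (Z(W'/U) ⊓ B(W/U)) B(W'/U)`,
use `prel_add'`, `prel_congr`, `rel_map_comap`). -/
theorem ph_les {W W' U : ℕ → ℤ → Submodule Λ V} (h₁ : TwCx D W' U) (h₂ : TwCx D W W') :
    ∃ α β γ : ℤ → ℝ≥0∞, ∀ i, ph lam D W' U i = γ (i + 1) + α i ∧ ph lam D W U i = α i + β i ∧
      ph lam D W W' i = β i + γ i := by
  have h₃ : TwCx D W U :=
    ⟨h₁.dd, h₂.antiW, h₁.antiU, fun N i => (h₁.le N i).trans (h₂.le N i), h₂.subW, h₁.subU⟩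
  have rs : ∀ {A A' C : Submodule Λ V}, A ≤ A' ⊔ C → A' ≤ A ⊔ C → lam.rel A C = lam.rel A' C :=
    fun {A A' C} a b => by
      rw [← lam.rel_sup_right A, ← lam.rel_sup_right A',
        le_antisymm (sup_le a le_sup_right) (sup_le b le_sup_right)]
  have ri : ∀ {A C C' : Submodule Λ V}, A ⊓ C ≤ C' → A ⊓ C' ≤ C → lam.rel A C = lam.rel A C' :=
    fun {A C C'} a b => by
      rw [← lam.rel_inf_right A C, ← lam.rel_inf_right A C',
        le_antisymm (le_inf inf_le_left a) (le_inf inf_le_left b)]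
  have b12 : ∀ N i, Bd D (W' N) (U N) i ≤ Bd D (W N) (U N) i := fun N i =>
    sup_le_sup_right (Submodule.map_mono (h₂.le N _)) _
  have b23 : ∀ N i, Bd D (W N) (U N) i ≤ Bd D (W N) (W' N) i := fun N i =>
    sup_le_sup_left (h₁.le N i) _
  have z12 : ∀ N i, Zc D (W' N) (U N) i ≤ Zc D (W N) (U N) i := fun N i =>
    inf_le_inf_right _ (h₂.le N i)
  refine ⟨fun i => prel lam (fun N => Zc D (W' N) (U N) i) fun N => Bd D (W N) (U N) i,
    fun i => prel lam (fun N => Zc D (W N) (U N) i) fun N => Bd D (W N) (W' N) i,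
    fun i => prel lam (fun N => Zc D (W' N) (U N) (i - 1) ⊓ Bd D (W N) (U N) (i - 1))
      fun N => Bd D (W' N) (U N) (i - 1), fun i => ⟨?_, ?_, ?_⟩⟩
  · simp only [add_sub_cancel_right]
    rw [add_comm]
    exact prel_add' lam (h₁.antiZ i) (h₁.antiB i) (h₃.antiB i) fun N => b12 N i
  · rw [ph, prel_add' lam (h₃.antiZ i) (h₃.antiB i) (h₂.antiB i) fun N => b23 N i, add_comm]
    congr 1
    refine prel_congr lam lam ((h₃.antiZ i).inf (h₂.antiB i)) (h₁.antiZ i) fun N N' hN => rs ?_ ?_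
    · rintro z ⟨hz, hb⟩
      obtain ⟨w, hw, hb⟩ := cxa_mem_Bd.1 hb
      refine cxa_sup.2 ⟨z - D w, ⟨hb, ?_⟩, h₃.antiB i hN (cxa_mem_Bd.2 ⟨w, hw, by simp⟩)⟩
      change D (z - D w) ∈ U N' (i - 1)
      rw [map_sub, cxa_DD h₁.dd, sub_zero]
      exact hz.2
    · exact le_sup_of_le_left (le_inf (z12 N' i) (inf_le_left.trans le_sup_right))
  · rw [ph, prel_add' lam (U' := fun N => Zc D (W N) (U N) i ⊔ Bd D (W N) (W' N) i) (h₂.antiZ i)
      (h₂.antiB i) ((h₃.antiZ i).sup (h₂.antiB i)) fun N => le_sup_right, add_comm]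
    congr 1
    · refine prel_congr lam lam ((h₂.antiZ i).inf ((h₃.antiZ i).sup (h₂.antiB i))) (h₃.antiZ i)
        fun N N' hN => rs (inf_le_right.trans (sup_le_sup_left (h₂.antiB i hN) _)) ?_
      exact le_sup_of_le_left
        (le_inf (inf_le_inf_left _ (Submodule.comap_mono (h₁.le N' _))) le_sup_left)
    · refine prel_congr lam lam (h₂.antiZ i) ((h₁.antiZ (i - 1)).inf (h₃.antiB (i - 1)))
        fun N N' hN => ?_
      rw [ri (C' := (Bd D (W' N) (U N) (i - 1)).comap D), ← lam.rel_map_comap]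
      · refine rs (le_sup_of_le_left ?_) ?_
        · rintro _ ⟨v, hv, rfl⟩
          refine ⟨⟨hv.2, ?_⟩, cxa_mem_Bd.2 ⟨v, by simpa using hv.1, by simp⟩⟩
          change D (D v) ∈ U N' (i - 1 - 1)
          rw [cxa_DD h₁.dd]
          exact zero_mem _
        · rintro z ⟨hz, hb⟩
          obtain ⟨w, hw, hb⟩ := cxa_mem_Bd.1 hb
          refine cxa_sup.2 ⟨D w, ⟨w, ⟨by simpa using hw, ?_⟩, rfl⟩,
            Submodule.mem_sup_right (h₁.antiU _ hN hb)⟩
          change D w ∈ W' N' (i - 1)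
          exact cxa_of_eq (sub_mem hz.1 (h₁.le N' _ hb)) (sub_sub_cancel z (D w)).symm
      · rintro v ⟨-, hv⟩
        obtain ⟨z, hz, hb⟩ := cxa_sup.1 hv
        obtain ⟨w, hw, hb⟩ := cxa_mem_Bd.1 hb
        refine cxa_mem_Bd.2 ⟨v - z - D w, by simpa using hb, ?_⟩
        rw [map_sub, map_sub, cxa_DD h₁.dd, sub_zero, sub_sub_cancel]
        exact hz.2
      · rintro v ⟨hv, hb⟩
        obtain ⟨w, hw, hb⟩ := cxa_mem_Bd.1 hb
        rw [sub_add_cancel] at hw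
        refine cxa_sup.2 ⟨v - w, ⟨sub_mem (h₂.antiW i hN hv.1) (h₂.le N i hw), ?_⟩,
          Submodule.mem_sup_right (by simpa using hw)⟩
        change D (v - w) ∈ U N (i - 1)
        rwa [map_sub]

theorem pchi_eq_chi {h : ℤ → ℝ≥0∞} {lo hi : ℤ} (h0 : ∀ i, i < lo ∨ hi < i → h i = 0) :
    pchi h = chi lo hi h := by
  unfold pchi chi
  refine finsum_eq_sum_of_support_subset _ fun i hi' => ?_
  rw [Finset.coe_Icc, Set.mem_Icc]
  by_contra hc
  refine hi' ?_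
  simp [h0 i (by omega)]

theorem pchi_of_les {f g h α β γ : ℤ → ℝ≥0∞}
    (H : ∀ i, f i = γ (i + 1) + α i ∧ g i = α i + β i ∧ h i = β i + γ i)
    (hf : ∀ i, f i ≠ ⊤) (hh : ∀ i, h i ≠ ⊤) {lo hi : ℤ} (f0 : ∀ i, i < lo ∨ hi < i → f i = 0)
    (h0 : ∀ i, i < lo ∨ hi < i → h i = 0) : pchi g = pchi f + pchi h := by
  have g0 : ∀ i, i < lo ∨ hi < i → g i = 0 := fun i hi' => by
    have a1 := (H i).1
    have a2 := (H i).2.2
    rw [f0 i hi'] at a1
    rw [h0 i hi'] at a2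
    rw [(H i).2.1, (add_eq_zero.1 a1.symm).2, (add_eq_zero.1 a2.symm).1, add_zero]
  rw [pchi_eq_chi g0, pchi_eq_chi f0, pchi_eq_chi h0]
  exact chi_add_of_les H hf hh (f0 _ (by omega)) (h0 _ (by omega))

end Crest.Agent.R188
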