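import Crest.Agent.R188.CTw1
import Crest.Agent.R183.Len2A

/-! Row 188, comparison step: the finiteness argument `ph_fin`, given the single step. -/

set_option autoImplicit false

namespace Crest.Agent.R188

open Crest.Agent.R183 IsLocalRing
open scoped ENNReal TensorProduct

variable {Λ : Type} [CommRing Λ] (lam : LenFn Λ)

theorem c2c_col {l : List Λ} (h : RingTheory.Sequence.IsWeaklyRegular Λ l) {k : ℕ}
    (hk : k < l.length) (u : Λ) (hu : l[k] * u ∈ Ideal.ofList (l.take k)) :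
    u ∈ Ideal.ofList (l.take k) := by
  have h1 := h.regular_mod_prev k hk
  rw [isSMulRegular_quotient_iff_mem_of_smul_mem] at h1
  have h2 := h1 u
  simp only [smul_eq_mul, Ideal.mul_top] at h2
  exact h2 hu

theorem c2c_take_succ (l : List Λ) {k : ℕ} (hk : k < l.length) :
    Ideal.ofList (l.take (k + 1)) = Ideal.ofList (l.take k) ⊔ Ideal.span {l[k]} := by
  rw [List.take_succ_eq_append_getElem hk, Ideal.ofList_append, Ideal.ofList_singleton]

theorem c2c_Zc_mono {V : Type} [AddCommGroup V] [Module Λ V] (D : V →ₗ[Λ] V)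
    (W : ℤ → Submodule Λ V) {U U' : ℤ → Submodule Λ V} (h : ∀ j, U j ≤ U' j) (i : ℤ) :
    Zc D W U i ≤ Zc D W U' i :=
  inf_le_inf_left _ (Submodule.comap_mono (h _))

theorem c2c_ofList_ofFn {n : ℕ} (w : Fin n → Λ) : Ideal.ofList (List.ofFn w) = sp w := by
  unfold Ideal.ofList sp
  congr 1
  ext x
  simp [List.mem_ofFn]

theorem ph_fin_aux {ι : Type} [Fintype ι] [DecidableEq ι] {deg : ι → ℕ} {P : Matrix ι ι Λ}
    {m e : ℕ} (z : Fin (m + 1) → Λ)
    (hreg : RingTheory.Sequence.IsWeaklyRegular Λ (List.ofFn fun k => z k ^ e))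
    (hq : lam.q (sp z) ≠ ⊤) (𝔍 : Ideal Λ)
    (hal : ∀ N : ℕ, ∃ α : Λ, lam.Kills α ∧ ∀ y ∈ 𝔍, α * y ∈ Ideal.span {z 0 ^ N})
    (hH : ∀ k, ∃ y', Htpy deg P y' ∧ z k ^ e - y' ∈ 𝔍) (i : ℤ)
    (hfs : ∀ {J J' J₁ : Ideal Λ}, J₁ ≤ J → ∀ {y y' α : Λ}, (∀ u, y * u ∈ J' ⊔ J₁ → u ∈ J) →
      Htpy deg P y' → lam.Kills α → α * (y - y') ∈ J →
      lam.rel (Zc (mact P Λ) (fun j => gr deg j ⊤) (fun j => gr deg j J') i)
          (Bd (mact P Λ) (fun j => gr deg j ⊤) (fun j => gr deg j J) i) ≤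
        lam.rel (Zc (mact P Λ) (fun j => gr deg j ⊤) (fun j => gr deg j J') i)
          (Bd (mact P Λ) (fun j => gr deg j ⊤) (fun j => gr deg j (J₁ ⊔ Ideal.span {y})) i)) :
    ph lam (mact P Λ) (fun _ j => gr deg j (⊤ : Submodule Λ Λ))
      (fun N j => gr deg j (pw (z 0) Λ N)) i ≠ ⊤ := by
  obtain ⟨l, hl⟩ : ∃ l : List Λ, l = List.ofFn fun k => z k ^ e := ⟨_, rfl⟩
  rw [← hl] at hreg
  have hlen : l.length = m + 1 := by rw [hl, List.length_ofFn]
  have hget : ∀ k (hk : k < l.length), l[k] = z ⟨k, hlen ▸ hk⟩ ^ e := by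
    intro k hk
    subst hl
    rw [List.getElem_ofFn]
  have h0 : 0 < l.length := by omega
  have hJ1 : Ideal.ofList (l.take 1) = Ideal.span {z 0 ^ e} := by
    rw [c2c_take_succ l h0, List.take_zero, Ideal.ofList_nil, bot_sup_eq, hget 0 h0]
    rfl
  -- the homology lengths modulo `J k`
  obtain ⟨f, hf⟩ : ∃ f : ℕ → ℝ≥0∞, ∀ k, f k =
      lam.rel (Zc (mact P Λ) (fun j => gr deg j ⊤) (fun j => gr deg j (Ideal.ofList (l.take k))) i)
        (Bd (mact P Λ) (fun j => gr deg j ⊤) (fun j => gr deg j (Ideal.ofList (l.take k))) i) :=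
    ⟨_, fun _ => rfl⟩
  have hstep : ∀ k, 1 ≤ k → k < l.length → f k ≤ f (k + 1) := by
    intro k h1 hk
    obtain ⟨α, hα, hα'⟩ := hal e
    obtain ⟨y', hy', hyy⟩ := hH ⟨k, hlen ▸ hk⟩
    have hle : Ideal.span {z 0 ^ e} ≤ Ideal.ofList (l.take k) := by
      rw [← hJ1]
      refine Ideal.span_mono fun x hx => ?_
      exact (List.take_prefix_take_left h1).subset hx
    have h2 := hfs (J := Ideal.ofList (l.take k)) (J' := Ideal.ofList (l.take k))
      (J₁ := Ideal.ofList (l.take k)) le_rfl (y := l[k]) (y' := y') (α := α)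
      (fun u hu => c2c_col hreg hk u (by rwa [sup_idem] at hu)) hy' hα
      (hle (hα' _ (by rw [hget k hk]; exact hyy)))
    rw [hf, hf]
    refine h2.trans ?_
    rw [← c2c_take_succ l hk]
    refine lam.rel_mono_left (c2c_Zc_mono _ _ (fun j => gr_mono deg j ?_) i) _
    rw [c2c_take_succ l hk]
    exact le_sup_left
  have hchain : ∀ k, k + 1 ≤ l.length → f 1 ≤ f (k + 1) := by
    intro k
    induction k with
    | zero => exact fun _ => le_rfl
    | succ k ih => exact fun hk => (ih (by omega)).trans (hstep (k + 1) (by omega) (by omega))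
  have hlast : f (m + 1) ≠ ⊤ := by
    have h1 : f (m + 1) ≤ lam.rel (gr deg i (⊤ : Submodule Λ Λ))
        (gr deg i (Ideal.ofList (l.take (m + 1)))) := by
      rw [hf]
      exact (lam.rel_mono_left inf_le_left _).trans (lam.rel_anti_right _ le_sup_right)
    rw [rel_gr, ← lam.q_eq_rel, ← hlen, List.take_length, hl, c2c_ofList_ofFn] at h1
    have h2 := lam.q_sp_pow_le z ⊥ e
    rw [bot_sup_eq, bot_sup_eq] at h2
    rw [List.length_ofFn] at h1
    exact ne_top_of_le_ne_top (ENNReal.mul_ne_top (ENNReal.natCast_ne_top _)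
      (ne_top_of_le_ne_top (ENNReal.mul_ne_top (ENNReal.pow_ne_top (ENNReal.natCast_ne_top _)) hq)
        h2)) h1
  refine ne_top_of_le_ne_top hlast (le_trans ?_ (hchain m (by omega)))
  refine prel_le_of_forall lam fun N => ⟨N + e, ?_⟩
  have hpw : ∀ N, pw (z 0) Λ N = Ideal.span {z 0 ^ N} := fun N => by
    unfold pw
    rw [Ideal.smul_eq_mul, Ideal.mul_top]
  simp only [hpw]
  obtain ⟨α, hα, hα'⟩ := hal N
  obtain ⟨y', hy', hyy⟩ := hH 0
  have hcol : ∀ u, z 0 ^ e * u ∈ Ideal.span {z 0 ^ (N + e)} ⊔ ⊥ → u ∈ Ideal.span {z 0 ^ N} := by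
    intro u hu
    rw [sup_bot_eq, Ideal.mem_span_singleton'] at hu
    obtain ⟨a, ha⟩ := hu
    have h3 := c2c_col hreg h0 (u - a * z 0 ^ N) (by
      rw [hget 0 h0]
      have : z ⟨0, hlen ▸ h0⟩ ^ e * (u - a * z 0 ^ N) = 0 := by
        show z 0 ^ e * (u - a * z 0 ^ N) = 0
        rw [mul_sub, ← ha]
        ring
      rw [this]
      exact Ideal.zero_mem _)
    rw [List.take_zero, Ideal.ofList_nil, Ideal.mem_bot, sub_eq_zero] at h3
    rw [h3]
    exact Ideal.mul_mem_left _ _ (Ideal.mem_span_singleton_self _)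
  have h2 := hfs (J := Ideal.span {z 0 ^ N}) (J' := Ideal.span {z 0 ^ (N + e)}) (J₁ := ⊥) bot_le
    (y := z 0 ^ e) (y' := y') (α := α) hcol hy' hα (hα' _ hyy)
  refine h2.trans ?_
  rw [hf, hJ1, bot_sup_eq]
  refine lam.rel_mono_left (c2c_Zc_mono _ _ (fun j => gr_mono deg j ?_) i) _
  exact Ideal.span_singleton_le_span_singleton.2 (pow_dvd_pow _ (by omega))

end Crest.Agent.R188
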