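import Crest.Agent.R188.CTw1
import Crest.Agent.R188.CTw2c

/-! Row 188, comparison step: transport of stable homology lengths; towers with a homotopy. -/

set_option autoImplicit false

namespace Crest.Agent.R188

open Crest.Agent.R183 IsLocalRing
open scoped ENNReal TensorProduct

variable {Λ V : Type} [CommRing Λ] [AddCommGroup V] [Module Λ V] (lam : LenFn Λ)
  {D : V →ₗ[Λ] V}

/-- a map of towers of complexes with null kernel and cokernel.  Put `K = W' ⊓ f⁻¹ U`,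
`I = f W' ⊔ U`; then `ph (W'/U') = ph (W'/K) = ph (I/U) = ph (W/U)` by `ph_les`, `ph_le_terms` and
`prel_congr`. -/
theorem ph_transport {V' : Type} [AddCommGroup V'] [Module Λ V'] {D' : V' →ₗ[Λ] V'}
    (f : V' →ₗ[Λ] V) {W U : ℕ → ℤ → Submodule Λ V} {W' U' : ℕ → ℤ → Submodule Λ V'}
    (h : TwCx D W U) (h' : TwCx D' W' U') (hW : ∀ N i, (W' N i).map f ≤ W N i)
    (hU : ∀ N i, (U' N i).map f ≤ U N i)
    (hc : ∀ N i, ∀ v ∈ W' N i, D (f v) - f (D' v) ∈ U N (i - 1))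
    (hker : ∀ i, prel lam (fun N => W' N i ⊓ (U N i).comap f) (fun N => U' N i) = 0)
    (hcok : ∀ i, prel lam (fun N => W N i) (fun N => (W' N i).map f ⊔ U N i) = 0) (i : ℤ) :
    ph lam D' W' U' i = ph lam D W U i := by
  let K : ℕ → ℤ → Submodule Λ V' := fun N i => W' N i ⊓ (U N i).comap f
  let I : ℕ → ℤ → Submodule Λ V := fun N i => (W' N i).map f ⊔ U N i
  have hKa : ∀ i, Antitone fun N => K N i := fun i N N' hN =>
    inf_le_inf (h'.antiW i hN) (Submodule.comap_mono (h.antiU i hN))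
  have hIa : ∀ i, Antitone fun N => I N i := fun i N N' hN =>
    sup_le_sup (Submodule.map_mono (h'.antiW i hN)) (h.antiU i hN)
  have hKs : ∀ N, Sub D' (K N) := by
    rintro N i _ ⟨v, hv, rfl⟩
    refine ⟨(h'.subW N).cxa_mem hv.1, ?_⟩
    have := sub_mem ((h.subU N).cxa_mem hv.2) (hc N i v hv.1)
    rwa [sub_sub_cancel] at this
  have hIs : ∀ N, Sub D (I N) := by
    rintro N i _ ⟨z, hz, rfl⟩
    obtain ⟨_, ⟨v, hv, rfl⟩, hu⟩ := cxa_sup.1 hz
    refine cxa_sup.2 ⟨_, ⟨_, (h'.subW N).cxa_mem hv, rfl⟩, ?_⟩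
    have := add_mem ((h.subU N).cxa_mem hu) (hc N i v hv)
    rwa [map_sub, sub_add_sub_cancel] at this
  have t1 : TwCx D' K U' := ⟨h'.dd, hKa, h'.antiU,
    fun N i => le_inf (h'.le N i) (Submodule.map_le_iff_le_comap.1 (hU N i)), hKs, h'.subU⟩
  have t2 : TwCx D' W' K := ⟨h'.dd, h'.antiW, hKa, fun N i => inf_le_left, h'.subW, hKs⟩
  have t3 : TwCx D I U := ⟨h.dd, hIa, h.antiU, fun N i => le_sup_right, hIs, h.subU⟩
  have t4 : TwCx D W I := ⟨h.dd, h.antiW, hIa, fun N i => sup_le (hW N i) (h.le N i), h.subW, hIs⟩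
  have e1 : ph lam D' W' U' i = ph lam D' W' K i := by
    obtain ⟨α, β, γ, H⟩ := ph_les lam t1 t2
    have h0 : ∀ j, γ (j + 1) = 0 ∧ α j = 0 := fun j => add_eq_zero.1
      ((H j).1.symm.trans (le_zero_iff.1 ((ph_le_terms lam K U' j).trans (hker j).le)))
    have h1 := (h0 (i - 1)).1
    rw [sub_add_cancel] at h1
    rw [(H i).2.1, (H i).2.2, (h0 i).2, h1, zero_add, add_zero]
  have e2 : ph lam D I U i = ph lam D W U i := by
    obtain ⟨α, β, γ, H⟩ := ph_les lam t3 t4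
    have h0 : ∀ j, β j = 0 ∧ γ j = 0 := fun j => add_eq_zero.1
      ((H j).2.2.symm.trans (le_zero_iff.1 ((ph_le_terms lam W I j).trans (hcok j).le)))
    rw [(H i).1, (H i).2.1, (h0 i).1, (h0 (i + 1)).2, zero_add, add_zero]
  rw [e1, ← e2]
  refine prel_congr lam lam (t2.antiZ i) (t3.antiZ i) fun N N' hN => ?_
  have hc' : ∀ v ∈ W' N (i + 1), D (f v) - f (D' v) ∈ U N i := fun v hv => by
    simpa using hc N (i + 1) v hv
  have a1 : Zc D (I N') (U N') i ⊔ Bd D (I N) (U N) i =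
      (Zc D' (W' N') (K N') i).map f ⊔ Bd D (I N) (U N) i := by
    refine le_antisymm (sup_le (fun z hz => ?_) le_sup_right) (sup_le_sup_right ?_ _)
    · obtain ⟨hz1, hz2⟩ := cxa_mem_Zc.1 hz
      obtain ⟨_, ⟨v, hv, rfl⟩, hu⟩ := cxa_sup.1 hz1
      refine cxa_sup.2 ⟨_, ⟨v, cxa_mem_Zc.2 ⟨hv, (h'.subW N').cxa_mem hv, ?_⟩, rfl⟩,
        Submodule.mem_sup_right (h.antiU i hN hu)⟩
      have := sub_mem (sub_mem hz2 ((h.subU N').cxa_mem hu)) (hc N' i v hv)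
      rwa [map_sub, sub_sub_cancel, sub_sub_cancel] at this
    · rintro _ ⟨v, hv, rfl⟩
      obtain ⟨hv1, -, hv2⟩ := cxa_mem_Zc.1 hv
      refine cxa_mem_Zc.2 ⟨Submodule.mem_sup_left ⟨v, hv1, rfl⟩, ?_⟩
      have := add_mem (hc N' i v hv1) hv2
      rwa [sub_add_cancel] at this
  have a2 : Zc D' (W' N') (K N') i ⊓ (Bd D (I N) (U N) i).comap f =
      Zc D' (W' N') (K N') i ⊓ Bd D' (W' N) (K N) i := by
    ext v
    simp only [Submodule.mem_inf, Submodule.mem_comap, and_congr_right_iff]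
    intro hv
    rw [cxa_mem_Bd, cxa_mem_Bd]
    constructor
    · rintro ⟨w, hw, e⟩
      obtain ⟨_, ⟨w', hw', rfl⟩, hu⟩ := cxa_sup.1 hw
      refine ⟨w', hw', sub_mem (h'.antiW i hN (cxa_mem_Zc.1 hv).1) ((h'.subW N).cxa_mem' hw'), ?_⟩
      have := add_mem (add_mem e ((h.subU N).cxa_mem' hu)) (hc' w' hw')
      rwa [map_sub, sub_add_sub_cancel, sub_add_sub_cancel, ← map_sub] at this
    · rintro ⟨w', hw', -, e⟩
      refine ⟨f w', Submodule.mem_sup_left ⟨w', hw', rfl⟩, ?_⟩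
      have := sub_mem (Submodule.mem_comap.1 e) (hc' w' hw')
      rwa [map_sub, sub_sub_sub_cancel_right] at this
  rw [← lam.rel_sup_right (Zc D (I N') (U N') i), a1, lam.rel_sup_right, lam.rel_map_comap,
    ← lam.rel_inf_right _ (Submodule.comap _ _), a2, lam.rel_inf_right]

theorem pw_anti (ϖ : Λ) (V : Type) [AddCommGroup V] [Module Λ V] : Antitone (pw ϖ V) := by
  exact fun N N' h => Submodule.smul_mono_left
    (Ideal.span_singleton_le_span_singleton.2 (pow_dvd_pow ϖ h))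

theorem mem_pw {ϖ : Λ} {N : ℕ} {v : V} : v ∈ pw ϖ V N ↔ ∃ u, v = ϖ ^ N • u := by
  unfold pw
  rw [Submodule.ideal_span_singleton_smul, Submodule.mem_smul_pointwise_iff_exists]
  exact ⟨fun ⟨u, _, h⟩ => ⟨u, h.symm⟩, fun ⟨u, h⟩ => ⟨u, trivial, h.symm⟩⟩

theorem ctw2b_mem_gr_pw {M ι : Type} [AddCommGroup M] [Module Λ M] {deg : ι → ℕ} {ϖ : Λ}
    {N : ℕ} {i : ℤ} {v : ι → M} :
    v ∈ gr deg i (pw ϖ M N) ↔ ∃ u ∈ gr deg i (⊤ : Submodule Λ M), v = ϖ ^ N • u := by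
  classical
  constructor
  · intro h
    rw [mem_gr] at h
    choose u hu using fun b => mem_pw.1 (h b).1
    refine ⟨fun b => if (deg b : ℤ) = i then u b else 0,
      mem_gr.2 fun b => ⟨trivial, fun hb => if_neg hb⟩, funext fun b => ?_⟩
    by_cases hb : (deg b : ℤ) = i
    · simp [hb, ← hu b]
    · simp [hb, (h b).2 hb]
  · rintro ⟨u, hu, rfl⟩
    refine mem_gr.2 fun b => ⟨mem_pw.2 ⟨u b, rfl⟩, fun hb => ?_⟩
    rw [Pi.smul_apply, (mem_gr.1 hu b).2 hb, smul_zero]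

/-- If `ϖ` is regular and `ϖ ^ c` is null-homotopic, the `ϖ`-adic tower computes the homology:
for `N ≥ c`, `N' ≥ N + c` one has `Z(N') ≤ Z ⊔ B(N)` and `Z ⊓ B(N) = B`. -/
theorem ph_eq_of_htpy {M ι : Type} [AddCommGroup M] [Module Λ M] [Fintype ι] (deg : ι → ℕ)
    {D : (ι → M) →ₗ[Λ] (ι → M)} (hD : D ∘ₗ D = 0)
    (hdeg : ∀ i, ∀ v ∈ gr deg i (⊤ : Submodule Λ M), D v ∈ gr deg (i - 1) (⊤ : Submodule Λ M))
    {ϖ : Λ} (hϖ : IsSMulRegular M ϖ) {c : ℕ} (H : (ι → M) →ₗ[Λ] (ι → M))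
    (hH : ∀ i, ∀ v ∈ gr deg i (⊤ : Submodule Λ M), H v ∈ gr deg (i + 1) (⊤ : Submodule Λ M))
    (hc : ∀ v, D (H v) + H (D v) = ϖ ^ c • v) (i : ℤ) :
    ph lam D (fun _ j => gr deg j (⊤ : Submodule Λ M)) (fun N j => gr deg j (pw ϖ M N)) i =
      lam.rel (gr deg i (⊤ : Submodule Λ M) ⊓ LinearMap.ker D)
        ((gr deg (i + 1) (⊤ : Submodule Λ M)).map D) := by
  have hreg : ∀ (N : ℕ) (v : ι → M), ϖ ^ N • v = 0 → v = 0 := by
    intro N v hv
    funext b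
    have h1 : ϖ ^ N • v b = ϖ ^ N • (0 : M) := by rw [smul_zero]; exact congrFun hv b
    exact hϖ.pow N h1
  have hcyc : ∀ (N : ℕ), c ≤ N → ∀ u : ι → M, D u = 0 → ϖ ^ N • u = D (ϖ ^ (N - c) • H u) := by
    intro N hN u hu
    have h1 := hc u
    rw [hu, map_zero, add_zero] at h1
    rw [map_smul, h1, smul_smul, ← pow_add, Nat.sub_add_cancel hN]
  refine prel_eq_of_eventually lam ?_ ?_ c fun N hN => ⟨N + c, fun N' hN' => ?_⟩
  · intro N N' h
    exact inf_le_inf_left _ (Submodule.comap_mono (gr_mono deg _ (pw_anti ϖ M h)))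
  · intro N N' h
    exact sup_le_sup_left (gr_mono deg _ (pw_anti ϖ M h)) _
  set Z₀ := gr deg i (⊤ : Submodule Λ M) ⊓ LinearMap.ker D with hZ₀
  set B := Bd D (fun j => gr deg j (⊤ : Submodule Λ M)) (fun j => gr deg j (pw ϖ M N)) i with hB
  have h1 : Zc D (fun j => gr deg j (⊤ : Submodule Λ M)) (fun j => gr deg j (pw ϖ M N')) i ≤
      Z₀ ⊔ B := by
    intro v hv
    obtain ⟨hv1, hv2⟩ := cxa_mem_Zc.1 hv
    obtain ⟨u, hu, e⟩ := ctw2b_mem_gr_pw.1 hv2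
    have h2 : D u = 0 := hreg N' _ (by rw [← map_smul, ← e, cxa_DD hD])
    have h3 := hH _ u hu
    rw [sub_add_cancel] at h3
    refine cxa_sup.2 ⟨v - ϖ ^ (N' - c) • H u, ⟨sub_mem hv1 (Submodule.smul_mem _ _ h3), ?_⟩, ?_⟩
    · change D (v - ϖ ^ (N' - c) • H u) = 0
      rw [map_sub, e, hcyc N' (by omega) u h2, sub_self]
    · rw [sub_sub_cancel]
      refine Submodule.mem_sup_right (gr_mono deg i (pw_anti ϖ M (show N ≤ N' - c by omega)) ?_)
      exact ctw2b_mem_gr_pw.2 ⟨_, h3, rfl⟩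
  have h2 : Z₀ ≤
      Zc D (fun j => gr deg j (⊤ : Submodule Λ M)) (fun j => gr deg j (pw ϖ M N')) i := by
    intro v hv
    refine cxa_mem_Zc.2 ⟨hv.1, ?_⟩
    rw [LinearMap.mem_ker.1 hv.2]
    exact zero_mem _
  have h3 : Z₀ ⊓ B = (gr deg (i + 1) (⊤ : Submodule Λ M)).map D := by
    apply le_antisymm
    · rintro v ⟨hv, hv'⟩
      obtain ⟨w, hw, hw'⟩ := cxa_mem_Bd.1 hv'
      obtain ⟨u, hu, e⟩ := ctw2b_mem_gr_pw.1 hw'
      have h4 : D u = 0 := hreg N _ (by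
        rw [← map_smul, ← e, map_sub, cxa_DD hD, LinearMap.mem_ker.1 hv.2, sub_self])
      refine ⟨w + ϖ ^ (N - c) • H u, add_mem hw (Submodule.smul_mem _ _ (hH _ u hu)), ?_⟩
      rw [map_add, ← hcyc N hN u h4, ← e, add_sub_cancel]
    · rintro _ ⟨w, hw, rfl⟩
      refine ⟨⟨?_, cxa_DD hD w⟩, Submodule.mem_sup_left ⟨w, hw, rfl⟩⟩
      have := hdeg _ w hw
      rwa [add_sub_cancel_right] at this
  rw [← h3, lam.rel_inf_right]
  exact le_antisymm ((lam.rel_mono_left h1 B).trans (lam.rel_sup_right Z₀ B).le)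
    (lam.rel_mono_left h2 B)

theorem ctw2b_split {ι : Type} {deg : ι → ℕ} {J₁ : Ideal Λ} {y : Λ} {i : ℤ} {v : ι → Λ}
    (h : v ∈ gr deg i (J₁ ⊔ Ideal.span {y} : Ideal Λ)) :
    ∃ j ∈ gr deg i J₁, ∃ u ∈ gr deg i (⊤ : Submodule Λ Λ), v = j + y • u := by
  classical
  rw [mem_gr] at h
  have h' : ∀ b, ∃ j ∈ J₁, ∃ u, v b = j + y * u := by
    intro b
    obtain ⟨j, hj, z, hz, e⟩ := Submodule.mem_sup.1 (h b).1
    obtain ⟨u, rfl⟩ := Ideal.mem_span_singleton'.1 hz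
    exact ⟨j, hj, u, by rw [← e]; ring⟩
  choose j hj u hu using h'
  refine ⟨fun b => if (deg b : ℤ) = i then j b else 0, mem_gr.2 fun b => ⟨?_, fun hb => if_neg hb⟩,
    fun b => if (deg b : ℤ) = i then u b else 0,
    mem_gr.2 fun b => ⟨trivial, fun hb => if_neg hb⟩, funext fun b => ?_⟩
  · split_ifs
    · exact hj b
    · exact J₁.zero_mem
  · by_cases hb : (deg b : ℤ) = i
    · simp [hb, hu b]
    · simp [hb, (h b).2 hb]

/-- one step of the finiteness argument: if `v = D w + j₁ + y u` is a cycle modulo `J'`, then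
`D u ∈ J`, and `α y u ≡ α y' u = α (D H u + H D u)`; so `α v` is a boundary modulo `J`. -/
theorem fin_step {ι : Type} [Fintype ι] [DecidableEq ι] {d : ℕ} {deg : ι → ℕ} {P : Matrix ι ι Λ}
    (hP : GCx d deg P) {J J' J₁ : Ideal Λ} (h₁ : J₁ ≤ J) {y y' α : Λ}
    (hcol : ∀ u, y * u ∈ J' ⊔ J₁ → u ∈ J) (hy' : Htpy deg P y') (hα : lam.Kills α)
    (hyy : α * (y - y') ∈ J) (i : ℤ) :
    lam.rel (Zc (mact P Λ) (fun j => gr deg j ⊤) (fun j => gr deg j J') i)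
        (Bd (mact P Λ) (fun j => gr deg j ⊤) (fun j => gr deg j J) i) ≤
      lam.rel (Zc (mact P Λ) (fun j => gr deg j ⊤) (fun j => gr deg j J') i)
        (Bd (mact P Λ) (fun j => gr deg j ⊤) (fun j => gr deg j (J₁ ⊔ Ideal.span {y})) i) := by
  refine ALe.rel_le_right hα _ ⟨1, ?_⟩
  rintro v ⟨hv, hv'⟩
  obtain ⟨hv1, hv2⟩ := cxa_mem_Zc.1 hv
  obtain ⟨w, hw, hw'⟩ := cxa_mem_Bd.1 hv'
  obtain ⟨j, hj, u, hu, e⟩ := ctw2b_split hw'
  obtain ⟨H, hH1, hH2⟩ := hy'.exists_op (N := Λ)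
  have h1 : y • mact P Λ u = mact P Λ v - mact P Λ j := by
    have := congrArg (mact P Λ) e
    rw [map_sub, cxa_DD hP.mact_sq, sub_zero, map_add, map_smul] at this
    rw [this, add_sub_cancel_left]
  have h2 : mact P Λ u ∈ gr deg (i - 1) J := by
    refine mem_gr.2 fun b => ⟨hcol _ ?_, (mem_gr.1 (hP.mact_mem hu) b).2⟩
    have := congrFun h1 b
    rw [Pi.smul_apply, smul_eq_mul, Pi.sub_apply] at this
    rw [this]
    exact sub_mem (Submodule.mem_sup_left (mem_gr.1 hv2 b).1)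
      (Submodule.mem_sup_right (mem_gr.1 (hP.mact_mem hj) b).1)
  have h3 := hH1 _ _ _ h2
  rw [sub_add_cancel] at h3
  refine cxa_mem_Bd.2 ⟨α • (w + mact H Λ u),
    Submodule.smul_mem _ _ (add_mem hw (hH1 _ _ _ hu)), ?_⟩
  have h4 : α ^ 1 • v - mact P Λ (α • (w + mact H Λ u)) =
      α • j + (α * (y - y')) • u + α • mact H Λ (mact P Λ u) := by
    have e1 : v = mact P Λ w + j + y • u := by rw [add_assoc, ← e, add_sub_cancel]
    have e2 : mact P Λ (mact H Λ u) = y' • u - mact H Λ (mact P Λ u) := eq_sub_of_add_eq (hH2 u)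
    rw [map_smul, map_add, e2, pow_one]
    conv_lhs => rw [e1]
    module
  rw [h4]
  refine add_mem (add_mem (Submodule.smul_mem _ _ (gr_mono deg i h₁ hj)) ?_)
    (Submodule.smul_mem _ _ h3)
  refine mem_gr.2 fun b => ⟨?_, fun hb => ?_⟩
  · rw [Pi.smul_apply, smul_eq_mul]
    exact J.mul_mem_right _ hyy
  · rw [Pi.smul_apply, (mem_gr.1 hu b).2 hb, smul_zero]

/-- finiteness for a free complex over an almost Cohen–Macaulay ring.  First `fin_step` with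
`J' = (ϖ^N')`, `J = (ϖ^N)`, `J₁ = ⊥`, `y = ϖ^e`; then with `J' = J = J₁ = (z 0 ^ e, …, z (k-1) ^ e)`,
`y = z k ^ e`; finally `rel_gr` and `q_sp_pow_le`. -/
theorem ph_fin {ι : Type} [Fintype ι] [DecidableEq ι] {d : ℕ} {deg : ι → ℕ} {P : Matrix ι ι Λ}
    (hP : GCx d deg P) {m e : ℕ} (he : 1 ≤ e) (z : Fin (m + 1) → Λ)
    (hreg : RingTheory.Sequence.IsWeaklyRegular Λ (List.ofFn fun k => z k ^ e))
    (hq : lam.q (sp z) ≠ ⊤) (𝔍 : Ideal Λ)
    (hal : ∀ N : ℕ, ∃ α : Λ, lam.Kills α ∧ ∀ y ∈ 𝔍, α * y ∈ Ideal.span {z 0 ^ N})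
    (hH : ∀ k, ∃ y', Htpy deg P y' ∧ z k ^ e - y' ∈ 𝔍) (i : ℤ) :
    ph lam (mact P Λ) (fun _ j => gr deg j (⊤ : Submodule Λ Λ))
      (fun N j => gr deg j (pw (z 0) Λ N)) i ≠ ⊤ :=
  ph_fin_aux lam z hreg hq 𝔍 hal hH i fun h₁ _ _ _ hcol hy' hα hyy =>
    fin_step lam hP h₁ hcol hy' hα hyy i

end Crest.Agent.R188
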