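import Crest.Agent.R188.TBasic
import Crest.Agent.R183.Len2

/-! Row 188, part IV: change of rings for homology lengths and resolutions. -/

set_option autoImplicit false

namespace Crest.Agent.R188

open Crest.Agent.R183 IsLocalRing
open scoped ENNReal TensorProduct

variable {Λ Λ' : Type} [CommRing Λ] [CommRing Λ'] [Algebra Λ Λ'] {ι : Type} [Fintype ι] {d : ℕ}
  {deg : ι → ℕ} {P : Matrix ι ι Λ}

section tower
variable {M : Type} [AddCommGroup M] [Module Λ M] [Module Λ' M] [IsScalarTower Λ Λ' M]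

theorem mact_map (v : ι → M) : mact (P.map (algebraMap Λ Λ')) M v = mact P M v := by
  funext b
  simp only [mact_apply, Matrix.map_apply, algebraMap_smul]

omit [Algebra Λ Λ'] [Fintype ι] [IsScalarTower Λ Λ' M] in
private theorem tc_mem_gr_iff (j : ℤ) (v : ι → M) :
    v ∈ gr deg j (⊤ : Submodule Λ' M) ↔ v ∈ gr deg j (⊤ : Submodule Λ M) := by
  simp only [mem_gr, Submodule.mem_top]

theorem Zt_map (j : ℤ) :
    (Zt deg (P.map (algebraMap Λ Λ')) M j).restrictScalars Λ = Zt deg P M j := by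
  ext v
  rw [Submodule.restrictScalars_mem, mem_Zt, mem_Zt, mact_map, tc_mem_gr_iff (Λ := Λ)]

theorem Bt_map (j : ℤ) :
    (Bt deg (P.map (algebraMap Λ Λ')) M j).restrictScalars Λ = Bt deg P M j := by
  ext v
  rw [Submodule.restrictScalars_mem, mem_Bt, mem_Bt]
  simp only [mact_map, tc_mem_gr_iff (Λ := Λ) (Λ' := Λ')]

theorem hl_comap (lam : LenFn Λ) (j : ℤ) :
    hl (lam.comap (algebraMap Λ Λ')) deg (P.map (algebraMap Λ Λ')) M j = hl lam deg P M j := by
  rw [hl, hl, LenFn.comap_rel, Zt_map, Bt_map]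

private theorem tc_length_eq (h : ∀ r : Λ', ∃ s : Λ, ∀ m : M, r • m = s • m) :
    Module.length Λ' M = Module.length Λ M := by
  let e : Submodule Λ' M ≃o Submodule Λ M :=
    { toFun := fun U => U.restrictScalars Λ
      invFun := fun U =>
        { carrier := U
          add_mem' := U.add_mem
          zero_mem' := U.zero_mem
          smul_mem' := fun r m hm => by
            obtain ⟨s, hs⟩ := h r
            rw [hs]
            exact U.smul_mem s hm }
      left_inv := fun U => rfl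
      right_inv := fun U => rfl
      map_rel_iff' := Iff.rfl }
  apply WithBot.coe_injective
  rw [Module.coe_length, Module.coe_length, Order.krullDim_eq_of_orderIso e]

/-- if every scalar of `Λ'` acts on `M` as a scalar of `Λ`, lengths agree. -/
theorem hl_lenFn_map (h : ∀ r : Λ', ∃ s : Λ, ∀ m : M, r • m = s • m) (j : ℤ) :
    hl (lenFn Λ') deg (P.map (algebraMap Λ Λ')) M j = hl (lenFn Λ) deg P M j := by
  rw [← hl_comap (Λ' := Λ') (lenFn Λ) j, hl, hl, LenFn.rel, LenFn.rel, LenFn.comap_toFun]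
  refine congrArg (fun x : ℕ∞ => (x : ℝ≥0∞)) (tc_length_eq fun r => ?_)
  obtain ⟨s, hs⟩ := h r
  refine ⟨s, ?_⟩
  rintro ⟨x, hx⟩
  apply Subtype.ext
  obtain ⟨v, rfl⟩ := Submodule.mkQ_surjective _ x
  change r • Submodule.Quotient.mk v = s • Submodule.Quotient.mk v
  rw [← Submodule.Quotient.mk_smul, ← Submodule.Quotient.mk_smul]
  congr 1
  funext b
  exact hs _

end tower

section bc

variable {V W : Type} [AddCommGroup V] [Module Λ V] [AddCommGroup W] [Module Λ W]

omit [Module Λ W] in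
private theorem tc_ext [Module Λ' W] {f g : Λ' ⊗[Λ] V →ₗ[Λ'] W}
    (h : ∀ a v, f (a ⊗ₜ v) = g (a ⊗ₜ v)) : f = g := by
  ext1 x
  induction x using TensorProduct.induction_on with
  | zero => rw [map_zero, map_zero]
  | tmul a v => exact h a v
  | add x y hx hy => rw [map_add, map_add, hx, hy]

private theorem tc_map_bc (f : V →ₗ[Λ] W) (p : Submodule Λ V) :
    (p.map f).baseChange Λ' = (p.baseChange Λ').map (f.baseChange Λ') := by
  rw [Submodule.baseChange_eq_span, Submodule.baseChange_eq_span, Submodule.map_span]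
  congr 1
  ext x
  constructor
  · rintro ⟨_, ⟨v, hv, rfl⟩, rfl⟩
    exact ⟨_, ⟨v, hv, rfl⟩, rfl⟩
  · rintro ⟨_, ⟨v, hv, rfl⟩, rfl⟩
    exact ⟨_, ⟨v, hv, rfl⟩, rfl⟩

private theorem tc_range_bc (f : V →ₗ[Λ] W) :
    (LinearMap.range f).baseChange Λ' = LinearMap.range (f.baseChange Λ') := by
  rw [← Submodule.map_top, tc_map_bc, Submodule.baseChange_top, Submodule.map_top]

private theorem tc_ker_bc_of_surj (f : V →ₗ[Λ] W) (hf : Function.Surjective f) :
    (LinearMap.ker f).baseChange Λ' = LinearMap.ker (f.baseChange Λ') := by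
  have h : Function.Exact ((LinearMap.ker f).subtype.baseChange Λ') (f.baseChange Λ') :=
    lTensor_exact Λ' (LinearMap.exact_subtype_ker_map f) hf
  exact (LinearMap.exact_iff.1 h).symm

private theorem tc_ker_bc [Module.Flat Λ Λ'] (f : V →ₗ[Λ] W) :
    (LinearMap.ker f).baseChange Λ' = LinearMap.ker (f.baseChange Λ') := by
  have h : Function.Exact ((LinearMap.ker f).subtype.baseChange Λ') (f.baseChange Λ') :=
    Module.Flat.lTensor_exact Λ' (LinearMap.exact_subtype_ker_map f)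
  exact (LinearMap.exact_iff.1 h).symm

private theorem tc_rel_bc [Module.Flat Λ Λ'] (ν : LenFn Λ') (Z B : Submodule Λ V) :
    ν.rel (Z.baseChange Λ') (B.baseChange Λ') = ν.toFun (Λ' ⊗[Λ] ↥(Z.map B.mkQ)) := by
  have h1 : B.baseChange Λ' = (⊥ : Submodule Λ' _).comap (B.mkQ.baseChange Λ') := by
    rw [Submodule.comap_bot, ← tc_ker_bc_of_surj _ B.mkQ_surjective, Submodule.ker_mkQ]
  rw [h1, ← LenFn.rel_map_comap, LenFn.rel_bot, ← tc_map_bc]
  exact (ν.congr (LinearEquiv.ofInjective ((Z.map B.mkQ).subtype.baseChange Λ')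
    (Module.Flat.lTensor_preserves_injective_linearMap _ (Submodule.injective_subtype _)))).symm

end bc

/-- the projection onto the degree `j` part. -/
private def tcPr (Λ : Type) [CommRing Λ] (deg : ι → ℕ) (M : Type) [AddCommGroup M] [Module Λ M]
    (j : ℤ) : (ι → M) →ₗ[Λ] (ι → M) where
  toFun v b := if (deg b : ℤ) = j then v b else 0
  map_add' v w := by
    funext b
    by_cases h : (deg b : ℤ) = j <;> simp [h]
  map_smul' r v := by
    funext b
    by_cases h : (deg b : ℤ) = j <;> simp [h]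

section pr
variable {M : Type} [AddCommGroup M] [Module Λ M]

omit [Fintype ι] in
private theorem tcPr_apply (j : ℤ) (v : ι → M) (b : ι) :
    tcPr Λ deg M j v b = if (deg b : ℤ) = j then v b else 0 := rfl

omit [Fintype ι] in
private theorem tcPr_mem (j : ℤ) (v : ι → M) : tcPr Λ deg M j v ∈ gr deg j (⊤ : Submodule Λ M) := by
  rw [mem_gr]
  exact fun b => ⟨trivial, fun hb => by rw [tcPr_apply, if_neg hb]⟩

omit [Fintype ι] in
private theorem tcPr_of_mem {j : ℤ} {v : ι → M} (hv : v ∈ gr deg j (⊤ : Submodule Λ M)) :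
    tcPr Λ deg M j v = v := by
  rw [mem_gr] at hv
  funext b
  rw [tcPr_apply]
  split_ifs with hb
  · rfl
  · exact ((hv b).2 hb).symm

private theorem tc_Zt_eq (j : ℤ) :
    Zt deg P M j = (LinearMap.ker (mact P M ∘ₗ tcPr Λ deg M j)).map (tcPr Λ deg M j) := by
  ext v
  rw [mem_Zt]
  constructor
  · rintro ⟨h1, h2⟩
    refine ⟨v, ?_, tcPr_of_mem h1⟩
    change mact P M (tcPr Λ deg M j v) = 0
    rw [tcPr_of_mem h1, h2]
  · rintro ⟨w, hw, rfl⟩
    exact ⟨tcPr_mem j w, hw⟩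

private theorem tc_Bt_eq (j : ℤ) :
    Bt deg P M j = LinearMap.range (mact P M ∘ₗ tcPr Λ deg M (j + 1)) := by
  ext v
  rw [mem_Bt]
  constructor
  · rintro ⟨w, hw, rfl⟩
    refine ⟨w, ?_⟩
    change mact P M (tcPr Λ deg M (j + 1) w) = _
    rw [tcPr_of_mem hw]
  · rintro ⟨w, rfl⟩
    exact ⟨_, tcPr_mem _ w, rfl⟩

variable {M' : Type} [AddCommGroup M'] [Module Λ' M'] (φ : Λ' ⊗[Λ] M ≃ₗ[Λ'] M')

/-- base change of vectors. -/
private noncomputable def tcE (ι : Type) [Fintype ι] (φ : Λ' ⊗[Λ] M ≃ₗ[Λ'] M') :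
    Λ' ⊗[Λ] (ι → M) ≃ₗ[Λ'] (ι → M') := by
  classical
  exact TensorProduct.piRight Λ Λ' Λ' (fun _ : ι => M) ≪≫ₗ LinearEquiv.piCongrRight fun _ => φ

private theorem tcE_tmul (a : Λ') (v : ι → M) (b : ι) : tcE ι φ (a ⊗ₜ v) b = φ (a ⊗ₜ v b) := rfl

private theorem tcE_mact :
    (tcE ι φ).toLinearMap ∘ₗ (mact P M).baseChange Λ' =
      mact (P.map (algebraMap Λ Λ')) M' ∘ₗ (tcE ι φ).toLinearMap := by
  refine tc_ext fun a v => ?_
  funext b
  simp only [LinearMap.comp_apply, LinearMap.baseChange_tmul, LinearEquiv.coe_coe, tcE_tmul,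
    mact_apply, Matrix.map_apply, TensorProduct.tmul_sum, map_sum]
  refine Finset.sum_congr rfl fun b' _ => ?_
  rw [← map_smul, algebraMap_smul, TensorProduct.tmul_smul]

private theorem tcE_pr (j : ℤ) :
    (tcE ι φ).toLinearMap ∘ₗ (tcPr Λ deg M j).baseChange Λ' =
      tcPr Λ' deg M' j ∘ₗ (tcE ι φ).toLinearMap := by
  refine tc_ext fun a v => ?_
  funext b
  simp only [LinearMap.comp_apply, LinearMap.baseChange_tmul, LinearEquiv.coe_coe, tcE_tmul,
    tcPr_apply]
  split_ifs <;> simp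

private theorem tcE_mact_pr (j : ℤ) :
    (tcE ι φ).toLinearMap ∘ₗ (mact P M ∘ₗ tcPr Λ deg M j).baseChange Λ' =
      (mact (P.map (algebraMap Λ Λ')) M' ∘ₗ tcPr Λ' deg M' j) ∘ₗ (tcE ι φ).toLinearMap := by
  rw [LinearMap.baseChange_comp, ← LinearMap.comp_assoc, tcE_mact, LinearMap.comp_assoc, tcE_pr,
    LinearMap.comp_assoc]

private theorem tc_Bt_bc (j : ℤ) :
    ((Bt deg P M j).baseChange Λ').map (tcE ι φ).toLinearMap =
      Bt deg (P.map (algebraMap Λ Λ')) M' j := by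
  rw [tc_Bt_eq, tc_Bt_eq, tc_range_bc, ← LinearMap.range_comp, tcE_mact_pr,
    LinearMap.range_comp_of_range_eq_top _ (LinearEquiv.range _)]

private theorem tc_Zt_bc [Module.Flat Λ Λ'] (j : ℤ) :
    ((Zt deg P M j).baseChange Λ').map (tcE ι φ).toLinearMap =
      Zt deg (P.map (algebraMap Λ Λ')) M' j := by
  rw [tc_Zt_eq, tc_Zt_eq, tc_map_bc, tc_ker_bc, ← Submodule.map_comp, tcE_pr, Submodule.map_comp]
  congr 1
  rw [← LinearMap.ker_comp_of_ker_eq_bot _ (LinearEquiv.ker (tcE ι φ)), tcE_mact_pr,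
    LinearMap.ker_comp, Submodule.map_comap_eq_of_surjective (tcE ι φ).surjective]

end pr

/-- the homology module `H_j(P ⊗ M)`. -/
abbrev Ht (deg : ι → ℕ) (P : Matrix ι ι Λ) (M : Type) [AddCommGroup M] [Module Λ M] (j : ℤ) :
    Type :=
  ↥((Zt deg P M j).map (Bt deg P M j).mkQ)

theorem hl_eq_Ht (lam : LenFn Λ) (M : Type) [AddCommGroup M] [Module Λ M] (j : ℤ) :
    hl lam deg P M j = lam.toFun (Ht deg P M j) := rfl

/-- homology commutes with flat base change. -/
theorem hl_baseChange [Module.Flat Λ Λ'] (ν : LenFn Λ') (M : Type)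
    [AddCommGroup M] [Module Λ M] (j : ℤ) :
    hl ν deg (P.map (algebraMap Λ Λ')) (Λ' ⊗[Λ] M) j = ν.toFun (Λ' ⊗[Λ] Ht deg P M j) := by
  rw [hl, ← tc_Zt_bc (LinearEquiv.refl Λ' _), ← tc_Bt_bc (LinearEquiv.refl Λ' _),
    ν.rel_map_of_injective _ (tcE ι _).injective, tc_rel_bc]

private theorem tc_baseChange_of_exact {n n' : ℤ} {N : Type} [AddCommGroup N] [Module Λ N]
    (h : PRes d n deg P N) (hex : ∀ j : ℤ, 1 ≤ j → j < n' →
      Zt deg (P.map (algebraMap Λ Λ')) Λ' j ≤ Bt deg (P.map (algebraMap Λ Λ')) Λ' j) :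
    PRes d n' deg (P.map (algebraMap Λ Λ')) (Λ' ⊗[Λ] N) := by
  obtain ⟨hG, ε, hε⟩ := h
  let φ := TensorProduct.AlgebraTensorModule.rid Λ Λ' Λ'
  let E := tcE ι φ
  let g : (ι → Λ) →ₗ[Λ] N := ε ∘ₗ tcPr Λ deg Λ 0
  have hg : Function.Surjective g := by
    intro y
    have hy : y ∈ (gr deg 0 (⊤ : Submodule Λ Λ)).map ε := hε.surj ▸ Submodule.mem_top
    obtain ⟨v, hv, rfl⟩ := hy
    exact ⟨v, congrArg ε (tcPr_of_mem hv)⟩
  have hE : ∀ x, E.symm (tcPr Λ' deg Λ' 0 (E x)) = (tcPr Λ deg Λ 0).baseChange Λ' x := by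
    intro x
    rw [LinearEquiv.symm_apply_eq]
    exact (LinearMap.congr_fun (tcE_pr (deg := deg) φ 0) x).symm
  have hgb : ∀ x, g.baseChange Λ' x = ε.baseChange Λ' ((tcPr Λ deg Λ 0).baseChange Λ' x) := by
    intro x
    simp only [g, LinearMap.baseChange_comp, LinearMap.comp_apply]
  refine ⟨hG.map _, ε.baseChange Λ' ∘ₗ E.symm.toLinearMap, ?_, ?_, hex⟩
  · rw [eq_top_iff]
    intro y _
    obtain ⟨x, rfl⟩ : ∃ x, g.baseChange Λ' x = y := LinearMap.lTensor_surjective Λ' hg y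
    refine ⟨tcPr Λ' deg Λ' 0 (E x), tcPr_mem _ _, ?_⟩
    rw [hgb, ← hE]
    rfl
  · apply le_antisymm
    · rintro v ⟨hv1, hv2⟩
      obtain ⟨x, rfl⟩ := E.surjective v
      have h1 : (tcPr Λ deg Λ 0).baseChange Λ' x = x := by
        rw [← hE, tcPr_of_mem hv1, LinearEquiv.symm_apply_apply]
      have h2 : x ∈ (LinearMap.ker g).baseChange Λ' := by
        rw [tc_ker_bc_of_surj g hg, LinearMap.mem_ker, hgb, h1]
        have h3 : ε.baseChange Λ' (E.symm (E x)) = 0 := hv2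
        rwa [LinearEquiv.symm_apply_apply] at h3
      have h4 : (LinearMap.ker g).map (tcPr Λ deg Λ 0) ≤ Bt deg P Λ 0 := by
        rintro _ ⟨w, hw, rfl⟩
        rw [← hε.ker]
        exact ⟨tcPr_mem _ _, hw⟩
      rw [← tc_Bt_bc φ]
      refine ⟨x, Submodule.baseChange_mono Λ' h4 ?_, rfl⟩
      rw [tc_map_bc]
      exact ⟨x, h2, h1⟩
    · refine le_inf ((Bt_le_Zt (hG.map _) 0).trans inf_le_left) ?_
      rw [← tc_Bt_bc φ]
      rintro _ ⟨x, hx, rfl⟩
      have h1 : Bt deg P Λ 0 ≤ LinearMap.ker ε := hε.ker ▸ inf_le_right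
      obtain ⟨y, rfl⟩ := Submodule.baseChange_mono Λ' h1 hx
      change ε.baseChange Λ' (E.symm (E _)) = 0
      rw [LinearEquiv.symm_apply_apply, ← LinearMap.comp_apply, ← LinearMap.baseChange_comp,
        LinearMap.comp_ker_subtype, LinearMap.baseChange_zero, LinearMap.zero_apply]

/-- resolutions are preserved by flat base change. -/
theorem PRes.baseChange [Module.Flat Λ Λ'] {n : ℤ} {N : Type} [AddCommGroup N] [Module Λ N]
    (h : PRes d n deg P N) : PRes d n deg (P.map (algebraMap Λ Λ')) (Λ' ⊗[Λ] N) := by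
  refine tc_baseChange_of_exact h fun j h1 h2 => ?_
  obtain ⟨-, ε, hε⟩ := h
  rw [← tc_Zt_bc (TensorProduct.AlgebraTensorModule.rid Λ Λ' Λ'),
    ← tc_Bt_bc (TensorProduct.AlgebraTensorModule.rid Λ Λ' Λ')]
  exact Submodule.map_mono (Submodule.baseChange_mono Λ' (hε.ex j h1 h2))

/-- base change of a resolution along an algebra on which the complex stays exact. -/
theorem PRes.baseChange_of_exact {n n' : ℤ} {N : Type} [AddCommGroup N] [Module Λ N]
    (h : PRes d n deg P N) (hex : ∀ j : ℤ, 1 ≤ j → j < n' → Zt deg P Λ' j ≤ Bt deg P Λ' j) :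
    PRes d n' deg (P.map (algebraMap Λ Λ')) (Λ' ⊗[Λ] N) := by
  refine tc_baseChange_of_exact h fun j h1 h2 v hv => ?_
  have h3 := hex j h1 h2
  rw [← Zt_map (Λ' := Λ'), ← Bt_map (Λ' := Λ')] at h3
  exact h3 hv

theorem PRes.baseChange_quot [Module.Flat Λ Λ'] {n : ℤ} {I : Ideal Λ}
    (h : PRes d n deg P (Λ ⧸ I)) :
    PRes d n deg (P.map (algebraMap Λ Λ')) (Λ' ⧸ I.map (algebraMap Λ Λ')) :=
  h.baseChange.congr (Algebra.TensorProduct.quotIdealMapEquivTensorQuot Λ' I).toLinearEquiv.symm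

/-- lengths are preserved by an unramified flat local extension. -/
theorem hl_baseChange_local [IsLocalRing Λ] [IsLocalRing Λ'] [Module.Flat Λ Λ']
    (hm : (maximalIdeal Λ).map (algebraMap Λ Λ') = maximalIdeal Λ') (M : Type)
    [AddCommGroup M] [Module Λ M] (j : ℤ) (hfin : hl (lenFn Λ) deg P M j ≠ ⊤) :
    hl (lenFn Λ') deg (P.map (algebraMap Λ Λ')) (Λ' ⊗[Λ] M) j = hl (lenFn Λ) deg P M j := by
  rw [hl_baseChange, baseChange_eq _ _ hfin, hm, lenFn_q_maximal, mul_one, hl_eq_Ht]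

end Crest.Agent.R188
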