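import Crest.Agent.R188.TBasic
import Crest.Agent.R183.Len2

/-! Row 188, part IV: homotopies, finiteness of homology, `H_0`. -/

set_option autoImplicit false

namespace Crest.Agent.R188

open Crest.Agent.R183 IsLocalRing
open scoped ENNReal TensorProduct

variable {Λ : Type} [CommRing Λ] {ι : Type} [Fintype ι] {d : ℕ} {deg : ι → ℕ} {P : Matrix ι ι Λ}
  {M N : Type} [AddCommGroup M] [Module Λ M] [AddCommGroup N] [Module Λ N]

/-- the projection onto degree `j`. -/
noncomputable def thtE (Λ : Type) [CommRing Λ] {ι : Type} [DecidableEq ι] (deg : ι → ℕ) (j : ℤ) :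
    Matrix ι ι Λ :=
  Matrix.diagonal fun b => if (deg b : ℤ) = j then 1 else 0

theorem thtE_apply [DecidableEq ι] (j : ℤ) (v : ι → M) (b : ι) :
    mact (thtE Λ deg j) M v b = if (deg b : ℤ) = j then v b else 0 := by
  rw [mact_apply, Finset.sum_eq_single b]
  · by_cases hb : (deg b : ℤ) = j <;> simp [thtE, hb]
  · intro c _ hc
    simp [thtE, Matrix.diagonal_apply_ne _ (Ne.symm hc)]
  · simp

theorem thtE_mem [DecidableEq ι] (j : ℤ) (v : ι → M) :
    mact (thtE Λ deg j) M v ∈ gr deg j (⊤ : Submodule Λ M) := by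
  rw [mem_gr]
  intro b
  refine ⟨trivial, fun hb => ?_⟩
  rw [thtE_apply, if_neg hb]

theorem thtE_of_mem [DecidableEq ι] {j : ℤ} {v : ι → M} (hv : v ∈ gr deg j (⊤ : Submodule Λ M)) :
    mact (thtE Λ deg j) M v = v := by
  funext b
  rw [thtE_apply]
  split_ifs with hb
  · rfl
  · exact ((mem_gr.1 hv b).2 hb).symm

theorem thtE_compl [DecidableEq ι] (j : ℤ) (v : ι → M) :
    mact (1 - thtE Λ deg j) M v = v - mact (thtE Λ deg j) M v := by
  have h1 := mact_add (N := M) (1 - thtE Λ deg j) (thtE Λ deg j)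
  have h2 := mact_smul_one (N := M) (1 : Λ) v
  rw [one_smul, one_smul] at h2
  rw [sub_add_cancel] at h1
  rw [h1, LinearMap.add_apply] at h2
  exact eq_sub_of_add_eq h2

theorem thtE_idem [DecidableEq ι] (j : ℤ) (v : ι → M) :
    mact (thtE Λ deg j) M (mact (1 - thtE Λ deg j) M v) = 0 := by
  rw [thtE_compl, map_sub, thtE_of_mem (thtE_mem j v), sub_self]

theorem tht_mact_fromCols {κ₁ κ₂ : Type} [Fintype κ₁] [Fintype κ₂] {μ : Type} (A : Matrix μ κ₁ Λ)
    (B : Matrix μ κ₂ Λ) (w : κ₁ ⊕ κ₂ → M) :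
    mact (Matrix.fromCols A B) M w = mact A M (w ∘ Sum.inl) + mact B M (w ∘ Sum.inr) := by
  funext b
  simp [mact_apply, Fintype.sum_sum_type]

theorem tht_mact_fromRows {κ μ₁ μ₂ : Type} [Fintype κ] (A : Matrix μ₁ κ Λ)
    (B : Matrix μ₂ κ Λ) (w : κ → M) :
    mact (Matrix.fromRows A B) M w = 0 ↔ mact A M w = 0 ∧ mact B M w = 0 := by
  constructor
  · intro h
    refine ⟨funext fun b => ?_, funext fun b => ?_⟩
    · simpa [mact_apply] using congrFun h (Sum.inl b)
    · simpa [mact_apply] using congrFun h (Sum.inr b)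
  · rintro ⟨h1, h2⟩
    funext b
    rcases b with b | b
    · simpa [mact_apply] using congrFun h1 b
    · simpa [mact_apply] using congrFun h2 b

theorem tht_nat {κ μ : Type} [Fintype κ] [Fintype μ] [DecidableEq κ] [DecidableEq μ]
    (A : Matrix μ κ Λ) (t : M ⊗[Λ] (κ → Λ)) :
    TensorProduct.piScalarRight Λ Λ M μ (LinearMap.lTensor M (mact A Λ) t) =
      mact A M (TensorProduct.piScalarRight Λ Λ M κ t) := by
  induction t using TensorProduct.induction_on with
  | zero => simp
  | tmul x f =>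
    funext b
    simp [mact_apply, Finset.sum_smul, mul_smul]
  | add x y hx hy => simp only [map_add, hx, hy]

theorem tht_exact_of {κ μ : Type} [Fintype κ] [Fintype μ] [DecidableEq κ] [DecidableEq μ]
    (A : Matrix μ κ Λ) {X : Type} [AddCommGroup X] [Module Λ X] (g : (μ → Λ) →ₗ[Λ] X)
    (h : Function.Exact (LinearMap.lTensor M (mact A Λ)) (LinearMap.lTensor M g)) {v : μ → M}
    (hv : LinearMap.lTensor M g ((TensorProduct.piScalarRight Λ Λ M μ).symm v) = 0) :
    ∃ w, mact A M w = v := by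
  obtain ⟨t, ht⟩ := (h _).1 hv
  refine ⟨TensorProduct.piScalarRight Λ Λ M κ t, ?_⟩
  rw [← tht_nat, ht, LinearEquiv.apply_symm_apply]

theorem tht_Zt_zero (h : GCx d deg P) : Zt deg P M 0 = gr deg 0 (⊤ : Submodule Λ M) := by
  refine inf_eq_left.2 fun v hv => ?_
  have h1 := h.mact_mem hv
  rw [h.gr_eq_bot (Or.inl (by norm_num))] at h1
  exact h1

theorem tht_step [DecidableEq ι] (h : Resol d deg P N) {a : Λ}
    (ha : a ∈ Module.annihilator Λ N) (n : ℕ) :
    ∃ H : Matrix ι ι Λ, (∀ b b', H b b' ≠ 0 → deg b = deg b' + 1) ∧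
      ∀ b', deg b' < n → ∀ b, (P * H + H * P) b b' = (a • (1 : Matrix ι ι Λ)) b b' := by
  obtain ⟨hG, ε, hε⟩ := h
  induction n with
  | zero => exact ⟨0, by simp, by simp⟩
  | succ n ih =>
    obtain ⟨H, hH, hI⟩ := ih
    have key : ∀ b', deg b' = n → ∃ w ∈ gr deg ((n : ℤ) + 1) (⊤ : Submodule Λ Λ),
        mact P Λ w = fun b => (a • (1 : Matrix ι ι Λ) - H * P) b b' := by
      intro b' hb'
      have hz : (fun b => (a • (1 : Matrix ι ι Λ) - H * P) b b') ∈
          gr deg (n : ℤ) (⊤ : Submodule Λ Λ) := by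
        rw [mem_gr]
        intro b
        refine ⟨trivial, fun hb => ?_⟩
        have hbb : b ≠ b' := fun e => hb (by rw [e, hb'])
        have h2 : (H * P) b b' = 0 := by
          rw [Matrix.mul_apply]
          refine Finset.sum_eq_zero fun c _ => ?_
          by_contra hc
          have h3 := hH b c (left_ne_zero_of_mul hc)
          have h4 := hG.P_deg c b' (right_ne_zero_of_mul hc)
          apply hb
          have : deg b = n := by omega
          rw [this]
        simp [Matrix.sub_apply, h2, Matrix.one_apply_ne hbb]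
      change _ ∈ Bt deg P Λ n
      rcases Nat.eq_zero_or_pos n with hn | hn
      · subst hn
        have h2 : (fun b => (a • (1 : Matrix ι ι Λ) - H * P) b b') =
            a • (Pi.single b' (1 : Λ) : ι → Λ) := by
          funext b
          have h2 : (H * P) b b' = 0 := by
            rw [Matrix.mul_apply]
            refine Finset.sum_eq_zero fun c _ => ?_
            by_contra hc
            have h4 := hG.P_deg c b' (right_ne_zero_of_mul hc)
            omega
          simp [Matrix.sub_apply, h2, Matrix.one_apply, Pi.single_apply]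
        have h3 := hε.ker
        simp only [Nat.cast_zero] at hz ⊢
        rw [← h3]
        refine ⟨hz, ?_⟩
        change ε _ = 0
        rw [h2, map_smul]
        exact Module.mem_annihilator.1 ha _
      · have hd := hG.deg_le b'
        refine hε.ex n (by exact_mod_cast hn) (by omega) ⟨hz, ?_⟩
        change mact P Λ _ = 0
        funext b
        have h2 : (P * H * P) b b' = ((a • (1 : Matrix ι ι Λ) - H * P) * P) b b' := by
          rw [Matrix.mul_apply, Matrix.mul_apply (M := a • (1 : Matrix ι ι Λ) - H * P)]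
          refine Finset.sum_congr rfl fun c _ => ?_
          by_cases hc : P c b' = 0
          · simp [hc]
          · have h4 := hG.P_deg c b' hc
            have h5 := hI c (by omega) b
            rw [Matrix.add_apply] at h5
            rw [Matrix.sub_apply, ← h5, add_sub_cancel_right]
        have h3 : mact P Λ (fun b => (a • (1 : Matrix ι ι Λ) - H * P) b b') b =
            (P * (a • (1 : Matrix ι ι Λ) - H * P)) b b' := by
          rw [mact_apply, Matrix.mul_apply]
          rfl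
        rw [h3, Matrix.mul_sub, Matrix.sub_apply, ← Matrix.mul_assoc, h2, Matrix.sub_mul,
          Matrix.mul_assoc, hG.sq]
        simp
    choose w hw hPw using key
    refine ⟨Matrix.of fun b b' => if hb : deg b' = n then w b' hb b else H b b', ?_, ?_⟩
    · intro b b' hne
      simp only [Matrix.of_apply] at hne
      split_ifs at hne with hb
      · by_contra hc
        apply hne
        refine (mem_gr.1 (hw b' hb) b).2 fun e => hc ?_
        have : deg b = n + 1 := by exact_mod_cast e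
        omega
      · exact hH b b' hne
    · intro b' hb' b
      have h1 : ((Matrix.of fun b b' => if hb : deg b' = n then w b' hb b else H b b') * P) b b' =
          (H * P) b b' := by
        rw [Matrix.mul_apply, Matrix.mul_apply]
        refine Finset.sum_congr rfl fun c _ => ?_
        by_cases hc : P c b' = 0
        · simp [hc]
        · have h4 := hG.P_deg c b' hc
          rw [Matrix.of_apply, dif_neg (by omega)]
      rw [Matrix.add_apply, h1]
      by_cases hb : deg b' = n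
      · have h2 := congrFun (hPw b' hb) b
        rw [mact_apply, Matrix.sub_apply] at h2
        rw [Matrix.mul_apply]
        simp only [Matrix.of_apply, dif_pos hb]
        simp only [smul_eq_mul] at h2
        rw [h2, sub_add_cancel]
      · have h2 := hI b' (by omega) b
        rw [Matrix.add_apply] at h2
        rw [← h2, Matrix.mul_apply, Matrix.mul_apply (M := P)]
        simp only [Matrix.of_apply, dif_neg hb]

/-- elements of the annihilator act null-homotopically on a resolution. -/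
theorem Resol.htpy [DecidableEq ι] (h : Resol d deg P N) {a : Λ}
    (ha : a ∈ Module.annihilator Λ N) : Htpy deg P a := by
  obtain ⟨H, hH, hI⟩ := tht_step h ha (d + 1)
  refine ⟨H, hH, ?_⟩
  ext b b'
  exact hI b' (Nat.lt_succ_of_le (h.1.deg_le b')) b

theorem Htpy.smul_mem_Bt [DecidableEq ι] {a : Λ} (h : Htpy deg P a) {j : ℤ} {v : ι → M}
    (hv : v ∈ Zt deg P M j) : a • v ∈ Bt deg P M j := by
  obtain ⟨H, h1, h2⟩ := Htpy.exists_op (N := M) h
  obtain ⟨hv1, hv2⟩ := mem_Zt.1 hv
  refine mem_Bt.2 ⟨mact H M v, h1 _ _ _ hv1, ?_⟩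
  rw [← h2 v, hv2, map_zero, add_zero]

/-- a finitely generated module killed by a power of the maximal ideal has finite length. -/
theorem lenFn_ne_top_of_pow [IsLocalRing Λ] [IsNoetherianRing Λ] [Module.Finite Λ M] {c : ℕ}
    (h : maximalIdeal Λ ^ c ≤ Module.annihilator Λ M) : (lenFn Λ).toFun M ≠ ⊤ := by
  classical
  obtain ⟨s, hs⟩ := Module.Finite.fg_top (R := Λ) (M := M)
  have h0 : (lenFn Λ).toFun M = (lenFn Λ).rel (⊤ : Submodule Λ M) ⊥ := by
    rw [LenFn.rel_bot]
    exact ((lenFn Λ).congr Submodule.topEquiv).symm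
  have h1 : (⊤ : Submodule Λ M) = ⨆ v ∈ s, Submodule.span Λ {v} := by
    rw [← hs, Submodule.span_eq_iSup_of_singleton_spans]
    rfl
  have h2 := (lenFn Λ).rel_biSup_le s (fun v : M => Submodule.span Λ {v}) ⊥
  rw [← h1, ← h0] at h2
  refine ne_top_of_le_ne_top ?_ h2
  refine ENNReal.sum_ne_top.2 fun v _ => ?_
  refine ne_top_of_le_ne_top (hs_ne_top Λ (IsNoetherian.noetherian _) c) ?_
  refine (lenFn Λ).rel_span_singleton_le v ⊥ _ fun r hr => ?_
  exact Module.mem_annihilator.1 (h hr) v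

theorem hl_ne_top_of_kill [IsLocalRing Λ] [IsNoetherianRing Λ] [Module.Finite Λ M] {I : Ideal Λ}
    {j : ℤ} (hI : ∀ a ∈ I, ∀ v ∈ Zt deg P M j, a • v ∈ Bt deg P M j) {c : ℕ}
    (h : maximalIdeal Λ ^ c ≤ Module.annihilator Λ M ⊔ I) : hl (lenFn Λ) deg P M j ≠ ⊤ := by
  unfold hl LenFn.rel
  refine lenFn_ne_top_of_pow (c := c) (h.trans (sup_le ?_ ?_))
  · intro a ha
    rw [Module.mem_annihilator] at ha ⊢
    rintro ⟨x, v, hv, rfl⟩
    apply Subtype.ext
    change a • (Bt deg P M j).mkQ v = 0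
    rw [← map_smul, show a • v = 0 from funext fun b => ha (v b), map_zero]
  · intro a ha
    rw [Module.mem_annihilator]
    rintro ⟨x, v, hv, rfl⟩
    apply Subtype.ext
    change a • (Bt deg P M j).mkQ v = 0
    rw [← map_smul, Submodule.mkQ_apply, Submodule.Quotient.mk_eq_zero]
    exact hI a ha v hv

theorem Resol.hl_ne_top [IsLocalRing Λ] [IsNoetherianRing Λ] [Module.Finite Λ M]
    (h : Resol d deg P N) (hM : Meet Λ M N) (j : ℤ) : hl (lenFn Λ) deg P M j ≠ ⊤ := by
  classical
  obtain ⟨c, hc⟩ := hM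
  exact hl_ne_top_of_kill (fun a ha v hv => Htpy.smul_mem_Bt (h.htpy ha) hv) hc

/-- `H_0(P ⊗ M) = N ⊗ M`. -/
theorem PRes.hl_zero (lam : LenFn Λ) {n : ℤ} (h : PRes d n deg P N) :
    hl lam deg P M 0 = lam.toFun (N ⊗[Λ] M) := by
  classical
  obtain ⟨hG, ε, hε⟩ := h
  set g : (ι → Λ) →ₗ[Λ] N := ε ∘ₗ mact (thtE Λ deg 0) Λ with hg
  set A : Matrix ι (ι ⊕ ι) Λ := Matrix.fromCols (P * thtE Λ deg (0 + 1)) (1 - thtE Λ deg 0) with hA
  have hgs : Function.Surjective g := by
    intro x
    have hx : x ∈ (gr deg 0 (⊤ : Submodule Λ Λ)).map ε := by rw [hε.surj]; trivial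
    obtain ⟨v, hv, rfl⟩ := hx
    exact ⟨v, by rw [hg, LinearMap.comp_apply, thtE_of_mem hv]⟩
  have hAm : ∀ (X : Type) [AddCommGroup X] [Module Λ X] (w : ι ⊕ ι → X),
      mact (thtE Λ deg 0) X (mact A X w) ∈ Bt deg P X 0 := by
    intro X _ _ w
    have h1 : mact (P * thtE Λ deg (0 + 1)) X (w ∘ Sum.inl) ∈ Bt deg P X 0 := by
      rw [mact_mul, LinearMap.comp_apply]
      exact mem_Bt.2 ⟨_, thtE_mem _ _, rfl⟩
    rw [hA, tht_mact_fromCols, map_add, thtE_idem, add_zero,
      thtE_of_mem (mem_Zt.1 (Bt_le_Zt hG 0 h1)).1]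
    exact h1
  have hex : Function.Exact (mact A Λ) g := by
    intro v
    constructor
    · intro hv
      have h1 : mact (thtE Λ deg 0) Λ v ∈ Bt deg P Λ 0 := by
        rw [← hε.ker]
        exact ⟨thtE_mem _ _, hv⟩
      obtain ⟨w, hw, hw'⟩ := mem_Bt.1 h1
      refine ⟨Sum.elim w v, ?_⟩
      rw [hA, tht_mact_fromCols, mact_mul, LinearMap.comp_apply, Sum.elim_comp_inl,
        Sum.elim_comp_inr, thtE_of_mem hw, hw', thtE_compl, add_sub_cancel]
    · rintro ⟨w, rfl⟩
      have h1 := hAm Λ w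
      rw [← hε.ker] at h1
      exact h1.2
  have hT := lTensor_exact M hex hgs
  set φ : (ι → M) →ₗ[Λ] M ⊗[Λ] N :=
    LinearMap.lTensor M g ∘ₗ (TensorProduct.piScalarRight Λ Λ M ι).symm.toLinearMap with hφ
  have hφA : ∀ w, φ (mact A M w) = 0 := by
    intro w
    obtain ⟨t, rfl⟩ := (TensorProduct.piScalarRight Λ Λ M (ι ⊕ ι)).surjective w
    rw [← tht_nat, hφ, LinearMap.comp_apply, LinearEquiv.coe_coe, LinearEquiv.symm_apply_apply]
    exact hT.apply_apply_eq_zero t
  have hker : gr deg 0 (⊤ : Submodule Λ M) ⊓ (⊥ : Submodule Λ (M ⊗[Λ] N)).comap φ =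
      Bt deg P M 0 := by
    apply le_antisymm
    · rintro v ⟨hv1, hv2⟩
      obtain ⟨w, rfl⟩ := tht_exact_of A g hT (v := v) hv2
      have h1 := hAm M w
      rwa [thtE_of_mem hv1] at h1
    · intro v hv
      refine ⟨(mem_Zt.1 (Bt_le_Zt hG 0 hv)).1, ?_⟩
      obtain ⟨w, hw, rfl⟩ := mem_Bt.1 hv
      have h1 := hφA (Sum.elim w 0)
      rw [hA, tht_mact_fromCols, mact_mul, Sum.elim_comp_inl,
        Sum.elim_comp_inr, map_zero, add_zero, LinearMap.comp_apply (mact P M),
        thtE_of_mem hw] at h1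
      exact h1
  have hmap : (gr deg 0 (⊤ : Submodule Λ M)).map φ = ⊤ := by
    rw [eq_top_iff]
    intro x _
    obtain ⟨t, rfl⟩ := LinearMap.lTensor_surjective M hgs x
    obtain ⟨v, rfl⟩ := (TensorProduct.piScalarRight Λ Λ M ι).symm.surjective t
    refine ⟨_, thtE_mem 0 v, ?_⟩
    have h1 := hφA (Sum.elim 0 v)
    rw [hA, tht_mact_fromCols, Sum.elim_comp_inl,
      Sum.elim_comp_inr, map_zero, zero_add, thtE_compl, map_sub, sub_eq_zero] at h1
    rw [← h1]
    rfl
  unfold hl
  rw [tht_Zt_zero hG, ← hker, LenFn.rel_inf_right, ← LenFn.rel_map_comap, hmap, LenFn.rel_bot]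
  exact lam.congr (Submodule.topEquiv.trans (TensorProduct.comm Λ M N))

theorem PRes.hl_zero_quot (lam : LenFn Λ) {n : ℤ} {I : Ideal Λ} (h : PRes d n deg P (Λ ⧸ I)) :
    hl lam deg P M 0 = lam.rel ⊤ (I • (⊤ : Submodule Λ M)) := by
  rw [h.hl_zero lam, LenFn.rel_top]
  exact lam.congr (TensorProduct.quotTensorEquivQuotSMul M I)

/-- tensoring a resolution with a flat module keeps it exact. -/
theorem PRes.exact_of_flat {n : ℤ} (h : PRes d n deg P N) [Module.Flat Λ M] {j : ℤ} (h1 : 1 ≤ j)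
    (h2 : j < n) : Zt deg P M j ≤ Bt deg P M j := by
  classical
  obtain ⟨hG, ε, hε⟩ := h
  set A : Matrix ι ι Λ := P * thtE Λ deg (j + 1) with hA
  set B : Matrix (ι ⊕ ι) ι Λ := Matrix.fromRows P (1 - thtE Λ deg j) with hB
  have hAm : ∀ (X : Type) [AddCommGroup X] [Module Λ X] (v : ι → X),
      (∃ w, mact A X w = v) ↔ v ∈ Bt deg P X j := by
    intro X _ _ v
    constructor
    · rintro ⟨w, rfl⟩
      rw [hA, mact_mul, LinearMap.comp_apply]
      exact mem_Bt.2 ⟨_, thtE_mem _ _, rfl⟩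
    · intro hv
      obtain ⟨w, hw, rfl⟩ := mem_Bt.1 hv
      exact ⟨w, by rw [hA, mact_mul, LinearMap.comp_apply, thtE_of_mem hw]⟩
  have hBm : ∀ (X : Type) [AddCommGroup X] [Module Λ X] (v : ι → X),
      mact B X v = 0 ↔ v ∈ Zt deg P X j := by
    intro X _ _ v
    rw [hB, tht_mact_fromRows, thtE_compl, sub_eq_zero, mem_Zt]
    constructor
    · rintro ⟨h3, h4⟩
      exact ⟨h4 ▸ thtE_mem j v, h3⟩
    · rintro ⟨h3, h4⟩
      exact ⟨h4, (thtE_of_mem h3).symm⟩
  have hex : Function.Exact (mact A Λ) (mact B Λ) := by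
    intro v
    rw [hBm, Set.mem_range, hAm]
    exact ⟨fun hv => hε.ex j h1 h2 hv, fun hv => Bt_le_Zt hG j hv⟩
  have hT := Module.Flat.lTensor_exact M hex
  intro v hv
  rw [← hAm]
  refine tht_exact_of A (mact B Λ) hT ?_
  apply (TensorProduct.piScalarRight Λ Λ M (ι ⊕ ι)).injective
  rw [tht_nat, LinearEquiv.apply_symm_apply, map_zero, hBm]
  exact hv

end Crest.Agent.R188
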