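import Crest.Agent.R188.CEa
import Crest.Agent.R188.TChange
import Crest.Agent.R188.THtpy

/-! Row 188, comparison step: the module `Λ ⊗_A D`. -/

set_option autoImplicit false

namespace Crest.Agent.R188

open Crest.Agent.R183 IsLocalRing
open scoped ENNReal TensorProduct

section cv0a
variable {A Λ V W : Type} [CommRing A] [CommRing Λ] [Algebra A Λ] [AddCommGroup V] [Module A V]
  [AddCommGroup W]

theorem cv0a_ext [Module Λ W] {f g : Λ ⊗[A] V →ₗ[Λ] W}
    (h : ∀ a v, f (a ⊗ₜ v) = g (a ⊗ₜ v)) : f = g := by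
  ext1 x
  induction x using TensorProduct.induction_on with
  | zero => rw [map_zero, map_zero]
  | tmul a v => exact h a v
  | add x y hx hy => rw [map_add, map_add, hx, hy]

variable [Module A W]

theorem cv0a_map (f : V →ₗ[A] W) (p : Submodule A V) :
    (p.map f).baseChange Λ = (p.baseChange Λ).map (f.baseChange Λ) := by
  rw [Submodule.baseChange_eq_span, Submodule.baseChange_eq_span, Submodule.map_span]
  congr 1
  ext x
  constructor
  · rintro ⟨_, ⟨v, hv, rfl⟩, rfl⟩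
    exact ⟨_, ⟨v, hv, rfl⟩, rfl⟩
  · rintro ⟨_, ⟨v, hv, rfl⟩, rfl⟩
    exact ⟨_, ⟨v, hv, rfl⟩, rfl⟩

theorem cv0a_ker [Module.Flat A Λ] (f : V →ₗ[A] W) :
    (LinearMap.ker f).baseChange Λ = LinearMap.ker (f.baseChange Λ) := by
  have h : Function.Exact ((LinearMap.ker f).subtype.baseChange Λ) (f.baseChange Λ) :=
    Module.Flat.lTensor_exact Λ (LinearMap.exact_subtype_ker_map f)
  exact (LinearMap.exact_iff.1 h).symm

theorem cv0a_rel [Module.Flat A Λ] (ν : LenFn Λ) (Z B : Submodule A V) :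
    ν.rel (Z.baseChange Λ) (B.baseChange Λ) = ν.toFun (Λ ⊗[A] ↥(Z.map B.mkQ)) := by
  have h1 : B.baseChange Λ = (⊥ : Submodule Λ _).comap (B.mkQ.baseChange Λ) := by
    rw [Submodule.comap_bot, ← cv0a_ker, Submodule.ker_mkQ]
  rw [h1, ← LenFn.rel_map_comap, LenFn.rel_bot, ← cv0a_map]
  exact (ν.congr (LinearEquiv.ofInjective ((Z.map B.mkQ).subtype.baseChange Λ)
    (Module.Flat.lTensor_preserves_injective_linearMap _ (Submodule.injective_subtype _)))).symm

theorem cv0a_Z {ι : Type} (deg : ι → ℕ) (j : ℤ) (D : (ι → V) →ₗ[A] W) :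
    gr deg j ⊤ ⊓ LinearMap.ker D = (LinearMap.ker (D ∘ₗ frT A deg j)).map (frT A deg j) := by
  ext v
  constructor
  · rintro ⟨h1, h2⟩
    refine ⟨v, ?_, frT_of_mem h1⟩
    change D (frT A deg j v) = 0
    rw [frT_of_mem h1]
    exact h2
  · rintro ⟨w, hw, rfl⟩
    exact ⟨frT_mem deg j w, hw⟩

theorem cv0a_B {ι : Type} (deg : ι → ℕ) (j : ℤ) (D : (ι → V) →ₗ[A] W) :
    (gr deg j ⊤).map D = LinearMap.range (D ∘ₗ frT A deg j) := by
  ext v
  constructor
  · rintro ⟨w, hw, rfl⟩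
    exact ⟨w, congrArg D (frT_of_mem hw)⟩
  · rintro ⟨w, rfl⟩
    exact ⟨_, frT_mem deg j w, rfl⟩

end cv0a

/-- flat base change commutes with the homology of a complex of `A`-modules. -/
theorem rel_baseChange {A Λ : Type} [CommRing A] [IsLocalRing A] [CommRing Λ] [Algebra A Λ]
    [Module.Flat A Λ] (lam : LenFn Λ) {S ι : Type} [CommRing S] [Algebra A S] [Fintype ι]
    (deg : ι → ℕ) (P : Matrix ι ι S) (i : ℤ)
    (hfin : hl ((lenFn A).comap (algebraMap A S)) deg P S i ≠ ⊤) :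
    lam.rel (gr deg i (⊤ : Submodule Λ (Λ ⊗[A] S)) ⊓ LinearMap.ker (eact (thM Λ
        (Algebra.TensorProduct.includeRight : S →ₐ[A] Λ ⊗[A] S).toRingHom) P))
      ((gr deg (i + 1) (⊤ : Submodule Λ (Λ ⊗[A] S))).map (eact (thM Λ
        (Algebra.TensorProduct.includeRight : S →ₐ[A] Λ ⊗[A] S).toRingHom) P)) =
      hl ((lenFn A).comap (algebraMap A S)) deg P S i *
        lam.q ((maximalIdeal A).map (algebraMap A Λ)) := by
  classical
  rw [hl, LenFn.comap_rel] at hfin ⊢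
  let D : (ι → S) →ₗ[A] (ι → S) := (mact P S).restrictScalars A
  let D' := eact (thM Λ (Algebra.TensorProduct.includeRight : S →ₐ[A] Λ ⊗[A] S).toRingHom) P
  let e : Λ ⊗[A] (ι → S) ≃ₗ[Λ] (ι → Λ ⊗[A] S) := TensorProduct.piRight A Λ Λ fun _ : ι => S
  have he : ∀ a v b, e (a ⊗ₜ v) b = a ⊗ₜ v b := fun a v b => rfl
  have hD : e.toLinearMap ∘ₗ D.baseChange Λ = D' ∘ₗ e.toLinearMap := by
    refine cv0a_ext fun a v => funext fun b => ?_
    show a ⊗ₜ (∑ b', P b b' • v b') = ∑ b', ((1 : Λ) ⊗ₜ[A] P b b') * (a ⊗ₜ[A] v b')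
    simp only [TensorProduct.tmul_sum, Algebra.TensorProduct.tmul_mul_tmul, one_mul, smul_eq_mul]
  have hπ : ∀ j, e.toLinearMap ∘ₗ (frT A deg j).baseChange Λ = frT Λ deg j ∘ₗ e.toLinearMap := by
    intro j
    refine cv0a_ext fun a v => funext fun b => ?_
    simp only [LinearMap.comp_apply, LinearMap.baseChange_tmul, LinearEquiv.coe_coe, he, frT_apply]
    split_ifs <;> simp
  have hDπ : ∀ j, e.toLinearMap ∘ₗ (D ∘ₗ frT A deg j).baseChange Λ =
      (D' ∘ₗ frT Λ deg j) ∘ₗ e.toLinearMap := fun j => by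
    rw [LinearMap.baseChange_comp, ← LinearMap.comp_assoc, hD, LinearMap.comp_assoc, hπ,
      LinearMap.comp_assoc]
  have eg : ∀ j, (gr deg j (⊤ : Submodule S S)).restrictScalars A = gr deg j (⊤ : Submodule A S) :=
    fun j => Submodule.ext fun v => by
      rw [Submodule.restrictScalars_mem, fr_mem_top, fr_mem_top]
  have eZ : (Zt deg P S i).restrictScalars A = gr deg i ⊤ ⊓ LinearMap.ker D := by
    rw [← eg]
    rfl
  have eB : (Bt deg P S i).restrictScalars A = (gr deg (i + 1) ⊤).map D := by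
    rw [← eg]
    rfl
  have h1 : (((Zt deg P S i).restrictScalars A).baseChange Λ).map e.toLinearMap =
      gr deg i ⊤ ⊓ LinearMap.ker D' := by
    rw [eZ, cv0a_Z, cv0a_Z, cv0a_map, cv0a_ker, ← Submodule.map_comp, hπ, Submodule.map_comp]
    congr 1
    rw [← LinearEquiv.ker_comp e, hDπ, LinearMap.ker_comp,
      Submodule.map_comap_eq_of_surjective e.surjective]
  have h2 : (((Bt deg P S i).restrictScalars A).baseChange Λ).map e.toLinearMap =
      (gr deg (i + 1) ⊤).map D' := by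
    rw [eB, cv0a_B, cv0a_B, ← Submodule.map_top, cv0a_map, Submodule.baseChange_top,
      Submodule.map_top, ← LinearMap.range_comp, hDπ,
      LinearMap.range_comp_of_range_eq_top _ (LinearEquiv.range _)]
  rw [← h1, ← h2, lam.rel_map_of_injective _ e.injective, cv0a_rel]
  exact baseChange_eq lam _ hfin

/-- uniform colon property after flat base change (Artin–Rees, `Ideal.exists_pow_inf_eq_pow_smul`
in `S`; then tensor the exact sequence `0 → K → S → S / ϖ^(N+c)` with the flat `Λ`). -/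
theorem exists_colon {A Λ S : Type} [CommRing A] [CommRing Λ] [Algebra A Λ] [Module.Flat A Λ]
    [CommRing S] [IsDomain S] [IsNoetherianRing S] [Algebra A S] (ϖ g : A)
    (hg : algebraMap A S g ≠ 0) : ∃ c : ℕ, ∀ (N : ℕ) (v : Λ ⊗[A] S),
      algebraMap A Λ g • v ∈ pw (algebraMap A Λ ϖ) (Λ ⊗[A] S) (N + c) →
        v ∈ pw (algebraMap A Λ ϖ) (Λ ⊗[A] S) N := by
  obtain ⟨c, hc⟩ := Ideal.exists_pow_inf_eq_pow_smul (Ideal.span {algebraMap A S ϖ})
    (Ideal.span {algebraMap A S g} : Ideal S)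
  refine ⟨c, fun N v hv => ?_⟩
  have key : ∀ s t : S, g • s = ϖ ^ (N + c) • t → ∃ u : S, s = ϖ ^ N • u := by
    intro s t hst
    have h1 : g • s ∈ Ideal.span {algebraMap A S ϖ} ^ (N + c) • (⊤ : Ideal S) ⊓
        Ideal.span {algebraMap A S g} := by
      refine ⟨?_, Ideal.mem_span_singleton'.2 ⟨s, by rw [Algebra.smul_def, mul_comm]⟩⟩
      rw [hst, Ideal.smul_eq_mul, Ideal.mul_top, Ideal.span_singleton_pow, Algebra.smul_def,
        map_pow]
      exact Ideal.mul_mem_right _ _ (Ideal.mem_span_singleton_self _)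
    rw [hc _ le_add_self, Nat.add_sub_cancel] at h1
    have h2 := Submodule.smul_mono le_rfl inf_le_right h1
    rw [Ideal.smul_eq_mul, Ideal.span_singleton_pow, Ideal.span_singleton_mul_span_singleton,
      Ideal.mem_span_singleton'] at h2
    obtain ⟨u, hu⟩ := h2
    refine ⟨u, mul_left_cancel₀ hg ?_⟩
    rw [← Algebra.smul_def, ← hu, Algebra.smul_def, map_pow]
    ring
  let Q : Submodule A S := LinearMap.range (ϖ ^ (N + c) • LinearMap.id)
  let φ : S →ₗ[A] S ⧸ Q := g • Q.mkQ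
  have h1 := Module.Flat.lTensor_exact Λ (LinearMap.exact_subtype_ker_map φ)
  obtain ⟨w, hw⟩ := mem_pw.1 hv
  rw [← map_pow, algebraMap_smul, algebraMap_smul] at hw
  have h2 : ϖ ^ (N + c) • Q.mkQ = 0 := LinearMap.ext fun s => by
    rw [LinearMap.smul_apply, ← map_smul]
    exact (Submodule.Quotient.mk_eq_zero Q).2 ⟨s, rfl⟩
  obtain ⟨z, rfl⟩ := (h1 v).1 (by
    rw [LinearMap.lTensor_smul, LinearMap.smul_apply, ← map_smul, hw, map_smul,
      ← LinearMap.smul_apply, ← LinearMap.lTensor_smul, h2, LinearMap.lTensor_zero,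
      LinearMap.zero_apply])
  clear hv hw
  induction z with
  | zero => exact zero_mem _
  | add a b ha hb =>
    rw [map_add]
    exact add_mem ha hb
  | tmul l k =>
    have h3 : Q.mkQ (g • k.1) = 0 := by
      rw [map_smul]
      exact k.2
    obtain ⟨t, ht⟩ := (Submodule.Quotient.mk_eq_zero Q).1 h3
    obtain ⟨u, hu⟩ := key k.1 t ht.symm
    refine mem_pw.2 ⟨l ⊗ₜ u, ?_⟩
    rw [← map_pow, algebraMap_smul, LinearMap.lTensor_tmul, Submodule.subtype_apply, hu,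
      TensorProduct.tmul_smul]

theorem isSMulRegular_tensor {A Λ S : Type} [CommRing A] [CommRing Λ] [Algebra A Λ]
    [Module.Flat A Λ] [CommRing S] [IsDomain S] [Algebra A S] (g : A)
    (hg : algebraMap A S g ≠ 0) : IsSMulRegular (Λ ⊗[A] S) (algebraMap A Λ g) :=
  (isSMulRegular_algebraMap_iff Λ).2 (IsSMulRegular.lTensor Λ
    ((isSMulRegular_algebraMap_iff S).1 (IsRegular.of_ne_zero hg).left.isSMulRegular))

variable {p : ℕ} {T : Type} [CommRing T] [IsLocalRing T] {𝔭 : Ideal T} {m : ℕ} {A : Type}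
  [CommRing A] [IsLocalRing A] {x : Fin (m + 1) → A} [Algebra A (T ⧸ 𝔭)] {Λ : Type} [CommRing Λ]
  [Algebra A Λ] {lam : LenFn Λ} {𝔍 : Ideal Λ}

theorem CH.p_mem (h : CH p 𝔭 x lam 𝔍) : (p : T) ∈ maximalIdeal T := by
  have h1 := h.loc 0
  rw [h.x0, map_natCast, ← map_natCast (Ideal.Quotient.mk 𝔭), Ideal.mem_quotient_iff_mem_sup,
    sup_eq_left.2 (le_maximalIdeal h.prime.ne_top)] at h1
  exact h1

theorem CH.p_ne (h : CH p 𝔭 x lam 𝔍) : (p : T ⧸ 𝔭) ≠ 0 := by
  have h1 := h.reg 1 le_rfl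
  rw [List.ofFn_succ, RingTheory.Sequence.isWeaklyRegular_cons_iff, pow_one, h.x0] at h1
  intro h2
  rw [← map_natCast (algebraMap A (T ⧸ 𝔭)), map_eq_zero_iff _ h.inj] at h2
  rw [h2] at h1
  exact IsSMulRegular.not_zero h1.1

/-- lifts of the parameters. -/
theorem CH.exists_lift (h : CH p 𝔭 x lam 𝔍) : ∃ y : Fin (m + 1) → T,
    (∀ i, y i ∈ maximalIdeal T ∧ Ideal.Quotient.mk 𝔭 (y i) = algebraMap A (T ⧸ 𝔭) (x i)) ∧
    ∀ e : ℕ, ∃ c : ℕ, maximalIdeal T ^ c ≤ 𝔭 ⊔ Ideal.ofList (List.ofFn fun i => y i ^ e) := by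
  choose y hy using fun i =>
    (Ideal.mem_map_iff_of_surjective _ Ideal.Quotient.mk_surjective).1 (h.loc i)
  refine ⟨y, hy, fun e => ?_⟩
  have := h.noethT
  have := h.fin
  refine Ideal.exists_pow_le_of_le_radical_of_fg ?_ (IsNoetherian.noetherian _)
  rw [Ideal.radical_eq_sInf]
  refine le_sInf fun Q ⟨h1, h2⟩ => ?_
  have h3 : (Q.map (Ideal.Quotient.mk 𝔭)).IsPrime :=
    Ideal.map_isPrime_of_surjective Ideal.Quotient.mk_surjective (by
      rw [Ideal.mk_ker]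
      exact le_sup_left.trans h1)
  have h4 : maximalIdeal A ≤ (Q.map (Ideal.Quotient.mk 𝔭)).comap (algebraMap A (T ⧸ 𝔭)) := by
    rw [← h.max, Ideal.span_le]
    rintro _ ⟨i, rfl⟩
    rw [SetLike.mem_coe, Ideal.mem_comap, ← (hy i).2]
    refine Ideal.mem_map_of_mem _ (h2.mem_of_pow_mem e (h1 (Ideal.mem_sup_right
      (Ideal.subset_span ?_))))
    exact List.mem_ofFn.2 ⟨i, rfl⟩
  have h5 := Ideal.isMaximal_of_isIntegral_of_isMaximal_comap (R := A)
    (Q.map (Ideal.Quotient.mk 𝔭)) (by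
      rw [← (maximalIdeal.isMaximal A).eq_of_le (Ideal.IsPrime.comap _).ne_top h4]
      infer_instance)
  have h6 := Ideal.comap_isMaximal_of_surjective (Ideal.Quotient.mk 𝔭)
    Ideal.Quotient.mk_surjective (K := Q.map (Ideal.Quotient.mk 𝔭))
  rw [Ideal.comap_map_of_surjective _ Ideal.Quotient.mk_surjective, ← RingHom.ker_eq_comap_bot,
    Ideal.mk_ker, sup_eq_left.2 (le_sup_left.trans h1)] at h6
  exact (eq_maximalIdeal h6).ge

theorem cv0c_length_eq {Λ Λ' M : Type} [CommRing Λ] [CommRing Λ'] [Algebra Λ Λ'] [AddCommGroup M]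
    [Module Λ M] [Module Λ' M] [IsScalarTower Λ Λ' M]
    (h : ∀ r : Λ', ∃ s : Λ, ∀ m : M, r • m = s • m) :
    Module.length Λ' M = Module.length Λ M := by
  let e : Submodule Λ' M ≃o Submodule Λ M :=
    { toFun := fun U => U.restrictScalars Λ
      invFun := fun U =>
        { carrier := U
          add_mem' := U.add_mem
          zero_mem' := U.zero_mem
          smul_mem' := fun r m hm => by
            obtain ⟨s, hs⟩ := h r
            rw [hs]
            exact U.smul_mem s hm }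
      left_inv := fun U => rfl
      right_inv := fun U => rfl
      map_rel_iff' := Iff.rfl }
  apply WithBot.coe_injective
  rw [Module.coe_length, Module.coe_length, Order.krullDim_eq_of_orderIso e]

theorem CH.cv0c_simple (h : CH p 𝔭 x lam 𝔍) (N : Type) [AddCommGroup N] [Module (T ⧸ 𝔭) N]
    [hs : IsSimpleModule (T ⧸ 𝔭) N] :
    ((lenFn A).comap (algebraMap A (T ⧸ 𝔭))).toFun N = 1 := by
  obtain ⟨I, hI, ⟨e⟩⟩ := isSimpleModule_iff_quot_maximal.mp hs
  have hc : (I.comap (Ideal.Quotient.mk 𝔭)).IsMaximal :=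
    Ideal.comap_isMaximal_of_surjective _ Ideal.Quotient.mk_surjective
  have hle : (maximalIdeal T).map (Ideal.Quotient.mk 𝔭) ≤ I := by
    rw [← eq_maximalIdeal hc]
    exact Ideal.map_comap_le
  have hk : ∀ r ∈ I, ∀ v : N, r • v = 0 := by
    intro r hr v
    apply e.injective
    rw [map_smul, map_zero]
    obtain ⟨w, hw⟩ := Ideal.Quotient.mk_surjective (e v)
    rw [← hw]
    change Ideal.Quotient.mk I (r * w) = 0
    exact Ideal.Quotient.eq_zero_iff_mem.2 (I.mul_mem_right w hr)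
  let : Module A N := Module.compHom N (algebraMap A (T ⧸ 𝔭))
  have : IsScalarTower A (T ⧸ 𝔭) N := IsScalarTower.of_compHom A (T ⧸ 𝔭) N
  change ((Module.length A N : ℕ∞) : ℝ≥0∞) = 1
  rw [← cv0c_length_eq (Λ' := T ⧸ 𝔭), Module.length_eq_one, ENat.toENNReal_one]
  intro r
  obtain ⟨s, hs⟩ := h.res r
  refine ⟨s, fun v => ?_⟩
  have := hk _ (hle hs) v
  rw [sub_smul, sub_eq_zero] at this
  rw [this, algebraMap_smul]

/-- lengths over `T` and over `A` agree (same residue field; composition series). -/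
theorem CH.len_eq (h : CH p 𝔭 x lam 𝔍) (N : Type) [AddCommGroup N] [Module (T ⧸ 𝔭) N]
    (hN : (lenFn (T ⧸ 𝔭)).toFun N ≠ ⊤) :
    ((lenFn A).comap (algebraMap A (T ⧸ 𝔭))).toFun N = (lenFn (T ⧸ 𝔭)).toFun N := by
  have hf := Len2_finite N hN
  clear hN
  induction hf with
  | of_subsingleton => rw [LenFn.zero _ _ inferInstance, LenFn.zero _ _ inferInstance]
  | @of_simple_quotient M _ _ U _ _ ih =>
    rw [Len2_len_step U, LenFn.quot_add _ U, ih, h.cv0c_simple (M ⧸ U)]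

theorem CH.hl_ne_top (h : CH p 𝔭 x lam 𝔍) {F : FC T} (hF : HF 𝔭 F) (i : ℤ) :
    hl (lenFn T) F.deg F.d (T ⧸ 𝔭) i ≠ ⊤ := by
  have := h.noethT
  obtain ⟨c, hc⟩ := hF
  refine hl_ne_top_of_kill (I := HI F) (c := c) (fun a ha v hv => Htpy.smul_mem_Bt ha hv) ?_
  rw [Ideal.annihilator_quotient]
  exact hc

/-- `ph_eq_of_htpy` (with `p ^ c = u + y'`, `u ∈ 𝔭`, `y' ∈ HI F`, `htpy_eact`), `rel_baseChange` for
`P = F.d.map (mk 𝔭)`, `CH.len_eq`, `hl_lenFn_map`. -/
theorem CH.phF_V0 (h : CH p 𝔭 x lam 𝔍) {F : FC T} (hF : HF 𝔭 F) (i : ℤ) :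
    phF lam (th0 𝔭 A Λ) F (fun _ => ⊤) (pw (p : Λ) _) i =
      hl (lenFn T) F.deg F.d (T ⧸ 𝔭) i * lam.q ((maximalIdeal A).map (algebraMap A Λ)) := by
  have := h.flat
  have := h.prime
  have hfin := h.hl_ne_top hF i
  obtain ⟨c, hc⟩ := hF
  obtain ⟨u, hu, y, hy, huy⟩ := Submodule.mem_sup.1 (hc (Ideal.pow_mem_pow h.p_mem c))
  obtain ⟨H, hH, hHc⟩ := htpy_eact (th0 𝔭 A Λ) F hy
  have hreg : IsSMulRegular (Λ ⊗[A] (T ⧸ 𝔭)) (p : Λ) := by
    have := isSMulRegular_tensor (A := A) (Λ := Λ) (S := T ⧸ 𝔭) (p : A)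
      (by rw [map_natCast]; exact h.p_ne)
    rwa [map_natCast] at this
  have hy' : Ideal.Quotient.mk 𝔭 y = (p : T ⧸ 𝔭) ^ c := by
    have h1 := congrArg (Ideal.Quotient.mk 𝔭) huy
    rw [map_add, Ideal.Quotient.eq_zero_iff_mem.2 hu, zero_add, map_pow, map_natCast] at h1
    exact h1
  have hth : ∀ w : Λ ⊗[A] (T ⧸ 𝔭), th0 𝔭 A Λ y w = (p : Λ) ^ c • w := by
    intro w
    change (Algebra.TensorProduct.includeRight : (T ⧸ 𝔭) →ₐ[A] Λ ⊗[A] (T ⧸ 𝔭))
      (Ideal.Quotient.mk 𝔭 y) * w = _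
    rw [hy', map_pow, map_natCast, ← Nat.cast_pow, ← Nat.cast_pow, Nat.cast_smul_eq_nsmul,
      nsmul_eq_mul]
  have hE : eact (th0 𝔭 A Λ) F.d = eact (thM Λ
      (Algebra.TensorProduct.includeRight : (T ⧸ 𝔭) →ₐ[A] Λ ⊗[A] (T ⧸ 𝔭)).toRingHom)
        (F.d.map (algebraMap T (T ⧸ 𝔭))) := rfl
  have hmap := hl_lenFn_map (deg := F.deg) (P := F.d) (Λ' := T ⧸ 𝔭) (M := T ⧸ 𝔭) (fun r => by
    obtain ⟨s, rfl⟩ := Ideal.Quotient.mk_surjective r
    exact ⟨s, fun _ => rfl⟩) i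
  have hlen : hl ((lenFn A).comap (algebraMap A (T ⧸ 𝔭))) F.deg (F.d.map (algebraMap T (T ⧸ 𝔭)))
      (T ⧸ 𝔭) i = hl (lenFn T) F.deg F.d (T ⧸ 𝔭) i := by
    rw [← hmap, hl_eq_Ht, hl_eq_Ht]
    refine h.len_eq _ ?_
    rw [← hl_eq_Ht, hmap]
    exact hfin
  unfold phF
  rw [ph_eq_of_htpy lam F.deg (ϖ := (p : Λ)) (c := c) ?_ ?_ hreg H
    (fun j v hv => hH j ⊤ (fun _ _ _ => trivial) v hv) ?_ i, hE,
    rel_baseChange lam F.deg _ i (by rw [hlen]; exact hfin), hlen]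
  · rw [← eact_mul, F.dd]
    ext v b
    simp [eact_apply]
  · intro j v hv
    refine eact_mem_gr (L := ⊤) (fun b b' hb h1 => ?_) (fun _ _ _ => Submodule.mem_top) hv
    have := F.d_deg b b' hb
    omega
  · intro v
    rw [hHc]
    funext b
    exact hth (v b)

end Crest.Agent.R188
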