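import Crest.Agent.R188.Add

/-!
# R188 / Chi

Euler characteristics of subquotient complexes.
-/

set_option autoImplicit false
set_option linter.unusedSectionVars false
set_option linter.unusedVariables false

noncomputable section

namespace Crest.Agent.R188

open Filter
open Crest.Agent.R183 (Zc Bd mact gr Htpy)
open scoped TensorProduct

variable {R V : Type} [CommRing R] [AddCommGroup V] [Module R V] (ν : AddFn R)
  {D : V →ₗ[R] V} {W W' U : ℤ → Submodule R V}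

theorem chx_memZ {i : ℤ} {x : V} : x ∈ Zc D W U i ↔ x ∈ W i ∧ D x ∈ U (i - 1) := Iff.rfl

theorem chx_memZ' {i : ℤ} {x : V} : x ∈ Zc D W U (i + 1) ↔ x ∈ W (i + 1) ∧ D x ∈ U i := by
  rw [chx_memZ, add_sub_cancel_right]

theorem chx_memB {i : ℤ} {x : V} : x ∈ Bd D W U i ↔ ∃ w ∈ W (i + 1), x - D w ∈ U i := by
  unfold Bd
  rw [Submodule.mem_sup]
  constructor
  · rintro ⟨_, ⟨w, hw, rfl⟩, u, hu, rfl⟩
    exact ⟨w, hw, by simpa using hu⟩
  · rintro ⟨w, hw, hx⟩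
    exact ⟨D w, ⟨w, hw, rfl⟩, x - D w, hx, by simp⟩

theorem chx_U_le_B (i : ℤ) : U i ≤ Bd D W U i := le_sup_right

theorem chx_D_mem_B {i : ℤ} {x : V} (hx : x ∈ W (i + 1)) : D x ∈ Bd D W U i :=
  chx_memB.2 ⟨x, hx, by simp⟩

theorem chx_down {X : ℤ → Submodule R V} (h : ∀ i, (X i).map D ≤ X (i - 1)) {i : ℤ} {x : V}
    (hx : x ∈ X (i + 1)) : D x ∈ X i := by
  have := h (i + 1) ⟨x, hx, rfl⟩
  rwa [add_sub_cancel_right] at this

theorem chx_down' {X : ℤ → Submodule R V} (h : ∀ i, (X i).map D ≤ X (i - 1)) {i : ℤ} {x : V}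
    (hx : x ∈ X i) : D x ∈ X (i - 1) := h i ⟨x, hx, rfl⟩

theorem IsCx.chx_dd (h : IsCx D W U) {i : ℤ} {x : V} (hx : x ∈ W (i + 1)) :
    D (D x) ∈ U (i - 1) := by
  have := h.dd (i + 1) x hx
  rwa [add_sub_cancel_right] at this

theorem IsCx.chx_dd' (h : IsCx D W U) {i : ℤ} {x : V} (hx : x ∈ W (i + 1 + 1)) :
    D (D x) ∈ U i := by
  have := h.dd (i + 1 + 1) x hx
  rwa [add_sub_cancel_right, add_sub_cancel_right] at this

theorem chx_shift (f : ℤ → ℝ) (c : ℤ) :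
    ∑ᶠ i : ℤ, (-1 : ℝ) ^ i * f (i - c) = (-1 : ℝ) ^ c * ∑ᶠ i : ℤ, (-1 : ℝ) ^ i * f i := by
  rw [mul_finsum, ← finsum_comp_equiv (Equiv.addRight c)]
  refine finsum_congr fun i => ?_
  simp only [Equiv.coe_addRight, add_sub_cancel_right]
  rw [zpow_add₀ (by norm_num)]
  ring

theorem chx_fin {f : ℤ → ℝ} {S : Set ℤ} (hS : S.Finite) (hf : ∀ i, i ∉ S → f i = 0) :
    (Function.support fun i : ℤ => (-1 : ℝ) ^ i * f i).Finite := by
  refine hS.subset fun i hi => ?_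
  by_contra hc
  exact hi (by simp [hf i hc])

/-- telescoping. -/
theorem chx_tele (a b p : ℤ → ℝ) {S : Set ℤ} (hS : S.Finite) (ha : ∀ i, i ∉ S → a i = 0)
    (hp : ∀ i, i ∉ S → p i = 0) (hab : ∀ i, b i = a i + (p i + p (i - 1))) :
    ∑ᶠ i : ℤ, (-1 : ℝ) ^ i * b i = ∑ᶠ i : ℤ, (-1 : ℝ) ^ i * a i := by
  have h1 := chx_fin hS ha
  have h2 := chx_fin hS hp
  have h3 : (Function.support fun i : ℤ => (-1 : ℝ) ^ i * p (i - 1)).Finite :=
    chx_fin (hS.image fun i => i + 1) fun i hi => hp _ fun hc => hi ⟨i - 1, hc, by simp⟩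
  have e : ∀ i : ℤ, (-1 : ℝ) ^ i * b i =
      (-1 : ℝ) ^ i * a i + ((-1 : ℝ) ^ i * p i + (-1 : ℝ) ^ i * p (i - 1)) := by
    intro i; rw [hab]; ring
  have h4 : (Function.support fun i : ℤ =>
      (-1 : ℝ) ^ i * p i + (-1 : ℝ) ^ i * p (i - 1)).Finite :=
    (h2.union h3).subset (Function.support_add _ _)
  rw [finsum_congr e, finsum_add_distrib h1 h4, finsum_add_distrib h2 h3, chx_shift]
  simp

theorem IsCx.bd_le (h : IsCx D W U) (i : ℤ) : Bd D W U i ≤ Zc D W U i := by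
  intro x hx
  obtain ⟨w, hw, hx⟩ := chx_memB.1 hx
  have e : x = (x - D w) + D w := by simp
  rw [e]
  exact Submodule.add_mem _ ⟨h.le i hx, chx_down' h.subU hx⟩ ⟨chx_down h.subW hw, h.chx_dd hw⟩

theorem IsCx.fin_supp (h : IsCx D W U) :
    (Function.support fun i : ℤ => (-1 : ℝ) ^ i * ν.rel (Zc D W U i) (Bd D W U i)).Finite := by
  refine chx_fin h.fin fun i hi => ν.rel_of_le ?_
  have hi' : W i ≤ U i := by simpa using hi
  exact inf_le_left.trans (hi'.trans (chx_U_le_B i))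

theorem IsCx.sub (h : IsCx D W U) (h1 : ∀ i, U i ≤ W' i) (h2 : ∀ i, W' i ≤ W i)
    (h3 : ∀ i, (W' i).map D ≤ W' (i - 1)) : IsCx D W' U := by
  refine ⟨h1, h3, h.subU, fun i x hx => h.dd i x (h2 i hx), h.fin.subset fun i hi hc => ?_⟩
  exact hi ((h2 i).trans hc)

theorem IsCx.quo (h : IsCx D W U) (h1 : ∀ i, U i ≤ W' i) (h2 : ∀ i, W' i ≤ W i)
    (h3 : ∀ i, (W' i).map D ≤ W' (i - 1)) : IsCx D W W' := by
  refine ⟨h2, h.subW, h3, fun i x hx => h1 _ (h.dd i x hx), h.fin.subset fun i hi hc => ?_⟩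
  exact hi (hc.trans (h1 i))

section ses
variable (h : IsCx D W U) (h1 : ∀ i, U i ≤ W' i) (h2 : ∀ i, W' i ≤ W i)
    (h3 : ∀ i, (W' i).map D ≤ W' (i - 1))
include h h1 h2 h3

theorem chx_BA_le (i : ℤ) : Bd D W' U i ≤ Zc D W' U i ⊓ Bd D W U i := by
  refine le_inf ((h.sub h1 h2 h3).bd_le i) fun x hx => ?_
  obtain ⟨w, hw, hx⟩ := chx_memB.1 hx
  exact chx_memB.2 ⟨w, h2 _ hw, hx⟩

theorem chx_ZA_le (i : ℤ) : Zc D W' U i ⊔ Bd D W U i ≤ Zc D W U i :=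
  sup_le (fun x hx => ⟨h2 _ hx.1, hx.2⟩) (h.bd_le i)

theorem chx_ZB_le (i : ℤ) : Zc D W U i ⊔ Bd D W W' i ≤ Zc D W W' i :=
  sup_le (fun x hx => ⟨hx.1, h1 _ hx.2⟩) ((h.quo h1 h2 h3).bd_le i)

theorem chx_ZB_inf (i : ℤ) : Zc D W U i ⊓ Bd D W W' i = Zc D W' U i ⊔ Bd D W U i := by
  apply le_antisymm
  · rintro x ⟨hx, hx'⟩
    obtain ⟨w, hw, hx'⟩ := chx_memB.1 hx'
    have hz : x - D w ∈ Zc D W U i := Submodule.sub_mem _ hx (h.bd_le i (chx_D_mem_B hw))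
    have : x = (x - D w) + D w := by simp
    rw [this]
    exact Submodule.add_mem_sup ⟨hx', hz.2⟩ (chx_D_mem_B hw)
  · refine le_inf (chx_ZA_le h h1 h2 h3 i) (sup_le (fun x hx => chx_U_le_B i hx.1) fun x hx => ?_)
    obtain ⟨w, hw, hx⟩ := chx_memB.1 hx
    exact chx_memB.2 ⟨w, hw, h1 _ hx⟩

theorem chx_conn (i : ℤ) :
    (ν.grel (Zc D W W' (i + 1)) (Zc D W U (i + 1) ⊔ Bd D W W' (i + 1)) ↔
      ν.grel (Zc D W' U i ⊓ Bd D W U i) (Bd D W' U i)) ∧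
    ν.rel (Zc D W W' (i + 1)) (Zc D W U (i + 1) ⊔ Bd D W W' (i + 1)) =
      ν.rel (Zc D W' U i ⊓ Bd D W U i) (Bd D W' U i) := by
  refine ν.rel_map D (le_antisymm ?_ ?_) (le_antisymm ?_ ?_)
  · refine sup_le_sup_right ?_ _
    rintro _ ⟨x, hx, rfl⟩
    obtain ⟨hx1, hx2⟩ := chx_memZ'.1 hx
    exact ⟨⟨hx2, h.chx_dd hx1⟩, chx_D_mem_B hx1⟩
  · refine sup_le ?_ le_sup_right
    rintro y ⟨hy, hy'⟩
    obtain ⟨w, hw, hy'⟩ := chx_memB.1 hy'
    have e : y = D w + (y - D w) := by simp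
    rw [e]
    refine Submodule.add_mem_sup ⟨w, chx_memZ'.2 ⟨hw, ?_⟩, rfl⟩ (chx_U_le_B i hy')
    have : D w = y - (y - D w) := by simp
    rw [this]
    exact Submodule.sub_mem _ hy.1 (h1 _ hy')
  · rintro x ⟨hx, hx'⟩
    refine ⟨hx, ?_⟩
    obtain ⟨w, hw, hx'⟩ := chx_memB.1 hx'
    have e : x = (x - w) + w := by simp
    rw [e]
    refine Submodule.add_mem_sup (chx_memZ'.2 ⟨Submodule.sub_mem _ hx.1 (h2 _ hw), ?_⟩)
      (chx_U_le_B _ hw)
    rwa [map_sub]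
  · rintro x ⟨hx, hx'⟩
    refine ⟨hx, ?_⟩
    obtain ⟨z, hz, b, hb, rfl⟩ := Submodule.mem_sup.1 hx'
    obtain ⟨w, hw, hb⟩ := chx_memB.1 hb
    refine chx_memB.2 ⟨b - D w, hb, ?_⟩
    have : D (z + b) - D (b - D w) = D z + D (D w) := by simp only [map_add, map_sub]; abel
    rw [this]
    exact Submodule.add_mem _ (chx_memZ'.1 hz).2 (h.chx_dd' hw)

theorem chx_gA (i : ℤ) : ν.grel (Zc D W' U i) (Bd D W' U i) ↔
    ν.grel (Zc D W' U i) (Bd D W U i) ∧ ν.grel (Zc D W' U i ⊓ Bd D W U i) (Bd D W' U i) := by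
  rw [ν.grel_trans (chx_BA_le h h1 h2 h3 i) inf_le_left, (ν.rel_inf _ _).1]

theorem chx_gB (i : ℤ) : ν.grel (Zc D W U i) (Bd D W U i) ↔
    ν.grel (Zc D W U i) (Bd D W W' i) ∧ ν.grel (Zc D W' U i) (Bd D W U i) := by
  rw [ν.grel_trans le_sup_right (chx_ZA_le h h1 h2 h3 i), (ν.rel_sup _ _).1,
    ← chx_ZB_inf h h1 h2 h3, (ν.rel_inf _ _).1]

theorem chx_gC (i : ℤ) : ν.grel (Zc D W W' i) (Bd D W W' i) ↔
    ν.grel (Zc D W' U (i - 1) ⊓ Bd D W U (i - 1)) (Bd D W' U (i - 1)) ∧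
      ν.grel (Zc D W U i) (Bd D W W' i) := by
  obtain ⟨j, rfl⟩ : ∃ j, i = j + 1 := ⟨i - 1, by simp⟩
  rw [ν.grel_trans le_sup_right (chx_ZB_le h h1 h2 h3 _), (ν.rel_sup _ _).1,
    (chx_conn ν h h1 h2 h3 j).1, add_sub_cancel_right]

theorem chx_rA (i : ℤ) (g : ν.grel (Zc D W' U i) (Bd D W' U i)) :
    ν.rel (Zc D W' U i) (Bd D W' U i) =
    ν.rel (Zc D W' U i) (Bd D W U i) + ν.rel (Zc D W' U i ⊓ Bd D W U i) (Bd D W' U i) := by
  rw [ν.rel_trans (chx_BA_le h h1 h2 h3 i) inf_le_left g, (ν.rel_inf _ _).2]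

theorem chx_rB (i : ℤ) (g : ν.grel (Zc D W U i) (Bd D W U i)) :
    ν.rel (Zc D W U i) (Bd D W U i) =
    ν.rel (Zc D W U i) (Bd D W W' i) + ν.rel (Zc D W' U i) (Bd D W U i) := by
  rw [ν.rel_trans le_sup_right (chx_ZA_le h h1 h2 h3 i) g, (ν.rel_sup _ _).2,
    ← chx_ZB_inf h h1 h2 h3, (ν.rel_inf _ _).2]

theorem chx_rC (i : ℤ) (g : ν.grel (Zc D W W' i) (Bd D W W' i)) :
    ν.rel (Zc D W W' i) (Bd D W W' i) =
    ν.rel (Zc D W' U (i - 1) ⊓ Bd D W U (i - 1)) (Bd D W' U (i - 1)) +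
      ν.rel (Zc D W U i) (Bd D W W' i) := by
  obtain ⟨j, rfl⟩ : ∃ j, i = j + 1 := ⟨i - 1, by simp⟩
  rw [ν.rel_trans le_sup_right (chx_ZB_le h h1 h2 h3 _) g, (ν.rel_sup _ _).2,
    (chx_conn ν h h1 h2 h3 j).2, add_sub_cancel_right]

end ses

/-- two out of three.  With `A = W'/U`, `B = W/U`, `C = W/W'`: `H_i B ⊇ (Z A + B B)/B B`, the quotient
embeds in `H_i C`, whose cokernel embeds through `D` in `H_{i-1} A` as the kernel of `H A → H B`. -/
theorem AddFn.gd_ses (h : IsCx D W U) (h1 : ∀ i, U i ≤ W' i) (h2 : ∀ i, W' i ≤ W i)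
    (h3 : ∀ i, (W' i).map D ≤ W' (i - 1)) :
    (ν.gd D W' U → ν.gd D W W' → ν.gd D W U) ∧ (ν.gd D W U → ν.gd D W' U → ν.gd D W W') ∧
      (ν.gd D W U → ν.gd D W W' → ν.gd D W' U) := by
  have A := chx_gA ν h h1 h2 h3
  have B := chx_gB ν h h1 h2 h3
  have C := chx_gC ν h h1 h2 h3
  refine ⟨fun a c i => (B i).2 ⟨((C i).1 (c i)).2, ((A i).1 (a i)).1⟩,
    fun b a i => (C i).2 ⟨((A _).1 (a _)).2, ((B i).1 (b i)).1⟩,
    fun b c i => (A i).2 ⟨((B i).1 (b i)).2, ?_⟩⟩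
  have := ((C (i + 1)).1 (c _)).1
  rwa [add_sub_cancel_right] at this

theorem AddFn.chi_ses (h : IsCx D W U) (h1 : ∀ i, U i ≤ W' i) (h2 : ∀ i, W' i ≤ W i)
    (h3 : ∀ i, (W' i).map D ≤ W' (i - 1)) (g1 : ν.gd D W' U) (g2 : ν.gd D W W') :
    ν.chi D W U = ν.chi D W' U + ν.chi D W W' := by
  have g := (ν.gd_ses h h1 h2 h3).1 g1 g2
  unfold AddFn.chi
  rw [← finsum_add_distrib ((h.sub h1 h2 h3).fin_supp ν) ((h.quo h1 h2 h3).fin_supp ν)]
  simp only [← mul_add]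
  symm
  refine chx_tele _ _ (fun i => ν.rel (Zc D W' U i ⊓ Bd D W U i) (Bd D W' U i)) h.fin
    (fun i hi => ν.rel_of_le ?_) (fun i hi => ν.rel_of_le ?_) fun i => ?_
  · have hi' : W i ≤ U i := by simpa using hi
    exact inf_le_left.trans (hi'.trans (chx_U_le_B i))
  · have hi' : W i ≤ U i := by simpa using hi
    exact inf_le_left.trans (inf_le_left.trans ((h2 i).trans (hi'.trans (chx_U_le_B i))))
  · rw [chx_rA ν h h1 h2 h3 i (g1 i), chx_rB ν h h1 h2 h3 i (g i), chx_rC ν h h1 h2 h3 i (g2 i)]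
    ring

theorem AddFn.chi_iso {V' : Type} [AddCommGroup V'] [Module R V'] {φ : V →ₗ[R] V'}
    {D' : V' →ₗ[R] V'} {X Y : ℤ → Submodule R V'} (e : PIso φ D W U D' X Y) (h : IsCx D W U)
    (h' : IsCx D' X Y) :
    (ν.gd D W U ↔ ν.gd D' X Y) ∧ ν.chi D W U = ν.chi D' X Y ∧ (Exa D W U ↔ Exa D' X Y) := by
  have hX : ∀ {i x}, x ∈ W i → φ x ∈ X i := fun {i x} hx => by
    rw [← e.surj i]; exact Submodule.mem_sup_left ⟨x, hx, rfl⟩
  have hY : ∀ {i x}, x ∈ U i → φ x ∈ Y i := fun {i x} hx => by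
    rw [← e.ker i] at hx; exact hx.2
  have hK : ∀ {i x}, x ∈ W i → φ x ∈ Y i → x ∈ U i := fun {i x} hx hx' => by
    rw [← e.ker i]; exact ⟨hx, hx'⟩
  have hS : ∀ {i y}, y ∈ X i → ∃ w ∈ W i, y - φ w ∈ Y i := fun {i y} hy => by
    rw [← e.surj i] at hy
    obtain ⟨_, ⟨w, hw, rfl⟩, u, hu, rfl⟩ := Submodule.mem_sup.1 hy
    exact ⟨w, hw, by simpa using hu⟩
  have k1 : ∀ i, (Zc D W U i).map φ ⊔ Bd D' X Y i = Zc D' X Y i ⊔ Bd D' X Y i := by
    intro i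
    apply le_antisymm
    · refine sup_le_sup_right ?_ _
      rintro _ ⟨x, hx, rfl⟩
      refine chx_memZ.2 ⟨hX hx.1, ?_⟩
      have : D' (φ x) = φ (D x) - (φ (D x) - D' (φ x)) := by simp
      rw [this]
      exact Submodule.sub_mem _ (hY hx.2) (e.comm i x hx.1)
    · refine sup_le ?_ le_sup_right
      intro y hy
      obtain ⟨w, hw, hy'⟩ := hS hy.1
      have e1 : y = φ w + (y - φ w) := by simp
      rw [e1]
      refine Submodule.add_mem_sup ⟨w, chx_memZ.2 ⟨hw, hK (chx_down' h.subW hw) ?_⟩, rfl⟩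
        (chx_U_le_B i hy')
      have : φ (D w) = (φ (D w) - D' (φ w)) + (D' y - D' (y - φ w)) := by simp
      rw [this]
      exact Submodule.add_mem _ (e.comm i w hw)
        (Submodule.sub_mem _ hy.2 (chx_down' h'.subU hy'))
  have hc : ∀ {i w}, w ∈ W (i + 1) → φ (D w) - D' (φ w) ∈ Y i := fun {i w} hw => by
    have := e.comm (i + 1) w hw
    rwa [add_sub_cancel_right] at this
  have k2 : ∀ i, Zc D W U i ⊓ (Bd D' X Y i).comap φ = Zc D W U i ⊓ Bd D W U i := by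
    intro i
    apply le_antisymm
    · rintro x ⟨hx, hx'⟩
      refine ⟨hx, ?_⟩
      obtain ⟨y, hy, hx'⟩ := chx_memB.1 hx'
      obtain ⟨w, hw, hy'⟩ := hS hy
      refine chx_memB.2 ⟨w, hw, hK (Submodule.sub_mem _ hx.1 (chx_down h.subW hw)) ?_⟩
      have : φ (x - D w) = (φ x - D' y) + D' (y - φ w) - (φ (D w) - D' (φ w)) := by
        simp only [map_sub]; abel
      rw [this]
      exact Submodule.sub_mem _ (Submodule.add_mem _ hx' (chx_down h'.subU hy')) (hc hw)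
    · rintro x ⟨hx, hx'⟩
      refine ⟨hx, ?_⟩
      obtain ⟨w, hw, hx'⟩ := chx_memB.1 hx'
      refine chx_memB.2 ⟨φ w, hX hw, ?_⟩
      have : φ x - D' (φ w) = φ (x - D w) + (φ (D w) - D' (φ w)) := by
        simp only [map_sub]; abel
      rw [this]
      exact Submodule.add_mem _ (hY hx') (hc hw)
  have k := fun i => ν.rel_map φ (k1 i) (k2 i)
  refine ⟨forall_congr' fun i => (k i).1, finsum_congr fun i => by rw [(k i).2],
    forall_congr' fun i => ⟨fun hz => ?_, fun hz => ?_⟩⟩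
  · have a1 : Zc D W U i ≤ (Bd D' X Y i).comap φ := by
      rw [← inf_eq_left, k2, inf_eq_left.2 hz]
    refine le_sup_left.trans ((k1 i).symm.le.trans (sup_le ?_ le_rfl))
    exact Submodule.map_le_iff_le_comap.2 a1
  · have a1 : (Zc D W U i).map φ ≤ Bd D' X Y i :=
      le_sup_left.trans ((k1 i).le.trans (sup_le hz le_rfl))
    rw [← inf_eq_left, ← k2, inf_eq_left]
    exact Submodule.map_le_iff_le_comap.1 a1

/-- short exact sequences given by maps. -/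
theorem AddFn.chi_ses_map {V₁ V₃ : Type} [AddCommGroup V₁] [Module R V₁] [AddCommGroup V₃]
    [Module R V₃] {D₁ : V₁ →ₗ[R] V₁} {D₃ : V₃ →ₗ[R] V₃} {A : ℤ → Submodule R V₁}
    {C : ℤ → Submodule R V₃} (i : V₁ →ₗ[R] V) (q : V →ₗ[R] V₃) (hA : IsCx D₁ A ⊥) (hB : IsCx D W ⊥)
    (hC : IsCx D₃ C ⊥) (hi : Function.Injective i) (hiD : i ∘ₗ D₁ = D ∘ₗ i)
    (hqD : q ∘ₗ D = D₃ ∘ₗ q) (e1 : ∀ n, (A n).map i = W n ⊓ LinearMap.ker q)
    (e2 : ∀ n, (W n).map q = C n) :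
    ((ν.gd D₁ A ⊥ → ν.gd D₃ C ⊥ → ν.gd D W ⊥) ∧ (ν.gd D W ⊥ → ν.gd D₁ A ⊥ → ν.gd D₃ C ⊥) ∧
      (ν.gd D W ⊥ → ν.gd D₃ C ⊥ → ν.gd D₁ A ⊥)) ∧
    (ν.gd D₁ A ⊥ → ν.gd D₃ C ⊥ → ν.chi D W ⊥ = ν.chi D₁ A ⊥ + ν.chi D₃ C ⊥) := by
  have h1 : ∀ n, (⊥ : ℤ → Submodule R V) n ≤ W n ⊓ LinearMap.ker q := fun n => bot_le
  have h2 : ∀ n, W n ⊓ LinearMap.ker q ≤ W n := fun n => inf_le_left
  have h3 : ∀ n, (W n ⊓ LinearMap.ker q).map D ≤ W (n - 1) ⊓ LinearMap.ker q := by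
    rintro n _ ⟨x, hx, rfl⟩
    refine ⟨chx_down' hB.subW hx.1, ?_⟩
    have a1 : q (D x) = D₃ (q x) := LinearMap.congr_fun hqD x
    have a2 : q x = 0 := hx.2
    change q (D x) = 0
    rw [a1, a2, map_zero]
  have p1 : PIso i D₁ A ⊥ D (fun n => W n ⊓ LinearMap.ker q) ⊥ := by
    refine ⟨fun n => by simp [e1], fun n => ?_, fun n x _ => ?_⟩
    · simp [LinearMap.ker_eq_bot.2 hi]
    · have a1 : i (D₁ x) = D (i x) := LinearMap.congr_fun hiD x
      simp [a1]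
  have p2 : PIso q D W (fun n => W n ⊓ LinearMap.ker q) D₃ C ⊥ := by
    refine ⟨fun n => by simp [e2], fun n => by simp, fun n x _ => ?_⟩
    have a1 : q (D x) = D₃ (q x) := LinearMap.congr_fun hqD x
    simp [a1]
  have c1 := ν.chi_iso p1 hA (hB.sub h1 h2 h3)
  have c2 := ν.chi_iso p2 (hB.quo h1 h2 h3) hC
  rw [c1.1, c1.2.1, ← c2.1, ← c2.2.1]
  exact ⟨ν.gd_ses hB h1 h2 h3, ν.chi_ses hB h1 h2 h3⟩

theorem AddFn.chi_exa (h : Exa D W U) : ν.gd D W U ∧ ν.chi D W U = 0 := by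
  refine ⟨fun i => ν.grel_of_le (h i), ?_⟩
  unfold AddFn.chi
  simp [fun i => ν.rel_of_le (h i)]

theorem AddFn.chi_single (n : ℤ) (h : ∀ i, i ≠ n → Zc D W U i ≤ Bd D W U i) :
    ν.chi D W U = (-1 : ℝ) ^ n * ν.rel (Zc D W U n) (Bd D W U n) := by
  unfold AddFn.chi
  rw [finsum_eq_single _ n]
  intro i hi
  rw [ν.rel_of_le (h i hi), mul_zero]

theorem AddFn.chi_terms (h : IsCx D W U) (g : ∀ i, ν.grel (W i) (U i)) :
    ν.gd D W U ∧ ν.chi D W U = ∑ᶠ i : ℤ, (-1 : ℝ) ^ i * ν.rel (W i) (U i) := by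
  have gz : ∀ i, ν.grel (Zc D W U i) (U i) := fun i =>
    ν.grel_mono (inf_le_left.trans le_sup_left) le_rfl (g i)
  have uz : ∀ i, U i ≤ Zc D W U i := fun i => (chx_U_le_B i).trans (h.bd_le i)
  refine ⟨fun i => ν.grel_mono (inf_le_left.trans le_sup_left) (chx_U_le_B i) (g i), ?_⟩
  unfold AddFn.chi
  symm
  refine chx_tele _ _ (fun i => ν.rel (Bd D W U i) (U i)) h.fin
    (fun i hi => ν.rel_of_le ?_) (fun i hi => ν.rel_of_le ?_) fun i => ?_
  · have hi' : W i ≤ U i := by simpa using hi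
    exact inf_le_left.trans (hi'.trans (chx_U_le_B i))
  · have hi' : W i ≤ U i := by simpa using hi
    exact (h.bd_le i).trans (inf_le_left.trans hi')
  · have a := (ν.rel_map D (W := W i) (U := Zc D W U i) (W' := Bd D W U (i - 1)) (U' := U (i - 1))
      (by unfold Bd; rw [sub_add_cancel, sup_assoc, sup_idem])
      (by unfold Zc; rw [← inf_assoc, inf_idem])).2
    rw [ν.rel_trans (uz i) inf_le_left (g i), ν.rel_trans (chx_U_le_B i) (h.bd_le i) (gz i)]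
    rw [← a]
    unfold Zc
    ring

theorem AddFn.chi_shift (c : ℤ) (ε : R) (hε : IsUnit ε) :
    (ν.gd (ε • D) (fun i => W (i - c)) (fun i => U (i - c)) ↔ ν.gd D W U) ∧
    ν.chi (ε • D) (fun i => W (i - c)) (fun i => U (i - c)) = (-1 : ℝ) ^ c * ν.chi D W U := by
  have key : ∀ (S : Submodule R V) (x : V), ε • x ∈ S ↔ x ∈ S := fun S x =>
    Submodule.smul_mem_iff_of_isUnit S hε
  have z : ∀ i, Zc (ε • D) (fun i => W (i - c)) (fun i => U (i - c)) i = Zc D W U (i - c) := by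
    intro i
    ext x
    rw [chx_memZ, chx_memZ, LinearMap.smul_apply, key, sub_right_comm]
  have b : ∀ i, Bd (ε • D) (fun i => W (i - c)) (fun i => U (i - c)) i = Bd D W U (i - c) := by
    intro i
    ext x
    rw [chx_memB, chx_memB, add_sub_right_comm]
    obtain ⟨u, rfl⟩ := hε
    constructor
    · rintro ⟨w, hw, hx⟩
      exact ⟨(u : R) • w, Submodule.smul_mem _ _ hw, by simpa using hx⟩
    · rintro ⟨w, hw, hx⟩
      refine ⟨((u⁻¹ : Rˣ) : R) • w, Submodule.smul_mem _ _ hw, ?_⟩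
      simpa [smul_smul] using hx
  unfold AddFn.gd AddFn.chi
  simp only [z, b]
  refine ⟨⟨fun g i => ?_, fun g i => g _⟩,
    chx_shift (fun i => ν.rel (Zc D W U i) (Bd D W U i)) c⟩
  have := g (i + c)
  rwa [add_sub_cancel_right] at this

/-- a finite filtration by subcomplexes. -/
theorem AddFn.chi_filt (X : ℕ → ℤ → Submodule R V) (m : ℕ) (h : IsCx D (X m) (X 0))
    (hm : ∀ j i, X j i ≤ X (j + 1) i) (hs : ∀ j i, (X j i).map D ≤ X j (i - 1))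
    (g : ∀ j < m, ν.gd D (X (j + 1)) (X j)) :
    ν.gd D (X m) (X 0) ∧ ν.chi D (X m) (X 0) = ∑ j ∈ Finset.range m, ν.chi D (X (j + 1)) (X j) := by
  induction m with
  | zero =>
    have := ν.chi_exa (D := D) (W := X 0) (U := X 0)
      fun i => inf_le_left.trans (chx_U_le_B i)
    simpa using this
  | succ m ih =>
    have h1 : ∀ i, X 0 i ≤ X m i := fun i =>
      monotone_nat_of_le_succ (f := fun j => X j i) (fun j => hm j i) (Nat.zero_le m)
    have ih' := ih (h.sub h1 (hm m) (hs m)) fun j hj => g j (Nat.lt_succ_of_lt hj)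
    refine ⟨(ν.gd_ses h h1 (hm m) (hs m)).1 ih'.1 (g m (Nat.lt_succ_self m)), ?_⟩
    rw [ν.chi_ses h h1 (hm m) (hs m) ih'.1 (g m (Nat.lt_succ_self m)), ih'.2,
      Finset.sum_range_succ]

theorem chx_idem {Ω : Type} [Fintype Ω] [DecidableEq Ω] (e : Ω → V →ₗ[R] V)
    (hsum : ∑ ω, e ω = LinearMap.id) (horth : ∀ ω ω', ω ≠ ω' → e ω ∘ₗ e ω' = 0) (ω : Ω) (x : V) :
    e ω (e ω x) = e ω x := by
  have h0 : ∑ ω', e ω' x = x := by
    have := LinearMap.congr_fun hsum x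
    simpa [LinearMap.sum_apply] using this
  conv_rhs => rw [← h0]
  rw [map_sum, Finset.sum_eq_single ω]
  · intro ω' _ hne
    exact LinearMap.congr_fun (horth ω ω' hne.symm) x
  · simp

theorem chx_rel_idem {Ω : Type} [Fintype Ω] [DecidableEq Ω] (e : Ω → V →ₗ[R] V)
    (hsum : ∑ ω, e ω = LinearMap.id) (horth : ∀ ω ω', ω ≠ ω' → e ω ∘ₗ e ω' = 0)
    (S T : Submodule R V) (hS : ∀ ω, S.map (e ω) ≤ S) (hT : ∀ ω, T.map (e ω) ≤ T) :
    (ν.grel S T ↔ ∀ ω, ν.grel (S.map (e ω)) (T.map (e ω))) ∧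
    (ν.grel S T → ν.rel S T = ∑ ω, ν.rel (S.map (e ω)) (T.map (e ω))) := by
  have h0 : ∀ x, ∑ ω', e ω' x = x := fun x => by
    have := LinearMap.congr_fun hsum x
    simpa [LinearMap.sum_apply] using this
  have k1 : S.map (LinearMap.pi e) = Submodule.pi Set.univ fun ω => S.map (e ω) := by
    apply le_antisymm
    · rintro _ ⟨x, hx, rfl⟩ ω _
      exact ⟨x, hx, rfl⟩
    · intro y hy
      choose s hs hs' using fun ω => hy ω (Set.mem_univ ω)
      refine ⟨∑ ω, e ω (s ω), Submodule.sum_mem _ fun ω _ => hS ω ⟨_, hs ω, rfl⟩, ?_⟩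
      funext ω
      rw [LinearMap.pi_apply, map_sum, Finset.sum_eq_single ω, chx_idem e hsum horth, hs']
      · intro ω' _ hne
        exact LinearMap.congr_fun (horth ω ω' hne.symm) _
      · simp
  have k2 : (Submodule.pi Set.univ fun ω => T.map (e ω)).comap (LinearMap.pi e) = T := by
    apply le_antisymm
    · intro x hx
      rw [← h0 x]
      exact Submodule.sum_mem _ fun ω _ => hT ω (hx ω (Set.mem_univ ω))
    · intro x hx ω _
      exact ⟨x, hx, rfl⟩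
  have k := ν.rel_map (LinearMap.pi e) (W := S) (U := T)
    (W' := Submodule.pi Set.univ fun ω => S.map (e ω))
    (U' := Submodule.pi Set.univ fun ω => T.map (e ω)) (by rw [k1]) (by rw [k2])
  have k' := ν.rel_pi (fun ω => S.map (e ω)) fun ω => T.map (e ω)
  refine ⟨k.1.trans k'.1, fun g => ?_⟩
  rw [k.2, k'.2 (k'.1.1 (k.1.1 g))]

/-- direct sum decompositions by orthogonal idempotents. -/
theorem AddFn.chi_idem {Ω : Type} [Fintype Ω] [DecidableEq Ω] (h : IsCx D W U) (e : Ω → V →ₗ[R] V)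
    (hsum : ∑ ω, e ω = LinearMap.id) (horth : ∀ ω ω', ω ≠ ω' → e ω ∘ₗ e ω' = 0)
    (hD : ∀ ω, e ω ∘ₗ D = D ∘ₗ e ω) (hW : ∀ ω i, (W i).map (e ω) ≤ W i)
    (hU : ∀ ω i, (U i).map (e ω) ≤ U i) :
    (∀ ω, IsCx D (fun i => (W i).map (e ω)) fun i => (U i).map (e ω)) ∧
    (ν.gd D W U ↔ ∀ ω, ν.gd D (fun i => (W i).map (e ω)) fun i => (U i).map (e ω)) ∧
    (ν.gd D W U →
      ν.chi D W U = ∑ ω, ν.chi D (fun i => (W i).map (e ω)) fun i => (U i).map (e ω)) := by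
  have hD' : ∀ ω x, e ω (D x) = D (e ω x) := fun ω x => LinearMap.congr_fun (hD ω) x
  have hi := chx_idem e hsum horth
  have cx : ∀ ω, IsCx D (fun i => (W i).map (e ω)) fun i => (U i).map (e ω) := by
    intro ω
    refine ⟨fun i => Submodule.map_mono (h.le i), ?_, ?_, ?_,
      h.fin.subset fun i hi hc => hi (Submodule.map_mono hc)⟩
    · rintro i _ ⟨_, ⟨x, hx, rfl⟩, rfl⟩
      exact ⟨D x, chx_down' h.subW hx, hD' ω x⟩
    · rintro i _ ⟨_, ⟨x, hx, rfl⟩, rfl⟩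
      exact ⟨D x, chx_down' h.subU hx, hD' ω x⟩
    · rintro i _ ⟨x, hx, rfl⟩
      exact ⟨D (D x), h.dd i x hx, by rw [hD', hD']⟩
  have z : ∀ ω i, Zc D (fun i => (W i).map (e ω)) (fun i => (U i).map (e ω)) i =
      (Zc D W U i).map (e ω) := by
    intro ω i
    apply le_antisymm
    · rintro _ ⟨⟨x, hx, rfl⟩, hx'⟩
      exact ⟨e ω x, ⟨hW ω i ⟨x, hx, rfl⟩, hU ω _ hx'⟩, hi ω x⟩
    · rintro _ ⟨x, hx, rfl⟩
      exact ⟨⟨x, hx.1, rfl⟩, D x, hx.2, hD' ω x⟩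
  have b : ∀ ω i, Bd D (fun i => (W i).map (e ω)) (fun i => (U i).map (e ω)) i =
      (Bd D W U i).map (e ω) := by
    intro ω i
    unfold Bd
    rw [Submodule.map_sup, ← Submodule.map_comp, ← Submodule.map_comp, hD]
  have sz : ∀ i ω, (Zc D W U i).map (e ω) ≤ Zc D W U i := by
    rintro i ω _ ⟨x, hx, rfl⟩
    refine chx_memZ.2 ⟨hW ω i ⟨x, hx.1, rfl⟩, ?_⟩
    rw [← hD']
    exact hU ω _ ⟨D x, hx.2, rfl⟩
  have sb : ∀ i ω, (Bd D W U i).map (e ω) ≤ Bd D W U i := by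
    intro i ω
    rw [← b]
    exact sup_le_sup (Submodule.map_mono (hW ω _)) (hU ω i)
  have k := fun i => chx_rel_idem ν e hsum horth _ _ (sz i) (sb i)
  refine ⟨cx, ?_, fun g => ?_⟩
  · unfold AddFn.gd
    simp only [z, b]
    rw [forall_comm]
    exact forall_congr' fun i => (k i).1
  · unfold AddFn.chi
    rw [← finsum_sum_comm _ _ fun ω _ => (cx ω).fin_supp ν]
    refine finsum_congr fun i => ?_
    rw [(k i).2 (g i), Finset.mul_sum]
    simp only [z, b]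

/-- powers of a complex. -/
theorem AddFn.chi_pi (κ : Type) [Fintype κ] (h : IsCx D W U) :
    IsCx (D.compLeft κ) (fun i => Submodule.pi Set.univ fun _ : κ => W i)
      (fun i => Submodule.pi Set.univ fun _ : κ => U i) ∧
    (ν.gd D W U → ν.gd (D.compLeft κ) (fun i => Submodule.pi Set.univ fun _ : κ => W i)
      (fun i => Submodule.pi Set.univ fun _ : κ => U i) ∧
    ν.chi (D.compLeft κ) (fun i => Submodule.pi Set.univ fun _ : κ => W i)
      (fun i => Submodule.pi Set.univ fun _ : κ => U i) = Fintype.card κ * ν.chi D W U) := by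
  have z : ∀ i, Zc (D.compLeft κ) (fun i => Submodule.pi Set.univ fun _ : κ => W i)
      (fun i => Submodule.pi Set.univ fun _ : κ => U i) i =
      Submodule.pi Set.univ fun _ : κ => Zc D W U i := by
    intro i
    ext x
    rw [chx_memZ]
    simp only [Submodule.mem_pi, chx_memZ]
    exact ⟨fun a c hc => ⟨a.1 c hc, a.2 c hc⟩, fun a => ⟨fun c hc => (a c hc).1, fun c hc => (a c hc).2⟩⟩
  have b : ∀ i, Bd (D.compLeft κ) (fun i => Submodule.pi Set.univ fun _ : κ => W i)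
      (fun i => Submodule.pi Set.univ fun _ : κ => U i) i =
      Submodule.pi Set.univ fun _ : κ => Bd D W U i := by
    intro i
    ext x
    rw [chx_memB]
    simp only [Submodule.mem_pi, chx_memB]
    constructor
    · rintro ⟨w, hw, hx⟩ c hc
      exact ⟨w c, hw c hc, hx c hc⟩
    · intro a
      choose w hw hx using fun c => a c (Set.mem_univ c)
      exact ⟨w, fun c _ => hw c, fun c _ => hx c⟩
  refine ⟨⟨fun i x hx c hc => h.le i (hx c hc), ?_, ?_, fun i x hx c hc => h.dd i _ (hx c hc),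
    h.fin.subset fun i hi hc => hi fun x hx c hc' => hc (hx c hc')⟩, fun g => ?_⟩
  · rintro i _ ⟨x, hx, rfl⟩ c hc
    exact chx_down' h.subW (hx c hc)
  · rintro i _ ⟨x, hx, rfl⟩ c hc
    exact chx_down' h.subU (hx c hc)
  · unfold AddFn.gd AddFn.chi
    simp only [z, b]
    refine ⟨fun i => (ν.rel_pi _ _).1.2 fun _ => g i, ?_⟩
    rw [mul_finsum]
    refine finsum_congr fun i => ?_
    rw [(ν.rel_pi _ _).2 fun _ => g i]
    simp only [Finset.sum_const, Finset.card_univ, nsmul_eq_mul]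
    ring

/-- a null-homotopy of `y` kills the homology. -/
theorem IsCx.smul_mem_bd (h : IsCx D W U) (H : V →ₗ[R] V) (y : R)
    (hW : ∀ i, (W i).map H ≤ W (i + 1)) (hU : ∀ i, (U i).map H ≤ U (i + 1))
    (hH : ∀ i, ∀ x ∈ W i, D (H x) + H (D x) - y • x ∈ U i) (i : ℤ) :
    ∀ x ∈ Zc D W U i, y • x ∈ Bd D W U i := by
  intro x hx
  refine chx_memB.2 ⟨H x, hW i ⟨x, hx.1, rfl⟩, ?_⟩
  have a1 : H (D x) ∈ U i := by
    have := hU (i - 1) ⟨D x, hx.2, rfl⟩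
    rwa [sub_add_cancel] at this
  have : y • x - D (H x) = H (D x) - (D (H x) + H (D x) - y • x) := by abel
  rw [this]
  exact Submodule.sub_mem _ a1 (hH i x hx.1)

theorem AddFn.gd_of_killed [IsNoetherianRing R] {𝔞 : Ideal R} (ha : ν.good (R ⧸ 𝔞))
    (hW : ∀ i, (W i).FG)
    (hk : ∀ y ∈ 𝔞, ∀ i, ∃ k : ℕ, ∀ x ∈ Zc D W U i, y ^ k • x ∈ Bd D W U i) : ν.gd D W U := by
  intro i
  exact ν.grel_of_killed ha ((hW i).of_le inf_le_left) fun y hy => hk y hy i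

/-- two functionals that are proportional on the homology modules. -/
theorem AddFn.chi_eq_mul (μ : AddFn R) (c : ℝ)
    (hc : ∀ i, ν.rel (Zc D W U i) (Bd D W U i) = c * μ.rel (Zc D W U i) (Bd D W U i)) :
    ν.chi D W U = c * μ.chi D W U := by
  unfold AddFn.chi
  rw [mul_finsum]
  refine finsum_congr fun i => ?_
  rw [hc]
  ring

end Crest.Agent.R188
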