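import Crest.Agent.R188.GonA
import Crest.Agent.R188.Reg1
import Crest.Agent.R188.TDefs

/-! Row 188, part IV: Cohen structure of complete regular local rings. -/

set_option autoImplicit false

namespace Crest.Agent.R188

open Crest.Agent.R183 IsLocalRing

theorem cohen_equal {T k : Type} [CommRing T] [IsRegularLocalRing T]
    [IsAdicComplete (maximalIdeal T) T] [Field k] {d : ℕ} (hd : ringKrullDim T = d) (s : k →+* T)
    (hs : ∀ t : T, ∃ c : k, t - s c ∈ maximalIdeal T) :
    ∃ π : MvPowerSeries (Fin d) k →+* T, Function.Bijective π := by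
  obtain ⟨x, hx⟩ := reg_exists_gen (R := T) hd
  obtain ⟨π, hπ, -, -⟩ := cohen_surj s hs x hx
  haveI := (regBase_field k d).noeth
  exact ⟨π, injective_of_gen MvPowerSeries.X
    (IsLocalRing.eq_maximalIdeal (regBase_field k d).max) π hπ hd, hπ⟩

theorem cohen_mixed (p : ℕ) [Fact p.Prime] {T k : Type} [CommRing T] [IsRegularLocalRing T]
    [IsAdicComplete (maximalIdeal T) T] [Field k] [CharP k p] [PerfectRing k p] {d : ℕ}
    (hd : ringKrullDim T = d) (ρ : T →+* k) (hρ : Function.Surjective ρ) (hp : (p : T) ≠ 0) :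
    ∃ (G : MvPowerSeries (Fin d) (WittVector p k))
      (π : MvPowerSeries (Fin d) (WittVector p k) →+* T), Mixed p k d G T π := by
  have hker : RingHom.ker ρ = maximalIdeal T :=
    IsLocalRing.eq_maximalIdeal (RingHom.ker_isMaximal_of_surjective ρ hρ)
  haveI : IsAdicComplete (RingHom.ker ρ) T := by rw [hker]; infer_instance
  obtain ⟨s, hs⟩ := exists_witt_section p ρ hρ
  obtain ⟨x, hx⟩ := reg_exists_gen (R := T) hd
  have hs' : ∀ t : T, ∃ c : WittVector p k, t - s c ∈ maximalIdeal T := by
    intro t
    obtain ⟨c, hc⟩ := WittVector.constantCoeff_surjective p (ρ t)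
    refine ⟨c, ?_⟩
    rw [← hker, RingHom.mem_ker, map_sub, hs, ← hc, WittVector.constantCoeff_apply, sub_self]
  obtain ⟨π, hπ, -, hX⟩ := cohen_surj s hs' x hx
  have hmax : maximalIdeal T = sp fun i => π (MvPowerSeries.X i) := by
    rw [← hx]; congr 1; funext i; rw [hX]
  have hmap : (sp (MvPowerSeries.X : Fin d → MvPowerSeries (Fin d) (WittVector p k))).map π =
      maximalIdeal T := by
    rw [hmax, Ideal.map_span, ← Set.range_comp]; rfl
  have hpm : (p : T) ∈ maximalIdeal T := by
    rw [← hker, RingHom.mem_ker, map_natCast, CharP.cast_eq_zero]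
  rw [← hmap] at hpm
  obtain ⟨G, hG, hGp⟩ := (Ideal.mem_map_iff_of_surjective π hπ).1 hpm
  set I : Ideal (MvPowerSeries (Fin d) (WittVector p k)) :=
    Ideal.span {(p : MvPowerSeries (Fin d) (WittVector p k)) - G} with hI
  have hIle : I ≤ RingHom.ker π := by
    rw [hI, Ideal.span_singleton_le_iff_mem, RingHom.mem_ker, map_sub, map_natCast, hGp, sub_self]
  let φ : (MvPowerSeries (Fin d) (WittVector p k) ⧸ I) →+* T :=
    Ideal.Quotient.lift I π fun a ha => hIle ha
  have hφ : Function.Surjective φ := fun t => by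
    obtain ⟨a, rfl⟩ := hπ t
    exact ⟨Ideal.Quotient.mk I a, rfl⟩
  haveI := (regBase_witt p k d).noeth
  haveI := (regBase_witt p k d).loc
  haveI : Nontrivial (MvPowerSeries (Fin d) (WittVector p k) ⧸ I) := φ.domain_nontrivial
  haveI : IsLocalRing (MvPowerSeries (Fin d) (WittVector p k) ⧸ I) :=
    IsLocalRing.of_surjective' (Ideal.Quotient.mk I) Ideal.Quotient.mk_surjective
  have hm : sp (fun i => Ideal.Quotient.mk I (MvPowerSeries.X i)) =
      maximalIdeal (MvPowerSeries (Fin d) (WittVector p k) ⧸ I) := by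
    rw [← IsLocalRing.map_maximalIdeal_of_surjective (Ideal.Quotient.mk I)
      Ideal.Quotient.mk_surjective, ← IsLocalRing.eq_maximalIdeal (regBase_witt p k d).max]
    have h1 : sp (fun i => Ideal.Quotient.mk I (MvPowerSeries.X i)) =
        (sp (MvPowerSeries.X : Fin d → MvPowerSeries (Fin d) (WittVector p k))).map
          (Ideal.Quotient.mk I) := by
      rw [Ideal.map_span, ← Set.range_comp]; rfl
    rw [h1]
    apply le_antisymm
    · refine Ideal.map_mono (Ideal.span_mono ?_)
      rintro _ ⟨i, rfl⟩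
      exact ⟨i.succ, by simp [wpar]⟩
    · rw [Ideal.map_le_iff_le_comap, Ideal.span_le]
      rintro _ ⟨i, rfl⟩
      refine Fin.cases ?_ (fun j => ?_) i
      · have : Ideal.Quotient.mk I (p : MvPowerSeries (Fin d) (WittVector p k)) =
            Ideal.Quotient.mk I G :=
          Ideal.Quotient.eq.2 (Ideal.subset_span rfl)
        simp only [wpar, Fin.cons_zero, SetLike.mem_coe, Ideal.mem_comap]
        rw [this]
        exact Ideal.mem_map_of_mem _ hG
      · simp only [wpar, Fin.cons_succ, SetLike.mem_coe, Ideal.mem_comap]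
        exact Ideal.mem_map_of_mem _ (Ideal.subset_span ⟨j, rfl⟩)
  have hinj := injective_of_gen _ hm φ hφ hd
  refine ⟨G, π, ⟨inferInstance, hd, inferInstance, hG, hπ, le_antisymm (fun a ha => ?_) hIle, hmax,
    hp⟩⟩
  rw [← Ideal.Quotient.eq_zero_iff_mem]
  apply hinj
  rw [map_zero]
  exact ha

/-- the three kinds of complete regular local rings with algebraically closed residue field. -/
theorem cohen_cases {T k : Type} [CommRing T] [IsRegularLocalRing T]
    [IsAdicComplete (maximalIdeal T) T] [Field k] [IsAlgClosed k] {d : ℕ}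
    (hd : ringKrullDim T = d) (ρ : T →+* k) (hρ : Function.Surjective ρ) :
    (∃ (K : Type) (_ : Field K) (π : MvPowerSeries (Fin d) K →+* T), Function.Bijective π) ∨
      ∃ (p : ℕ) (_ : Fact p.Prime) (_ : CharP k p) (G : MvPowerSeries (Fin d) (WittVector p k))
        (π : MvPowerSeries (Fin d) (WittVector p k) →+* T), Mixed p k d G T π := by
  have hker : RingHom.ker ρ = maximalIdeal T :=
    IsLocalRing.eq_maximalIdeal (RingHom.ker_isMaximal_of_surjective ρ hρ)
  obtain ⟨p, hp⟩ := CharP.exists k
  rcases CharP.char_is_prime_or_zero k p with hpp | rfl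
  · haveI : Fact p.Prime := ⟨hpp⟩
    by_cases h0 : (p : T) = 0
    · left
      haveI : IsAdicComplete (RingHom.ker ρ) T := by rw [hker]; infer_instance
      obtain ⟨s, hs⟩ := exists_char_section p ρ hρ h0
      obtain ⟨π, hπ⟩ := cohen_equal hd s fun t => ⟨ρ t, by
        rw [← hker, RingHom.mem_ker, map_sub, hs, sub_self]⟩
      exact ⟨k, inferInstance, π, hπ⟩
    · right
      obtain ⟨G, π, h⟩ := cohen_mixed p hd ρ hρ h0
      exact ⟨p, inferInstance, hp, G, π, h⟩
  · left
    haveI : CharZero k := CharP.charP_to_charZero k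
    haveI : CharZero (ResidueField T) := by
      refine ⟨fun a b hab => ?_⟩
      have h1 : residue T ((a : T) - b) = 0 := by rw [map_sub, map_natCast, map_natCast, hab, sub_self]
      rw [residue_eq_zero_iff, ← hker, RingHom.mem_ker, map_sub, map_natCast, map_natCast,
        sub_eq_zero] at h1
      exact Nat.cast_injective h1
    obtain ⟨s, hs⟩ := exists_coef_field' (R := T)
    obtain ⟨π, hπ⟩ := cohen_equal hd s fun t => ⟨residue T t, by
      rw [← residue_eq_zero_iff, map_sub, hs, sub_self]⟩
    exact ⟨ResidueField T, inferInstance, π, hπ⟩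

/-- `T / p` is also a hypersurface in `k⟦z⟧`. -/
theorem Mixed.exists_hyp {p : ℕ} [Fact p.Prime] {k : Type} [Field k] [CharP k p] [PerfectRing k p]
    {d : ℕ} {G : MvPowerSeries (Fin d) (WittVector p k)} {T : Type} [CommRing T] [IsLocalRing T]
    {π : MvPowerSeries (Fin d) (WittVector p k) →+* T} (h : Mixed p k d G T π) :
    ∃ (g : MvPowerSeries (Fin d) k) (π₂ : MvPowerSeries (Fin d) k →+* T ⧸ Ideal.span {(p : T)}),
      g ≠ 0 ∧ Function.Surjective π₂ ∧ RingHom.ker π₂ = Ideal.span {g} := by
  let red : MvPowerSeries (Fin d) (WittVector p k) →+* MvPowerSeries (Fin d) k :=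
    MvPowerSeries.map (WittVector.constantCoeff : WittVector p k →+* k)
  have hred : Function.Surjective red := fun f => by
    choose c hc using fun α => WittVector.constantCoeff_surjective p (MvPowerSeries.coeff α f)
    refine ⟨c, MvPowerSeries.ext fun α => ?_⟩
    rw [MvPowerSeries.coeff_map]
    exact hc α
  have hkr : ∀ f, red f = 0 → ∃ f', f = (p : MvPowerSeries (Fin d) (WittVector p k)) * f' := by
    intro f hf
    have h1 : ∀ α, ∃ c, MvPowerSeries.coeff α f = (p : WittVector p k) * c := fun α => by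
      have h2 : MvPowerSeries.coeff α f ∈
          RingHom.ker (WittVector.constantCoeff : WittVector p k →+* k) := by
        rw [RingHom.mem_ker, ← MvPowerSeries.coeff_map]
        exact (congrArg (MvPowerSeries.coeff α) hf).trans (map_zero _)
      rw [WittVector.ker_constantCoeff, Ideal.mem_span_singleton] at h2
      exact h2
    choose c hc using h1
    refine ⟨c, MvPowerSeries.ext fun α => ?_⟩
    rw [← map_natCast (MvPowerSeries.C : WittVector p k →+* MvPowerSeries (Fin d) (WittVector p k)),
      MvPowerSeries.coeff_C_mul]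
    exact hc α
  have hredp : red (p : MvPowerSeries (Fin d) (WittVector p k)) = 0 := by
    rw [map_natCast, ← map_natCast (MvPowerSeries.C : k →+* MvPowerSeries (Fin d) k),
      CharP.cast_eq_zero, map_zero]
  have hπG : π G = (p : T) := by
    have : (p : MvPowerSeries (Fin d) (WittVector p k)) - G ∈ RingHom.ker π := by
      rw [h.ker]; exact Ideal.subset_span rfl
    rw [RingHom.mem_ker, map_sub, map_natCast, sub_eq_zero] at this
    exact this.symm
  have hle : RingHom.ker red ≤
      RingHom.ker ((Ideal.Quotient.mk (Ideal.span {(p : T)})).comp π) := by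
    intro f hf
    obtain ⟨f', rfl⟩ := hkr f hf
    rw [RingHom.mem_ker, RingHom.comp_apply, Ideal.Quotient.eq_zero_iff_mem, map_mul, map_natCast]
    exact Ideal.mul_mem_right _ _ (Ideal.subset_span rfl)
  let π₂ := RingHom.liftOfSurjective red hred ⟨_, hle⟩
  have hπ₂ : ∀ f, π₂ (red f) = Ideal.Quotient.mk (Ideal.span {(p : T)}) (π f) := fun f =>
    RingHom.liftOfSurjective_comp_apply red hred ⟨_, hle⟩ f
  refine ⟨red G, π₂, fun hg => ?_, fun y => ?_, ?_⟩
  · obtain ⟨G', hG'⟩ := hkr G hg
    have hc : MvPowerSeries.constantCoeff G = 0 := by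
      have : sp (MvPowerSeries.X : Fin d → MvPowerSeries (Fin d) (WittVector p k)) ≤
          RingHom.ker MvPowerSeries.constantCoeff := by
        rw [Ideal.span_le]
        rintro _ ⟨i, rfl⟩
        simp
      exact this h.G_mem
    have hc' : MvPowerSeries.constantCoeff G' = 0 := by
      rw [hG', map_mul, map_natCast] at hc
      exact (mul_eq_zero.1 hc).resolve_left (WittVector.irreducible p).ne_zero
    have hu : IsUnit (1 - G') := by
      rw [MvPowerSeries.isUnit_iff_constantCoeff, map_sub, hc', map_one, sub_zero]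
      exact isUnit_one
    have h0 : (p : T) * π (1 - G') = 0 := by
      have h1 : π G = (p : T) * π G' := by rw [hG', map_mul, map_natCast]
      rw [map_sub, map_one, mul_sub, mul_one, ← h1, hπG, sub_self]
    exact h.p_ne ((hu.map π).mul_left_eq_zero.1 h0)
  · obtain ⟨t, rfl⟩ := Ideal.Quotient.mk_surjective y
    obtain ⟨f, rfl⟩ := h.surj t
    exact ⟨red f, hπ₂ f⟩
  · apply le_antisymm
    · intro y hy
      obtain ⟨f, rfl⟩ := hred y
      rw [RingHom.mem_ker, hπ₂, Ideal.Quotient.eq_zero_iff_mem, Ideal.mem_span_singleton] at hy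
      obtain ⟨t, ht⟩ := hy
      obtain ⟨a, rfl⟩ := h.surj t
      have h1 : f - (p : MvPowerSeries (Fin d) (WittVector p k)) * a ∈ RingHom.ker π := by
        rw [RingHom.mem_ker, map_sub, map_mul, map_natCast, ht, sub_self]
      rw [h.ker, Ideal.mem_span_singleton] at h1
      obtain ⟨b, hb⟩ := h1
      have h2 := congrArg red hb
      rw [map_sub, map_mul, map_mul, map_sub, hredp, zero_mul, sub_zero, zero_sub] at h2
      rw [Ideal.mem_span_singleton]
      exact ⟨-red b, by rw [h2]; ring⟩
    · rw [Ideal.span_singleton_le_iff_mem, RingHom.mem_ker, hπ₂, hπG,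
        Ideal.Quotient.eq_zero_iff_mem]
      exact Ideal.subset_span rfl

end Crest.Agent.R188
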