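import Crest.Agent.R188.ConeA

/-! Row 188, part IV: two-step complexes, mapping cones. -/

set_option autoImplicit false
set_option linter.unusedSectionVars false

namespace Crest.Agent.R188

open Crest.Agent.R183 IsLocalRing
open scoped ENNReal TensorProduct Pointwise

variable {Λ : Type} [CommRing Λ] {ι : Type} [Fintype ι] {d : ℕ} {deg : ι → ℕ} {P : Matrix ι ι Λ}
  {M : Type} [AddCommGroup M] [Module Λ M]

variable [DecidableEq ι]

theorem cone61_mact (x : Λ) (a b : ι → M) :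
    mact (cone x P) M (Sum.elim a b) = Sum.elim (mact P M a + x • b) (-mact P M b) := by
  ext (i | i)
  · have := congrFun (mact_smul_one x b) i
    simp only [mact_apply] at this
    simp only [mact_apply, cone, Fintype.sum_sum_type, Matrix.fromBlocks_apply₁₁,
      Matrix.fromBlocks_apply₁₂, Sum.elim_inl, Sum.elim_inr, Pi.add_apply, this]
  · simp [mact_apply, cone, Fintype.sum_sum_type]

omit [Fintype ι] [DecidableEq ι] in
theorem cone61_mem {j : ℤ} {a b : ι → M} :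
    Sum.elim a b ∈ gr (cdg deg) j (⊤ : Submodule Λ M) ↔
      a ∈ gr deg j (⊤ : Submodule Λ M) ∧ b ∈ gr deg (j - 1) (⊤ : Submodule Λ M) := by
  simp only [mem_gr, Submodule.mem_top, true_and, Sum.forall, cdg, Sum.elim_inl, Sum.elim_inr]
  refine and_congr Iff.rfl (forall_congr' fun i => imp_congr ?_ Iff.rfl)
  push_cast
  omega

omit [Fintype ι] [DecidableEq ι] in
theorem cone61_elim (v : ι ⊕ ι → M) : ∃ a b : ι → M, v = Sum.elim a b :=
  ⟨v ∘ Sum.inl, v ∘ Sum.inr, (Sum.elim_comp_inl_inr v).symm⟩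

omit [Fintype ι] [DecidableEq ι] in
theorem cone61_inj {a b a' b' : ι → M} :
    Sum.elim a b = Sum.elim a' b' ↔ a = a' ∧ b = b' :=
  ⟨fun h => ⟨funext fun i => congrFun h (Sum.inl i), funext fun i => congrFun h (Sum.inr i)⟩,
    fun h => by rw [h.1, h.2]⟩

theorem cone61_Zt {x : Λ} {j : ℤ} {a b : ι → M} :
    Sum.elim a b ∈ Zt (cdg deg) (cone x P) M j ↔
      (a ∈ gr deg j (⊤ : Submodule Λ M) ∧ b ∈ gr deg (j - 1) (⊤ : Submodule Λ M)) ∧
        mact P M a + x • b = 0 ∧ mact P M b = 0 := by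
  have e : (0 : ι ⊕ ι → M) = Sum.elim (0 : ι → M) (0 : ι → M) := by ext (i | i) <;> rfl
  rw [Zt, Submodule.mem_inf, cone61_mem, LinearMap.mem_ker, cone61_mact, e, cone61_inj,
    neg_eq_zero]

theorem cone61_Bt {x : Λ} {j : ℤ} {a b : ι → M} :
    Sum.elim a b ∈ Bt (cdg deg) (cone x P) M j ↔
      ∃ c ∈ gr deg (j + 1) (⊤ : Submodule Λ M), ∃ e ∈ gr deg j (⊤ : Submodule Λ M),
        mact P M c + x • e = a ∧ -mact P M e = b := by
  constructor
  · rintro ⟨v, hv, he⟩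
    obtain ⟨c, e, rfl⟩ := cone61_elim v
    rw [cone61_mact, cone61_inj] at he
    have := cone61_mem.1 hv
    rw [add_sub_cancel_right] at this
    exact ⟨c, this.1, e, this.2, he⟩
  · rintro ⟨c, hc, e, he, h⟩
    exact ⟨Sum.elim c e, cone61_mem.2 ⟨hc, by rwa [add_sub_cancel_right]⟩,
      by rw [cone61_mact, h.1, h.2]⟩

omit [Fintype ι] [DecidableEq ι] in
theorem cone61_lift {x : Λ} {j : ℤ} {u : ι → QuotSMulTop x M}
    (hu : u ∈ gr deg j (⊤ : Submodule Λ (QuotSMulTop x M))) :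
    ∃ a ∈ gr deg j (⊤ : Submodule Λ M), (x • (⊤ : Submodule Λ M)).mkQ.compLeft ι a = u := by
  have := gr_map deg j (x • (⊤ : Submodule Λ M)).mkQ ⊤
  rw [Submodule.map_top, Submodule.range_mkQ] at this
  rw [this] at hu
  exact hu

omit [Fintype ι] [DecidableEq ι] in
theorem cone61_kill (x : Λ) (b : ι → M) :
    (x • (⊤ : Submodule Λ M)).mkQ.compLeft ι (x • b) = 0 := by
  ext i
  exact (Submodule.Quotient.mk_eq_zero _).2 (Submodule.smul_mem_pointwise_smul _ _ _ trivial)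

omit [Fintype ι] [DecidableEq ι] in
theorem cone61_div {x : Λ} (hx : IsSMulRegular M x) {j : ℤ} {a : ι → M}
    (ha : a ∈ gr deg j (⊤ : Submodule Λ M))
    (h : (x • (⊤ : Submodule Λ M)).mkQ.compLeft ι a = 0) :
    ∃ e ∈ gr deg j (⊤ : Submodule Λ M), x • e = a := by
  have h1 : ∀ i, ∃ m : M, x • m = a i := fun i => by
    obtain ⟨m, -, hm⟩ := (Submodule.mem_smul_pointwise_iff_exists _ _ _).1
      ((Submodule.Quotient.mk_eq_zero _).1 (congrFun h i))
    exact ⟨m, hm⟩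
  choose e he using h1
  refine ⟨e, mem_gr.2 fun i => ⟨trivial, fun hi => hx ?_⟩, funext he⟩
  simp only [he, (mem_gr.1 ha i).2 hi, smul_zero]

omit [Fintype ι] [DecidableEq ι] in
theorem cone61_reg {x : Λ} (hx : IsSMulRegular M x) {a b : ι → M} (h : x • a = x • b) : a = b :=
  funext fun i => hx (congrFun h i)

/-- for `x` regular on `M`, the cone computes the homology of `P ⊗ M / x M`. -/
theorem hl_cone_of_regular (lam : LenFn Λ) (h : GCx d deg P) {x : Λ} (hx : IsSMulRegular M x)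
    (j : ℤ) : hl lam (cdg deg) (cone x P) M j = hl lam deg P (QuotSMulTop x M) j := by
  have hPP : ∀ v : ι → M, mact P M (mact P M v) = 0 := fun v => LinearMap.congr_fun h.mact_sq v
  obtain ⟨π, hπ⟩ : ∃ π : (ι → M) →ₗ[Λ] (ι → QuotSMulTop x M),
      π = (x • (⊤ : Submodule Λ M)).mkQ.compLeft ι := ⟨_, rfl⟩
  have hc : ∀ v, mact P (QuotSMulTop x M) (π v) = π (mact P M v) := fun v => by
    rw [hπ]; exact mact_compLeft P _ v
  have hk : ∀ v, π (x • v) = 0 := fun v => by rw [hπ]; exact cone61_kill x v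
  have hg : ∀ {i : ℤ} {v : ι → M}, v ∈ gr deg i (⊤ : Submodule Λ M) →
      π v ∈ gr deg i (⊤ : Submodule Λ (QuotSMulTop x M)) := fun {i v} hv =>
    mem_gr.2 fun b => ⟨trivial, fun hb => by
      rw [hπ]
      change (x • (⊤ : Submodule Λ M)).mkQ (v b) = 0
      rw [(mem_gr.1 hv b).2 hb, map_zero]⟩
  obtain ⟨θ, hθ⟩ : ∃ θ : (ι ⊕ ι → M) →ₗ[Λ] (ι → QuotSMulTop x M),
      ∀ a b, θ (Sum.elim a b) = π a := ⟨π ∘ₗ LinearMap.funLeft Λ M Sum.inl, fun a b => rfl⟩
  have h1 : (Zt (cdg deg) (cone x P) M j).map θ = Zt deg P (QuotSMulTop x M) j := by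
    refine le_antisymm ?_ fun u hu => ?_
    · rintro _ ⟨v, hv, rfl⟩
      obtain ⟨a, b, rfl⟩ := cone61_elim v
      obtain ⟨⟨ha, -⟩, e, -⟩ := cone61_Zt.1 hv
      rw [hθ]
      refine ⟨hg ha, ?_⟩
      change mact P (QuotSMulTop x M) (π a) = 0
      rw [hc, eq_neg_of_add_eq_zero_left e, map_neg, hk, neg_zero]
    · obtain ⟨a, ha, rfl⟩ := cone61_lift hu.1
      rw [← hπ] at hu ⊢
      have a1 : π (mact P M a) = 0 := by rw [← hc]; exact hu.2
      obtain ⟨e, he, a2⟩ := cone61_div hx (h.mact_mem ha) (hπ ▸ a1)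
      refine ⟨Sum.elim a (-e), cone61_Zt.2 ⟨⟨ha, neg_mem he⟩, ?_, ?_⟩, hθ _ _⟩
      · rw [smul_neg, a2, add_neg_cancel]
      · refine cone61_reg hx ?_
        rw [← map_smul, smul_neg, a2, map_neg, hPP, neg_zero, smul_zero]
  have h2 : Zt (cdg deg) (cone x P) M j ⊓ (Bt deg P (QuotSMulTop x M) j).comap θ =
      Zt (cdg deg) (cone x P) M j ⊓ Bt (cdg deg) (cone x P) M j := by
    ext v
    obtain ⟨a, b, rfl⟩ := cone61_elim v
    refine and_congr_right fun hv => ?_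
    obtain ⟨⟨ha, hb⟩, e1, e2⟩ := cone61_Zt.1 hv
    change θ (Sum.elim a b) ∈ Bt deg P (QuotSMulTop x M) j ↔
      Sum.elim a b ∈ Bt (cdg deg) (cone x P) M j
    rw [hθ, cone61_Bt]
    constructor
    · rintro ⟨u, hu, e3⟩
      obtain ⟨c, hc', rfl⟩ := cone61_lift hu
      rw [← hπ, hc] at e3
      have a0 : mact P M c ∈ gr deg j (⊤ : Submodule Λ M) := by
        simpa using h.mact_mem hc'
      obtain ⟨e, he, a2⟩ := cone61_div hx (sub_mem ha a0)
        (by rw [← hπ, map_sub, e3, sub_self])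
      refine ⟨c, hc', e, he, by rw [a2, add_sub_cancel], cone61_reg hx ?_⟩
      rw [smul_neg, ← map_smul, a2, map_sub, hPP, sub_zero]
      exact neg_eq_of_add_eq_zero_right e1
    · rintro ⟨c, hc', e, -, rfl, -⟩
      exact ⟨π c, hg hc', by rw [hc, map_add, hk, add_zero]⟩
  rw [hl, hl, ← h1, lam.rel_map_comap, ← lam.rel_inf_right, ← h2, lam.rel_inf_right]

theorem Resol.cone {N : Type} [AddCommGroup N] [Module Λ N] (h : Resol d deg P N) {x : Λ}
    (hx : IsSMulRegular N x) : Resol (d + 1) (cdg deg) (cone x P) (QuotSMulTop x N) := by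
  obtain ⟨hG, ε, hε⟩ := h.pres (d + 2)
  have hneg : ∀ {v : ι → Λ}, v ∈ gr deg (0 - 1) (⊤ : Submodule Λ Λ) → v = 0 := fun {v} hv => by
    rwa [hG.gr_eq_bot (Or.inl (by norm_num)), Submodule.mem_bot] at hv
  have hB : ∀ {c : ι → Λ}, c ∈ gr deg (0 + 1) (⊤ : Submodule Λ Λ) → ε (mact P Λ c) = 0 :=
    fun {c} hc => by
      have : mact P Λ c ∈ Bt deg P Λ 0 := ⟨c, hc, rfl⟩
      rw [← hε.ker] at this
      exact this.2
  have hs : ∀ n : N, ∃ a ∈ gr deg 0 (⊤ : Submodule Λ Λ), ε a = n := fun n => by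
    have : n ∈ (gr deg 0 (⊤ : Submodule Λ Λ)).map ε := hε.surj ▸ Submodule.mem_top
    exact this
  obtain ⟨θ, hθ⟩ : ∃ θ : (ι ⊕ ι → Λ) →ₗ[Λ] QuotSMulTop x N,
      ∀ a b, θ (Sum.elim a b) = (x • (⊤ : Submodule Λ N)).mkQ (ε a) :=
    ⟨(x • (⊤ : Submodule Λ N)).mkQ ∘ₗ ε ∘ₗ LinearMap.funLeft Λ Λ Sum.inl, fun a b => rfl⟩
  refine ⟨GCx_cone hG x, θ, ?_, ?_, fun j h1 h2 v hv => ?_⟩
  · refine top_unique fun u _ => ?_
    obtain ⟨n, rfl⟩ := (x • (⊤ : Submodule Λ N)).mkQ_surjective u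
    obtain ⟨a, ha, rfl⟩ := hs n
    exact ⟨Sum.elim a 0, cone61_mem.2 ⟨ha, zero_mem _⟩, hθ _ _⟩
  · ext v
    obtain ⟨a, b, rfl⟩ := cone61_elim v
    rw [Submodule.mem_inf, cone61_mem, LinearMap.mem_ker, hθ, cone61_Bt]
    constructor
    · rintro ⟨⟨ha, hb⟩, e⟩
      obtain ⟨n, -, hn⟩ := (Submodule.mem_smul_pointwise_iff_exists _ _ _).1
        ((Submodule.Quotient.mk_eq_zero _).1 e)
      obtain ⟨e, he, rfl⟩ := hs n
      have a1 : a - x • e ∈ Bt deg P Λ 0 := by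
        rw [← hε.ker]
        refine ⟨sub_mem ha (Submodule.smul_mem _ _ he), ?_⟩
        change ε (a - x • e) = 0
        rw [map_sub, map_smul, hn, sub_self]
      obtain ⟨c, hc, a2⟩ := a1
      refine ⟨c, hc, e, he, by rw [a2, sub_add_cancel], ?_⟩
      rw [hneg hb, hneg (hG.mact_mem he), neg_zero]
    · rintro ⟨c, hc, e, he, rfl, rfl⟩
      refine ⟨⟨add_mem (by simpa using hG.mact_mem hc) (Submodule.smul_mem _ _ he),
        neg_mem (hG.mact_mem he)⟩, ?_⟩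
      rw [map_add, hB hc, zero_add, map_smul]
      exact (Submodule.Quotient.mk_eq_zero _).2 (Submodule.smul_mem_pointwise_smul _ _ _ trivial)
  · obtain ⟨a, b, rfl⟩ := cone61_elim v
    obtain ⟨⟨ha, hb⟩, e1, e2⟩ := cone61_Zt.1 hv
    have h3 : j < (d : ℤ) + 2 := by push_cast at h2; omega
    have a1 : b ∈ Bt deg P Λ (j - 1) := by
      rcases h1.eq_or_lt with rfl | h1
      · rw [sub_self] at hb ⊢
        rw [← hε.ker]
        refine ⟨hb, hx ?_⟩
        have a2 := congrArg ε e1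
        rw [map_add, hB (by simpa using ha), zero_add, map_smul, map_zero] at a2
        simpa using a2
      · exact hε.ex _ (by omega) (by omega) ⟨hb, e2⟩
    obtain ⟨e, he, rfl⟩ := a1
    rw [sub_add_cancel] at he
    have a3 : a + x • e ∈ Zt deg P Λ j := by
      refine ⟨add_mem ha (Submodule.smul_mem _ _ he), ?_⟩
      change mact P Λ (a + x • e) = 0
      rw [map_add, map_smul, e1]
    obtain ⟨c, hc, a4⟩ := hε.ex j h1 h3 a3
    exact cone61_Bt.2 ⟨c, hc, -e, neg_mem he, by rw [a4, smul_neg, add_neg_cancel_right],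
      by rw [map_neg, neg_neg]⟩

end Crest.Agent.R188
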