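import Crest.Agent.R188.THtpy

/-! Row 188, part IV: two-step complexes, mapping cones. -/

set_option autoImplicit false

namespace Crest.Agent.R188

open Crest.Agent.R183 IsLocalRing
open scoped ENNReal TensorProduct Pointwise

variable {Λ : Type} [CommRing Λ] {ι : Type} [Fintype ι] {d : ℕ} {deg : ι → ℕ} {P : Matrix ι ι Λ}
  {M : Type} [AddCommGroup M] [Module Λ M]

theorem conea_abs (lam : LenFn Λ) {V₁ V₂ V₃ : Type} [AddCommGroup V₁] [Module Λ V₁]
    [AddCommGroup V₂] [Module Λ V₂] [AddCommGroup V₃] [Module Λ V₃] {D₁ : V₁ →ₗ[Λ] V₁}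
    {D₂ : V₂ →ₗ[Λ] V₂} {D₃ : V₃ →ₗ[Λ] V₃} {W₁ : ℤ → Submodule Λ V₁} {W₂ : ℤ → Submodule Λ V₂}
    {W₃ : ℤ → Submodule Λ V₃} (i : V₁ →ₗ[Λ] V₂) (π : V₂ →ₗ[Λ] V₃) (hD : D₂ ∘ₗ D₂ = 0)
    (hW : Sub D₂ W₂) (hi : Function.Injective i) (hiD : ∀ v, D₂ (i v) = i (D₁ v))
    (hπD : ∀ v, π (D₂ v) = D₃ (π v)) (hiW : ∀ j v, i v ∈ W₂ j ↔ v ∈ W₁ j)
    (hπW : ∀ j, (W₂ j).map π = W₃ j) (hex : ∀ v, π v = 0 ↔ ∃ u, i u = v) :
    ∃ α β γ : ℤ → ℝ≥0∞, ∀ j,
      lam.rel (W₁ j ⊓ LinearMap.ker D₁) ((W₁ (j + 1)).map D₁) = γ (j + 1) + α j ∧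
      lam.rel (W₂ j ⊓ LinearMap.ker D₂) ((W₂ (j + 1)).map D₂) = α j + β j ∧
      lam.rel (W₃ j ⊓ LinearMap.ker D₃) ((W₃ (j + 1)).map D₃) = β j + γ j := by
  have hV : Sub D₂ fun j => (W₁ j).map i := by
    rintro j _ ⟨_, ⟨v, hv, rfl⟩, rfl⟩
    refine ⟨D₁ v, (hiW _ _).1 ?_, (hiD v).symm⟩
    rw [← hiD]
    exact hW.cxa_mem ((hiW _ _).2 hv)
  have hVW : ∀ j, (W₁ j).map i ≤ W₂ j := by
    rintro j _ ⟨v, hv, rfl⟩
    exact (hiW _ _).2 hv
  have hker : ∀ j v, v ∈ W₂ j → π v = 0 → v ∈ (W₁ j).map i := fun j v hv h0 => by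
    obtain ⟨u, rfl⟩ := (hex v).1 h0
    exact ⟨u, (hiW _ _).1 hv, rfl⟩
  have hπi : ∀ u, π (i u) = 0 := fun u => (hex _).2 ⟨u, rfl⟩
  obtain ⟨α, β, γ, H⟩ := h_add (lam := lam) hD (U := fun _ => ⊥) hW hV
    (fun j => by simp) hVW (fun _ => bot_le)
  refine ⟨α, β, γ, fun j => ⟨?_, ?_, ?_⟩⟩
  · rw [← (H j).1, ← lam.rel_map_of_injective i hi]
    unfold st
    congr 1
    · ext v
      rw [cxa_mem_Zc, Submodule.mem_bot]
      constructor
      · rintro ⟨u, ⟨hu, hu0⟩, rfl⟩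
        exact ⟨⟨u, hu, rfl⟩, by rw [hiD, LinearMap.mem_ker.1 hu0, map_zero]⟩
      · rintro ⟨⟨u, hu, rfl⟩, h0⟩
        refine ⟨u, ⟨hu, LinearMap.mem_ker.2 (hi ?_)⟩, rfl⟩
        rw [← hiD, h0, map_zero]
    · unfold Bd
      rw [sup_bot_eq, ← Submodule.map_comp, ← Submodule.map_comp]
      congr 1
      exact LinearMap.ext fun v => (hiD v).symm
  · rw [← (H j).2.1]
    unfold st Zc Bd
    rw [sup_bot_eq, Submodule.comap_bot]
  · rw [← (H j).2.2]
    have h1 : (Zc D₂ W₂ (fun j => (W₁ j).map i) j).map π = W₃ j ⊓ LinearMap.ker D₃ := by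
      ext v
      constructor
      · rintro ⟨u, ⟨hu, w, -, hw⟩, rfl⟩
        refine ⟨hπW j ▸ Submodule.mem_map_of_mem hu, LinearMap.mem_ker.2 ?_⟩
        rw [← hπD, ← hw, hπi]
      · rintro ⟨hv, hv0⟩
        rw [← hπW] at hv
        obtain ⟨u, hu, rfl⟩ := hv
        refine ⟨u, cxa_mem_Zc.2 ⟨hu, hker _ _ (hW.cxa_mem hu) ?_⟩, rfl⟩
        rw [hπD]
        exact LinearMap.mem_ker.1 hv0
    rw [← h1, lam.rel_map_comap, ← lam.rel_inf_right]
    unfold st
    rw [← lam.rel_inf_right _ (Bd _ _ _ _)]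
    congr 1
    ext v
    refine and_congr_right fun hv => ?_
    change π v ∈ (W₃ (j + 1)).map D₃ ↔ v ∈ Bd D₂ W₂ (fun j => (W₁ j).map i) j
    rw [cxa_mem_Bd, ← hπW]
    constructor
    · rintro ⟨_, ⟨w, hw, rfl⟩, h0⟩
      refine ⟨w, hw, hker _ _ (Submodule.sub_mem _ hv.1 (hW.cxa_mem' hw)) ?_⟩
      rw [map_sub, hπD, h0, sub_self]
    · rintro ⟨w, hw, u, -, hu⟩
      refine ⟨π w, ⟨w, hw, rfl⟩, ?_⟩
      have h2 := hπi u
      rw [hu, map_sub, hπD] at h2
      exact (sub_eq_zero.1 h2).symm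

theorem conea_inl {κ : Type} [Fintype κ] (A : Matrix ι κ Λ) (B : Matrix κ ι Λ) (Q : Matrix κ κ Λ)
    (v : ι ⊕ κ → M) (b : ι) : mact (Matrix.fromBlocks P A B Q) M v (Sum.inl b) =
      mact P M (fun c => v (Sum.inl c)) b + mact A M (fun c => v (Sum.inr c)) b := by
  simp only [mact_apply, Fintype.sum_sum_type, Matrix.fromBlocks_apply₁₁,
    Matrix.fromBlocks_apply₁₂]

theorem conea_inr {κ : Type} [Fintype κ] (A : Matrix ι κ Λ) (B : Matrix κ ι Λ) (Q : Matrix κ κ Λ)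
    (v : ι ⊕ κ → M) (b : κ) : mact (Matrix.fromBlocks P A B Q) M v (Sum.inr b) =
      mact B M (fun c => v (Sum.inl c)) b + mact Q M (fun c => v (Sum.inr c)) b := by
  simp only [mact_apply, Fintype.sum_sum_type, Matrix.fromBlocks_apply₂₁,
    Matrix.fromBlocks_apply₂₂]

/-- extension by zero, first block -/
def coneaL (Λ : Type) [CommRing Λ] (ι κ M : Type) [AddCommGroup M] [Module Λ M] :
    (ι → M) →ₗ[Λ] (ι ⊕ κ → M) where
  toFun v := Sum.elim v 0
  map_add' v w := by ext b; cases b <;> simp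
  map_smul' r v := by ext b; cases b <;> simp

/-- extension by zero, second block -/
def coneaR (Λ : Type) [CommRing Λ] (ι κ M : Type) [AddCommGroup M] [Module Λ M] :
    (κ → M) →ₗ[Λ] (ι ⊕ κ → M) where
  toFun v := Sum.elim 0 v
  map_add' v w := by ext b; cases b <;> simp
  map_smul' r v := by ext b; cases b <;> simp

theorem conea_grL {ι κ : Type} (deg : ι → ℕ) (deg' : κ → ℕ) (j : ℤ) (v : ι → M) :
    coneaL Λ ι κ M v ∈ gr (Sum.elim deg deg') j (⊤ : Submodule Λ M) ↔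
      v ∈ gr deg j (⊤ : Submodule Λ M) := by
  rw [mem_gr, mem_gr, Sum.forall]
  exact ⟨fun h => h.1, fun h => ⟨h, fun _ => ⟨trivial, fun _ => rfl⟩⟩⟩

theorem conea_grR {ι κ : Type} (deg : ι → ℕ) (deg' : κ → ℕ) (j : ℤ) (v : κ → M) :
    coneaR Λ ι κ M v ∈ gr (Sum.elim deg deg') j (⊤ : Submodule Λ M) ↔
      v ∈ gr deg' j (⊤ : Submodule Λ M) := by
  rw [mem_gr, mem_gr, Sum.forall]
  exact ⟨fun h => h.2, fun h => ⟨fun _ => ⟨trivial, fun _ => rfl⟩, h⟩⟩

/-- The long exact sequence of a block complex `[[P, A], [0, Q]]`: `P` is a subcomplex with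
quotient `Q`.  Only the action on `M` matters. -/
theorem block_les (lam : LenFn Λ) {κ : Type} [Fintype κ] {deg' : κ → ℕ} {e : ℕ}
    {A : Matrix ι κ Λ} {B : Matrix κ ι Λ} {Q : Matrix κ κ Λ}
    (h : GCx e (Sum.elim deg deg') (Matrix.fromBlocks P A B Q)) (hB : mact B M = 0) :
    ∃ α β γ : ℤ → ℝ≥0∞, ∀ j, hl lam deg P M j = γ (j + 1) + α j ∧
      hl lam (Sum.elim deg deg') (Matrix.fromBlocks P A B Q) M j = α j + β j ∧
      hl lam deg' Q M j = β j + γ j := by
  have hB' : ∀ v b, mact B M v b = 0 := fun v b => by rw [hB]; rfl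
  unfold hl Zt Bt
  refine conea_abs lam (D₁ := mact P M) (D₂ := mact (Matrix.fromBlocks P A B Q) M)
    (D₃ := mact Q M) (W₁ := fun j => gr deg j ⊤) (W₂ := fun j => gr (Sum.elim deg deg') j ⊤)
    (W₃ := fun j => gr deg' j ⊤) (coneaL Λ ι κ M) (LinearMap.funLeft Λ M Sum.inr) h.mact_sq
    (h.sub ⊤) (fun v w hvw => funext fun b => congrFun hvw (Sum.inl b)) (fun v => ?_)
    (fun v => ?_) (conea_grL deg deg') (fun j => ?_) (fun v => ?_)
  · funext b
    cases b with
    | inl b =>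
      rw [conea_inl]
      exact (congrArg _ (congrFun (map_zero (mact A M)) b)).trans (add_zero _)
    | inr b =>
      rw [conea_inr, hB', zero_add]
      exact congrFun (map_zero (mact Q M)) b
  · funext b
    rw [LinearMap.funLeft_apply, conea_inr, hB', zero_add]
    rfl
  · refine le_antisymm ?_ fun v hv => ⟨coneaR Λ ι κ M v, (conea_grR deg deg' j v).2 hv, rfl⟩
    rintro _ ⟨v, hv, rfl⟩
    exact mem_gr.2 fun b => mem_gr.1 hv (Sum.inr b)
  · constructor
    · intro h0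
      refine ⟨fun b => v (Sum.inl b), funext fun b => ?_⟩
      cases b with
      | inl b => rfl
      | inr b => exact (congrFun h0 b).symm
    · rintro ⟨u, rfl⟩
      rfl

/-- the same with the roles of the blocks exchanged. -/
theorem block_les' (lam : LenFn Λ) {κ : Type} [Fintype κ] {deg' : κ → ℕ} {e : ℕ}
    {A : Matrix ι κ Λ} {B : Matrix κ ι Λ} {Q : Matrix κ κ Λ}
    (h : GCx e (Sum.elim deg deg') (Matrix.fromBlocks P A B Q)) (hA : mact A M = 0) :
    ∃ α β γ : ℤ → ℝ≥0∞, ∀ j, hl lam deg' Q M j = γ (j + 1) + α j ∧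
      hl lam (Sum.elim deg deg') (Matrix.fromBlocks P A B Q) M j = α j + β j ∧
      hl lam deg P M j = β j + γ j := by
  have hA' : ∀ v b, mact A M v b = 0 := fun v b => by rw [hA]; rfl
  unfold hl Zt Bt
  refine conea_abs lam (D₁ := mact Q M) (D₂ := mact (Matrix.fromBlocks P A B Q) M)
    (D₃ := mact P M) (W₁ := fun j => gr deg' j ⊤) (W₂ := fun j => gr (Sum.elim deg deg') j ⊤)
    (W₃ := fun j => gr deg j ⊤) (coneaR Λ ι κ M) (LinearMap.funLeft Λ M Sum.inl) h.mact_sq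
    (h.sub ⊤) (fun v w hvw => funext fun b => congrFun hvw (Sum.inr b)) (fun v => ?_)
    (fun v => ?_) (conea_grR deg deg') (fun j => ?_) (fun v => ?_)
  · funext b
    cases b with
    | inl b =>
      rw [conea_inl, hA', add_zero]
      exact congrFun (map_zero (mact P M)) b
    | inr b =>
      rw [conea_inr]
      exact (congrArg (· + _) (congrFun (map_zero (mact B M)) b)).trans (zero_add _)
  · funext b
    rw [LinearMap.funLeft_apply, conea_inl, hA', add_zero]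
    rfl
  · refine le_antisymm ?_ fun v hv => ⟨coneaL Λ ι κ M v, (conea_grL deg deg' j v).2 hv, rfl⟩
    rintro _ ⟨v, hv, rfl⟩
    exact mem_gr.2 fun b => mem_gr.1 hv (Sum.inl b)
  · constructor
    · intro h0
      refine ⟨fun b => v (Sum.inr b), funext fun b => ?_⟩
      cases b with
      | inl b => exact (congrFun h0 b).symm
      | inr b => rfl
    · rintro ⟨u, rfl⟩
      rfl

theorem hl_shift (lam : LenFn Λ) (j : ℤ) :
    hl lam (fun b => deg b + 1) (-P) M j = hl lam deg P M (j - 1) := by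
  have h1 : ∀ i : ℤ, gr (fun b => deg b + 1) i (⊤ : Submodule Λ M) = gr deg (i - 1) ⊤ := fun i => by
    ext v
    rw [mem_gr, mem_gr]
    refine forall_congr' fun b => and_congr_right fun _ => imp_congr_left ?_
    push_cast
    omega
  have h2 : mact (-P) M = -mact P M := by
    refine LinearMap.ext fun v => funext fun b => ?_
    simp only [mact_apply, Matrix.neg_apply, neg_smul, Finset.sum_neg_distrib, LinearMap.neg_apply,
      Pi.neg_apply]
  unfold hl Zt Bt
  rw [h1, h1, h2, LinearMap.ker_neg, Submodule.map_neg, add_sub_cancel_right, sub_add_cancel]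

/-- reindexing. -/
theorem hl_reindex (lam : LenFn Λ) {κ : Type} [Fintype κ] (e : κ ≃ ι) (j : ℤ) :
    hl lam (deg ∘ e) (P.submatrix e e) M j = hl lam deg P M j := by
  have h1 : ∀ v : ι → M, mact (P.submatrix e e) M (LinearMap.funLeft Λ M e v) =
      LinearMap.funLeft Λ M e (mact P M v) := fun v => by
    funext b
    exact e.sum_comp fun b' => P (e b) b' • v b'
  have h2 : ∀ (i : ℤ) (v : ι → M), LinearMap.funLeft Λ M e v ∈ gr (deg ∘ e) i (⊤ : Submodule Λ M) ↔
      v ∈ gr deg i (⊤ : Submodule Λ M) := fun i v => by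
    rw [mem_gr, mem_gr]
    exact e.forall_congr_right (q := fun b => v b ∈ (⊤ : Submodule Λ M) ∧ ((deg b : ℤ) ≠ i → v b = 0))
  have hs : Function.Surjective (LinearMap.funLeft Λ M e) :=
    LinearMap.funLeft_surjective_of_injective Λ M e e.injective
  have hi : Function.Injective (LinearMap.funLeft Λ M e) :=
    LinearMap.funLeft_injective_of_surjective Λ M e e.surjective
  unfold hl
  rw [← lam.rel_comap_of_surjective _ hs]
  congr 1
  · ext v
    rw [Submodule.mem_comap, mem_Zt, mem_Zt, h1, h2, map_eq_zero_iff _ hi]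
  · ext v
    rw [Submodule.mem_comap, mem_Bt, mem_Bt]
    constructor
    · rintro ⟨w, hw, hwv⟩
      obtain ⟨w, rfl⟩ := hs w
      exact ⟨w, (h2 _ _).1 hw, hi ((h1 w).symm.trans hwv)⟩
    · rintro ⟨w, hw, rfl⟩
      exact ⟨_, (h2 _ _).2 hw, h1 w⟩

variable [DecidableEq ι]

theorem GCx_cone (h : GCx d deg P) (x : Λ) : GCx (d + 1) (cdg deg) (cone x P) := by
  refine ⟨?_, ?_, ?_⟩
  · rintro (b | b)
    · exact (h.deg_le b).trans (Nat.le_succ d)
    · exact Nat.succ_le_succ (h.deg_le b)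
  · rintro (b | b) (b' | b') hb
    · exact h.P_deg b b' hb
    · have hbb : b = b' := by
        by_contra hne
        exact hb (by simp [cone, Matrix.one_apply_ne hne])
      subst hbb
      rfl
    · exact absurd rfl hb
    · have h1 := h.P_deg b b' fun h0 => hb (by simp [cone, h0])
      show deg b' + 1 = deg b + 1 + 1
      rw [h1]
  · unfold cone
    rw [Matrix.fromBlocks_multiply, ← Matrix.fromBlocks_zero]
    simp [h.sq]

theorem cone_map {Λ' : Type} [CommRing Λ'] (f : Λ →+* Λ') (x : Λ) :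
    (cone x P).map f = cone (f x) (P.map f) := by
  ext (b | b) (b' | b') <;> simp [cone, Matrix.one_apply, apply_ite f]

theorem htpy_cone_self (x : Λ) : Htpy (cdg deg) (cone x P) x := by
  refine ⟨Matrix.fromBlocks 0 0 1 0, ?_, ?_⟩
  · rintro (b | b) (b' | b') hb
    · exact absurd rfl hb
    · exact absurd rfl hb
    · have hbb : b = b' := by
        by_contra hne
        exact hb (by simp [Matrix.one_apply_ne hne])
      subst hbb
      rfl
    · exact absurd rfl hb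
  · unfold cone
    rw [Matrix.fromBlocks_multiply, Matrix.fromBlocks_multiply, Matrix.fromBlocks_add,
      ← Matrix.fromBlocks_one, Matrix.fromBlocks_smul]
    simp

theorem Htpy.cone {y : Λ} (h : Htpy deg P y) (x : Λ) : Htpy (cdg deg) (cone x P) y := by
  obtain ⟨H, hH, hPH⟩ := h
  refine ⟨Matrix.fromBlocks H 0 0 (-H), ?_, ?_⟩
  · rintro (b | b) (b' | b') hb
    · exact hH b b' hb
    · exact absurd rfl hb
    · exact absurd rfl hb
    · have h1 := hH b b' fun h0 => hb (by simp [h0])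
      show deg b + 1 = deg b' + 1 + 1
      rw [h1]
  · unfold R188.cone
    rw [Matrix.fromBlocks_multiply, Matrix.fromBlocks_multiply, Matrix.fromBlocks_add,
      ← Matrix.fromBlocks_one, Matrix.fromBlocks_smul]
    simp [hPH]

theorem cone_les (lam : LenFn Λ) (h : GCx d deg P) (x : Λ) :
    ∃ α β γ : ℤ → ℝ≥0∞, ∀ j, hl lam deg P M j = γ (j + 1) + α j ∧
      hl lam (cdg deg) (cone x P) M j = α j + β j ∧ hl lam deg P M (j - 1) = β j + γ j := by
  obtain ⟨α, β, γ, H⟩ := block_les (M := M) lam (GCx_cone h x)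
    (LinearMap.ext fun v => funext fun b => by simp [mact_apply])
  exact ⟨α, β, γ, fun j => ⟨(H j).1, (H j).2.1, (hl_shift lam j).symm.trans (H j).2.2⟩⟩

/-- if the homology of `P ⊗ M` has finite length, the cone has Euler characteristic zero. -/
theorem chiG_cone_eq_zero (lam : LenFn Λ) (h : GCx d deg P) (x : Λ)
    (hfin : ∀ j, hl lam deg P M j ≠ ⊤) : chiG lam (d + 1) (cdg deg) (cone x P) M = 0 := by
  obtain ⟨α, β, γ, H⟩ := cone_les (M := M) lam h x
  have h0 : hl lam deg P M (0 - 1) = 0 := hl_neg lam (by norm_num)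
  have h1 : hl lam deg P M (((d + 1 : ℕ) : ℤ) + 1 - 1) = 0 := hl_high lam h (by push_cast; omega)
  unfold chiG
  rw [chi_add_of_les (h := fun j => hl lam deg P M (j - 1)) H hfin (fun j => hfin _) h0 h1]
  have h2 := cxa_tel (lo := 0) (hi := ((d + 1 : ℕ) : ℤ)) (fun j => (hl lam deg P M (j - 1)).toReal)
    (by rw [h0]; rfl) (by rw [h1]; rfl)
  unfold chi
  rw [← Finset.sum_add_distrib, ← h2]
  refine Finset.sum_congr rfl fun i _ => ?_
  rw [add_sub_cancel_right, mul_add]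

end Crest.Agent.R188
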