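import Crest.Agent.R183.CxDefs

/-! Row 188 (Serre positivity): additive functionals, complexes of submodules, finite free complexes. -/

set_option autoImplicit false

namespace Crest.Agent.R188

open Crest.Agent.R183 (Zc Bd mact gr Htpy)

/-- A Serre class `good` of `R`-modules with an additive real valued function on it. -/
structure AddFn (R : Type) [CommRing R] where
  good : ∀ (M : Type) [AddCommGroup M] [Module R M], Prop
  val : ∀ (M : Type) [AddCommGroup M] [Module R M], ℝ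
  good_zero : ∀ (M : Type) [AddCommGroup M] [Module R M], Subsingleton M → good M
  good_iff : ∀ (M₁ M₂ M₃ : Type) [AddCommGroup M₁] [Module R M₁] [AddCommGroup M₂] [Module R M₂]
    [AddCommGroup M₃] [Module R M₃] (f : M₁ →ₗ[R] M₂) (g : M₂ →ₗ[R] M₃),
    Function.Injective f → Function.Surjective g → Function.Exact f g →
      (good M₂ ↔ good M₁ ∧ good M₃)
  add : ∀ (M₁ M₂ M₃ : Type) [AddCommGroup M₁] [Module R M₁] [AddCommGroup M₂] [Module R M₂]
    [AddCommGroup M₃] [Module R M₃] (f : M₁ →ₗ[R] M₂) (g : M₂ →ₗ[R] M₃),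
    Function.Injective f → Function.Surjective g → Function.Exact f g → good M₂ →
      val M₂ = val M₁ + val M₃
  junk : ∀ (M : Type) [AddCommGroup M] [Module R M], ¬ good M → val M = 0

section Cx
variable {R V : Type} [CommRing R] [AddCommGroup V] [Module R V]

/-- value on `(W + U) / U`. -/
noncomputable def AddFn.rel (ν : AddFn R) (W U : Submodule R V) : ℝ := ν.val ↥(W.map U.mkQ)

/-- `(W + U) / U` is good. -/
def AddFn.grel (ν : AddFn R) (W U : Submodule R V) : Prop := ν.good ↥(W.map U.mkQ)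

/-- `W / U` is a bounded subquotient complex of `(V, D)`, `D` of degree `-1`. -/
structure IsCx (D : V →ₗ[R] V) (W U : ℤ → Submodule R V) : Prop where
  le : ∀ i, U i ≤ W i
  subW : ∀ i, (W i).map D ≤ W (i - 1)
  subU : ∀ i, (U i).map D ≤ U (i - 1)
  dd : ∀ i, ∀ x ∈ W i, D (D x) ∈ U (i - 1 - 1)
  fin : {i | ¬ W i ≤ U i}.Finite

/-- the complex `W / U` is exact. -/
def Exa (D : V →ₗ[R] V) (W U : ℤ → Submodule R V) : Prop := ∀ i, Zc D W U i ≤ Bd D W U i

/-- the homology of `W / U` is good. -/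
def AddFn.gd (ν : AddFn R) (D : V →ₗ[R] V) (W U : ℤ → Submodule R V) : Prop :=
  ∀ i, ν.grel (Zc D W U i) (Bd D W U i)

/-- Euler characteristic of the homology of `W / U`. -/
noncomputable def AddFn.chi (ν : AddFn R) (D : V →ₗ[R] V) (W U : ℤ → Submodule R V) : ℝ :=
  ∑ᶠ i : ℤ, (-1 : ℝ) ^ i * ν.rel (Zc D W U i) (Bd D W U i)

/-- `φ` induces an isomorphism of complexes `W / U ≅ W' / U'`. -/
structure PIso {V' : Type} [AddCommGroup V'] [Module R V'] (φ : V →ₗ[R] V')
    (D : V →ₗ[R] V) (W U : ℤ → Submodule R V) (D' : V' →ₗ[R] V') (W' U' : ℤ → Submodule R V') :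
    Prop where
  surj : ∀ i, (W i).map φ ⊔ U' i = W' i
  ker : ∀ i, W i ⊓ (U' i).comap φ = U i
  comm : ∀ i, ∀ x ∈ W i, φ (D x) - D' (φ x) ∈ U' (i - 1)

/-- fixed vectors. -/
def fix (ρ : V →ₗ[R] V) : Submodule R V := LinearMap.eqLocus ρ LinearMap.id

/-- an action of the cyclic group of order `ℓ` on the complex `W / U`. -/
structure IsAct (ℓ : ℕ) (D ρ : V →ₗ[R] V) (W U : ℤ → Submodule R V) : Prop where
  pow : ρ ^ ℓ = 1
  comm : ρ ∘ₗ D = D ∘ₗ ρ
  mapW : ∀ i, (W i).map ρ ≤ W i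
  mapU : ∀ i, (U i).map ρ ≤ U i

/-- the cyclic Adams functional `ℓ χ(X^{C_ℓ}) - χ(X)`. -/
noncomputable def AddFn.tau (ν : AddFn R) (ℓ : ℕ) (D ρ : V →ₗ[R] V) (W U : ℤ → Submodule R V) : ℝ :=
  ℓ * ν.chi D (fun i => W i ⊓ fix ρ) (fun i => U i ⊓ fix ρ) - ν.chi D W U

end Cx

/-- finite free complexes, as matrices. -/
structure FC (R : Type) [CommRing R] where
  ι : Type
  [fin : Fintype ι]
  [dec : DecidableEq ι]
  deg : ι → ℕ
  d : Matrix ι ι R
  d_deg : ∀ b b', d b b' ≠ 0 → deg b' = deg b + 1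
  dd : d * d = 0

attribute [instance] FC.fin FC.dec

namespace FC
variable {R : Type} [CommRing R]

/-- the differential of `F ⊗ N`. -/
abbrev act (F : FC R) (N : Type) [AddCommGroup N] [Module R N] : (F.ι → N) →ₗ[R] (F.ι → N) :=
  mact F.d N

/-- the terms of `F ⊗ N`. -/
abbrev G (F : FC R) (N : Type) [AddCommGroup N] [Module R N] (i : ℤ) : Submodule R (F.ι → N) :=
  gr F.deg i (⊤ : Submodule R N)

/-- `F` is a resolution of `N`. -/
def Res (F : FC R) (N : Type) [AddCommGroup N] [Module R N] : Prop :=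
  (∀ i : ℤ, i ≠ 0 → Zc (F.act R) (F.G R) ⊥ i ≤ Bd (F.act R) (F.G R) ⊥ i) ∧
    ∃ π : (F.ι → R) →ₗ[R] N, (F.G R 0).map π = ⊤ ∧
      F.G R 0 ⊓ LinearMap.ker π = Bd (F.act R) (F.G R) ⊥ 0

/-- base change. -/
def map (F : FC R) {S : Type} [CommRing S] (f : R →+* S) : FC S where
  ι := F.ι
  deg := F.deg
  d := F.d.map f
  d_deg b b' h := F.d_deg b b' fun h0 => h (by simp [h0])
  dd := by rw [← Matrix.map_mul, F.dd, Matrix.map_zero _ (map_zero f)]

/-- the basis vectors satisfying `p` span a subcomplex. -/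
def IsSub (F : FC R) (p : F.ι → Prop) : Prop := ∀ b b', F.d b b' ≠ 0 → p b' → p b

/-- the subquotient complex on the basis vectors satisfying `p`, for `p` convex. -/
def part (F : FC R) (p : F.ι → Prop) [DecidablePred p]
    (h : ∀ b b' b'', p b → p b'' → F.d b b' ≠ 0 → F.d b' b'' ≠ 0 → p b') : FC R where
  ι := {b // p b}
  deg b := F.deg b.1
  d := F.d.submatrix Subtype.val Subtype.val
  d_deg b b' hb := F.d_deg b.1 b'.1 hb
  dd := by
    ext b b''
    have h0 : ∑ b', F.d b.1 b' * F.d b' b''.1 = 0 := by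
      have := congrFun (congrFun F.dd b.1) b''.1
      simpa [Matrix.mul_apply] using this
    simp only [Matrix.mul_apply, Matrix.submatrix_apply, Matrix.zero_apply]
    rw [← h0, ← Finset.sum_subtype (Finset.univ.filter p) (by simp)
      (fun b' => F.d b.1 b' * F.d b' b''.1), Finset.sum_filter_of_ne]
    intro b' _ hne
    exact h _ _ _ b.2 b''.2 (left_ne_zero_of_mul hne) (right_ne_zero_of_mul hne)

/-- subcomplex. -/
def sub (F : FC R) (p : F.ι → Prop) [DecidablePred p] (h : F.IsSub p) : FC R :=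
  F.part p fun _ _ _ _ h'' _ h2 => h _ _ h2 h''

/-- quotient complex. -/
def quo (F : FC R) (p : F.ι → Prop) [DecidablePred p] (h : F.IsSub p) : FC R :=
  F.part (fun b => ¬ p b) fun _ _ _ h0 _ h1 _ h' => h0 (h _ _ h1 h')

/-- chain maps of degree zero. -/
structure IsMap (F F' : FC R) (α : Matrix F'.ι F.ι R) : Prop where
  deg : ∀ b' b, α b' b ≠ 0 → F'.deg b' = F.deg b
  comm : α * F.d = F'.d * α

/-- isomorphic complexes. -/
def Iso (F F' : FC R) : Prop :=
  ∃ (α : Matrix F'.ι F.ι R) (β : Matrix F.ι F'.ι R), F.IsMap F' α ∧ α * β = 1 ∧ β * α = 1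

/-- mapping cone. -/
def mcone (F F' : FC R) (α : Matrix F'.ι F.ι R) (h : F.IsMap F' α) : FC R where
  ι := F'.ι ⊕ F.ι
  deg := Sum.elim F'.deg fun b => F.deg b + 1
  d := Matrix.fromBlocks F'.d α 0 (-F.d)
  d_deg := by
    rintro (b | b) (b' | b') hb
    · exact F'.d_deg b b' hb
    · simpa using (h.deg b b' hb).symm
    · simp at hb
    · have := F.d_deg b b' (by simpa using hb)
      simp [this]
  dd := by
    rw [Matrix.fromBlocks_multiply]
    simp [F.dd, F'.dd, h.comm]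

/-- the cone of multiplication by `x`. -/
def cone (F : FC R) (x : R) : FC R :=
  F.mcone F (x • (1 : Matrix F.ι F.ι R))
    ⟨fun b' b h => by
      by_cases e : b' = b
      · rw [e]
      · simp [e] at h, by simp⟩

/-- the ring in degree zero. -/
def unit (R : Type) [CommRing R] : FC R where
  ι := Unit
  deg _ := 0
  d := 0
  d_deg _ _ h := absurd rfl h
  dd := by simp

/-- `F ⊗ K(xs)`. -/
def kos (F : FC R) : List R → FC R
  | [] => F
  | x :: xs => (kos F xs).cone x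

end FC

section
variable {R : Type} [CommRing R]

/-- `F ⊗ N` has good homology. -/
abbrev AddFn.gdF (ν : AddFn R) (F : FC R) (N : Type) [AddCommGroup N] [Module R N] : Prop :=
  ν.gd (F.act N) (F.G N) ⊥

/-- `χ_ν(F ⊗ N)`. -/
noncomputable abbrev AddFn.chiF (ν : AddFn R) (F : FC R) (N : Type) [AddCommGroup N] [Module R N] :
    ℝ := ν.chi (F.act N) (F.G N) ⊥

/-- every finite module has a finite free resolution. -/
def FFR (R : Type) [CommRing R] : Prop :=
  ∀ (N : Type) [AddCommGroup N] [Module R N], Module.Finite R N → ∃ F : FC R, F.Res N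

/-- finite modules whose support meets `V(𝔶)` at most in maximal ideals. -/
def InPhi (𝔶 : Ideal R) (N : Type) [AddCommGroup N] [Module R N] : Prop :=
  Module.Finite R N ∧
    ∀ 𝔭 : Ideal R, 𝔭.IsPrime → 𝔶 ≤ 𝔭 → Module.annihilator R N ≤ 𝔭 → 𝔭.IsMaximal

/-- an infinite set of elements with unit differences. -/
def Consts (R : Type) [CommRing R] : Prop :=
  ∃ C : Set R, C.Infinite ∧ ∀ c ∈ C, ∀ c' ∈ C, c ≠ c' → IsUnit (c - c')

/-- the properties of a regular local ring with infinite residue field used in Part I. -/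
structure Nice (T : Type) [CommRing T] : Prop where
  dom : IsDomain T
  noeth : IsNoetherianRing T
  loc : IsLocalRing T
  ffr : FFR T
  regseq : ∀ 𝔮 : Ideal T, 𝔮.IsPrime → ∃ xs : List T, RingTheory.Sequence.IsWeaklyRegular T xs ∧
    𝔮 ∈ (Ideal.ofList xs).minimalPrimes ∧ (xs.length : ℕ∞) = 𝔮.height
  consts : Consts T

/-- tensor product of a family of matrices. -/
def tens {κ ι ι' : Type} [Fintype κ] (M : κ → Matrix ι ι' R) : Matrix (κ → ι) (κ → ι') R :=
  Matrix.of fun b b' => ∏ s, M s (b s) (b' s)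

/-- the cyclically invariant tournament on `ZMod ℓ` (`ℓ` odd). -/
def tour (ℓ : ℕ) (t s : ZMod ℓ) : Prop := 1 ≤ (s - t).val ∧ 2 * (s - t).val < ℓ

instance (ℓ : ℕ) (t s : ZMod ℓ) : Decidable (tour ℓ t s) := by unfold tour; infer_instance

/-- the odd operator `d` acting in the tensor factor `t`, with signs. -/
def slot (ℓ : ℕ) [NeZero ℓ] {ι : Type} [DecidableEq ι] (deg : ι → ℕ) (d : Matrix ι ι R)
    (t : ZMod ℓ) : Matrix (ZMod ℓ → ι) (ZMod ℓ → ι) R :=
  tens fun s => if s = t then d else if tour ℓ t s then Matrix.diagonal fun b => (-1) ^ deg b else 1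

/-- the differential of the `ℓ`-th tensor power (`ℓ` odd). -/
def powD (ℓ : ℕ) [NeZero ℓ] {ι : Type} [DecidableEq ι] (deg : ι → ℕ) (d : Matrix ι ι R) :
    Matrix (ZMod ℓ → ι) (ZMod ℓ → ι) R := ∑ t, slot ℓ deg d t

/-- additive weight on tuples. -/
def powW (ℓ : ℕ) [NeZero ℓ] {ι : Type} (w : ι → ℕ) (b : ZMod ℓ → ι) : ℕ := ∑ t, w (b t)

/-- the cyclic rotation of tensor factors. -/
def rot (R : Type) [CommRing R] (ℓ : ℕ) (ι N : Type) [AddCommGroup N] [Module R N] :
    ((ZMod ℓ → ι) → N) →ₗ[R] ((ZMod ℓ → ι) → N) :=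
  LinearMap.funLeft R N fun b t => b (t + 1)

/-- `τ(F^{⊗ ℓ} ⊗ N)`. -/
noncomputable def AddFn.adams (ν : AddFn R) (ℓ : ℕ) [NeZero ℓ] (F : FC R) (N : Type)
    [AddCommGroup N] [Module R N] : ℝ :=
  ν.tau ℓ (mact (powD ℓ F.deg F.d) N) (rot R ℓ F.ι N)
    (fun i => gr (powW ℓ F.deg) i (⊤ : Submodule R N)) ⊥

/-- `Z` has dimension `< δ`, in a form that is stable under finite unions and subsets. -/
def Small {O : Type} [CommRing O] (δ : ℕ) (Z : Set (PrimeSpectrum O)) : Prop :=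
  ∃ A : Finset (Ideal O), ∀ 𝔭 ∈ Z, ∃ 𝔞 ∈ A, 𝔞 ≤ 𝔭.asIdeal ∧
    (𝔭.asIdeal.map (Ideal.Quotient.mk 𝔞)).height < δ

end

end Crest.Agent.R188
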