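import Crest.Agent.R188.TChi
import Crest.Agent.R188.Reg1

/-! Row 188, part IV: dévissage. -/

set_option autoImplicit false

namespace Crest.Agent.R188

open Crest.Agent.R183 IsLocalRing
open scoped ENNReal TensorProduct

variable {Λ : Type} [CommRing Λ]

theorem supportDim_exact {M₁ M₂ M₃ : Type} [AddCommGroup M₁] [Module Λ M₁] [AddCommGroup M₂]
    [Module Λ M₂] [AddCommGroup M₃] [Module Λ M₃] (f : M₁ →ₗ[Λ] M₂) (g : M₂ →ₗ[Λ] M₃)
    (hf : Function.Injective f) (hg : Function.Surjective g) (hfg : Function.Exact f g) :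
    Module.supportDim Λ M₂ = max (Module.supportDim Λ M₁) (Module.supportDim Λ M₃) := by
  refine le_antisymm ?_ (max_le (Module.supportDim_le_of_injective f hf)
    (Module.supportDim_le_of_surjective g hg))
  have key : ∀ (N : Type) [AddCommGroup N] [Module Λ N] (l : LTSeries (Module.support Λ M₂)),
      l.head.1 ∈ Module.support Λ N → (l.length : WithBot ℕ∞) ≤ Module.supportDim Λ N := by
    intro N _ _ l h
    let l' : LTSeries (Module.support Λ N) :=
      LTSeries.mk l.length (fun i => ⟨(l i).1, Module.mem_support_mono (l.head_le i) h⟩)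
        fun i j hij => l.strictMono hij
    exact Order.LTSeries.length_le_krullDim l'
  refine iSup_le fun l => ?_
  have h := (Module.support_of_exact hfg hf hg).subset l.head.2
  rcases h with h | h
  · exact le_max_of_le_left (key M₁ l h)
  · exact le_max_of_le_right (key M₃ l h)

variable [IsLocalRing Λ] [IsNoetherianRing Λ]

omit [IsNoetherianRing Λ] in
theorem dev_phi_subsingleton (I : Ideal Λ) (M : Type) [AddCommGroup M] [Module Λ M]
    [Subsingleton M] : Phi I M :=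
  ⟨inferInstance, 0, by rw [Module.annihilator_eq_top_iff.2 inferInstance, sup_top_eq]; exact le_top⟩

omit [IsNoetherianRing Λ] in
theorem dev_zero {I : Ideal Λ} {ν : ∀ (M : Type) [AddCommGroup M] [Module Λ M], ℝ}
    (hν : AddOn I ν) (M : Type) [AddCommGroup M] [Module Λ M] [Subsingleton M] : ν M = 0 := by
  have := hν M M M LinearMap.id LinearMap.id Function.injective_id Function.surjective_id
    (fun x => ⟨fun _ => ⟨x, rfl⟩, fun _ => Subsingleton.elim _ _⟩) (dev_phi_subsingleton I M)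
  linarith

omit [IsNoetherianRing Λ] in
theorem dev_congr {I : Ideal Λ} {ν : ∀ (M : Type) [AddCommGroup M] [Module Λ M], ℝ}
    (hν : AddOn I ν) {M M' : Type} [AddCommGroup M] [Module Λ M] [AddCommGroup M'] [Module Λ M']
    (e : M' ≃ₗ[Λ] M) (hM : Phi I M) : ν M = ν M' := by
  have := hν M' M PUnit e.toLinearMap 0 e.injective (fun x => ⟨0, Subsingleton.elim _ _⟩)
    (fun x => ⟨fun _ => e.surjective x, fun _ => Subsingleton.elim _ _⟩) hM
  rw [this, dev_zero hν PUnit, add_zero]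

theorem dev_main {I : Ideal Λ} {ν : ∀ (M : Type) [AddCommGroup M] [Module Λ M], ℝ}
    (hν : AddOn I ν) (n : ℕ) (pos : Prop)
    (h : ∀ 𝔮 : Ideal Λ, 𝔮.IsPrime → (∃ c : ℕ, maximalIdeal Λ ^ c ≤ I ⊔ 𝔮) → ∀ b : ℕ,
      ringKrullDim (Λ ⧸ 𝔮) = b → (b < n → ν (Λ ⧸ 𝔮) = 0) ∧ (pos → b = n → 0 < ν (Λ ⧸ 𝔮)))
    (M : Type) [AddCommGroup M] [Module Λ M] (hM : Phi I M) :
    (Module.supportDim Λ M < n → ν M = 0) ∧ (pos → Module.supportDim Λ M = n → 0 < ν M) := by
  obtain ⟨hfin, hc⟩ := hM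
  induction hfin using IsNoetherianRing.induction_on_isQuotientEquivQuotientPrime Λ with
  | subsingleton N =>
    refine ⟨fun _ => dev_zero hν N, fun _ hd => ?_⟩
    rw [Module.supportDim_eq_bot_of_subsingleton] at hd
    exact absurd hd (by simp)
  | quotient N p e =>
    obtain ⟨b, hb⟩ := exists_dim_nat (I := p.1) p.2.ne_top
    rw [dev_congr hν e.symm ⟨inferInstance, hc⟩, Module.supportDim_eq_of_equiv e,
      Module.supportDim_quotient_eq_ringKrullDim, hb]
    rw [e.annihilator_eq, Ideal.annihilator_quotient] at hc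
    have := h p.1 p.2 hc b hb
    exact ⟨fun hd => this.1 (by exact_mod_cast hd), fun hp hd => this.2 hp (by exact_mod_cast hd)⟩
  | exact N₁ N₂ N₃ f g hf hg hfg h₁ h₃ =>
    obtain ⟨c, hc⟩ := hc
    have h₁' := h₁ ⟨c, hc.trans (sup_le_sup_left (f.annihilator_le_of_injective hf) I)⟩
    have h₃' := h₃ ⟨c, hc.trans (sup_le_sup_left (g.annihilator_le_of_surjective hg) I)⟩
    rw [hν N₁ N₂ N₃ f g hf hg hfg ⟨inferInstance, c, hc⟩, supportDim_exact f g hf hg hfg]
    refine ⟨fun hd => ?_, fun hp hd => ?_⟩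
    · rw [h₁'.1 (lt_of_le_of_lt (le_max_left _ _) hd), h₃'.1 (lt_of_le_of_lt (le_max_right _ _) hd),
        add_zero]
    · have e₁ : Module.supportDim Λ N₁ ≤ n := hd ▸ le_max_left _ _
      have e₃ : Module.supportDim Λ N₃ ≤ n := hd ▸ le_max_right _ _
      rcases e₁.lt_or_eq with e₁ | e₁ <;> rcases e₃.lt_or_eq with e₃ | e₃
      · exact absurd hd (max_lt e₁ e₃).ne
      · rw [h₁'.1 e₁, zero_add]; exact h₃'.2 hp e₃
      · rw [h₃'.1 e₃, add_zero]; exact h₁'.2 hp e₁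
      · exact add_pos (h₁'.2 hp e₁) (h₃'.2 hp e₃)

theorem dev_dim_nat (M : Type) [AddCommGroup M] [Module Λ M] [Module.Finite Λ M] [Nontrivial M] :
    ∃ a : ℕ, Module.supportDim Λ M = a := by
  rw [Module.supportDim_eq_ringKrullDim_quotient_annihilator]
  refine exists_dim_nat fun h => ?_
  exact not_subsingleton M (Module.annihilator_eq_top_iff.1 h)

/-- dévissage for an additive function: vanishing and positivity pass from primes to modules. -/
theorem devissage {I : Ideal Λ} {ν : ∀ (M : Type) [AddCommGroup M] [Module Λ M], ℝ}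
    (hν : AddOn I ν) (n : ℕ)
    (h : ∀ 𝔮 : Ideal Λ, 𝔮.IsPrime → (∃ c : ℕ, maximalIdeal Λ ^ c ≤ I ⊔ 𝔮) → ∀ b : ℕ,
      ringKrullDim (Λ ⧸ 𝔮) = b → b < n → ν (Λ ⧸ 𝔮) = 0)
    (M : Type) [AddCommGroup M] [Module Λ M] (hM : Phi I M) (hd : Module.supportDim Λ M < n) :
    ν M = 0 :=
  (dev_main hν n False (fun 𝔮 h1 h2 b hb => ⟨h 𝔮 h1 h2 b hb, False.elim⟩) M hM).1 hd

theorem devissage_pos {I : Ideal Λ} {ν : ∀ (M : Type) [AddCommGroup M] [Module Λ M], ℝ}
    (hν : AddOn I ν) (n : ℕ)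
    (h : ∀ 𝔮 : Ideal Λ, 𝔮.IsPrime → (∃ c : ℕ, maximalIdeal Λ ^ c ≤ I ⊔ 𝔮) → ∀ b : ℕ,
      ringKrullDim (Λ ⧸ 𝔮) = b → (b < n → ν (Λ ⧸ 𝔮) = 0) ∧ (b = n → 0 < ν (Λ ⧸ 𝔮)))
    (M : Type) [AddCommGroup M] [Module Λ M] (hM : Phi I M) (hd : Module.supportDim Λ M = n) :
    0 < ν M :=
  (dev_main hν n True (fun 𝔮 h1 h2 b hb => ⟨(h 𝔮 h1 h2 b hb).1, fun _ => (h 𝔮 h1 h2 b hb).2⟩)
    M hM).2 trivial hd

theorem estar_of_estarP {d : ℕ} (h : EstarP Λ d) : Estar Λ d := by
  intro I n ν hI hν M _ _ hM hd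
  rcases subsingleton_or_nontrivial M with hs | hs
  · exact dev_zero hν M
  have := hM.1
  obtain ⟨a, ha⟩ := dev_dim_nat (Λ := Λ) M
  rw [ha] at hd
  have hd' : a + n < d := by exact_mod_cast hd
  refine devissage hν (d - n) (fun 𝔮 h1 h2 b hb hbn => h I n ν hI hν 𝔮 h1 h2 b hb (by omega)) M hM ?_
  rw [ha]
  exact_mod_cast (show a < d - n by omega)

theorem addOn_chiT {d : ℕ} {N : Type} [AddCommGroup N] [Module Λ N] (hN : HasRes Λ d N) :
    AddOn (Module.annihilator Λ N) fun M _ _ => (chiT Λ d M N : ℝ) := by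
  intro M₁ M₂ M₃ _ _ _ _ _ _ f g hf hg hfg hM
  have := hM.1
  obtain ⟨c, hc⟩ := hM.2
  have h := chiT_add hN f g hf hg hfg ⟨c, by rwa [sup_comm]⟩
  simp only [h, Int.cast_add]

theorem dev_step {d : ℕ} {N : Type} [AddCommGroup N] [Module Λ N] (hN : HasRes Λ d N) (b : ℕ)
    (h : ∀ 𝔭 : Ideal Λ, 𝔭.IsPrime → Meet Λ (Λ ⧸ 𝔭) N → ∀ a : ℕ, ringKrullDim (Λ ⧸ 𝔭) = a →
      (a + b < d → chiT Λ d (Λ ⧸ 𝔭) N = 0) ∧ (a + b = d → 0 < chiT Λ d (Λ ⧸ 𝔭) N))
    (M : Type) [AddCommGroup M] [Module Λ M] [Module.Finite Λ M] (hM : Meet Λ M N) (a : ℕ)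
    (ha : Module.supportDim Λ M = a) :
    (a + b < d → chiT Λ d M N = 0) ∧ (a + b = d → 0 < chiT Λ d M N) := by
  have hP : Phi (Module.annihilator Λ N) M := ⟨inferInstance, hM.symm⟩
  have key := dev_main (addOn_chiT hN) (d - b) (b ≤ d) (fun 𝔭 h1 h2 a' ha' => by
    have hm : Meet Λ (Λ ⧸ 𝔭) N := by
      obtain ⟨c, hc⟩ := h2
      exact ⟨c, by rwa [Ideal.annihilator_quotient, sup_comm]⟩
    have := h 𝔭 h1 hm a' ha'
    exact ⟨fun h3 => by exact_mod_cast this.1 (by omega),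
      fun h3 h4 => by exact_mod_cast this.2 (by omega)⟩) M hP
  rw [ha] at key
  exact ⟨fun h3 => by exact_mod_cast key.1 (by exact_mod_cast (show a < d - b by omega)),
    fun h3 => by exact_mod_cast key.2 (by omega) (by exact_mod_cast (show a = d - b by omega))⟩

theorem genCase_of_primeCase {d : ℕ} (hG : GlDim Λ d) (h : PrimeCase Λ d) : GenCase Λ d := by
  intro M N _ _ _ _ hMf hNf hMN
  rcases subsingleton_or_nontrivial M with hs | hs
  · refine ⟨fun _ => chiT_subsingleton (hG N hNf), fun hd => ?_⟩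
    rw [Module.supportDim_eq_bot_of_subsingleton, WithBot.bot_add] at hd
    exact absurd hd (by simp)
  rcases subsingleton_or_nontrivial N with hs' | hs'
  · refine ⟨fun _ => ?_, fun hd => ?_⟩
    · rw [chiT_symm (hG M hMf) (hG N hNf)]
      exact chiT_subsingleton (hG M hMf)
    · rw [Module.supportDim_eq_bot_of_subsingleton Λ N, WithBot.add_bot] at hd
      exact absurd hd (by simp)
  obtain ⟨a, ha⟩ := dev_dim_nat (Λ := Λ) M
  obtain ⟨b, hb⟩ := dev_dim_nat (Λ := Λ) N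
  have key := dev_step (hG M hMf) a (fun 𝔮 h1 h2 b' hb' => by
    rw [chiT_symm (hG _ inferInstance) (hG M hMf), add_comm]
    refine dev_step (hG (Λ ⧸ 𝔮) inferInstance) b' (fun 𝔭 h3 h4 a' ha' => ?_) M h2.symm a ha
    exact h 𝔭 𝔮 h3 h1 ((meet_quot_iff 𝔭 𝔮).1 h4) a' b' ha' hb') N hMN.symm b hb
  rw [ha, hb, chiT_symm (hG M hMf) (hG N hNf)]
  exact ⟨fun h3 => key.1 (by rw [add_comm]; exact_mod_cast h3),
    fun h3 => key.2 (by rw [add_comm]; exact_mod_cast h3)⟩

theorem pairCase_of_genCase {d : ℕ} (h : GenCase Λ d) (I J : Ideal Λ) : PairCase Λ d I J := by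
  intro hc a b ha hb
  have := h (Λ ⧸ I) (Λ ⧸ J) inferInstance inferInstance ((meet_quot_iff I J).2 hc)
  rw [Module.supportDim_quotient_eq_ringKrullDim, Module.supportDim_quotient_eq_ringKrullDim, ha,
    hb] at this
  exact ⟨fun h3 => this.1 (by exact_mod_cast h3), fun h3 => this.2 (by exact_mod_cast h3)⟩

theorem PairCase.symm {d : ℕ} (hG : GlDim Λ d) {I J : Ideal Λ} (h : PairCase Λ d I J) :
    PairCase Λ d J I := by
  intro hc a b ha hb
  rw [chiT_symm (hG _ inferInstance) (hG _ inferInstance), add_comm]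
  exact h (by rwa [sup_comm]) b a hb ha

/-- the vanishing theorem follows from `(E*)`. -/
theorem vanish_of_estar {d : ℕ} (hG : GlDim Λ d) (h : Estar Λ d) {I J : Ideal Λ}
    (hc : ∃ c : ℕ, maximalIdeal Λ ^ c ≤ I ⊔ J) {a b : ℕ} (ha : ringKrullDim (Λ ⧸ I) = a)
    (hb : ringKrullDim (Λ ⧸ J) = b) (hab : a + b < d) : chiT Λ d (Λ ⧸ I) (Λ ⧸ J) = 0 := by
  have hν := addOn_chiT (hG (Λ ⧸ J) inferInstance)
  rw [Ideal.annihilator_quotient] at hν
  have := h J b _ hb.le hν (Λ ⧸ I)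
    ⟨inferInstance, by rwa [Ideal.annihilator_quotient, sup_comm]⟩ (by
      rw [Module.supportDim_quotient_eq_ringKrullDim, ha]
      exact_mod_cast hab)
  exact_mod_cast this

theorem meet_of_finiteLength {M N : Type} [AddCommGroup M] [Module Λ M] [AddCommGroup N]
    [Module Λ N] [Module.Finite Λ M] [Module.Finite Λ N] (h : IsFiniteLength Λ (M ⊗[Λ] N)) :
    Meet Λ M N := by
  obtain ⟨hN, hA⟩ := isFiniteLength_iff_isNoetherian_isArtinian.1 h
  obtain ⟨c, hc⟩ := IsArtinian.monotone_stabilizes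
    (⟨fun n => OrderDual.toDual (maximalIdeal Λ ^ n • (⊤ : Submodule Λ (M ⊗[Λ] N))),
      fun i j hij => Submodule.smul_mono_left (Ideal.pow_le_pow_right hij)⟩ :
      ℕ →o (Submodule Λ (M ⊗[Λ] N))ᵒᵈ)
  have h1 : maximalIdeal Λ ^ c • (⊤ : Submodule Λ (M ⊗[Λ] N)) =
      maximalIdeal Λ ^ (c + 1) • (⊤ : Submodule Λ (M ⊗[Λ] N)) := hc (c + 1) (Nat.le_succ c)
  have h2 : maximalIdeal Λ ^ c • (⊤ : Submodule Λ (M ⊗[Λ] N)) = ⊥ := by
    refine Submodule.eq_bot_of_le_smul_of_le_jacobson_bot (maximalIdeal Λ) _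
      (IsNoetherian.noetherian _) ?_ (maximalIdeal_le_jacobson _)
    rw [← Submodule.mul_smul, ← pow_succ', ← h1]
  have h3 : maximalIdeal Λ ^ c ≤ Module.annihilator Λ (M ⊗[Λ] N) := by
    intro r hr
    rw [Module.mem_annihilator]
    intro m
    have := Submodule.smul_mem_smul hr (Submodule.mem_top (x := m))
    rwa [h2, Submodule.mem_bot] at this
  refine Ideal.exists_pow_le_of_le_radical_of_fg ?_ (IsNoetherian.noetherian _)
  rw [Ideal.radical_eq_sInf]
  refine le_sInf fun p hp => ?_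
  obtain ⟨hp1, hp2⟩ := hp
  let P : PrimeSpectrum Λ := ⟨p, hp2⟩
  have hM : P ∈ Module.support Λ M := Module.mem_support_iff_of_finite.2 (le_sup_left.trans hp1)
  have hN' : P ∈ Module.support Λ N := Module.mem_support_iff_of_finite.2 (le_sup_right.trans hp1)
  rw [Module.mem_support_iff_nontrivial_residueField_tensorProduct] at hM hN'
  have hMN : P ∈ Module.support Λ (M ⊗[Λ] N) := by
    rw [Module.mem_support_iff_nontrivial_residueField_tensorProduct,
      (TensorProduct.AlgebraTensorModule.distribBaseChange Λ P.asIdeal.ResidueField M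
        N).nontrivial_congr, Module.FaithfullyFlat.nontrivial_tensorProduct_iff_right]
    exact hN'
  exact hp2.le_of_pow_le (h3.trans (Module.annihilator_le_of_mem_support hMN))

end Crest.Agent.R188
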