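import Crest.Agent.R188.Defs
import Crest.Agent.R183.Kos

/-!
# R188 / FreeAux

Truncations of vectors, ungraded description of resolutions, construction of homotopies.
-/

set_option autoImplicit false
set_option linter.unusedSectionVars false
set_option linter.unusedVariables false
set_option backward.isDefEq.respectTransparency false

noncomputable section

namespace Crest.Agent.R188

open Crest.Agent.R183 (Zc Bd mact gr Htpy mact_apply mact_mul mact_add mact_smul_one mem_gr)
open scoped TensorProduct Pointwise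

variable {R : Type} [CommRing R] {N : Type} [AddCommGroup N] [Module R N]

theorem fr_mem_top {ι : Type} {deg : ι → ℕ} {i : ℤ} {v : ι → N} :
    v ∈ gr deg i (⊤ : Submodule R N) ↔ ∀ b, (deg b : ℤ) ≠ i → v b = 0 := by
  simp [mem_gr]

theorem fr_mact_zero {ι ι' : Type} [Fintype ι'] (v : ι' → N) :
    mact (0 : Matrix ι ι' R) N v = 0 := by
  funext b
  simp [mact_apply]

theorem fr_mact_one {ι : Type} [Fintype ι] [DecidableEq ι] (v : ι → N) :
    mact (1 : Matrix ι ι R) N v = v := by
  have := mact_smul_one (1 : R) v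
  rwa [one_smul, one_smul] at this

theorem fr_mact_neg {ι ι' : Type} [Fintype ι'] (P : Matrix ι ι' R) (v : ι' → N) :
    mact (-P) N v = -mact P N v := by
  funext b
  simp [mact_apply]

theorem fr_mact_mul {ι ι' ι'' : Type} [Fintype ι'] [Fintype ι''] (P : Matrix ι ι' R)
    (Q : Matrix ι' ι'' R) (v : ι'' → N) : mact P N (mact Q N v) = mact (P * Q) N v := by
  rw [mact_mul]; rfl

/-- the component of degree `i`. -/
def frT (R : Type) [CommRing R] {N : Type} [AddCommGroup N] [Module R N] {ι : Type}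
    (deg : ι → ℕ) (i : ℤ) : (ι → N) →ₗ[R] (ι → N) where
  toFun v b := if (deg b : ℤ) = i then v b else 0
  map_add' v w := by funext b; by_cases h : (deg b : ℤ) = i <;> simp [h]
  map_smul' r v := by funext b; by_cases h : (deg b : ℤ) = i <;> simp [h]

theorem frT_apply {ι : Type} (deg : ι → ℕ) (i : ℤ) (v : ι → N) (b : ι) :
    frT R deg i v b = if (deg b : ℤ) = i then v b else 0 := rfl

theorem frT_mem {ι : Type} (deg : ι → ℕ) (i : ℤ) (v : ι → N) :
    frT R deg i v ∈ gr deg i (⊤ : Submodule R N) :=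
  fr_mem_top.2 fun b hb => if_neg hb

theorem frT_of_mem {ι : Type} {deg : ι → ℕ} {i : ℤ} {v : ι → N}
    (h : v ∈ gr deg i (⊤ : Submodule R N)) : frT R deg i v = v := by
  funext b
  rw [frT_apply]
  split_ifs with hb
  · rfl
  · exact (fr_mem_top.1 h b hb).symm

theorem frT_of_ne {ι : Type} {deg : ι → ℕ} {i j : ℤ} {v : ι → N}
    (h : v ∈ gr deg i (⊤ : Submodule R N)) (hij : i ≠ j) : frT R deg j v = 0 := by
  funext b
  rw [frT_apply]
  split_ifs with hb
  · exact fr_mem_top.1 h b (by omega)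
  · rfl

theorem frT_sum {ι : Type} [Fintype ι] (deg : ι → ℕ) (v : ι → N) :
    ∑ i ∈ Finset.univ.image fun b => (deg b : ℤ), frT R deg i v = v := by
  funext b
  rw [Finset.sum_apply, Finset.sum_eq_single (deg b : ℤ)]
  · simp [frT_apply]
  · intro i _ hi
    exact if_neg hi.symm
  · intro h
    exact absurd (Finset.mem_image_of_mem _ (Finset.mem_univ b)) h

theorem fr_mact_T {ι ι' : Type} [Fintype ι'] {deg : ι → ℕ} {deg' : ι' → ℕ} {P : Matrix ι ι' R}
    {i j : ℤ} (h : ∀ b b', P b b' ≠ 0 → ((deg' b' : ℤ) = i ↔ (deg b : ℤ) = j)) (v : ι' → N) :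
    mact P N (frT R deg' i v) = frT R deg j (mact P N v) := by
  funext b
  rw [frT_apply, mact_apply, mact_apply]
  split_ifs with hb
  · refine Finset.sum_congr rfl fun b' _ => ?_
    by_cases h0 : P b b' = 0
    · simp [h0]
    · rw [frT_apply, if_pos ((h b b' h0).2 hb)]
  · refine Finset.sum_eq_zero fun b' _ => ?_
    by_cases h0 : P b b' = 0
    · simp [h0]
    · rw [frT_apply, if_neg fun h1 => hb ((h b b' h0).1 h1), smul_zero]

theorem fr_mact_mem {ι ι' : Type} [Fintype ι'] {deg : ι → ℕ} {deg' : ι' → ℕ} {P : Matrix ι ι' R}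
    {i j : ℤ} (h : ∀ b b', P b b' ≠ 0 → ((deg' b' : ℤ) = i ↔ (deg b : ℤ) = j)) {v : ι' → N}
    (hv : v ∈ gr deg' i (⊤ : Submodule R N)) : mact P N v ∈ gr deg j (⊤ : Submodule R N) := by
  rw [← frT_of_mem hv, fr_mact_T h]
  exact frT_mem _ _ _

theorem frT_compLeft {ι : Type} (deg : ι → ℕ) (i : ℤ) {N' : Type} [AddCommGroup N'] [Module R N']
    (f : N →ₗ[R] N') (v : ι → N) :
    f.compLeft ι (frT R deg i v) = frT R deg i (f.compLeft ι v) := by
  funext b
  simp only [LinearMap.compLeft_apply, Function.comp_apply, frT_apply]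
  split_ifs <;> simp

namespace FC

variable (F : FC R)

theorem fr_act_T (i : ℤ) (v : F.ι → N) :
    F.act N (frT R F.deg (i + 1) v) = frT R F.deg i (F.act N v) :=
  fr_mact_T (fun b b' hb => by have := F.d_deg b b' hb; omega) v

theorem fr_act_mem {i : ℤ} {v : F.ι → N} (hv : v ∈ F.G N i) : F.act N v ∈ F.G N (i - 1) :=
  fr_mact_mem (fun b b' hb => by have := F.d_deg b b' hb; omega) hv

theorem fr_act_act (v : F.ι → N) : F.act N (F.act N v) = 0 := by
  rw [fr_mact_mul, F.dd, fr_mact_zero]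

theorem fr_mem_Z {i : ℤ} {x : F.ι → N} :
    x ∈ Zc (F.act N) (F.G N) ⊥ i ↔ x ∈ F.G N i ∧ F.act N x = 0 := by
  simp [Zc]

theorem fr_mem_B {i : ℤ} {x : F.ι → N} :
    x ∈ Bd (F.act N) (F.G N) ⊥ i ↔ x ∈ F.G N i ∧ ∃ u, F.act N u = x := by
  simp only [Bd, Pi.bot_apply, sup_bot_eq, Submodule.mem_map]
  constructor
  · rintro ⟨u, hu, rfl⟩
    exact ⟨by simpa using F.fr_act_mem hu, u, rfl⟩
  · rintro ⟨hx, u, rfl⟩
    exact ⟨_, frT_mem _ _ u, by rw [F.fr_act_T, frT_of_mem hx]⟩

theorem fr_act_zero {x : F.ι → N} (hx : x ∈ F.G N 0) : F.act N x = 0 := by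
  funext b
  exact fr_mem_top.1 (F.fr_act_mem hx) b (by omega)

/-- the homology of `F ⊗ N` is `M` in degree zero (ungraded form). -/
def FRes (F : FC R) (N : Type) [AddCommGroup N] [Module R N] (M : Type) [AddCommGroup M]
    [Module R M] : Prop :=
  ∃ π : (F.ι → N) →ₗ[R] M, Function.Surjective π ∧ (∀ i : ℤ, i ≠ 0 → ∀ x ∈ F.G N i, π x = 0) ∧
    (∀ u, π (F.act N u) = 0) ∧ ∀ x, F.act N x = 0 → π x = 0 → ∃ u, F.act N u = x

variable {F}

theorem FRes.equiv {M M' : Type} [AddCommGroup M] [Module R M] [AddCommGroup M'] [Module R M']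
    (h : F.FRes N M) (e : M ≃ₗ[R] M') : F.FRes N M' := by
  obtain ⟨π, h1, h2, h3, h4⟩ := h
  refine ⟨e.toLinearMap ∘ₗ π, e.surjective.comp h1, fun i hi x hx => ?_, fun u => ?_,
    fun x hx h0 => h4 x hx ?_⟩
  · simp [h2 i hi x hx]
  · simp [h3 u]
  · simpa using h0

theorem fr_res_iff {M : Type} [AddCommGroup M] [Module R M] : F.Res M ↔ F.FRes R M := by
  constructor
  · rintro ⟨h1, π, h2, h3⟩
    refine ⟨π ∘ₗ frT R F.deg 0, fun m => ?_, fun i hi x hx => ?_, fun u => ?_, fun x hx h0 => ?_⟩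
    · obtain ⟨x, hx, rfl⟩ : m ∈ (F.G R 0).map π := h2 ▸ Submodule.mem_top
      exact ⟨x, by rw [LinearMap.comp_apply, frT_of_mem hx]⟩
    · rw [LinearMap.comp_apply, frT_of_ne hx hi, map_zero]
    · have : frT R F.deg 0 (F.act R u) ∈ F.G R 0 ⊓ LinearMap.ker π := by
        rw [h3, F.fr_mem_B]
        exact ⟨frT_mem _ _ _, _, F.fr_act_T 0 u⟩
      exact this.2
    · change x ∈ LinearMap.range (F.act R)
      rw [← frT_sum (R := R) F.deg x]
      refine Submodule.sum_mem _ fun i _ => ?_
      have hB : frT R F.deg i x ∈ Bd (F.act R) (F.G R) ⊥ i := by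
        by_cases hi : i = 0
        · subst hi
          rw [← h3]
          exact ⟨frT_mem _ _ _, h0⟩
        · refine h1 i hi (F.fr_mem_Z.2 ⟨frT_mem _ _ _, ?_⟩)
          have := F.fr_act_T (i - 1) x
          rwa [sub_add_cancel, hx, map_zero] at this
      exact (F.fr_mem_B.1 hB).2
  · rintro ⟨π, h1, h2, h3, h4⟩
    refine ⟨fun i hi x hx => ?_, π, eq_top_iff.2 fun m _ => ?_, ?_⟩
    · obtain ⟨a, b⟩ := F.fr_mem_Z.1 hx
      exact F.fr_mem_B.2 ⟨a, h4 x b (h2 i hi x a)⟩
    · obtain ⟨x, rfl⟩ := h1 m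
      rw [← frT_sum (R := R) F.deg x, map_sum]
      refine Submodule.sum_mem _ fun i _ => ?_
      by_cases hi : i = 0
      · subst hi
        exact ⟨_, frT_mem _ _ _, rfl⟩
      · rw [h2 i hi _ (frT_mem _ _ _)]
        exact Submodule.zero_mem _
    · ext x
      rw [F.fr_mem_B, Submodule.mem_inf, LinearMap.mem_ker]
      constructor
      · rintro ⟨a, b⟩
        exact ⟨a, h4 x (F.fr_act_zero a) b⟩
      · rintro ⟨a, u, rfl⟩
        exact ⟨a, h3 u⟩

theorem FRes.baseChange {M : Type} [AddCommGroup M] [Module R M] (h : F.FRes R M)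
    (S : Type) [CommRing S] [Algebra R S] [Module.Flat R S] :
    (F.map (algebraMap R S)).FRes S (S ⊗[R] M) := by
  obtain ⟨π, h1, h2, h3, h4⟩ := h
  let e := TensorProduct.piScalarRight R S S F.ι
  have he : ∀ t, (F.map (algebraMap R S)).act S (e t) = e ((F.act R).lTensor S t) := by
    intro t
    induction t using TensorProduct.induction_on with
    | zero => simp
    | add a b ha hb => simp only [map_add, ha, hb]
    | tmul s v =>
      funext b
      change ∑ b', algebraMap R S (F.d b b') • e (s ⊗ₜ v) b' = _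
      simp only [e, LinearMap.lTensor_tmul, TensorProduct.piScalarRight_apply,
        TensorProduct.piScalarRightHom_tmul, mact_apply, algebraMap_smul, Finset.sum_smul]
      simp only [smul_eq_mul, mul_smul]
  have hex : Function.Exact (F.act R) ((F.act R).prod π) := by
    intro x
    constructor
    · intro hx
      exact h4 x (congrArg Prod.fst hx) (congrArg Prod.snd hx)
    · rintro ⟨u, rfl⟩
      exact Prod.ext (F.fr_act_act u) (h3 u)
  have hex' := Module.Flat.lTensor_exact S hex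
  have hπ : ∀ t, π.baseChange S t = π.lTensor S t := fun t => rfl
  refine ⟨π.baseChange S ∘ₗ e.symm.toLinearMap, ?_, fun i hi x hx => ?_, fun u => ?_,
    fun x hx h0 => ?_⟩
  · exact (LinearMap.lTensor_surjective S h1).comp e.symm.surjective
  · rw [← Finset.univ_sum_single x, map_sum]
    refine Finset.sum_eq_zero fun b _ => ?_
    by_cases hb : (F.deg b : ℤ) = i
    · change π.baseChange S (e.symm (Pi.single b (x b))) = 0
      rw [TensorProduct.piScalarRight_symm_single, LinearMap.baseChange_tmul,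
        h2 i hi _ (R183.single_mem_gr hb Submodule.mem_top), TensorProduct.tmul_zero]
    · rw [fr_mem_top.1 hx b hb, Pi.single_zero, map_zero]
  · obtain ⟨t, rfl⟩ := e.surjective u
    rw [he]
    change π.baseChange S (e.symm (e _)) = 0
    rw [e.symm_apply_apply, hπ, ← LinearMap.lTensor_comp_apply]
    have : π ∘ₗ F.act R = 0 := LinearMap.ext h3
    rw [this, LinearMap.lTensor_zero, LinearMap.zero_apply]
  · obtain ⟨t, rfl⟩ := e.surjective x
    rw [he, e.map_eq_zero_iff] at hx
    change π.baseChange S (e.symm (e _)) = 0 at h0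
    rw [e.symm_apply_apply, hπ] at h0
    have hp : (F.act R).prod π = LinearMap.inl R _ _ ∘ₗ F.act R + LinearMap.inr R _ _ ∘ₗ π := by
      refine LinearMap.ext fun x => ?_
      simp
    obtain ⟨t', ht'⟩ := (hex' t).1 (by
      rw [hp, LinearMap.lTensor_add, LinearMap.add_apply, LinearMap.lTensor_comp_apply,
        LinearMap.lTensor_comp_apply, hx, h0, map_zero, map_zero, add_zero])
    exact ⟨e t', by rw [he, ht']⟩

theorem fr_mcone_inl {F F' : FC R} {α : Matrix F'.ι F.ι R} (h : F.IsMap F' α)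
    (z : F'.ι ⊕ F.ι → N) (b : F'.ι) : (F.mcone F' α h).act N z (Sum.inl b) =
      F'.act N (z ∘ Sum.inl) b + mact α N (z ∘ Sum.inr) b := by
  change ∑ c : F'.ι ⊕ F.ι, Matrix.fromBlocks F'.d α 0 (-F.d) (Sum.inl b) c • z c = _
  rw [Fintype.sum_sum_type]
  rfl

theorem fr_mcone_inr {F F' : FC R} {α : Matrix F'.ι F.ι R} (h : F.IsMap F' α)
    (z : F'.ι ⊕ F.ι → N) (b : F.ι) : (F.mcone F' α h).act N z (Sum.inr b) =
      -F.act N (z ∘ Sum.inr) b := by
  change ∑ c : F'.ι ⊕ F.ι, Matrix.fromBlocks F'.d α 0 (-F.d) (Sum.inr b) c • z c = _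
  rw [Fintype.sum_sum_type]
  simp [mact_apply]

theorem fr_cone_inl (F : FC R) (x : R) (z : F.ι ⊕ F.ι → N) :
    (F.cone x).act N z ∘ Sum.inl = F.act N (z ∘ Sum.inl) + x • (z ∘ Sum.inr) := by
  funext b
  rw [← mact_smul_one]
  exact fr_mcone_inl (N := N) (F := F) (F' := F) (α := x • 1) _ z b

theorem fr_cone_inr (F : FC R) (x : R) (z : F.ι ⊕ F.ι → N) :
    (F.cone x).act N z ∘ Sum.inr = -F.act N (z ∘ Sum.inr) := by
  funext b
  exact fr_mcone_inr (N := N) (F := F) (F' := F) (α := x • 1) _ z b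

/-- the projection `cone(x) ⊗ N → F ⊗ N / x N`. -/
def frQ (F : FC R) (x : R) (N : Type) [AddCommGroup N] [Module R N] :
    ((F.cone x).ι → N) →ₗ[R] (F.ι → QuotSMulTop x N) :=
  (x • (⊤ : Submodule R N)).mkQ.compLeft F.ι ∘ₗ LinearMap.funLeft R N Sum.inl

theorem frQ_apply (F : FC R) (x : R) (z : F.ι ⊕ F.ι → N) :
    F.frQ x N z = (x • (⊤ : Submodule R N)).mkQ.compLeft F.ι (z ∘ Sum.inl) := rfl

theorem fr_mk_zero {ι : Type} (x : R) (v : ι → N) :
    (x • (⊤ : Submodule R N)).mkQ.compLeft ι v = 0 ↔ ∃ w : ι → N, x • w = v := by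
  constructor
  · intro h
    have h1 : ∀ b, ∃ w : N, x • w = v b := fun b => by
      have h2 : v b ∈ x • (⊤ : Submodule R N) :=
        (Submodule.Quotient.mk_eq_zero _).1 (congrFun h b)
      obtain ⟨w, -, hw⟩ := (Submodule.mem_smul_pointwise_iff_exists _ _ _).1 h2
      exact ⟨w, hw⟩
    choose w hw using h1
    exact ⟨w, funext hw⟩
  · rintro ⟨w, rfl⟩
    funext b
    exact (Submodule.Quotient.mk_eq_zero _).2
      (Submodule.smul_mem_pointwise_smul _ _ _ Submodule.mem_top)

theorem frQ_act (F : FC R) (x : R) (z : (F.cone x).ι → N) :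
    F.frQ x N ((F.cone x).act N z) = F.act _ (F.frQ x N z) := by
  rw [frQ_apply, frQ_apply, fr_cone_inl, map_add, R183.mact_compLeft,
    (fr_mk_zero x _).2 ⟨_, rfl⟩, add_zero]

theorem frQ_T (F : FC R) (x : R) (i : ℤ) (z : (F.cone x).ι → N) :
    F.frQ x N (frT R (F.cone x).deg i z) = frT R F.deg i (F.frQ x N z) := by
  rw [frQ_apply, frQ_apply, ← frT_compLeft]
  rfl

theorem frQ_mem (F : FC R) (x : R) {i : ℤ} {z : (F.cone x).ι → N} (hz : z ∈ (F.cone x).G N i) :
    F.frQ x N z ∈ F.G (QuotSMulTop x N) i := by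
  rw [← frT_of_mem hz, frQ_T]
  exact frT_mem _ _ _

theorem frQ_surj (F : FC R) (x : R) : Function.Surjective (F.frQ x N) := by
  intro v
  choose u hu using fun b => (x • (⊤ : Submodule R N)).mkQ_surjective (v b)
  exact ⟨Sum.elim u 0, funext hu⟩

theorem frQ_cyc (F : FC R) {x : R} (hx : IsSMulRegular N x) {v : F.ι → QuotSMulTop x N}
    (hv : F.act _ v = 0) : ∃ z, (F.cone x).act N z = 0 ∧ F.frQ x N z = v := by
  obtain ⟨z, rfl⟩ := F.frQ_surj x v
  rw [frQ_apply, R183.mact_compLeft, fr_mk_zero] at hv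
  obtain ⟨w, hw⟩ := hv
  have h1 : F.act N w = 0 := by
    funext b
    apply hx
    have := congrFun (F.fr_act_act (z ∘ Sum.inl)) b
    rw [← hw, map_smul] at this
    simpa using this
  refine ⟨Sum.elim (z ∘ Sum.inl) (-w), funext ?_, rfl⟩
  rintro (b | b)
  · have := congrFun (F.fr_cone_inl x (Sum.elim (z ∘ Sum.inl) (-w))) b
    rw [Sum.elim_comp_inl, Sum.elim_comp_inr, smul_neg, hw, add_neg_cancel] at this
    exact this
  · have := congrFun (F.fr_cone_inr x (Sum.elim (z ∘ Sum.inl) (-w))) b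
    rw [Sum.elim_comp_inr, map_neg, h1, neg_zero, neg_zero] at this
    exact this

theorem frQ_bd (F : FC R) {x : R} (hx : IsSMulRegular N x) {z : (F.cone x).ι → N}
    (hz : (F.cone x).act N z = 0) {v : F.ι → QuotSMulTop x N} (hv : F.act _ v = F.frQ x N z) :
    ∃ u, (F.cone x).act N u = z := by
  obtain ⟨u, rfl⟩ := F.frQ_surj x v
  rw [frQ_apply, frQ_apply, R183.mact_compLeft, eq_comm, ← sub_eq_zero, ← map_sub,
    fr_mk_zero] at hv
  obtain ⟨t, ht⟩ := hv
  have h1 := F.fr_cone_inl x z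
  rw [hz] at h1
  have h2 : -F.act N t = z ∘ Sum.inr := by
    funext b
    apply hx
    have h3 := congrArg (F.act N) ht
    rw [map_sub, map_smul, F.fr_act_act, sub_zero] at h3
    have h4 := congrFun h1 b
    rw [← h3] at h4
    simp only [Function.comp_apply, Pi.zero_apply, Pi.add_apply, Pi.smul_apply] at h4
    simp only [Pi.neg_apply, smul_neg, Function.comp_apply]
    exact neg_eq_of_add_eq_zero_right h4.symm
  refine ⟨Sum.elim (u ∘ Sum.inl) t, funext ?_⟩
  rintro (b | b)
  · have := congrFun (F.fr_cone_inl x (Sum.elim (u ∘ Sum.inl) t)) b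
    rw [Sum.elim_comp_inl, Sum.elim_comp_inr, ht, add_sub_cancel] at this
    exact this
  · have := congrFun (F.fr_cone_inr x (Sum.elim (u ∘ Sum.inl) t)) b
    rw [Sum.elim_comp_inr, h2] at this
    exact this

theorem FRes.cone {x : R} (hx : IsSMulRegular N x) {M : Type} [AddCommGroup M] [Module R M]
    (h : F.FRes (QuotSMulTop x N) M) : (F.cone x).FRes N M := by
  obtain ⟨π, h1, h2, h3, h4⟩ := h
  refine ⟨π ∘ₗ F.frQ x N, h1.comp (F.frQ_surj x), fun i hi z hz => h2 i hi _ (F.frQ_mem x hz),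
    fun u => ?_, fun z hz h0 => ?_⟩
  · rw [LinearMap.comp_apply, frQ_act, h3]
  · obtain ⟨v, hv⟩ := h4 (F.frQ x N z) (by rw [← frQ_act, hz, map_zero]) h0
    exact F.frQ_bd hx hz hv

theorem fr_kos (xs : List R) : ∀ (N : Type) [AddCommGroup N] [Module R N],
    RingTheory.Sequence.IsWeaklyRegular N xs →
      ((FC.unit R).kos xs).FRes N (N ⧸ (Ideal.ofList xs • ⊤ : Submodule R N)) := by
  induction xs with
  | nil =>
    intro N _ _ _
    have h : (FC.unit R).FRes N N := by
      refine ⟨LinearMap.proj (), fun m => ⟨fun _ => m, rfl⟩, fun i hi x hx => ?_, fun u => ?_,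
        fun x _ h0 => ⟨0, ?_⟩⟩
      · exact fr_mem_top.1 hx () (by simpa [FC.unit] using hi.symm)
      · exact congrFun (fr_mact_zero (R := R) (ι := Unit) u) ()
      · rw [map_zero]
        funext b
        exact h0.symm
    exact h.equiv (Submodule.quotEquivOfEqBot _ (by simp)).symm
  | cons x xs ih =>
    intro N _ _ h
    obtain ⟨h1, h2⟩ := (RingTheory.Sequence.isWeaklyRegular_cons_iff N x xs).1 h
    exact ((ih _ h2).cone h1).equiv
      (Submodule.quotOfListConsSMulTopEquivQuotSMulTopInner N x xs).symm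

/-- the homotopy is built degree by degree. -/
theorem fr_htpy_upto (F : FC R) (t : ℕ → R)
    (h : ∀ n : ℕ, ∀ x ∈ Zc (F.act R) (F.G R) ⊥ n, t n • x ∈ Bd (F.act R) (F.G R) ⊥ n) (n : ℕ) :
    ∃ H : Matrix F.ι F.ι R, (∀ b b', H b b' ≠ 0 → F.deg b = F.deg b' + 1) ∧
      ∀ b b', F.deg b' < n → (F.d * H + H * F.d) b b' =
        ((∏ i ∈ Finset.range n, t i) • (1 : Matrix F.ι F.ι R)) b b' := by
  induction n with
  | zero => exact ⟨0, fun b b' hb => absurd rfl hb, fun b b' hb => absurd hb (Nat.not_lt_zero _)⟩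
  | succ n ih =>
    obtain ⟨H, h1, h2⟩ := ih
    set z := ∏ i ∈ Finset.range n, t i with hz
    let M : Matrix F.ι F.ι R := z • 1 - H * F.d
    have hM : ∀ b', F.deg b' = n → ∃ u ∈ F.G R (n + 1), F.act R u = t n • fun b => M b b' := by
      intro b' hb'
      have h3 : (fun b => M b b') ∈ Zc (F.act R) (F.G R) ⊥ n := by
        refine F.fr_mem_Z.2 ⟨fr_mem_top.2 fun b hb => ?_, funext fun b => ?_⟩
        · have e : b ≠ b' := fun e => hb (by rw [e, hb'])
          simp only [M, Matrix.sub_apply, Matrix.smul_apply, Matrix.one_apply_ne e, smul_zero,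
            zero_sub, neg_eq_zero, Matrix.mul_apply]
          refine Finset.sum_eq_zero fun c _ => ?_
          by_contra h0
          have a1 := h1 b c (left_ne_zero_of_mul h0)
          have a2 := F.d_deg c b' (right_ne_zero_of_mul h0)
          omega
        · have e : F.d * M = (z • 1 - (F.d * H + H * F.d)) * F.d := by
            simp only [M, Matrix.mul_sub, Matrix.sub_mul, Matrix.add_mul, Matrix.mul_assoc, F.dd,
              Matrix.mul_zero, add_zero, Matrix.mul_smul, Matrix.smul_mul, Matrix.mul_one,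
              Matrix.one_mul]
          change (F.d * M) b b' = 0
          rw [e, Matrix.mul_apply]
          refine Finset.sum_eq_zero fun c _ => ?_
          by_cases h0 : F.d c b' = 0
          · rw [h0, mul_zero]
          · have a2 := F.d_deg c b' h0
            rw [Matrix.sub_apply, h2 b c (by omega), sub_self, zero_mul]
      have h4 := h n _ h3
      simpa only [Bd, Pi.bot_apply, sup_bot_eq, Submodule.mem_map] using h4
    choose! u hu1 hu2 using hM
    let H' : Matrix F.ι F.ι R := Matrix.of fun b b' => if F.deg b' = n then u b' b else t n * H b b'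
    refine ⟨H', fun b b' hb => ?_, fun b b' hb => ?_⟩
    · simp only [H', Matrix.of_apply] at hb
      split_ifs at hb with e
      · by_contra h0
        exact hb (fr_mem_top.1 (hu1 b' e) b (by omega))
      · exact h1 b b' (right_ne_zero_of_mul hb)
    · have a1 : (H' * F.d) b b' = t n * (H * F.d) b b' := by
        rw [Matrix.mul_apply, Matrix.mul_apply, Finset.mul_sum]
        refine Finset.sum_congr rfl fun c _ => ?_
        by_cases h0 : F.d c b' = 0
        · simp [h0]
        · have a2 := F.d_deg c b' h0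
          simp only [H', Matrix.of_apply]
          rw [if_neg (by omega), mul_assoc]
      rw [Matrix.add_apply, a1, Finset.prod_range_succ, ← hz, mul_comm z, mul_smul,
        Matrix.smul_apply, smul_eq_mul]
      by_cases e : F.deg b' = n
      · have a2 : (F.d * H') b b' = t n * M b b' := by
          have := congrFun (hu2 b' e) b
          simp only [mact_apply, smul_eq_mul, Pi.smul_apply] at this
          rw [← this, Matrix.mul_apply]
          refine Finset.sum_congr rfl fun c _ => ?_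
          simp only [H', Matrix.of_apply, if_pos e]
        rw [a2]
        simp only [M, Matrix.sub_apply]
        ring
      · have a2 : (F.d * H') b b' = t n * (F.d * H) b b' := by
          rw [Matrix.mul_apply, Matrix.mul_apply, Finset.mul_sum]
          refine Finset.sum_congr rfl fun c _ => ?_
          simp only [H', Matrix.of_apply, if_neg e]
          ring
        rw [a2, ← h2 b b' (by omega), Matrix.add_apply, mul_add]

theorem fr_htpy (F : FC R) (t : ℕ → R)
    (h : ∀ n : ℕ, ∀ x ∈ Zc (F.act R) (F.G R) ⊥ n, t n • x ∈ Bd (F.act R) (F.G R) ⊥ n) :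
    ∃ n : ℕ, Htpy F.deg F.d (∏ i ∈ Finset.range (n + 1), t i) := by
  obtain ⟨H, h1, h2⟩ := F.fr_htpy_upto t h (Finset.univ.sup F.deg + 1)
  exact ⟨_, H, h1, Matrix.ext fun b b' =>
    h2 b b' (Nat.lt_succ_of_le (Finset.le_sup (f := F.deg) (Finset.mem_univ b')))⟩

end FC

end Crest.Agent.R188
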