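import Crest.Agent.R188.Chi
import Crest.Agent.R188.FreeAux

/-!
# R188 / Free

Finite free complexes.
-/

set_option autoImplicit false
set_option linter.unusedSectionVars false
set_option linter.unusedVariables false
set_option backward.isDefEq.respectTransparency false

noncomputable section

namespace Crest.Agent.R188

open Filter
open Crest.Agent.R183 (Zc Bd mact gr Htpy)
open scoped TensorProduct

variable {R : Type} [CommRing R] (ν : AddFn R) (F : FC R)
  (N : Type) [AddCommGroup N] [Module R N]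

theorem FC.isCx : IsCx (F.act N) (F.G N) ⊥ := by
  refine ⟨fun i => bot_le, fun i => ?_, fun i => by simp, fun i x _ => ?_, ?_⟩
  · rintro _ ⟨v, hv, rfl⟩
    exact F.fr_act_mem hv
  · rw [F.fr_act_act]
    exact Submodule.zero_mem _
  · refine (Set.finite_range fun b => (F.deg b : ℤ)).subset fun i hi => ?_
    by_contra h
    exact hi fun v hv => (Submodule.mem_bot R).2
      (funext fun b => fr_mem_top.1 hv b fun e => h ⟨b, e⟩)

theorem FC.fg [Module.Finite R N] (i : ℤ) : (F.G N i).FG := by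
  refine Submodule.fg_pi fun b => ?_
  split_ifs
  · exact Module.Finite.fg_top
  · exact Submodule.fg_bot

theorem AddFn.chiF_ext (p : F.ι → Prop) [DecidablePred p] (h : F.IsSub p) :
    ((ν.gdF (F.sub p h) N → ν.gdF (F.quo p h) N → ν.gdF F N) ∧
      (ν.gdF F N → ν.gdF (F.sub p h) N → ν.gdF (F.quo p h) N) ∧
      (ν.gdF F N → ν.gdF (F.quo p h) N → ν.gdF (F.sub p h) N)) ∧
    (ν.gdF (F.sub p h) N → ν.gdF (F.quo p h) N →
      ν.chiF F N = ν.chiF (F.sub p h) N + ν.chiF (F.quo p h) N) := by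
  let j : ({b // p b} → N) →ₗ[R] (F.ι → N) :=
    LinearMap.pi fun b => if hb : p b then LinearMap.proj (⟨b, hb⟩ : {b // p b}) else 0
  have hj : ∀ v b, j v b = if hb : p b then v ⟨b, hb⟩ else 0 := fun v b => by
    simp only [j, LinearMap.pi_apply]
    split_ifs <;> rfl
  let q : (F.ι → N) →ₗ[R] ({b // ¬ p b} → N) := LinearMap.funLeft R N Subtype.val
  have hq : ∀ v b, q v b = v b.1 := fun v b => rfl
  refine ν.chi_ses_map j q ((F.sub p h).isCx N) (F.isCx N) ((F.quo p h).isCx N) (fun v w e => ?_)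
    (LinearMap.ext fun v => funext fun b => ?_) (LinearMap.ext fun v => funext fun b => ?_)
    (fun n => ?_) fun n => ?_
  · funext b
    have := congrFun e b.1
    exact ((hj v b.1).trans (dif_pos b.2)).symm.trans (this.trans ((hj w b.1).trans (dif_pos b.2)))
  · change j ((F.sub p h).act N v) b = ∑ b', F.d b b' • j v b'
    rw [hj, ← Fintype.sum_subtype_add_sum_subtype p]
    have e2 : ∑ b' : {b // ¬ p b}, F.d b b'.1 • j v b'.1 = 0 :=
      Finset.sum_eq_zero fun b' _ => by rw [hj, dif_neg b'.2, smul_zero]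
    rw [e2, add_zero]
    split_ifs with hb
    · change ∑ b' : {b // p b}, F.d b b'.1 • v b' = _
      exact Finset.sum_congr rfl fun b' _ => by rw [hj, dif_pos b'.2]
    · refine (Finset.sum_eq_zero fun b' _ => ?_).symm
      have : F.d b b'.1 = 0 := by
        by_contra h0
        exact hb (h _ _ h0 b'.2)
      rw [this, zero_smul]
  · change ∑ b', F.d b.1 b' • v b' = ∑ b' : {b // ¬ p b}, F.d b.1 b'.1 • v b'.1
    rw [← Fintype.sum_subtype_add_sum_subtype p]
    have e2 : ∑ b' : {b // p b}, F.d b.1 b'.1 • v b'.1 = 0 := by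
      refine Finset.sum_eq_zero fun b' _ => ?_
      have : F.d b.1 b'.1 = 0 := by
        by_contra h0
        exact b.2 (h _ _ h0 b'.2)
      rw [this, zero_smul]
    rw [e2, zero_add]
  · ext v
    rw [Submodule.mem_map, Submodule.mem_inf, LinearMap.mem_ker]
    constructor
    · rintro ⟨u, hu, rfl⟩
      refine ⟨fr_mem_top.2 fun b hb => ?_, funext fun b => ?_⟩
      · refine (hj u b).trans ?_
        split_ifs with h1
        · exact fr_mem_top.1 hu ⟨b, h1⟩ hb
        · rfl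
      · exact (hj u b.1).trans (dif_neg b.2)
    · rintro ⟨h1, h2⟩
      refine ⟨fun b => v b.1, fr_mem_top.2 fun b hb => fr_mem_top.1 h1 b.1 hb, funext fun b => ?_⟩
      refine (hj _ b).trans ?_
      split_ifs with hb
      · rfl
      · exact (congrFun h2 ⟨b, hb⟩).symm
  · ext v
    rw [Submodule.mem_map]
    constructor
    · rintro ⟨u, hu, rfl⟩
      exact fr_mem_top.2 fun b hb => fr_mem_top.1 hu b.1 hb
    · intro hv
      refine ⟨fun b => if hb : p b then 0 else v ⟨b, hb⟩, fr_mem_top.2 fun b hb => ?_,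
        funext fun b => ?_⟩
      · split_ifs with h1
        · rfl
        · exact fr_mem_top.1 hv ⟨b, h1⟩ hb
      · exact dif_neg b.2

theorem AddFn.chiF_iso {F F' : FC R} (h : F.Iso F') :
    (ν.gdF F N ↔ ν.gdF F' N) ∧ ν.chiF F N = ν.chiF F' N := by
  obtain ⟨α, β, hα, h1, h2⟩ := h
  have hd : ∀ i : ℤ, ∀ b b', α b b' ≠ 0 → ((F.deg b' : ℤ) = i ↔ (F'.deg b : ℤ) = i) :=
    fun i b b' hb => by rw [hα.deg b b' hb]
  have e : PIso (mact α N) (F.act N) (F.G N) ⊥ (F'.act N) (F'.G N) ⊥ := by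
    refine ⟨fun i => ?_, fun i => ?_, fun i x _ => ?_⟩
    · rw [Pi.bot_apply, sup_bot_eq]
      refine le_antisymm ?_ fun v hv => ⟨_, frT_mem F.deg i (mact β N v), ?_⟩
      · rintro _ ⟨v, hv, rfl⟩
        exact fr_mact_mem (hd i) hv
      · rw [fr_mact_T (hd i), fr_mact_mul, h1, fr_mact_one, frT_of_mem hv]
    · refine eq_bot_iff.2 fun v hv => (Submodule.mem_bot R).2 ?_
      have h3 : mact α N v = 0 := (Submodule.mem_bot R).1 hv.2
      rw [← fr_mact_one (R := R) v, ← h2, ← fr_mact_mul, h3, map_zero]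
    · rw [fr_mact_mul, fr_mact_mul, hα.comm, sub_self]
      exact Submodule.zero_mem _
  have := ν.chi_iso e (F.isCx N) (F'.isCx N)
  exact ⟨this.1, this.2.1⟩

theorem AddFn.chiF_mcone {F F' : FC R} {α : Matrix F'.ι F.ι R} (h : F.IsMap F' α) :
    ((ν.gdF F' N → ν.gdF F N → ν.gdF (F.mcone F' α h) N) ∧
      (ν.gdF (F.mcone F' α h) N → ν.gdF F' N → ν.gdF F N) ∧
      (ν.gdF (F.mcone F' α h) N → ν.gdF F N → ν.gdF F' N)) ∧
    (ν.gdF F' N → ν.gdF F N → ν.chiF (F.mcone F' α h) N = ν.chiF F' N - ν.chiF F N) := by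
  let j : (F'.ι → N) →ₗ[R] (F'.ι ⊕ F.ι → N) :=
    { toFun := fun v => Sum.elim v 0
      map_add' := fun v w => by funext b; rcases b with b | b <;> simp
      map_smul' := fun r v => by funext b; rcases b with b | b <;> simp }
  have hj : ∀ v, j v = Sum.elim v 0 := fun v => rfl
  let q : (F'.ι ⊕ F.ι → N) →ₗ[R] (F.ι → N) := LinearMap.funLeft R N Sum.inr
  have hq : ∀ v, q v = v ∘ Sum.inr := fun v => rfl
  have hC : IsCx ((-1 : R) • F.act N) (fun i => F.G N (i - 1)) ⊥ := by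
    refine ⟨fun i => bot_le, fun i => ?_, fun i => by simp, fun i x _ => ?_, ?_⟩
    · rintro _ ⟨v, hv, rfl⟩
      exact Submodule.smul_mem _ _ (F.fr_act_mem hv)
    · simp [F.fr_act_act]
    · exact (F.isCx N).fin.preimage (f := fun i : ℤ => i - 1) sub_left_injective.injOn
  have hs := ν.chi_shift (D := F.act N) (W := F.G N) (U := ⊥) 1 (-1) isUnit_one.neg
  have key := ν.chi_ses_map j q (F'.isCx N) ((F.mcone F' α h).isCx N) hC
    (fun v w e => funext fun b => congrFun e (Sum.inl b))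
    (LinearMap.ext fun v => funext fun b => by
      rcases b with b | b
      · have := FC.fr_mcone_inl h (j v) b
        rw [hj, Sum.elim_comp_inl, Sum.elim_comp_inr, map_zero, Pi.zero_apply, add_zero] at this
        exact this.symm
      · have := FC.fr_mcone_inr h (j v) b
        rw [hj, Sum.elim_comp_inr, map_zero, Pi.zero_apply, neg_zero] at this
        exact this.symm)
    (LinearMap.ext fun v => funext fun b => by
      have := FC.fr_mcone_inr h v b
      rw [← neg_one_smul R] at this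
      exact this)
    (fun n => by
      ext v
      rw [Submodule.mem_map, Submodule.mem_inf, LinearMap.mem_ker]
      constructor
      · rintro ⟨u, hu, rfl⟩
        refine ⟨fr_mem_top.2 ?_, rfl⟩
        rintro (b | b) hb
        · exact fr_mem_top.1 hu b hb
        · rfl
      · rintro ⟨h1, h2⟩
        refine ⟨v ∘ Sum.inl, fr_mem_top.2 fun b hb => fr_mem_top.1 h1 (Sum.inl b) hb, funext ?_⟩
        rintro (b | b)
        · rfl
        · exact (congrFun h2 b).symm)
    (fun n => by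
      ext v
      rw [Submodule.mem_map]
      constructor
      · rintro ⟨u, hu, rfl⟩
        refine fr_mem_top.2 fun b hb => fr_mem_top.1 hu (Sum.inr b) fun e => hb ?_
        have e' : ((F.deg b + 1 : ℕ) : ℤ) = n := e
        omega
      · intro hv
        refine ⟨Sum.elim 0 v, fr_mem_top.2 ?_, rfl⟩
        rintro (b | b) hb
        · rfl
        · refine fr_mem_top.1 hv b fun e => hb ?_
          change ((F.deg b + 1 : ℕ) : ℤ) = n
          omega)
  have hs1 : ν.gd ((-1 : R) • F.act N) (fun i => F.G N (i - 1)) ⊥ ↔ ν.gdF F N := hs.1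
  have hs2 : ν.chi ((-1 : R) • F.act N) (fun i => F.G N (i - 1)) ⊥ = -ν.chiF F N :=
    hs.2.trans (by rw [zpow_one, neg_one_mul])
  rw [hs1, hs2, ← sub_eq_add_neg] at key
  exact key

/-- additivity in the coefficient module. -/
theorem AddFn.chiF_coef {N₁ N₂ N₃ : Type} [AddCommGroup N₁] [Module R N₁] [AddCommGroup N₂]
    [Module R N₂] [AddCommGroup N₃] [Module R N₃] (f : N₁ →ₗ[R] N₂) (g : N₂ →ₗ[R] N₃)
    (hf : Function.Injective f) (hg : Function.Surjective g) (he : Function.Exact f g) :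
    ((ν.gdF F N₁ → ν.gdF F N₃ → ν.gdF F N₂) ∧ (ν.gdF F N₂ → ν.gdF F N₁ → ν.gdF F N₃) ∧
      (ν.gdF F N₂ → ν.gdF F N₃ → ν.gdF F N₁)) ∧
    (ν.gdF F N₁ → ν.gdF F N₃ → ν.chiF F N₂ = ν.chiF F N₁ + ν.chiF F N₃) := by
  refine ν.chi_ses_map (f.compLeft F.ι) (g.compLeft F.ι) (F.isCx N₁) (F.isCx N₂) (F.isCx N₃)
    (fun v w e => funext fun b => hf (congrFun e b))
    (LinearMap.ext fun v => (R183.mact_compLeft F.d f v).symm)
    (LinearMap.ext fun v => (R183.mact_compLeft F.d g v).symm) (fun n => ?_) fun n => ?_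
  · rw [← R183.gr_map, Submodule.map_top, ← he.linearMap_ker_eq]
    ext v
    rw [Submodule.mem_inf, LinearMap.mem_ker, fr_mem_top, R183.mem_gr]
    exact ⟨fun h => ⟨fun b => (h b).2, funext fun b => (h b).1⟩,
      fun h b => ⟨congrFun h.2 b, h.1 b⟩⟩
  · rw [← R183.gr_map, Submodule.map_top, LinearMap.range_eq_top.2 hg]

theorem AddFn.chiF_equiv {N₁ N₂ : Type} [AddCommGroup N₁] [Module R N₁] [AddCommGroup N₂]
    [Module R N₂] (e : N₁ ≃ₗ[R] N₂) : (ν.gdF F N₁ ↔ ν.gdF F N₂) ∧ ν.chiF F N₁ = ν.chiF F N₂ := by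
  have p : PIso (e.toLinearMap.compLeft F.ι) (F.act N₁) (F.G N₁) ⊥ (F.act N₂) (F.G N₂) ⊥ := by
    refine ⟨fun i => ?_, fun i => ?_, fun i x _ => ?_⟩
    · rw [Pi.bot_apply, sup_bot_eq, ← R183.gr_map, Submodule.map_top,
        LinearMap.range_eq_top.2 e.surjective]
    · refine eq_bot_iff.2 fun v hv => (Submodule.mem_bot R).2 (funext fun b => ?_)
      have h3 : e.toLinearMap.compLeft F.ι v = 0 := (Submodule.mem_bot R).1 hv.2
      exact e.map_eq_zero_iff.1 (congrFun h3 b)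
    · rw [R183.mact_compLeft, sub_self]
      exact Submodule.zero_mem _
  have := ν.chi_iso p (F.isCx N₁) (F.isCx N₂)
  exact ⟨this.1, this.2.1⟩

theorem AddFn.chiF_terms (h : ν.good N) :
    ν.gdF F N ∧ ν.chiF F N = (∑ b, (-1 : ℝ) ^ F.deg b) * ν.val N := by
  have hb : (⊥ : Submodule R (F.ι → N)) = Submodule.pi Set.univ fun _ => ⊥ := by
    ext v
    simp [funext_iff]
  have h1 : ∀ (i : ℤ) (b : F.ι),
      ν.grel (if (F.deg b : ℤ) = i then (⊤ : Submodule R N) else ⊥) ⊥ ∧
      ν.rel (if (F.deg b : ℤ) = i then (⊤ : Submodule R N) else ⊥) ⊥ =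
        if (F.deg b : ℤ) = i then ν.val N else 0 := by
    intro i b
    split_ifs
    · exact ⟨(ν.grel_bot _).2 ((ν.good_equiv Submodule.topEquiv).2 h),
        (ν.rel_bot _).trans (ν.val_equiv Submodule.topEquiv)⟩
    · exact ⟨ν.grel_of_le le_rfl, ν.rel_of_le le_rfl⟩
  have h2 : ∀ i : ℤ, ν.grel (F.G N i) ⊥ ∧
      ν.rel (F.G N i) ⊥ = ∑ b, if (F.deg b : ℤ) = i then ν.val N else 0 := by
    intro i
    have := ν.rel_pi (fun b : F.ι => if (F.deg b : ℤ) = i then (⊤ : Submodule R N) else ⊥)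
      fun _ => ⊥
    rw [← hb] at this
    exact ⟨this.1.2 fun b => (h1 i b).1,
      (this.2 fun b => (h1 i b).1).trans (Finset.sum_congr rfl fun b _ => (h1 i b).2)⟩
  obtain ⟨h3, h4⟩ := ν.chi_terms (F.isCx N) fun i => (h2 i).1
  refine ⟨h3, h4.trans ?_⟩
  simp only [Pi.bot_apply, (h2 _).2, Finset.mul_sum]
  rw [finsum_sum_comm, Finset.sum_mul]
  · refine Finset.sum_congr rfl fun b _ => ?_
    rw [finsum_eq_single _ (F.deg b : ℤ), if_pos rfl, zpow_natCast]
    intro i hi
    rw [if_neg hi.symm, mul_zero]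
  · intro b _
    refine (Set.finite_singleton (F.deg b : ℤ)).subset fun i hi => ?_
    by_contra h0
    exact hi (by simp only [if_neg (Ne.symm h0), mul_zero])

theorem AddFn.chiF_res {M : Type} [AddCommGroup M] [Module R M] (h : F.Res M) :
    (ν.gdF F R ↔ ν.good M) ∧ ν.chiF F R = ν.val M := by
  obtain ⟨h1, π, h2, h3⟩ := h
  have hZ : Zc (F.act R) (F.G R) ⊥ 0 = F.G R 0 := by
    ext x
    rw [F.fr_mem_Z]
    exact ⟨fun h => h.1, fun h => ⟨h, F.fr_act_zero h⟩⟩
  have h4 := ν.rel_map π (W := Zc (F.act R) (F.G R) ⊥ 0) (U := Bd (F.act R) (F.G R) ⊥ 0)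
    (W' := ⊤) (U' := ⊥) (by rw [hZ, h2])
    (by rw [hZ, Submodule.comap_bot, ← h3, ← inf_assoc, inf_idem])
  rw [ν.grel_bot, ν.rel_bot, ν.good_equiv Submodule.topEquiv, ν.val_equiv Submodule.topEquiv] at h4
  refine ⟨⟨fun g => h4.1.1 (g 0), fun g i => ?_⟩, ?_⟩
  · by_cases hi : i = 0
    · subst hi
      exact h4.1.2 g
    · exact ν.grel_of_le (h1 i hi)
  · rw [AddFn.chiF, ν.chi_single 0 h1, zpow_zero, one_mul, h4.2]

theorem FC.htpy_smul_mem {y : R} (h : Htpy F.deg F.d y) (i : ℤ) :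
    ∀ x ∈ Zc (F.act N) (F.G N) ⊥ i, y • x ∈ Bd (F.act N) (F.G N) ⊥ i := by
  intro x hx
  obtain ⟨H, -, h2⟩ := h.exists_op (N := N)
  obtain ⟨a, b⟩ := F.fr_mem_Z.1 hx
  refine F.fr_mem_B.2 ⟨Submodule.smul_mem _ _ a, mact H N x, ?_⟩
  have := h2 x
  rwa [show mact F.d N x = 0 from b, map_zero, add_zero] at this

theorem FC.htpy_mul {y : R} (h : Htpy F.deg F.d y) (c : R) : Htpy F.deg F.d (c * y) := by
  obtain ⟨H, h1, h2⟩ := h
  refine ⟨c • H, fun b b' hb => h1 b b' (right_ne_zero_of_mul hb), ?_⟩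
  rw [Matrix.mul_smul, Matrix.smul_mul, ← smul_add, h2, mul_smul]

theorem FC.htpy_add {y z : R} (h : Htpy F.deg F.d y) (h' : Htpy F.deg F.d z) :
    Htpy F.deg F.d (y + z) := by
  obtain ⟨H, h1, h2⟩ := h
  obtain ⟨H', h1', h2'⟩ := h'
  refine ⟨H + H', fun b b' hb => ?_, ?_⟩
  · by_contra h0
    have a1 : H b b' = 0 := by by_contra h3; exact h0 (h1 b b' h3)
    have a2 : H' b b' = 0 := by by_contra h3; exact h0 (h1' b b' h3)
    exact hb (by rw [Matrix.add_apply, a1, a2, add_zero])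
  · rw [add_smul, ← h2, ← h2', Matrix.mul_add, Matrix.add_mul]
    abel

theorem FC.htpy_map {S : Type} [CommRing S] (f : R →+* S) {y : R} (h : Htpy F.deg F.d y) :
    Htpy (F.map f).deg (F.map f).d (f y) := by
  obtain ⟨H, h1, h2⟩ := h
  refine ⟨H.map f, fun b b' hb => h1 b b' fun h0 => hb ?_, ?_⟩
  · rw [Matrix.map_apply, h0, map_zero]
  · change F.d.map f * H.map f + H.map f * F.d.map f = f y • (1 : Matrix F.ι F.ι S)
    rw [← Matrix.map_mul, ← Matrix.map_mul, ← Matrix.map_add _ (map_add f), h2]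
    ext b b'
    by_cases e : b = b' <;> simp [e]

theorem FC.htpy_mcone {F F' : FC R} {α : Matrix F'.ι F.ι R} (h : F.IsMap F' α) {y z : R}
    (h1 : Htpy F'.deg F'.d y) (h2 : Htpy F.deg F.d z) :
    Htpy (F.mcone F' α h).deg (F.mcone F' α h).d (y * z) := by
  obtain ⟨H', a1, a2⟩ := h1
  obtain ⟨H, b1, b2⟩ := h2
  refine ⟨Matrix.fromBlocks (z • H') (H' * α * H) 0 (-(y • H)), ?_, ?_⟩
  · rintro (b | b) (b' | b') hb
    · exact a1 b b' (right_ne_zero_of_mul hb)
    · change F'.deg b = F.deg b' + 1 + 1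
      by_contra h0
      refine hb ?_
      change (H' * α * H) b b' = 0
      rw [Matrix.mul_apply]
      refine Finset.sum_eq_zero fun c _ => ?_
      rw [Matrix.mul_apply, Finset.sum_mul]
      refine Finset.sum_eq_zero fun c' _ => ?_
      by_contra h3
      have c1 := a1 _ _ (left_ne_zero_of_mul (left_ne_zero_of_mul h3))
      have c2 := h.deg _ _ (right_ne_zero_of_mul (left_ne_zero_of_mul h3))
      have c3 := b1 _ _ (right_ne_zero_of_mul h3)
      omega
    · exact absurd rfl hb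
    · have := b1 b b' (right_ne_zero_of_mul (neg_ne_zero.1 hb))
      change F.deg b + 1 = F.deg b' + 1 + 1
      omega
  · change Matrix.fromBlocks F'.d α 0 (-F.d) * Matrix.fromBlocks (z • H') (H' * α * H) 0 (-(y • H)) +
      Matrix.fromBlocks (z • H') (H' * α * H) 0 (-(y • H)) * Matrix.fromBlocks F'.d α 0 (-F.d) =
      (y * z) • (1 : Matrix (F'.ι ⊕ F.ι) (F'.ι ⊕ F.ι) R)
    rw [Matrix.fromBlocks_multiply, Matrix.fromBlocks_multiply, Matrix.fromBlocks_add,
      ← Matrix.fromBlocks_one, Matrix.fromBlocks_smul]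
    have c1 : F'.d * H' = y • 1 - H' * F'.d := eq_sub_of_add_eq a2
    have c2 : H * F.d = z • 1 - F.d * H := eq_sub_of_add_eq' b2
    congr 1
    · simp only [Matrix.mul_zero, add_zero, Matrix.mul_smul, Matrix.smul_mul]
      rw [← smul_add, a2, smul_smul, mul_comm]
    · have d1 : F'.d * (H' * α * H) = y • (α * H) - H' * α * F.d * H := by
        rw [← Matrix.mul_assoc, ← Matrix.mul_assoc, c1, Matrix.sub_mul, Matrix.sub_mul,
          Matrix.smul_mul, Matrix.smul_mul, Matrix.one_mul, Matrix.mul_assoc H' F'.d, ← h.comm,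
          ← Matrix.mul_assoc H']
      have d2 : H' * α * H * F.d = z • (H' * α) - H' * α * F.d * H := by
        rw [Matrix.mul_assoc (H' * α), c2, Matrix.mul_sub, Matrix.mul_smul, Matrix.mul_one,
          Matrix.mul_assoc (H' * α)]
      rw [Matrix.mul_neg, Matrix.mul_neg, d1, d2, Matrix.mul_smul, Matrix.smul_mul, smul_zero]
      abel
    · simp
    · simp only [Matrix.zero_mul, zero_add, Matrix.neg_mul, Matrix.mul_neg, neg_neg,
        Matrix.mul_smul, Matrix.smul_mul, smul_neg]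
      rw [← smul_add, b2, smul_smul]

theorem FC.htpy_cone_self (x : R) : Htpy (F.cone x).deg (F.cone x).d x := by
  refine ⟨Matrix.fromBlocks 0 0 1 0, ?_, ?_⟩
  · rintro (b | b) (b' | b') hb
    · exact absurd rfl hb
    · exact absurd rfl hb
    · by_cases e : b = b'
      · subst e
        rfl
      · exact absurd (Matrix.one_apply_ne e) hb
    · exact absurd rfl hb
  · change Matrix.fromBlocks F.d (x • 1) 0 (-F.d) * Matrix.fromBlocks 0 0 1 0 +
      Matrix.fromBlocks 0 0 1 0 * Matrix.fromBlocks F.d (x • 1) 0 (-F.d) =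
      x • (1 : Matrix (F.ι ⊕ F.ι) (F.ι ⊕ F.ι) R)
    rw [Matrix.fromBlocks_multiply, Matrix.fromBlocks_multiply, Matrix.fromBlocks_add,
      ← Matrix.fromBlocks_one, Matrix.fromBlocks_smul]
    simp

theorem FC.htpy_cone (x : R) {y : R} (h : Htpy F.deg F.d y) :
    Htpy (F.cone x).deg (F.cone x).d y := by
  obtain ⟨H, b1, b2⟩ := h
  refine ⟨Matrix.fromBlocks H 0 0 (-H), ?_, ?_⟩
  · rintro (b | b) (b' | b') hb
    · exact b1 b b' hb
    · exact absurd rfl hb
    · exact absurd rfl hb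
    · have := b1 b b' (neg_ne_zero.1 hb)
      change F.deg b + 1 = F.deg b' + 1 + 1
      omega
  · change Matrix.fromBlocks F.d (x • 1) 0 (-F.d) * Matrix.fromBlocks H 0 0 (-H) +
      Matrix.fromBlocks H 0 0 (-H) * Matrix.fromBlocks F.d (x • 1) 0 (-F.d) =
      y • (1 : Matrix (F.ι ⊕ F.ι) (F.ι ⊕ F.ι) R)
    rw [Matrix.fromBlocks_multiply, Matrix.fromBlocks_multiply, Matrix.fromBlocks_add,
      ← Matrix.fromBlocks_one, Matrix.fromBlocks_smul]
    simp [b2]

theorem FC.htpy_kos (xs : List R) {y : R} (h : y ∈ Ideal.ofList xs ∨ Htpy F.deg F.d y) :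
    Htpy (F.kos xs).deg (F.kos xs).d y := by
  induction xs generalizing y with
  | nil =>
    rcases h with h | h
    · have : y = 0 := by simpa using h
      subst this
      exact ⟨0, fun b b' hb => absurd rfl hb, by simp⟩
    · exact h
  | cons x xs ih =>
    rcases h with h | h
    · rw [Ideal.ofList_cons] at h
      obtain ⟨a, ha, b, hb, rfl⟩ := Submodule.mem_sup.1 h
      obtain ⟨c, rfl⟩ := Ideal.mem_span_singleton'.1 ha
      exact ((F.kos xs).cone x).htpy_add
        (((F.kos xs).cone x).htpy_mul ((F.kos xs).htpy_cone_self x) c)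
        ((F.kos xs).htpy_cone x (ih (Or.inl hb)))
    · exact (F.kos xs).htpy_cone x (ih (Or.inr h))

/-- build the homotopy degree by degree: `h_i` is a homotopy for `y ^ (i + 1)` up to degree `i`. -/
theorem FC.htpy_of_killed {y : R}
    (h : ∀ i, ∀ x ∈ Zc (F.act R) (F.G R) ⊥ i, y • x ∈ Bd (F.act R) (F.G R) ⊥ i) :
    ∃ k : ℕ, Htpy F.deg F.d (y ^ k) := by
  obtain ⟨n, hn⟩ := F.fr_htpy (fun _ => y) fun n => h n
  rw [Finset.prod_const, Finset.card_range] at hn
  exact ⟨_, hn⟩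

theorem FC.Res.htpy {F : FC R} {M : Type} [AddCommGroup M] [Module R M] (h : F.Res M) {y : R}
    (hy : y ∈ Module.annihilator R M) : Htpy F.deg F.d y := by
  obtain ⟨h1, π, h2, h3⟩ := h
  obtain ⟨n, hn⟩ := F.fr_htpy (fun n => if n = 0 then y else 1) fun n x hx => by
    split_ifs with e
    · subst e
      have hx0 : x ∈ F.G R 0 := hx.1
      have : y • x ∈ F.G R 0 ⊓ LinearMap.ker π :=
        ⟨Submodule.smul_mem _ _ hx0, by
          change π (y • x) = 0
          rw [map_smul, Module.mem_annihilator.1 hy]⟩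
      rw [h3] at this
      exact this
    · rw [one_smul]
      exact h1 n (by omega) hx
  rw [Finset.prod_range_succ'] at hn
  simpa using hn

theorem AddFn.gdF_of_htpy [IsNoetherianRing R] [Module.Finite R N] {𝔞 : Ideal R}
    (ha : ν.good (R ⧸ 𝔞)) (h : ∀ y ∈ 𝔞, ∃ k : ℕ, Htpy F.deg F.d (y ^ k)) : ν.gdF F N := by
  refine ν.gd_of_killed ha (F.fg N) fun y hy i => ?_
  obtain ⟨k, hk⟩ := h y hy
  exact ⟨k, F.htpy_smul_mem N hk i⟩

theorem AddFn.htpy_of_gdF [IsNoetherianRing R] (h : ν.gdF F R) :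
    ∃ 𝔞 : Ideal R, ν.good (R ⧸ 𝔞) ∧ ∀ y ∈ 𝔞, ∃ k : ℕ, Htpy F.deg F.d (y ^ k) := by
  classical
  have key : ∀ s : Finset ℤ, ∃ 𝔞 : Ideal R, ν.good (R ⧸ 𝔞) ∧ ∀ y ∈ 𝔞, ∀ i ∈ s,
      ∀ x ∈ Zc (F.act R) (F.G R) ⊥ i, y • x ∈ Bd (F.act R) (F.G R) ⊥ i := by
    intro s
    induction s using Finset.induction_on with
    | empty => exact ⟨⊤, ν.good_zero _ inferInstance, fun y _ i hi => absurd hi (by simp)⟩
    | insert i s _ ih =>
      obtain ⟨𝔞, h1, h2⟩ := ih
      have hf : Module.Finite R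
          ↥((Zc (F.act R) (F.G R) ⊥ i).map (Bd (F.act R) (F.G R) ⊥ i).mkQ) :=
        Module.Finite.iff_fg.2 ((IsNoetherian.noetherian _).map _)
      refine ⟨_, ν.good_inf h1 (ν.good_ann _ (h i)), fun y hy j hj x hx => ?_⟩
      rcases Finset.mem_insert.1 hj with rfl | hj
      · have := congrArg Subtype.val (Module.mem_annihilator.1 hy.2 ⟨_, Submodule.mem_map_of_mem hx⟩)
        exact (Submodule.Quotient.mk_eq_zero _).1 this
      · exact h2 y hy.1 j hj x hx
  obtain ⟨𝔞, h1, h2⟩ := key (F.isCx R).fin.toFinset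
  refine ⟨𝔞, h1, fun y hy => F.htpy_of_killed fun i x hx => ?_⟩
  by_cases hi : F.G R i ≤ ⊥
  · rw [(Submodule.mem_bot R).1 (hi hx.1), smul_zero]
    exact Submodule.zero_mem _
  · exact h2 y hy i ((Set.Finite.mem_toFinset _).2 hi) x hx

theorem FC.act_map {S : Type} [CommRing S] [Algebra R S] (N : Type) [AddCommGroup N] [Module S N]
    [Module R N] [IsScalarTower R S N] :
    ((F.map (algebraMap R S)).act N).restrictScalars R = F.act N := by
  refine LinearMap.ext fun v => funext fun b => ?_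
  change ∑ b', algebraMap R S (F.d b b') • v b' = ∑ b', F.d b b' • v b'
  simp only [algebraMap_smul]

/-- flat base change of resolutions. -/
theorem FC.Res.baseChange {F : FC R} {M : Type} [AddCommGroup M] [Module R M] (h : F.Res M)
    (S : Type) [CommRing S] [Algebra R S] [Module.Flat R S] :
    (F.map (algebraMap R S)).Res (S ⊗[R] M) := by
  exact FC.fr_res_iff.2 ((FC.fr_res_iff.1 h).baseChange S)

theorem FC.Res.equiv {F : FC R} {M M' : Type} [AddCommGroup M] [Module R M] [AddCommGroup M']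
    [Module R M'] (h : F.Res M) (e : M ≃ₗ[R] M') : F.Res M' := by
  exact FC.fr_res_iff.2 ((FC.fr_res_iff.1 h).equiv e)

/-- if `x` is `N`-regular then `cone(x) ⊗ N ≃ F ⊗ N / x N`. -/
theorem AddFn.chiF_cone_reg (x : R) (hx : IsSMulRegular N x) :
    (ν.gdF (F.cone x) N ↔ ν.gdF F (QuotSMulTop x N)) ∧
      ν.chiF (F.cone x) N = ν.chiF F (QuotSMulTop x N) := by
  have key : ∀ i, _ := fun i => ν.rel_map (F.frQ x N)
    (W := Zc ((F.cone x).act N) ((F.cone x).G N) ⊥ i)
    (U := Bd ((F.cone x).act N) ((F.cone x).G N) ⊥ i)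
    (W' := Zc (F.act (QuotSMulTop x N)) (F.G (QuotSMulTop x N)) ⊥ i)
    (U' := Bd (F.act (QuotSMulTop x N)) (F.G (QuotSMulTop x N)) ⊥ i)
    (by
      congr 1
      ext v
      rw [Submodule.mem_map, F.fr_mem_Z]
      constructor
      · rintro ⟨z, hz, rfl⟩
        obtain ⟨a, b⟩ := (F.cone x).fr_mem_Z.1 hz
        exact ⟨F.frQ_mem x a, by rw [← F.frQ_act, b, map_zero]⟩
      · rintro ⟨a, b⟩
        obtain ⟨z, h1, rfl⟩ := F.frQ_cyc hx b
        refine ⟨_, (F.cone x).fr_mem_Z.2 ⟨frT_mem _ i z, ?_⟩, by rw [F.frQ_T, frT_of_mem a]⟩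
        have := (F.cone x).fr_act_T (i - 1) z
        rwa [sub_add_cancel, h1, map_zero] at this)
    (by
      ext z
      rw [Submodule.mem_inf, Submodule.mem_inf, Submodule.mem_comap, F.fr_mem_B,
        (F.cone x).fr_mem_B, (F.cone x).fr_mem_Z]
      constructor
      · rintro ⟨⟨a, b⟩, -, v, hv⟩
        exact ⟨⟨a, b⟩, a, F.frQ_bd hx b hv⟩
      · rintro ⟨⟨a, b⟩, -, u, rfl⟩
        exact ⟨⟨a, b⟩, F.frQ_mem x a, _, (F.frQ_act x u).symm⟩)
  refine ⟨forall_congr' fun i => (key i).1, finsum_congr fun i => ?_⟩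
  rw [(key i).2]

/-- the Koszul complex of a regular sequence is a resolution (`kos` puts the head of the list
outermost; prove by induction on `xs`, for all modules `N`, that `H(K(xs) ⊗ N) = N / xs N`). -/
theorem FC.kos_res (xs : List R) (h : RingTheory.Sequence.IsWeaklyRegular R xs) :
    ((FC.unit R).kos xs).Res (R ⧸ Ideal.ofList xs) := by
  exact FC.fr_res_iff.2 ((FC.fr_kos xs R h).equiv
    (Submodule.quotEquivOfEq _ _ (by rw [smul_eq_mul, Ideal.mul_top])))

end Crest.Agent.R188
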