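import Crest.Agent.R188.Flag1
import Crest.Agent.R188.Free

/-!
# R188 / Flag2

Construction of a flag of a generically exact complex.
-/

set_option autoImplicit false
set_option linter.unusedSectionVars false
set_option linter.unusedVariables false

noncomputable section

namespace Crest.Agent.R188

open Filter
open Crest.Agent.R183 (Zc Bd mact gr Htpy)
open scoped TensorProduct

variable {T : Type} [CommRing T] {K σ : Type} [Field K] [Algebra T K] [Fintype σ] [DecidableEq σ]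
  {S : Sys K σ} {𝔶 : Ideal T} {ν : AddFn T} {n : ℕ}

/-- the vectors `v π`, `d (v π)`. -/
def pu (F : FC T) (v : ℕ → F.ι → K) (i : ℕ × Bool) : F.ι → K :=
  if i.2 then v i.1 else (F.d.map (algebraMap T K)).mulVec (v i.1)

/-- their degrees. -/
def pe (jd : ℕ → ℕ) (i : ℕ × Bool) : ℕ := if i.2 then jd i.1 + 1 else jd i.1

/-- the degree `j` part is spanned by the first `W` pairs. -/
def Full (F : FC T) (W : ℕ) (v : ℕ → F.ι → K) (jd : ℕ → ℕ) (j : ℕ) : Prop :=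
  ∀ x : F.ι → K, (∀ b, x b ≠ 0 → F.deg b = j) →
    x ∈ Submodule.span K (pu F v '' {i | i.1 < W ∧ pe jd i = j})

/-- the invariant of the construction. -/
structure Inv (𝔶 : Ideal T) (n : ℕ) (F : FC T) (S : Sys K σ) (W : ℕ) (v : ℕ → F.ι → K)
    (jd : ℕ → ℕ) (γ : ℕ × Bool → σ → ℤ) : Prop where
  pf : ∀ j, PFlag T S {b | F.deg b = j} (pu F v) Prod.fst γ {i | i.1 < W ∧ pe jd i = j}
  full : ∀ π < W, ∀ j, jd π + 1 < j → Full F W v jd j
  incl : ∀ χ, ∀ π < W, S.a χ (γ (π, true) - γ (π, false)) ∈ S.O T χ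
  unit : ∀ χ, ∀ π < W, ∀ 𝔓 ∈ S.U 𝔶 χ, S.Nv χ 𝔓 (S.a χ (γ (π, true) - γ (π, false)))
  small : ∀ χ, Small n (S.U 𝔶 χ)

section aux
variable {F : FC T} {W : ℕ} {v : ℕ → F.ι → K} {jd : ℕ → ℕ} {γ : ℕ × Bool → σ → ℤ}

/-- the differential over `K`. -/
abbrev fl2D (F : FC T) (K : Type) [Field K] [Algebra T K] : (F.ι → K) →ₗ[K] (F.ι → K) :=
  (F.d.map (algebraMap T K)).mulVecLin

/-- the index set of degree `j`. -/
abbrev fl2A (W : ℕ) (jd : ℕ → ℕ) (j : ℕ) : Set (ℕ × Bool) := {i | i.1 < W ∧ pe jd i = j}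

theorem fl2_fin (W : ℕ) (jd : ℕ → ℕ) (j : ℕ) : (fl2A W jd j).Finite :=
  ((Set.finite_Iio W).prod (Set.finite_univ (α := Bool))).subset fun _ hi => ⟨hi.1, trivial⟩

theorem fl2_DD (x : F.ι → K) : fl2D F K (fl2D F K x) = 0 := by
  have h : F.d.map (algebraMap T K) * F.d.map (algebraMap T K) = 0 := (F.map (algebraMap T K)).dd
  simp only [Matrix.mulVecLin_apply, Matrix.mulVec_mulVec, h, Matrix.zero_mulVec]

theorem fl2_deg {P : Matrix F.ι F.ι T} {x : F.ι → K} {b : F.ι}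
    (h : (P.map (algebraMap T K)).mulVec x b ≠ 0) : ∃ b', P b b' ≠ 0 ∧ x b' ≠ 0 := by
  obtain ⟨b', -, h0⟩ := Finset.exists_ne_zero_of_sum_ne_zero h
  exact ⟨b', fun e => left_ne_zero_of_mul h0 (by simp [e]), right_ne_zero_of_mul h0⟩

theorem fl2_D_deg {x : F.ι → K} {j : ℕ} (hx : ∀ b, x b ≠ 0 → F.deg b = j + 1) (b : F.ι)
    (h : fl2D F K x b ≠ 0) : F.deg b = j := by
  obtain ⟨b', h1, h2⟩ := fl2_deg h
  have := F.d_deg b b' h1
  have := hx b' h2
  omega

theorem fl2_mem_G {x : F.ι → K} {j : ℕ} :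
    x ∈ (F.map (algebraMap T K)).G K j ↔ ∀ b, x b ≠ 0 → F.deg b = j := by
  refine forall_congr' fun b => ?_
  change (True → x b ∈ (if ((F.deg b : ℕ) : ℤ) = j then (⊤ : Submodule K K) else ⊥)) ↔ _
  by_cases e : F.deg b = j
  · simp [e]
  · rw [if_neg (by exact_mod_cast e)]
    simp [e]

theorem fl2_exact (hexa : Exa ((F.map (algebraMap T K)).act K) ((F.map (algebraMap T K)).G K) ⊥)
    {x : F.ι → K} {j : ℕ} (hx : ∀ b, x b ≠ 0 → F.deg b = j) (h0 : fl2D F K x = 0) :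
    ∃ z : F.ι → K, (∀ b, z b ≠ 0 → F.deg b = j + 1) ∧ fl2D F K z = x := by
  have e : (F.map (algebraMap T K)).act K = fl2D F K := rfl
  have h1 : x ∈ Zc ((F.map (algebraMap T K)).act K) ((F.map (algebraMap T K)).G K) ⊥ j :=
    ⟨fl2_mem_G.2 hx, by rw [e]; exact h0⟩
  have h2 := hexa j h1
  simp only [Bd, Pi.bot_apply, sup_bot_eq] at h2
  obtain ⟨z, hz, hz'⟩ := h2
  exact ⟨z, fl2_mem_G.1 (by exact_mod_cast hz), hz'⟩

theorem fl2_D_span {j : ℕ} {x : F.ι → K}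
    (hx : x ∈ Submodule.span K (pu F v '' fl2A W jd (j + 1))) :
    fl2D F K x ∈ Submodule.span K (pu F v '' fl2A W jd j) := by
  refine (Submodule.span_le (p := (Submodule.span K (pu F v '' fl2A W jd j)).comap (fl2D F K))).2 ?_ hx
  rintro _ ⟨⟨π, c⟩, ⟨h1, h2⟩, rfl⟩
  cases c
  · change fl2D F K (fl2D F K (v π)) ∈ Submodule.span K (pu F v '' fl2A W jd j)
    rw [fl2_DD]
    exact zero_mem _
  · refine Submodule.subset_span ⟨(π, false), ⟨h1, ?_⟩, rfl⟩
    simpa [pe] using h2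

theorem fl2_cyc (hexa : Exa ((F.map (algebraMap T K)).act K) ((F.map (algebraMap T K)).G K) ⊥)
    {j : ℕ} (hf : Full F W v jd (j + 1)) {x : F.ι → K} (hx : ∀ b, x b ≠ 0 → F.deg b = j)
    (h0 : fl2D F K x = 0) : x ∈ Submodule.span K (pu F v '' fl2A W jd j) := by
  obtain ⟨z, hz, rfl⟩ := fl2_exact hexa hx h0
  exact fl2_D_span (hf z hz)

theorem fl2_supp {s : Set F.ι} {U : Set (F.ι → K)} (hU : ∀ u ∈ U, ∀ b, u b ≠ 0 → b ∈ s)
    {x : F.ι → K} (hx : x ∈ Submodule.span K U) : ∀ b, x b ≠ 0 → b ∈ s := by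
  intro b hb
  by_contra h
  refine hb ((Submodule.span_le (p := LinearMap.ker (LinearMap.proj b : (F.ι → K) →ₗ[K] K))).2 ?_ hx)
  intro u hu
  by_contra h'
  exact h (hU u hu b h')

theorem fl2_kill {ι : Type} [Fintype ι] {g x : ι → K} {U : Set (ι → K)} (hU : ∀ u ∈ U, g ⬝ᵥ u = 0)
    (hx : x ∈ Submodule.span K U) : g ⬝ᵥ x = 0 := by
  induction hx using Submodule.span_induction with
  | mem u hu => exact hU u hu
  | zero => simp
  | add a b _ _ ha hb => rw [dotProduct_add, ha, hb, add_zero]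
  | smul c a _ ha => rw [dotProduct_smul, ha, smul_zero]

theorem fl2_dot_mem {ι : Type} [Fintype ι] (O : Subalgebra T K) {g x : ι → K} (hg : ∀ b, g b ∈ O)
    (hx : ∀ b, x b ∈ O) : g ⬝ᵥ x ∈ O := sum_mem fun b _ => mul_mem (hg b) (hx b)

theorem fl2_Nv (G : Finset K) (h1 : G.Nonempty) (h2 : (0 : K) ∉ G) (χ : (S.add G h1 h2).Chart)
    (𝔓 : PrimeSpectrum ((S.add G h1 h2).O T χ)) {s : K}
    (h : S.Nv (S.res G h1 h2 χ) (PrimeSpectrum.comap
      (Subalgebra.inclusion (S.O_le_add G h1 h2 χ)).toRingHom 𝔓) s) :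
    (S.add G h1 h2).Nv χ 𝔓 s := by
  obtain ⟨h3, h4⟩ := h
  refine ⟨S.O_le_add G h1 h2 χ h3, fun h5 => h4 ?_⟩
  rw [PrimeSpectrum.comap_asIdeal, Ideal.mem_comap]
  exact h5

theorem fl2_ext_sub (γ γ' : σ → ℤ) : ext γ 0 - ext γ' 0 = ext (γ - γ') 0 := by
  funext o
  cases o <;> simp [ext]

theorem fl2_a (G : Finset K) (h1 : G.Nonempty) (h2 : (0 : K) ∉ G) (χ : (S.add G h1 h2).Chart)
    (γ γ' : σ → ℤ) :
    (S.add G h1 h2).a χ (ext γ 0 - ext γ' 0) = S.a (S.res G h1 h2 χ) (γ - γ') := by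
  rw [fl2_ext_sub, S.a_add_ext, zpow_zero, mul_one]

theorem fl2_top (hn : ¬ ∀ j, Full F W v jd j) :
    ∃ J, ¬ Full F W v jd J ∧ ∀ j, J < j → Full F W v jd j := by
  classical
  have hb : ∀ j, Finset.univ.sup F.deg < j → Full F W v jd j := by
    intro j hj x hx
    have : x = 0 := funext fun b => by
      by_contra h
      have h1 := hx b h
      have h2 : F.deg b ≤ Finset.univ.sup F.deg := Finset.le_sup (Finset.mem_univ b)
      omega
    rw [this]
    exact zero_mem _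
  obtain ⟨j₀, h0⟩ := not_forall.1 hn
  have hle : ∀ j, ¬ Full F W v jd j → j ≤ Finset.univ.sup F.deg := fun j hj =>
    not_lt.1 fun h => hj (hb j h)
  refine ⟨Nat.findGreatest (fun j => ¬ Full F W v jd j) (Finset.univ.sup F.deg),
    Nat.findGreatest_spec (P := fun j => ¬ Full F W v jd j) (hle _ h0) h0, fun j hj => ?_⟩
  by_contra h
  exact Nat.findGreatest_is_greatest hj (hle _ h) h

end aux

/-- Let `J` be the largest degree that is not full; `J ≥ 1` by exactness, and the vectors of degree `J - 1`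
chosen so far are the `d (v π)`, `jd π + 1 = J`.  Choose `w` generic of degree `J` (`exists_vec`,
`exists_blk`, `Blk.pflag`, `Blk.small` with `β = 1`), giving `S₁` with local data `f`, `g`, `γ₁` for `w`.  Then add
`d w` (not in the span, by exactness and fullness of degree `J + 1`) with `β χ = 1 / a χ γ₁`: for `φ` killing the
old vectors `φ ⬝ᵥ d w / β = φ ⬝ᵥ d f ∈ O`, and for a homotopy `H` of `y` the functional `φ = g H` kills the old
vectors of degree `J - 1` and `φ ⬝ᵥ d f = y` (`g` kills `d` of everything of degree `J + 1`; only the degree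
`J` part of `g` matters).  On the final chart `a (γ w - γ (d w)) = φ_b ⬝ᵥ d f` generates all the
`φ ⬝ᵥ d f`. -/
theorem Inv.step [IsNoetherianRing T] (hC : Consts T) {F : FC T} {W : ℕ} {v : ℕ → F.ι → K}
    {jd : ℕ → ℕ} {γ : ℕ × Bool → σ → ℤ} (h : Inv 𝔶 n F S W v jd γ)
    (hexa : Exa ((F.map (algebraMap T K)).act K) ((F.map (algebraMap T K)).G K) ⊥)
    (hh : ∀ 𝔭 : Ideal T, 𝔭.IsPrime → 𝔶 ≤ 𝔭 → ¬ 𝔭.IsMaximal → ∃ y ∉ 𝔭, Htpy F.deg F.d y)
    (hn : ¬ ∀ j, Full F W v jd j) :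
    ∃ (S' : Sys K (Option (Option σ))) (v' : ℕ → F.ι → K) (jd' : ℕ → ℕ)
      (γ' : ℕ × Bool → Option (Option σ) → ℤ), Inv 𝔶 n F S' (W + 1) v' jd' γ' := by
  obtain ⟨J, hJ, hup⟩ := fl2_top hn
  have hge : ∀ π < W, J ≤ jd π + 1 := fun π hπ => not_lt.1 fun h' => hJ (h.full π hπ J h')
  obtain ⟨J, rfl⟩ : ∃ J', J = J' + 1 := by
    cases J with
    | succ J => exact ⟨J, rfl⟩
    | zero =>
      refine absurd (fun x hx => fl2_cyc hexa (hup 1 one_pos) hx (funext fun b => ?_)) hJ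
      by_contra h0
      obtain ⟨b', h1, h2⟩ := fl2_deg h0
      have := F.d_deg b b' h1
      have := hx b' h2
      omega
  have hlow : ∀ i ∈ fl2A W jd J, ∃ π, i = (π, false) ∧ (π, true) ∈ fl2A W jd (J + 1) := by
    rintro ⟨π, c⟩ ⟨h1, h2⟩
    cases c
    · exact ⟨π, rfl, h1, by simpa [pe] using h2⟩
    · have := hge π h1
      simp only [pe, if_true] at h2
      omega
  have hdeg : ∀ j, ∀ x ∈ Submodule.span K (pu F v '' fl2A W jd j), ∀ b, x b ≠ 0 → F.deg b = j :=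
    fun j x hx => fl2_supp (s := {b | F.deg b = j})
      (by rintro _ ⟨i, hi, rfl⟩; exact (h.pf j).supp i hi) hx
  -- the first vector
  obtain ⟨w, hw, hwT, hwn, hwz⟩ := (h.pf (J + 1)).exists_vec hC (fl2_fin W jd _) h.small (by
    simpa only [Full, not_forall, exists_prop, Set.mem_ofPred_eq] using hJ)
  obtain ⟨G₁, k₁, a1, a2, hB₁⟩ := (h.pf (J + 1)).exists_blk (fl2_fin W jd _) hwn
  have p₁ := hB₁.pflag (h.pf (J + 1)) (fl2_fin W jd _) hw a1 a2 (m := (W, true))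
    (fun hm => lt_irrefl _ hm.1) (fun i hi => hi.1)
  have s₁ := hB₁.small (h.pf (J + 1)) (fl2_fin W jd _) hw a1 a2 (fun _ => 1) (fun _ => one_ne_zero)
    (fun χ φ hφ => by
      rw [div_one]
      refine fl2_dot_mem _ hφ.1 fun b => ?_
      obtain ⟨c, hc⟩ := hwT b
      rw [← hc]
      exact Subalgebra.algebraMap_mem _ _) h.small hwz
  set S₁ := S.add G₁ a1 a2 with hS₁
  set γ₁ : Option σ → ℤ := ext k₁ (-1) with hγ₁
  have hne : ∀ j, ∀ i ∈ fl2A W jd j, ∀ c, i ≠ (W, c) := fun j i hi c e =>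
    lt_irrefl W (by have := hi.1; rwa [e] at this)
  have hf₁ : ∀ χ : S₁.Chart, ∃ f : F.ι → K, (∀ b, f b ∈ S₁.O T χ) ∧
      f - S₁.a χ γ₁ • w ∈ Submodule.span K (pu F v '' fl2A W jd (J + 1)) := by
    intro χ
    obtain ⟨f, h1, h2⟩ := p₁.f χ (W, true) (Set.mem_insert _ _)
    rw [Function.update_self, Function.update_self] at h2
    refine ⟨f, h1, Submodule.span_mono ?_ h2⟩
    rintro _ ⟨i, ⟨hi | hi, hi'⟩, rfl⟩
    · rw [hi] at hi'
      exact absurd hi' (lt_irrefl _)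
    · exact ⟨i, hi, (Function.update_of_ne (hne _ i hi _) _ _).symm⟩
  have hg₁ : ∀ χ : S₁.Chart, ∃ g : F.ι → K, (∀ b, g b ∈ S₁.O T χ) ∧
      (∀ i ∈ fl2A W jd (J + 1), g ⬝ᵥ pu F v i = 0) ∧ S₁.a χ γ₁ * (g ⬝ᵥ w) = 1 := by
    intro χ
    obtain ⟨g, h1, h2, h3⟩ := p₁.g χ (W, true) (Set.mem_insert _ _)
    rw [Function.update_self, Function.update_self] at h3
    refine ⟨g, h1, fun i hi => ?_, h3⟩
    have := h2 i (Set.mem_insert_of_mem _ hi) (hne _ i hi _) hi.1.le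
    rwa [Function.update_of_ne (hne _ i hi _)] at this
  -- the second vector
  have q₁ := (h.pf J).add G₁ a1 a2
  have hw2 : ∀ b, fl2D F K w b ≠ 0 → b ∈ {b | F.deg b = J} := fl2_D_deg hw
  have hwn2 : fl2D F K w ∉ Submodule.span K (pu F v '' fl2A W jd J) := by
    intro h0
    have h1 : Submodule.span K (pu F v '' fl2A W jd J) ≤
        (Submodule.span K (pu F v '' fl2A W jd (J + 1))).map (fl2D F K) := by
      refine Submodule.span_le.2 ?_
      rintro _ ⟨i, hi, rfl⟩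
      obtain ⟨π, rfl, hπ⟩ := hlow i hi
      exact ⟨v π, Submodule.subset_span ⟨_, hπ, rfl⟩, rfl⟩
    obtain ⟨z, hz, hz'⟩ := h1 h0
    have h2 : w - z ∈ Submodule.span K (pu F v '' fl2A W jd (J + 1)) := by
      refine fl2_cyc hexa (hup _ (Nat.lt_succ_self _)) (fun b hb => ?_) (by rw [map_sub, hz', sub_self])
      by_cases h3 : w b = 0
      · exact hdeg _ z hz b fun h4 => hb (by simp [h3, h4])
      · exact hw b h3
    exact hwn (by simpa using add_mem h2 hz)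
  obtain ⟨G₂, k₂, b1, b2, hB₂⟩ := q₁.exists_blk (fl2_fin W jd _) hwn2
  have p₂ := hB₂.pflag q₁ (fl2_fin W jd _) hw2 b1 b2 (m := (W, false))
    (fun hm => lt_irrefl _ hm.1) (fun i hi => hi.1)
  have hint : ∀ (χ : S₁.Chart) φ, Perp T S₁ χ (pu F v) (fl2A W jd J) φ →
      (φ ⬝ᵥ fl2D F K w) / (S₁.a χ γ₁)⁻¹ ∈ S₁.O T χ := by
    intro χ φ hφ
    obtain ⟨f, h1, h2⟩ := hf₁ χ
    have h3 : φ ⬝ᵥ fl2D F K (f - S₁.a χ γ₁ • w) = 0 :=
      fl2_kill (by rintro _ ⟨i, hi, rfl⟩; exact hφ.2 i hi) (fl2_D_span h2)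
    rw [map_sub, map_smul, dotProduct_sub, dotProduct_smul, sub_eq_zero, smul_eq_mul] at h3
    rw [div_inv_eq_mul, mul_comm, ← h3]
    exact fl2_dot_mem _ hφ.1 fun b =>
      fl2_dot_mem _ (fun b' => Subalgebra.algebraMap_mem _ (F.d b b')) h1
  have hunit : ∀ (χ : S₁.Chart), ∀ 𝔓 ∈ S₁.U 𝔶 χ, ∃ φ, Perp T S₁ χ (pu F v) (fl2A W jd J) φ ∧
      S₁.Nv χ 𝔓 ((φ ⬝ᵥ fl2D F K w) / (S₁.a χ γ₁)⁻¹) := by
    intro χ 𝔓 h𝔓
    obtain ⟨y, hy, H, hH, hH'⟩ := hh _ (Ideal.comap_isPrime _ _) h𝔓.1 h𝔓.2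
    obtain ⟨g, h1, h2, h3⟩ := hg₁ χ
    have key : ∀ z : F.ι → K, (∀ b, z b ≠ 0 → F.deg b = J + 1) →
        Matrix.vecMul g (H.map (algebraMap T K)) ⬝ᵥ fl2D F K z = algebraMap T K y * (g ⬝ᵥ z) := by
      intro z hz
      have e1 : F.d.map (algebraMap T K) * H.map (algebraMap T K) +
          H.map (algebraMap T K) * F.d.map (algebraMap T K) = algebraMap T K y • (1 : Matrix _ _ K) := by
        rw [← Matrix.map_mul, ← Matrix.map_mul, ← Matrix.map_add _ (map_add _), hH']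
        ext b b'
        by_cases e : b = b' <;> simp [e]
      have e2 : g ⬝ᵥ fl2D F K ((H.map (algebraMap T K)).mulVec z) = 0 := by
        refine fl2_kill (by rintro _ ⟨i, hi, rfl⟩; exact h2 i hi)
          (fl2_D_span (hup _ (Nat.lt_succ_self _) _ fun b hb => ?_))
        obtain ⟨b', h4, h5⟩ := fl2_deg hb
        rw [hH b b' h4, hz b' h5]
      have e3 := congrArg (fun P => g ⬝ᵥ P.mulVec z) e1
      simp only [Matrix.add_mulVec, dotProduct_add, ← Matrix.mulVec_mulVec, Matrix.smul_mulVec,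
        Matrix.one_mulVec, dotProduct_smul, smul_eq_mul] at e3
      rw [Matrix.mulVecLin_apply] at e2
      rw [e2, zero_add] at e3
      rw [← Matrix.dotProduct_mulVec, Matrix.mulVecLin_apply, e3]
    refine ⟨Matrix.vecMul g (H.map (algebraMap T K)), ⟨fun b => fl2_dot_mem _ h1 fun b' =>
      Subalgebra.algebraMap_mem _ (H b' b), fun i hi => ?_⟩, ?_⟩
    · obtain ⟨π, rfl, hπ⟩ := hlow i hi
      have := key (v π) ((h.pf (J + 1)).supp _ hπ)
      rw [show g ⬝ᵥ v π = 0 from h2 _ hπ, mul_zero] at this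
      exact this
    · rw [key w hw, div_inv_eq_mul, mul_assoc, mul_comm (g ⬝ᵥ w), h3, mul_one]
      exact ⟨Subalgebra.algebraMap_mem _ y, hy⟩
  have s₂ := hB₂.small q₁ (fl2_fin W jd _) hw2 b1 b2 (fun χ => (S₁.a χ γ₁)⁻¹)
    (fun χ => inv_ne_zero (S₁.a_ne χ _)) hint s₁ (fun χ => small_empty.mono le_rfl fun 𝔓 h𝔓 => by
      obtain ⟨φ, h1, h2⟩ := hunit χ 𝔓 h𝔓.1
      exact h𝔓.2 φ h1 h2)
  set S₂ := S₁.add G₂ b1 b2 with hS₂
  -- the new data
  have hpu : ∀ i : ℕ × Bool, i.1 < W → pu F (Function.update v W w) i = pu F v i := by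
    intro i hi
    simp only [pu, Function.update_of_ne hi.ne]
  have hpe : ∀ i : ℕ × Bool, i.1 < W → pe (Function.update jd W J) i = pe jd i := by
    intro i hi
    simp only [pe, Function.update_of_ne hi.ne]
  have hA : ∀ j i, i ∈ fl2A (W + 1) (Function.update jd W J) j ↔ i ∈ fl2A W jd j ∨
      (i = (W, true) ∧ j = J + 1) ∨ (i = (W, false) ∧ j = J) := by
    rintro j ⟨π, c⟩
    by_cases hπ : π < W
    · simp only [Set.mem_ofPred_eq, hpe (π, c) hπ, hπ, Nat.lt_succ_of_lt hπ, true_and, Prod.mk.injEq,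
        hπ.ne, false_and, or_false]
    · by_cases e : π = W
      · subst e
        cases c <;> simp [pe, eq_comm]
      · have : ¬ π < W + 1 := by omega
        simp [hπ, e, this]
  let γ' : ℕ × Bool → Option (Option σ) → ℤ := fun i =>
    if i.1 < W then ext (ext (γ i) 0) 0 else if i.2 then ext γ₁ 0 else ext k₂ (-1)
  have hγ : ∀ i : ℕ × Bool, i.1 < W → γ' i = ext (ext (γ i) 0) 0 := fun i hi => if_pos hi
  have hγt : γ' (W, true) = ext γ₁ 0 := by simp [γ']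
  have hγf : γ' (W, false) = ext k₂ (-1) := by simp [γ']
  have hlast : ∀ χ : S₂.Chart, S₂.a χ (γ' (W, true) - γ' (W, false)) =
      S₁.a (S₁.res G₂ b1 b2 χ) γ₁ * (χ none : K) / S₁.a (S₁.res G₂ b1 b2 χ) k₂ := by
    intro χ
    rw [S₂.a_sub, hγt, hγf, S₁.a_add_ext, S₁.a_add_ext, zpow_zero, mul_one, zpow_neg_one,
      div_mul_eq_div_div, div_inv_eq_mul, div_mul_eq_mul_div]
  have hlast' : ∀ χ : S₂.Chart, S₂.a χ (γ' (W, true) - γ' (W, false)) ∈ S₂.O T χ := by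
    intro χ
    obtain ⟨φ, h1, h2⟩ := hB₂.mem (S₁.res G₂ b1 b2 χ) (χ none) (χ none).2
    have h3 := S₁.O_le_add G₂ b1 b2 χ (hint _ φ h1)
    have h4 := S₁.a_ne (S₁.res G₂ b1 b2 χ) k₂
    change (χ none : K) = S₁.a _ k₂ * _ at h2
    rw [hlast, h2]
    convert h3 using 1
    field_simp
  refine ⟨S₂, Function.update v W w, Function.update jd W J, γ', fun j => ?_, fun π hπ j hj => ?_,
    fun χ π hπ => ?_, fun χ π hπ 𝔓 h𝔓 => ?_, s₂⟩
  · by_cases e1 : j = J + 1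
    · subst e1
      have e : fl2A (W + 1) (Function.update jd W J) (J + 1) = insert (W, true) (fl2A W jd (J + 1)) := by
        ext i
        rw [hA, Set.mem_insert_iff]
        simp [or_comm]
      rw [show {i : ℕ × Bool | i.1 < W + 1 ∧ pe (Function.update jd W J) i = J + 1} = _ from e]
      refine (p₁.add G₂ b1 b2).congr ?_ ?_
      · rintro i (rfl | hi)
        · simp [pu]
        · rw [hpu i hi.1, Function.update_of_ne (hne _ i hi _)]
      · rintro i (rfl | hi)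
        · rw [hγt, Function.update_self]
        · rw [hγ i hi.1, Function.update_of_ne (hne _ i hi _)]
    · by_cases e2 : j = J
      · subst e2
        have e : fl2A (W + 1) (Function.update jd W j) j = insert (W, false) (fl2A W jd j) := by
          ext i
          rw [hA, Set.mem_insert_iff]
          simp [or_comm]
        rw [show {i : ℕ × Bool | i.1 < W + 1 ∧ pe (Function.update jd W j) i = j} = _ from e]
        refine p₂.congr ?_ ?_
        · rintro i (rfl | hi)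
          · simp [pu]
          · rw [hpu i hi.1, Function.update_of_ne (hne _ i hi _)]
        · rintro i (rfl | hi)
          · rw [hγf, Function.update_self]
          · rw [hγ i hi.1, Function.update_of_ne (hne _ i hi _)]
      · have e : fl2A (W + 1) (Function.update jd W J) j = fl2A W jd j := by
          ext i
          rw [hA]
          simp [e1, e2]
        rw [show {i : ℕ × Bool | i.1 < W + 1 ∧ pe (Function.update jd W J) i = j} = _ from e]
        exact (((h.pf j).add G₁ a1 a2).add G₂ b1 b2).congr (fun i hi => hpu i hi.1)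
          fun i hi => hγ i hi.1
  · have h1 : J + 1 < j := by
      rcases Nat.lt_succ_iff_lt_or_eq.1 hπ with h1 | rfl
      · rw [Function.update_of_ne h1.ne] at hj
        exact (hge π h1).trans_lt hj
      · rwa [Function.update_self] at hj
    intro x hx
    refine Submodule.span_mono ?_ (hup j h1 x hx)
    rintro _ ⟨i, hi, rfl⟩
    exact ⟨i, (hA j i).2 (Or.inl hi), hpu i hi.1⟩
  · rcases Nat.lt_succ_iff_lt_or_eq.1 hπ with h1 | rfl
    · rw [hγ (π, true) h1, hγ (π, false) h1, fl2_a, fl2_a]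
      exact S₁.O_le_add G₂ b1 b2 χ (S.O_le_add G₁ a1 a2 _ (h.incl _ π h1))
    · exact hlast' χ
  · have h𝔓₁ := (S₁.comap_mem_U G₂ b1 b2 𝔶 χ 𝔓).1 h𝔓
    rcases Nat.lt_succ_iff_lt_or_eq.1 hπ with h1 | rfl
    · rw [hγ (π, true) h1, hγ (π, false) h1, fl2_a, fl2_a]
      exact fl2_Nv G₂ b1 b2 χ 𝔓 (fl2_Nv G₁ a1 a2 _ _
        (h.unit _ π h1 _ ((S.comap_mem_U G₁ a1 a2 𝔶 _ _).1 h𝔓₁)))
    · obtain ⟨φ, h1, h2⟩ := hunit _ _ h𝔓₁
      have h3 := fl2_Nv G₂ b1 b2 χ 𝔓 h2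
      have hb : (χ none : K) ≠ 0 := fun e => b2 (e ▸ (χ none).2)
      have h4 : ∀ x ∈ Submodule.span (S₁.O T (S₁.res G₂ b1 b2 χ)) (G₂ : Set K),
          x / (χ none : K) ∈ S₂.O T χ := by
        intro x hx
        induction hx using Submodule.span_induction with
        | mem u hu => exact Algebra.subset_adjoin ⟨none, u, hu, rfl⟩
        | zero => rw [zero_div]; exact zero_mem _
        | add a b _ _ ha hb => rw [add_div]; exact add_mem ha hb
        | smul c a _ ha =>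
          rw [Subalgebra.smul_def, smul_eq_mul, mul_div_assoc]
          exact mul_mem (S₁.O_le_add G₂ b1 b2 χ c.2) ha
      have h5 : S₁.a (S₁.res G₂ b1 b2 χ) k₂ * φ ⬝ᵥ fl2D F K w / (χ none : K) ∈ S₂.O T χ :=
        h4 _ (hB₂.gen _ φ h1)
      have h6 := S₁.a_ne (S₁.res G₂ b1 b2 χ) k₂
      refine (Sys.Nv.of_mul _ ?_ h5 (hlast' χ)).2
      convert h3 using 1
      rw [hlast]
      field_simp

theorem Inv.le_card {F : FC T} {W : ℕ} {v : ℕ → F.ι → K} {jd : ℕ → ℕ} {γ : ℕ × Bool → σ → ℤ}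
    (h : Inv 𝔶 n F S W v jd γ) : W ≤ Fintype.card F.ι := by
  have h1 : PFlag T S Set.univ (pu F v) Prod.fst γ {i | i.1 < W} := PFlag.merge F.deg (pe jd) h.pf
  have h2 := h1.linearIndependent (((Set.finite_Iio W).prod (Set.finite_univ (α := Bool))).subset
    fun _ hi => ⟨hi, trivial⟩)
  have h3 : LinearIndependent K fun π : Fin W => pu F v (π.1, true) :=
    LinearIndependent.comp h2 (fun π : Fin W => ⟨(π.1, true), π.2⟩) fun π π' e =>
      Fin.ext (congrArg (fun i => i.1.1) e)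
  simpa using h3.fintype_card_le_finrank

theorem Inv.flagCx {F : FC T} {W : ℕ} {v : ℕ → F.ι → K} {jd : ℕ → ℕ} {γ : ℕ × Bool → σ → ℤ}
    (h : Inv 𝔶 n F S W v jd γ) (hf : ∀ j, Full F W v jd j) :
    FlagCx T 𝔶 F S W (fun π => v π.1) (fun π => jd π.1) fun i => γ (i.1.1, i.2) := by
  have hr : Set.range (fun i : Fin W × Bool => (i.1.1, i.2)) = {i | i.1 < W} := by
    ext i
    exact ⟨by rintro ⟨i, rfl⟩; exact i.1.2, fun hi => ⟨(⟨i.1, hi⟩, i.2), rfl⟩⟩
  have h1 : PFlag T S Set.univ (pu F v) Prod.fst γ {i | i.1 < W} := PFlag.merge F.deg (pe jd) h.pf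
  refine ⟨fun π => (h.pf (jd π.1 + 1)).supp (π.1, true) ⟨π.2, rfl⟩,
    ⟨h1.reindex (fun i : Fin W × Bool => (i.1.1, i.2)) (fun i i' e =>
      Prod.ext (Fin.ext (Prod.ext_iff.1 e).1) (Prod.ext_iff.1 e).2) hr, ?_⟩,
    fun χ π => h.incl χ π.1 π.2, fun χ π => h.unit χ π.1 π.2⟩
  refine top_unique fun x _ => ?_
  rw [← Finset.univ_sum_single x]
  refine sum_mem fun b _ => Submodule.span_mono ?_ (hf (F.deg b) _ fun b' hb' => ?_)
  · rintro _ ⟨i, hi, rfl⟩
    exact ⟨(⟨i.1, hi.1⟩, i.2), rfl⟩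
  · by_contra e
    exact hb' (Pi.single_eq_of_ne (fun e' => e (by rw [e'])) _)

theorem exists_flagCx [IsNoetherianRing T] [IsLocalRing T] (hC : Consts T)
    (hinj : Function.Injective (algebraMap T K)) (hdim : ringKrullDim (T ⧸ 𝔶) ≤ n) (F : FC T)
    (hexa : Exa ((F.map (algebraMap T K)).act K) ((F.map (algebraMap T K)).G K) ⊥)
    (hh : ∀ 𝔭 : Ideal T, 𝔭.IsPrime → 𝔶 ≤ 𝔭 → ¬ 𝔭.IsMaximal → ∃ y ∉ 𝔭, Htpy F.deg F.d y) :
    ∃ (σ : Type) (_ : Fintype σ) (_ : DecidableEq σ) (S : Sys K σ) (W : ℕ) (v : Fin W → F.ι → K)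
      (jd : Fin W → ℕ) (γ : Fin W × Bool → σ → ℤ),
      FlagCx T 𝔶 F S W v jd γ ∧ ∀ χ, Small n (S.U 𝔶 χ) := by
  by_contra hno
  have key : ∀ W : ℕ, ∃ (σ : Type) (_ : Fintype σ) (_ : DecidableEq σ) (S : Sys K σ)
      (v : ℕ → F.ι → K) (jd : ℕ → ℕ) (γ : ℕ × Bool → σ → ℤ), Inv 𝔶 n F S W v jd γ := by
    intro W
    induction W with
    | zero =>
      refine ⟨Empty, inferInstance, inferInstance, Sys.empty K, 0, 0, 0, fun j => ⟨?_, ?_, ?_⟩, ?_, ?_, ?_,
        Sys.small_empty_sys hinj 𝔶 n hdim⟩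
      · exact fun i hi => absurd hi.1 (Nat.not_lt_zero _)
      · exact fun _ i hi => absurd hi.1 (Nat.not_lt_zero _)
      · exact fun _ i hi => absurd hi.1 (Nat.not_lt_zero _)
      · exact fun π hπ => absurd hπ (Nat.not_lt_zero _)
      · exact fun _ π hπ => absurd hπ (Nat.not_lt_zero _)
      · exact fun _ π hπ => absurd hπ (Nat.not_lt_zero _)
    | succ W ih =>
      obtain ⟨σ, _, _, S, v, jd, γ, h⟩ := ih
      obtain ⟨S', v', jd', γ', h'⟩ := h.step hC hexa hh fun hf =>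
        hno ⟨σ, inferInstance, inferInstance, S, W, _, _, _, h.flagCx hf, h.small⟩
      exact ⟨_, inferInstance, inferInstance, S', v', jd', γ', h'⟩
  obtain ⟨σ, _, _, S, v, jd, γ, h⟩ := key (Fintype.card F.ι + 1)
  exact Nat.not_succ_le_self _ h.le_card

end Crest.Agent.R188
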