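import Crest.Agent.R188.Prod

/-!
# R188 / Flag1AuxA

Partial flags: independence and the projection (auxiliary file of `Flag1`).
-/

set_option autoImplicit false
set_option linter.unusedSectionVars false
set_option linter.unusedVariables false

noncomputable section

namespace Crest.Agent.R188

open Filter
open Crest.Agent.R183 (Zc Bd mact gr Htpy)
open scoped TensorProduct

variable {T : Type} [CommRing T] {K σ : Type} [Field K] [Algebra T K] [Fintype σ] [DecidableEq σ]
  {S : Sys K σ} {𝔶 : Ideal T} {ν : AddFn T} {n : ℕ}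
  {ι M : Type} [Fintype ι] [DecidableEq ι] [DecidableEq M] {s : Set ι} {u : M → ι → K} {wt : M → ℕ}
  {γ : M → σ → ℤ} {A : Set M}

theorem f1_linearIndependent (h : PFlag T S s u wt γ A) (hA : A.Finite) :
    LinearIndepOn K u A := by
  classical
  obtain ⟨χ⟩ := S.nonempty_chart
  rw [linearIndepOn_iff']
  intro t c ht hc
  by_contra hne
  push Not at hne
  obtain ⟨i, hi, hmax⟩ := Finset.exists_max_image (t.filter fun i => c i ≠ 0) wt
    (let ⟨i, h1, h2⟩ := hne; ⟨i, Finset.mem_filter.2 ⟨h1, h2⟩⟩)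
  obtain ⟨hi1, hi2⟩ := Finset.mem_filter.1 hi
  obtain ⟨g, -, hg2, hg3⟩ := h.g χ i (ht hi1)
  have h1 := congrArg (fun x => g ⬝ᵥ x) hc
  simp only [dotProduct_sum, dotProduct_smul, smul_eq_mul, dotProduct_zero] at h1
  rw [Finset.sum_eq_single i (fun j hj hji => ?_) (fun h => absurd hi1 h)] at h1
  · rw [(mul_eq_zero.1 h1).resolve_left hi2, mul_zero] at hg3
    exact zero_ne_one hg3
  · by_cases hcj : c j = 0
    · rw [hcj, zero_mul]
    · rw [hg2 j (ht hj) hji (hmax j (Finset.mem_filter.2 ⟨hj, hcj⟩)), mul_zero]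

theorem f1_rank {k α : Type} [Field k] [Fintype α] [DecidableEq α] [Fintype s] (F : Matrix ι α k)
    (H : Matrix α ι k) (hHF : H * F = 1) (hF : ∀ b, b ∉ s → ∀ j, F b j = 0) :
    ((1 - F * H).submatrix id ((↑) : s → ι)).rank + Fintype.card α = Fintype.card s := by
  classical
  set E : Matrix ι s k := (1 : Matrix ι ι k).submatrix id ((↑) : s → ι) with hE
  set R : Matrix s ι k := (1 : Matrix ι ι k).submatrix ((↑) : s → ι) id with hR
  set Fs : Matrix s α k := F.submatrix ((↑) : s → ι) id with hFs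
  have e1 : (1 - F * H).submatrix id ((↑) : s → ι) = (1 - F * H) * E := by
    ext i j
    simp [hE, Matrix.mul_apply, Matrix.one_apply]
  have e2 : R * E = 1 := by
    ext i j
    simp [hE, hR, Matrix.mul_apply, Matrix.one_apply, Subtype.ext_iff]
  have e3 : E * Fs = F := by
    ext i j
    by_cases hi : i ∈ s
    · rw [Matrix.mul_apply, Finset.sum_eq_single (⟨i, hi⟩ : s)]
      · simp [hE, hFs, Matrix.one_apply]
      · intro b _ hb
        have : i ≠ b := fun e => hb (Subtype.ext e.symm)
        simp [hE, Matrix.one_apply, this]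
      · simp
    · rw [hF i hi, Matrix.mul_apply]
      refine Finset.sum_eq_zero fun b _ => ?_
      have : i ≠ b := fun e => hi (e ▸ b.2)
      simp [hE, Matrix.one_apply, this]
  have e4 : LinearMap.ker ((1 - F * H) * E).mulVecLin = LinearMap.range Fs.mulVecLin := by
    ext x
    rw [LinearMap.mem_ker, LinearMap.mem_range, Matrix.mulVecLin_apply]
    constructor
    · intro hx
      refine ⟨(H * E).mulVec x, ?_⟩
      have h1 : R * ((1 - F * H) * E) = 1 - Fs * (H * E) := by
        rw [Matrix.sub_mul, Matrix.one_mul, Matrix.mul_sub, e2, ← e3]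
        simp only [← Matrix.mul_assoc, e2, Matrix.one_mul]
      have h2 := congrArg R.mulVec hx
      rw [Matrix.mulVec_mulVec, h1, Matrix.mulVec_zero, Matrix.sub_mulVec, Matrix.one_mulVec,
        sub_eq_zero] at h2
      rw [Matrix.mulVecLin_apply, Matrix.mulVec_mulVec, ← h2]
    · rintro ⟨y, rfl⟩
      rw [Matrix.mulVecLin_apply, Matrix.mulVec_mulVec, Matrix.mul_assoc, e3, Matrix.sub_mul,
        Matrix.one_mul, Matrix.mul_assoc, hHF, Matrix.mul_one, sub_self, Matrix.zero_mulVec]
  have e5 : Function.Injective Fs.mulVecLin := by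
    intro y y' h
    have h2 := congrArg (H * E).mulVec h
    rwa [Matrix.mulVecLin_apply, Matrix.mulVecLin_apply, Matrix.mulVec_mulVec, Matrix.mulVec_mulVec,
      Matrix.mul_assoc, e3, hHF, Matrix.one_mulVec, Matrix.one_mulVec] at h2
  have e6 := LinearMap.finrank_range_add_finrank_ker ((1 - F * H) * E).mulVecLin
  rw [e4, LinearMap.finrank_range_of_inj e5, Module.finrank_fintype_fun_eq_card,
    Module.finrank_fintype_fun_eq_card] at e6
  rw [e1]
  exact e6

theorem f1_dot_span {φ x : ι → K} {B : Set M} (h : ∀ i ∈ B, φ ⬝ᵥ u i = 0)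
    (hx : x ∈ Submodule.span K (u '' B)) : φ ⬝ᵥ x = 0 := by
  induction hx using Submodule.span_induction with
  | mem y hy =>
    obtain ⟨i, hi, rfl⟩ := hy
    exact h i hi
  | zero => simp
  | add y z _ _ h1 h2 => rw [dotProduct_add, h1, h2, add_zero]
  | smul c y _ h1 => rw [dotProduct_smul, h1, smul_zero]

theorem f1_supp_span (h : PFlag T S s u wt γ A) {x : ι → K}
    (hx : x ∈ Submodule.span K (u '' A)) {b : ι} (hb : b ∉ s) : x b = 0 := by
  have := f1_dot_span (φ := Pi.single b 1) (fun i hi => by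
    rw [single_one_dotProduct]
    by_contra hne
    exact hb (h.supp i hi b hne)) hx
  rwa [single_one_dotProduct] at this

/-- the projection as `1 - F H`. -/
theorem f1_exists_FH (h : PFlag T S s u wt γ A) [Fintype A] (χ : S.Chart) :
    ∃ (F : Matrix ι A (S.O T χ)) (H : Matrix A ι (S.O T χ)), H * F = 1 ∧
      (∀ j, (fun b => (F b j : K)) ∈ Submodule.span K (u '' A)) ∧
      ∀ i ∈ A, u i ∈ Submodule.span K (Set.range fun j b => (F b j : K)) := by
  classical
  choose f hf1 hf2 using h.f χ
  choose g hg1 hg2 hg3 using h.g χ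
  set F : Matrix ι A (S.O T χ) := Matrix.of fun b j => ⟨f j.1 j.2 b, hf1 j.1 j.2 b⟩ with hF
  set G : Matrix A ι (S.O T χ) := Matrix.of fun i b => ⟨g i.1 i.2 b, hg1 i.1 i.2 b⟩ with hG
  have hN : ∀ i j : A, (((G * F) i j : S.O T χ) : K) = g i.1 i.2 ⬝ᵥ f j.1 j.2 := by
    intro i j
    simp [Matrix.mul_apply, hF, hG, dotProduct]
  have hN' : ∀ i j : A, wt j ≤ wt i →
      g i.1 i.2 ⬝ᵥ f j.1 j.2 = S.a χ (γ j) * (g i.1 i.2 ⬝ᵥ u j) := by
    intro i j hij
    have := f1_dot_span (φ := g i.1 i.2) (fun i' hi' => hg2 i.1 i.2 i' hi'.1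
      (fun e => absurd (hi'.2.trans_le hij) (by rw [e]; exact lt_irrefl _)) (hi'.2.le.trans hij))
      (hf2 j.1 j.2)
    rwa [dotProduct_sub, dotProduct_smul, smul_eq_mul, sub_eq_zero] at this
  have hN1 : ∀ i j : A, wt j ≤ wt i → (G * F) i j = (1 : Matrix A A (S.O T χ)) i j := by
    intro i j hij
    refine Subtype.ext ?_
    rw [hN, hN' i j hij]
    by_cases e : i = j
    · subst e
      rw [hg3, Matrix.one_apply_eq]
      rfl
    · rw [hg2 i.1 i.2 j.1 j.2 (fun e' => e (Subtype.ext e'.symm)) hij, mul_zero, Matrix.one_apply_ne e]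
      rfl
  have hbt : (G * F).BlockTriangular fun i : A => wt i := by
    intro i j hij
    rw [hN1 i j hij.le, Matrix.one_apply_ne]
    rintro rfl
    exact lt_irrefl _ hij
  have hdet : (G * F).det = 1 := by
    rw [hbt.det]
    refine Finset.prod_eq_one fun a _ => ?_
    have : (G * F).toSquareBlock (fun i : A => wt i) a = 1 := by
      ext1 i j
      rw [Matrix.toSquareBlock_def, Matrix.of_apply, hN1 i.1 j.1 (j.2.trans i.2.symm).le]
      simp [Matrix.one_apply, Subtype.ext_iff]
    rw [this, Matrix.det_one]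
  refine ⟨F, (G * F)⁻¹ * G, ?_, fun j => ?_, ?_⟩
  · rw [Matrix.mul_assoc, Matrix.nonsing_inv_mul _ (by rw [hdet]; exact isUnit_one)]
  · have e : (fun b => (F b j : K)) = (f j.1 j.2 - S.a χ (γ j) • u j) + S.a χ (γ j) • u j := by
      rw [sub_add_cancel]
      rfl
    rw [e]
    exact add_mem (Submodule.span_mono (Set.image_mono fun i hi => hi.1) (hf2 j.1 j.2))
      (Submodule.smul_mem _ _ (Submodule.subset_span ⟨j.1, j.2, rfl⟩))
  · have key : ∀ w : ℕ, ∀ i ∈ A, wt i = w →
        u i ∈ Submodule.span K (Set.range fun j b => (F b j : K)) := by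
      intro w
      induction w using Nat.strong_induction_on with
      | _ w ih =>
        intro i hi hw
        have h1 : f i hi - S.a χ (γ i) • u i ∈
            Submodule.span K (Set.range fun j b => (F b j : K)) := by
          refine Submodule.span_le.2 ?_ (hf2 i hi)
          rintro _ ⟨i', hi', rfl⟩
          exact ih _ (hw ▸ hi'.2) i' hi'.1 rfl
        have h2 : f i hi ∈ Submodule.span K (Set.range fun j b => (F b j : K)) :=
          Submodule.subset_span ⟨⟨i, hi⟩, rfl⟩
        have h3 := sub_mem h2 h1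
        rw [sub_sub_cancel] at h3
        exact (Submodule.smul_mem_iff _ (S.a_ne χ _)).1 h3
    exact fun i hi => key _ i hi rfl

/-- the projection `∏ (1 - f_i g_i)` (largest weights first) along the span of the flag.  Modulo a prime its
restriction to the coordinates in `s` has kernel the span of the `f_i`, which are independent because the
matrix `g_i ⬝ᵥ f_j` is unitriangular. -/
theorem f1_exists_proj (h : PFlag T S s u wt γ A) (hA : A.Finite) (χ : S.Chart) :
    ∃ p : Matrix ι ι (S.O T χ),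
      (∀ i ∈ A, (p.map (↑) : Matrix ι ι K).mulVec (u i) = 0) ∧
      (∀ x : ι → K, x - (p.map (↑) : Matrix ι ι K).mulVec x ∈ Submodule.span K (u '' A)) ∧
      ∀ (𝔭 : Ideal (S.O T χ)) [𝔭.IsPrime] [Fintype s],
        ((p.submatrix id ((↑) : s → ι)).map (algebraMap _ 𝔭.ResidueField)).rank + A.ncard =
          s.ncard := by
  classical
  have := hA.fintype
  obtain ⟨F, H, h1, h2, h3⟩ := f1_exists_FH h χ
  have hmap : ∀ {k : Type} [CommRing k] (φ : S.O T χ →+* k),
      (1 - F * H).map φ = 1 - F.map φ * H.map φ ∧ H.map φ * F.map φ = 1 := by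
    intro k _ φ
    constructor
    · rw [Matrix.map_sub _ (map_sub φ), Matrix.map_mul, Matrix.map_one _ (map_zero φ) (map_one φ)]
    · rw [← Matrix.map_mul, h1, Matrix.map_one _ (map_zero φ) (map_one φ)]
  obtain ⟨e1, e2⟩ := hmap (S.O T χ).val.toRingHom
  have e1' : ((1 - F * H).map (↑) : Matrix ι ι K) =
      1 - F.map (S.O T χ).val.toRingHom * H.map (S.O T χ).val.toRingHom := e1
  refine ⟨1 - F * H, fun i hi => ?_, fun x => ?_, fun 𝔭 _ _ => ?_⟩
  · obtain ⟨c, hc⟩ := (Submodule.mem_span_range_iff_exists_fun K).1 (h3 i hi)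
    have e3 : u i = (F.map (S.O T χ).val.toRingHom).mulVec c := by
      rw [← hc]
      funext b
      simp [Matrix.mulVec, dotProduct, mul_comm]
    rw [e1', e3, Matrix.mulVec_mulVec, Matrix.sub_mul, Matrix.one_mul, Matrix.mul_assoc, e2,
      Matrix.mul_one, sub_self, Matrix.zero_mulVec]
  · rw [e1', Matrix.sub_mulVec, Matrix.one_mulVec, sub_sub_cancel, ← Matrix.mulVec_mulVec]
    generalize (H.map (S.O T χ).val.toRingHom).mulVec x = c
    have e3 : (F.map (S.O T χ).val.toRingHom).mulVec c = ∑ j, c j • fun b => (F b j : K) := by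
      funext b
      simp [Matrix.mulVec, dotProduct, mul_comm]
    rw [e3]
    exact Submodule.sum_mem _ fun j _ => Submodule.smul_mem _ _ (h2 j)
  · obtain ⟨e3, e4⟩ := hmap (algebraMap _ 𝔭.ResidueField)
    rw [← Matrix.submatrix_map, e3, ← Nat.card_coe_set_eq, ← Nat.card_coe_set_eq,
      Nat.card_eq_fintype_card, Nat.card_eq_fintype_card]
    refine f1_rank _ _ e4 fun b hb j => ?_
    have : F b j = 0 := Subtype.ext (f1_supp_span h (h2 j) hb)
    rw [Matrix.map_apply, this, map_zero]

end Crest.Agent.R188
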