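import Crest.Agent.R188.Flag1AuxA

/-!
# R188 / Flag1AuxB

Operations on flags (auxiliary file of `Flag1`).
-/

set_option autoImplicit false
set_option linter.unusedSectionVars false
set_option linter.unusedVariables false

noncomputable section

namespace Crest.Agent.R188

open Filter
open Crest.Agent.R183 (Zc Bd mact gr Htpy)
open scoped TensorProduct

variable {T : Type} [CommRing T] {K σ : Type} [Field K] [Algebra T K] [Fintype σ] [DecidableEq σ]
  {S : Sys K σ} {𝔶 : Ideal T} {ν : AddFn T} {n : ℕ}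
  {ι M : Type} [Fintype ι] [DecidableEq ι] [DecidableEq M] {s : Set ι} {u : M → ι → K} {wt : M → ℕ}
  {γ : M → σ → ℤ} {A : Set M}

/-- merging flags of the homogeneous pieces (truncate `g` to its degree). -/
theorem f1_merge (deg : ι → ℕ) (e : M → ℕ)
    (h : ∀ j, PFlag T S {b | deg b = j} u wt γ {i | i ∈ A ∧ e i = j}) :
    PFlag T S Set.univ u wt γ A := by
  refine ⟨fun _ _ _ _ => Set.mem_univ _, fun χ i hi => ?_, fun χ i hi => ?_⟩
  · obtain ⟨f, hf, hs⟩ := (h (e i)).f χ i ⟨hi, rfl⟩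
    refine ⟨f, hf, Submodule.span_mono ?_ hs⟩
    rintro _ ⟨j, hj, rfl⟩
    exact ⟨j, ⟨hj.1.1, hj.2⟩, rfl⟩
  · obtain ⟨g, hg, h0, h1⟩ := (h (e i)).g χ i ⟨hi, rfl⟩
    have key : ∀ i' ∈ A, (fun b => if deg b = e i then g b else 0) ⬝ᵥ u i' =
        if e i' = e i then g ⬝ᵥ u i' else 0 := by
      intro i' hi'
      have hs : ∀ b, u i' b ≠ 0 → deg b = e i' := (h (e i')).supp i' ⟨hi', rfl⟩
      split_ifs with he
      · refine Finset.sum_congr rfl fun b _ => ?_
        by_cases hb : u i' b = 0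
        · simp only [hb, mul_zero]
        · simp only [if_pos ((hs b hb).trans he)]
      · refine Finset.sum_eq_zero fun b _ => ?_
        by_cases hb : u i' b = 0
        · simp only [hb, mul_zero]
        · simp only [if_neg fun h2 : deg b = e i => he ((hs b hb).symm.trans h2), zero_mul]
    refine ⟨fun b => if deg b = e i then g b else 0, fun b => ?_, fun i' hi' hne hw => ?_, ?_⟩
    · simp only
      split_ifs
      exacts [hg b, zero_mem _]
    · rw [key i' hi']
      split_ifs with he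
      exacts [h0 i' ⟨hi', he⟩ hne hw, rfl]
    · rw [key i hi, if_pos rfl, h1]

theorem f1_reindex (h : PFlag T S s u wt γ A) {M' : Type} (c : M' → M)
    (hc : Function.Injective c) (hA : Set.range c = A) :
    PFlag T S s (u ∘ c) (wt ∘ c) (γ ∘ c) Set.univ := by
  have hm : ∀ i, c i ∈ A := fun i => hA ▸ Set.mem_range_self i
  refine ⟨fun i _ b hb => h.supp (c i) (hm i) b hb, fun χ i _ => ?_, fun χ i _ => ?_⟩
  · obtain ⟨f, hf, hs⟩ := h.f χ (c i) (hm i)
    refine ⟨f, hf, Submodule.span_mono ?_ hs⟩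
    rintro _ ⟨j, ⟨hj, hw⟩, rfl⟩
    rw [← hA] at hj
    obtain ⟨j', rfl⟩ := hj
    exact ⟨j', ⟨Set.mem_univ _, hw⟩, rfl⟩
  · obtain ⟨g, hg, h0, h1⟩ := h.g χ (c i) (hm i)
    exact ⟨g, hg, fun i' _ hne hw => h0 (c i') (hm i') (hc.ne hne) hw, h1⟩

theorem f1_restrict (h : Flag T S u wt γ) (p : ι → Prop) [DecidablePred p] (q : M → Prop)
    (hpq : ∀ i b, u i b ≠ 0 → (p b ↔ q i)) :
    Flag T S (fun (i : {i // q i}) (b : {b // p b}) => u i.1 b.1) (fun i => wt i.1)
      fun i => γ i.1 := by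
  obtain ⟨res, hres⟩ : ∃ res : (ι → K) →ₗ[K] ({b // p b} → K), ∀ x b, res x b = x b.1 :=
    ⟨LinearMap.funLeft K K Subtype.val, fun _ _ => rfl⟩
  have hru : ∀ i, res (u i) = fun b => u i b.1 := fun i => funext fun b => hres _ _
  have hz : ∀ i, ¬ q i → res (u i) = 0 := fun i hi => funext fun b => by
    rw [hres]
    by_contra hb
    exact hi ((hpq i b.1 hb).1 b.2)
  have hsp : ∀ (B : Set M) (x : ι → K), x ∈ Submodule.span K (u '' B) → res x ∈ Submodule.span K
      ((fun (i : {i // q i}) (b : {b // p b}) => u i.1 b.1) '' {i | i.1 ∈ B}) := by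
    intro B x hx
    refine Submodule.mem_comap.1 ((Submodule.span_le (p := Submodule.comap res _)).2 ?_ hx)
    rintro _ ⟨j, hj, rfl⟩
    rw [SetLike.mem_coe, Submodule.mem_comap]
    by_cases hq : q j
    · exact Submodule.subset_span ⟨⟨j, hq⟩, hj, (hru j).symm⟩
    · rw [hz j hq]; exact zero_mem _
  have hdot : ∀ (g : ι → K) (i : M), q i →
      (fun b : {b // p b} => g b.1) ⬝ᵥ (fun b => u i b.1) = g ⬝ᵥ u i := by
    intro g i hi
    unfold dotProduct
    rw [← Fintype.sum_subtype_add_sum_subtype p fun b => g b * u i b,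
      Finset.sum_eq_zero (s := (Finset.univ : Finset {b // ¬ p b})) fun b _ => ?_, add_zero]
    by_cases hb : u i b.1 = 0
    · rw [hb, mul_zero]
    · exact absurd ((hpq i b.1 hb).2 hi) b.2
  refine ⟨⟨fun _ _ _ _ => Set.mem_univ _, fun χ i _ => ?_, fun χ i _ => ?_⟩, ?_⟩
  · obtain ⟨f, hf, hs⟩ := h.pf.f χ i.1 (Set.mem_univ _)
    refine ⟨res f, fun b => by rw [hres]; exact hf _, ?_⟩
    have := hsp _ _ hs
    rwa [map_sub, map_smul, hru] at this
  · obtain ⟨g, hg, h0, h1⟩ := h.pf.g χ i.1 (Set.mem_univ _)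
    refine ⟨fun b => g b.1, fun b => hg _, fun i' _ hne hw => ?_, ?_⟩
    · rw [hdot g i'.1 i'.2]
      exact h0 i'.1 (Set.mem_univ _) (fun e => hne (Subtype.ext e)) hw
    · rw [hdot g i.1 i.2, h1]
  · refine eq_top_iff.2 fun y _ => ?_
    have := hsp Set.univ (fun b => if hb : p b then y ⟨b, hb⟩ else 0)
      (by rw [Set.image_univ, h.span]; exact Submodule.mem_top)
    rw [show res (fun b => if hb : p b then y ⟨b, hb⟩ else 0) = y from
      funext fun b => by rw [hres, dif_pos b.2]] at this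
    exact Submodule.span_mono (Set.image_subset_range _ _) this

theorem f1b_top {V : Submodule K (ι → K)} (h : ∀ b, (Pi.single b 1 : ι → K) ∈ V) : V = ⊤ := by
  rw [eq_top_iff, ← (Pi.basisFun K ι).span_eq, Submodule.span_le]
  rintro _ ⟨b, rfl⟩
  rw [Pi.basisFun_apply]
  exact h b

theorem f1_std (S : Sys K σ) (ι : Type) [Fintype ι] [DecidableEq ι] :
    Flag T S (fun b : ι => (Pi.single b 1 : ι → K)) (fun _ => 0) fun _ => 0 := by
  have hO : ∀ (χ : S.Chart) (i b : ι), (Pi.single i 1 : ι → K) b ∈ S.O T χ := fun χ i b => by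
    rw [Pi.single_apply]
    split_ifs
    exacts [one_mem _, zero_mem _]
  refine ⟨⟨fun _ _ _ _ => Set.mem_univ _, fun χ i _ => ⟨Pi.single i 1, hO χ i, ?_⟩,
    fun χ i _ => ⟨Pi.single i 1, hO χ i, fun i' _ hne _ => ?_, ?_⟩⟩,
    f1b_top fun b => Submodule.subset_span ⟨b, rfl⟩⟩
  · rw [Sys.a_zero, one_smul, sub_self]
    exact zero_mem _
  · rw [single_dotProduct, one_mul, Pi.single_eq_of_ne hne.symm]
  · rw [Sys.a_zero, single_dotProduct, one_mul, one_mul, Pi.single_eq_same]

theorem f1_card [Fintype M] (h : Flag T S u wt γ) : Fintype.card M = Fintype.card ι := by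
  have hl : LinearIndependent K u :=
    linearIndepOn_univ_iff.1 (f1_linearIndependent h.pf Set.finite_univ)
  rw [← finrank_span_eq_card hl, h.span, finrank_top, Module.finrank_fintype_fun_eq_card]

theorem f1b_span_pull {K' : Type} [Field K'] [Algebra K K'] (B : Set M) {x : ι → K}
    (hx : x ∈ Submodule.span K (u '' B)) : (fun b => algebraMap K K' (x b)) ∈
      Submodule.span K' ((fun i b => algebraMap K K' (u i b)) '' B) := by
  induction hx using Submodule.span_induction with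
  | mem x hx =>
    obtain ⟨j, hj, rfl⟩ := hx
    exact Submodule.subset_span ⟨j, hj, rfl⟩
  | zero => simp only [Pi.zero_apply, map_zero]; exact zero_mem _
  | add x y _ _ hx hy => simp only [Pi.add_apply, map_add]; exact add_mem hx hy
  | smul c x _ hx =>
    simp only [Pi.smul_apply, smul_eq_mul, map_mul]
    exact Submodule.smul_mem _ (algebraMap K K' c) hx

theorem f1_pull (h : Flag T S u wt γ) {K' : Type} [Field K'] [Algebra K K'] [Algebra T K']
    [IsScalarTower T K K'] {r : ℕ} {v : Fin r → K'} (hv : AlgebraicIndependent K v) :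
    Flag T (S.prod v hv) (fun i b => algebraMap K K' (u i b)) wt fun i => ext (γ i) 0 := by
  refine ⟨⟨fun _ _ _ _ => Set.mem_univ _, fun χ' i _ => ?_, fun χ' i _ => ?_⟩,
    f1b_top fun b => ?_⟩
  · obtain ⟨χ, -, ha, φ, hφ, -⟩ := Sys.exists_res (T := T) (𝔶 := ⊥) hv χ'
    obtain ⟨f, hf, hs⟩ := h.pf.f χ i (Set.mem_univ _)
    refine ⟨fun b => algebraMap K K' (f b), fun b => ?_, ?_⟩
    · have := (φ ⟨f b, hf b⟩).2
      rwa [hφ] at this
    · have := f1b_span_pull (K' := K') _ hs
      simp only [Pi.sub_apply, Pi.smul_apply, smul_eq_mul, map_sub, map_mul] at this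
      rw [ha, zpow_zero, mul_one]
      exact this
  · obtain ⟨χ, -, ha, φ, hφ, -⟩ := Sys.exists_res (T := T) (𝔶 := ⊥) hv χ'
    obtain ⟨g, hg, h0, h1⟩ := h.pf.g χ i (Set.mem_univ _)
    have hd : ∀ i', (fun b => algebraMap K K' (g b)) ⬝ᵥ (fun b => algebraMap K K' (u i' b)) =
        algebraMap K K' (g ⬝ᵥ u i') := fun i' => ((algebraMap K K').map_dotProduct g (u i')).symm
    refine ⟨fun b => algebraMap K K' (g b), fun b => ?_, fun i' _ hne hw => ?_, ?_⟩
    · have := (φ ⟨g b, hg b⟩).2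
      rwa [hφ] at this
    · rw [hd, h0 i' (Set.mem_univ _) hne hw, map_zero]
    · rw [ha, zpow_zero, mul_one, hd, ← map_mul, h1, map_one]
  · have := f1b_span_pull (K' := K') (u := u) Set.univ (x := Pi.single b 1)
      (by rw [Set.image_univ, h.span]; exact Submodule.mem_top)
    rw [Set.image_univ] at this
    convert this using 1
    funext b'
    rw [Pi.single_apply, Pi.single_apply]
    split_ifs
    exacts [(map_one _).symm, (map_zero _).symm]

theorem f1b_expand [Fintype M] {τ : Type} [Fintype τ] [DecidableEq τ] (u : M → ι → K)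
    (c : τ → M → K) : (fun b : τ → ι => ∏ t, (∑ j, c t j • u j) (b t)) =
      ∑ j : τ → M, (∏ t, c t (j t)) • fun b : τ → ι => ∏ t, u (j t) (b t) := by
  funext b
  simp only [Finset.sum_apply, Pi.smul_apply, smul_eq_mul]
  rw [Finset.prod_univ_sum, Fintype.piFinset_univ]
  exact Finset.sum_congr rfl fun j _ => Finset.prod_mul_distrib

theorem f1b_dot {τ : Type} [Fintype τ] [DecidableEq τ] (x y : τ → ι → K) :
    (fun b : τ → ι => ∏ t, x t (b t)) ⬝ᵥ (fun b => ∏ t, y t (b t)) = ∏ t, x t ⬝ᵥ y t := by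
  unfold dotProduct
  rw [Finset.prod_univ_sum, Fintype.piFinset_univ]
  exact Finset.sum_congr rfl fun j _ => Finset.prod_mul_distrib.symm

theorem f1b_coef [Fintype M] {f : ι → K} {a : K} {i : M}
    (h : f - a • u i ∈ Submodule.span K (u '' {i' | i' ∈ Set.univ ∧ wt i' < wt i})) :
    ∃ c : M → K, f = ∑ j, c j • u j ∧ c i = a ∧ ∀ j, c j ≠ 0 → j = i ∨ wt j < wt i := by
  obtain ⟨l, hl, e⟩ := (Finsupp.mem_span_image_iff_linearCombination K).1 h
  rw [Finsupp.mem_supported'] at hl
  rw [Finsupp.linearCombination_apply, Finsupp.sum_fintype _ _ fun j => zero_smul K (u j)] at e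
  refine ⟨fun j => l j + if j = i then a else 0, ?_, ?_, fun j hj => ?_⟩
  · simp only [add_smul, Finset.sum_add_distrib, ite_smul, zero_smul, Finset.sum_ite_eq',
      Finset.mem_univ, if_true]
    rw [e, sub_add_cancel]
  · simp only [if_true]
    rw [hl i fun hi => lt_irrefl _ hi.2, zero_add]
  · by_contra hc
    push Not at hc
    exact hj (by simp only [if_neg hc.1, hl j fun hj => hc.2.not_gt hj.2, add_zero])

theorem f1_pow [Fintype M] (h : Flag T S u wt γ) (ℓ : ℕ) [NeZero ℓ] :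
    Flag T S (fun (i : ZMod ℓ → M) (b : ZMod ℓ → ι) => ∏ t, u (i t) (b t)) (powW ℓ wt)
      fun i => ∑ t, γ (i t) := by
  refine ⟨⟨fun _ _ _ _ => Set.mem_univ _, fun χ i _ => ?_, fun χ i _ => ?_⟩,
    f1b_top fun b => ?_⟩
  · choose f hf hs using fun t => h.pf.f χ (i t) (Set.mem_univ _)
    choose c hc hci hcw using fun t => f1b_coef (hs t)
    refine ⟨fun b => ∏ t, f t (b t), fun b => prod_mem fun t _ => hf t _, ?_⟩
    have e : (fun b : ZMod ℓ → ι => ∏ t, f t (b t)) = fun b => ∏ t, (∑ j, c t j • u j) (b t) :=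
      funext fun b => Finset.prod_congr rfl fun t _ => by rw [← hc]
    rw [e, f1b_expand, Sys.a_sum, ← Finset.add_sum_erase _ _ (Finset.mem_univ i)]
    simp only [hci]
    rw [add_sub_cancel_left]
    refine Submodule.sum_mem _ fun j hj => ?_
    by_cases h0 : ∏ t, c t (j t) = 0
    · rw [h0, zero_smul]; exact zero_mem _
    · refine Submodule.smul_mem _ _ (Submodule.subset_span ⟨j, ⟨Set.mem_univ _, ?_⟩, rfl⟩)
      have h1 : ∀ t, j t = i t ∨ wt (j t) < wt (i t) := fun t =>
        hcw t _ (Finset.prod_ne_zero_iff.1 h0 t (Finset.mem_univ t))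
      obtain ⟨t, ht⟩ := Function.ne_iff.1 (Finset.ne_of_mem_erase hj)
      refine Finset.sum_lt_sum (fun t _ => ?_) ⟨t, Finset.mem_univ t, (h1 t).resolve_left ht⟩
      rcases h1 t with h2 | h2
      exacts [h2 ▸ le_rfl, h2.le]
  · choose g hg h0 h1 using fun t => h.pf.g χ (i t) (Set.mem_univ _)
    refine ⟨fun b => ∏ t, g t (b t), fun b => prod_mem fun t _ => hg t _,
      fun i' _ hne hw => ?_, ?_⟩
    · rw [f1b_dot g fun t => u (i' t)]
      have : ∃ t, i' t ≠ i t ∧ wt (i' t) ≤ wt (i t) := by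
        by_contra hc
        push Not at hc
        obtain ⟨t, ht⟩ := Function.ne_iff.1 hne
        refine hw.not_gt (Finset.sum_lt_sum (fun t _ => ?_) ⟨t, Finset.mem_univ t, hc t ht⟩)
        by_cases h2 : i' t = i t
        exacts [h2 ▸ le_rfl, (hc t h2).le]
      obtain ⟨t, ht, hwt⟩ := this
      exact Finset.prod_eq_zero (Finset.mem_univ t) (h0 t _ (Set.mem_univ _) ht hwt)
    · rw [f1b_dot g fun t => u (i t), Sys.a_sum, ← Finset.prod_mul_distrib]
      exact Finset.prod_eq_one fun t _ => h1 t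
  · have hx : ∀ t, ∃ c : M → K, ∑ j, c j • u j = Pi.single (b t) 1 := fun t =>
      (Submodule.mem_span_range_iff_exists_fun K).1 (h.span ▸ Submodule.mem_top)
    choose c hc using hx
    have e : (Pi.single b 1 : (ZMod ℓ → ι) → K) = fun b' => ∏ t, (∑ j, c t j • u j) (b' t) := by
      funext b'
      simp only [hc]
      by_cases hb : b' = b
      · subst hb
        simp only [Pi.single_eq_same, Finset.prod_const_one]
      · obtain ⟨t, ht⟩ := Function.ne_iff.1 hb
        rw [Pi.single_eq_of_ne hb, Finset.prod_eq_zero (Finset.mem_univ t) (Pi.single_eq_of_ne ht _)]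
    rw [e, f1b_expand]
    exact Submodule.sum_mem _ fun j _ => Submodule.smul_mem _ _ (Submodule.subset_span ⟨j, rfl⟩)

end Crest.Agent.R188
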