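import Crest.Agent.R188.Flag1AuxA

/-!
# R188 / Flag1AuxC

Graded pieces of a flag (auxiliary file of `Flag1`).
-/

set_option autoImplicit false
set_option linter.unusedSectionVars false
set_option linter.unusedVariables false

noncomputable section

namespace Crest.Agent.R188

open Filter
open Crest.Agent.R183 (Zc Bd mact gr Htpy)
open scoped TensorProduct

variable {T : Type} [CommRing T] {K σ : Type} [Field K] [Algebra T K] [Fintype σ] [DecidableEq σ]
  {S : Sys K σ} {𝔶 : Ideal T} {ν : AddFn T} {n : ℕ}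
  {ι M : Type} [Fintype ι] [DecidableEq ι] [DecidableEq M] {s : Set ι} {u : M → ι → K} {wt : M → ℕ}
  {γ : M → σ → ℤ} {A : Set M}

theorem f1c_coord [Fintype M] {w : ℕ} {z : M → K} {x g : ι → K} {a : K} {i : M} (hi : wt i = w)
    (hg : ∀ i', i' ≠ i → wt i' ≤ wt i → g ⬝ᵥ u i' = 0) (ha : a * (g ⬝ᵥ u i) = 1)
    (hz : ∀ i, z i ≠ 0 → wt i = w)
    (hx : x - ∑ i, z i • u i ∈ Submodule.span K (u '' {i | wt i < w})) :
    z i = a * (g ⬝ᵥ x) := by
  have h1 : ∀ y ∈ Submodule.span K (u '' {i | wt i < w}), g ⬝ᵥ y = 0 := by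
    intro y hy
    induction hy using Submodule.span_induction with
    | mem y hy =>
      obtain ⟨j, hj, rfl⟩ := hy
      have hj' : wt j < wt i := hi ▸ hj
      exact hg j (fun e => by rw [e] at hj'; exact lt_irrefl _ hj') hj'.le
    | zero => exact dotProduct_zero g
    | add y y' _ _ h h' => rw [dotProduct_add, h, h', add_zero]
    | smul c y _ h => rw [dotProduct_smul, h, smul_zero]
  have h2 := h1 _ hx
  rw [dotProduct_sub, dotProduct_sum, sub_eq_zero, Finset.sum_eq_single i] at h2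
  · rw [h2, dotProduct_smul, smul_eq_mul, mul_left_comm, ha, mul_one]
  · intro j _ hj
    by_cases h0 : z j = 0
    · rw [h0, zero_smul, dotProduct_zero]
    · rw [dotProduct_smul, hg j hj (by rw [hz j h0, hi]), smul_zero]
  · exact fun h => absurd (Finset.mem_univ i) h

theorem f1c_fixed [IsNoetherianRing T] [Fintype M] (h : Flag T S u wt γ) (w : ℕ) :
    ∀ᶠ k in atTop, ∀ z : M → K, (∀ i, z i ≠ 0 → wt i = w) →
      ((∀ i, z i ∈ S.L T (k + γ i)) ↔ ∃ x : ι → K, (∀ b, x b ∈ S.L T k) ∧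
        x - ∑ i, z i • u i ∈ Submodule.span K (u '' {i | wt i < w})) := by
  choose g hgO hg ha using fun χ i => h.pf.g χ i (Set.mem_univ i)
  choose f hfO hf using fun χ i => h.pf.f χ i (Set.mem_univ i)
  have hco : ∀ χ {z : M → K} {x : ι → K}, (∀ i, z i ≠ 0 → wt i = w) →
      x - ∑ i, z i • u i ∈ Submodule.span K (u '' {i | wt i < w}) →
      ∀ i, wt i = w → z i = S.a χ (γ i) * (g χ i ⬝ᵥ x) := fun χ z x hz hx i hi =>
    f1c_coord hi (fun i' => hg χ i i' (Set.mem_univ _)) (ha χ i) hz hx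
  obtain ⟨χ₀⟩ := S.nonempty_chart
  let φ : (ι → K) →ₗ[K] (M → K) :=
    { toFun := fun x i => if wt i = w then S.a χ₀ (γ i) * (g χ₀ i ⬝ᵥ x) else 0
      map_add' := fun x y => funext fun i => by
        by_cases hi : wt i = w <;> simp [hi, mul_add]
      map_smul' := fun c x => funext fun i => by
        by_cases hi : wt i = w <;> simp [hi, mul_left_comm] }
  have hφ : ∀ x i, φ x i ≠ 0 → wt i = w := fun x i h0 => by
    by_contra hi
    exact h0 (if_neg hi)
  have hφ' : ∀ {z : M → K} {x : ι → K}, (∀ i, z i ≠ 0 → wt i = w) →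
      x - ∑ i, z i • u i ∈ Submodule.span K (u '' {i | wt i < w}) → φ x = z := by
    intro z x hz hx
    funext i
    by_cases hi : wt i = w
    · exact (if_pos hi).trans (hco χ₀ hz hx i hi).symm
    · exact (if_neg hi).trans (by_contra fun h0 => hi (hz i (Ne.symm h0)))
  let W : Submodule K (ι → K) := (Submodule.span K (u '' {i | wt i < w})).comap
    (LinearMap.id - Fintype.linearCombination K u ∘ₗ φ)
  have hW : ∀ x, x ∈ W ↔ x - ∑ i, φ x i • u i ∈ Submodule.span K (u '' {i | wt i < w}) :=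
    fun x => Iff.rfl
  let Z : Submodule K (M → K) := Submodule.pi {i | wt i ≠ w} fun _ => ⊥
  have hZ : ∀ z, z ∈ Z ↔ ∀ i, z i ≠ 0 → wt i = w := fun z =>
    forall_congr' fun i => not_imp_comm
  have s1 := Sys.Stable.inf_const S (Sys.Stable.pi S fun i => S.stable_L (T := T) (γ i)) Z
  have s2' := Sys.Stable.inf_const S (Sys.Stable.pi S fun b : ι => S.stable_L (T := T) 0) W
  have s2 := Sys.Stable.map S s2' φ
  have e := Sys.Stable.eq_of_loc S s1 s2 fun χ => by
    rw [S.loc_map s2', S.loc_inf, S.loc_inf, S.loc_pi, S.loc_pi, S.loc_const, S.loc_const]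
    ext z
    simp only [Submodule.mem_inf, Submodule.mem_map, Submodule.mem_pi, Set.mem_univ, true_imp_iff,
      Submodule.restrictScalars_mem, S.mem_loc_L, S.a_zero, div_one, hZ, hW,
      LinearMap.restrictScalars_apply]
    constructor
    · rintro ⟨h1, h2⟩
      have h3 : ∑ i, (z i / S.a χ (γ i)) • f χ i - ∑ i, z i • u i ∈
          Submodule.span K (u '' {i | wt i < w}) := by
        rw [← Finset.sum_sub_distrib]
        refine Submodule.sum_mem _ fun i _ => ?_
        by_cases h0 : z i = 0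
        · simp [h0]
        have e : (z i / S.a χ (γ i)) • f χ i - z i • u i =
            (z i / S.a χ (γ i)) • (f χ i - S.a χ (γ i) • u i) := by
          rw [smul_sub, smul_smul, div_mul_cancel₀ _ (S.a_ne χ _)]
        rw [e, ← h2 i h0]
        exact Submodule.smul_mem _ _ (by simpa using hf χ i)
      refine ⟨_, ⟨fun b => ?_, (hφ' h2 h3).symm ▸ h3⟩, hφ' h2 h3⟩
      rw [Finset.sum_apply]
      exact sum_mem fun i _ => mul_mem (h1 i) (hfO χ i b)
    · rintro ⟨x, ⟨h1, h2⟩, rfl⟩
      refine ⟨fun i => ?_, hφ x⟩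
      by_cases h0 : φ x i = 0
      · rw [h0, zero_div]
        exact zero_mem _
      · rw [hco χ (hφ x) h2 i (hφ x i h0), mul_div_cancel_left₀ _ (S.a_ne χ _)]
        exact sum_mem fun b _ => mul_mem (hgO χ i b) (h1 b)
  filter_upwards [e] with k hk z hz
  have hk' := SetLike.ext_iff.1 hk z
  simp only [Submodule.mem_inf, Submodule.mem_map, Submodule.mem_pi, Set.mem_univ, true_imp_iff,
    Submodule.restrictScalars_mem, add_zero, hZ, hW, LinearMap.restrictScalars_apply] at hk'
  constructor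
  · intro h1
    obtain ⟨x, ⟨h2, h3⟩, rfl⟩ := hk'.1 ⟨h1, hz⟩
    exact ⟨x, h2, h3⟩
  · rintro ⟨x, h1, h2⟩
    exact (hk'.2 ⟨x, ⟨h1, (hφ' hz h2).symm ▸ h2⟩, hφ' hz h2⟩).1

/-- the graded pieces of the lattice `(L k) ^ ι` (compare two stable families in `M → K` on charts). -/
theorem f1_gr [IsNoetherianRing T] [Fintype M] (h : Flag T S u wt γ) :
    ∀ᶠ k in atTop, ∀ (w : ℕ) (z : M → K), (∀ i, z i ≠ 0 → wt i = w) →
      ((∀ i, z i ∈ S.L T (k + γ i)) ↔ ∃ x : ι → K, (∀ b, x b ∈ S.L T k) ∧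
        x - ∑ i, z i • u i ∈ Submodule.span K (u '' {i | wt i < w})) := by
  filter_upwards [eventually_all.2 fun i : M => f1c_fixed h (wt i)] with k hk w z hz
  by_cases h0 : z = 0
  · subst h0
    exact ⟨fun _ => ⟨0, fun _ => zero_mem _, by simp⟩, fun _ _ => zero_mem _⟩
  · obtain ⟨i, hi⟩ := Function.ne_iff.1 h0
    obtain rfl := hz i hi
    exact hk i z hz

end Crest.Agent.R188
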