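import Crest.Agent.R188.Prod
import Crest.Agent.R188.Flag1AuxA
import Crest.Agent.R188.Flag1AuxB
import Crest.Agent.R188.Flag1AuxC

/-!
# R188 / Flag1

Partial flags: projections, ranks, new blocks.
-/

set_option autoImplicit false
set_option linter.unusedSectionVars false
set_option linter.unusedVariables false

noncomputable section

namespace Crest.Agent.R188

open Filter
open Crest.Agent.R183 (Zc Bd mact gr Htpy)
open scoped TensorProduct

variable {T : Type} [CommRing T] {K σ : Type} [Field K] [Algebra T K] [Fintype σ] [DecidableEq σ]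
  {S : Sys K σ} {𝔶 : Ideal T} {ν : AddFn T} {n : ℕ}
  {ι M : Type} [Fintype ι] [DecidableEq ι] [DecidableEq M] {s : Set ι} {u : M → ι → K} {wt : M → ℕ}
  {γ : M → σ → ℤ} {A : Set M}

theorem PFlag.linearIndependent (h : PFlag T S s u wt γ A) (hA : A.Finite) :
    LinearIndepOn K u A := by
  exact f1_linearIndependent h hA

theorem PFlag.congr (h : PFlag T S s u wt γ A) {u' : M → ι → K} {γ' : M → σ → ℤ}
    (hu : ∀ i ∈ A, u' i = u i) (hγ : ∀ i ∈ A, γ' i = γ i) : PFlag T S s u' wt γ' A := by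
  refine ⟨fun i hi b hb => h.supp i hi b (by rwa [hu i hi] at hb), fun χ i hi => ?_,
    fun χ i hi => ?_⟩
  · obtain ⟨f, hf, hf'⟩ := h.f χ i hi
    refine ⟨f, hf, ?_⟩
    rw [hγ i hi, hu i hi, Set.image_congr (g := u) fun i' hi' => hu i' hi'.1]
    exact hf'
  · obtain ⟨g, hg, hg', hg''⟩ := h.g χ i hi
    refine ⟨g, hg, fun i' hi' hne hle => ?_, ?_⟩
    · rw [hu i' hi']; exact hg' i' hi' hne hle
    · rw [hγ i hi, hu i hi]; exact hg''

theorem PFlag.add (h : PFlag T S s u wt γ A) (G : Finset K) (h1 : G.Nonempty) (h2 : (0 : K) ∉ G) :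
    PFlag T (S.add G h1 h2) s u wt (fun i => ext (γ i) 0) A := by
  refine ⟨h.supp, fun χ i hi => ?_, fun χ i hi => ?_⟩
  · obtain ⟨f, hf, hf'⟩ := h.f (S.res G h1 h2 χ) i hi
    refine ⟨f, fun b => S.O_le_add G h1 h2 χ (hf b), ?_⟩
    rw [S.a_add_ext, zpow_zero, mul_one]
    exact hf'
  · obtain ⟨g, hg, hg', hg''⟩ := h.g (S.res G h1 h2 χ) i hi
    refine ⟨g, fun b => S.O_le_add G h1 h2 χ (hg b), hg', ?_⟩
    rw [S.a_add_ext, zpow_zero, mul_one]
    exact hg''

/-- the projection `∏ (1 - f_i g_i)` (largest weights first) along the span of the flag.  Modulo a prime its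
restriction to the coordinates in `s` has kernel the span of the `f_i`, which are independent because the
matrix `g_i ⬝ᵥ f_j` is unitriangular. -/
theorem PFlag.exists_proj (h : PFlag T S s u wt γ A) (hA : A.Finite) (χ : S.Chart) :
    ∃ p : Matrix ι ι (S.O T χ),
      (∀ i ∈ A, (p.map (↑) : Matrix ι ι K).mulVec (u i) = 0) ∧
      (∀ x : ι → K, x - (p.map (↑) : Matrix ι ι K).mulVec x ∈ Submodule.span K (u '' A)) ∧
      ∀ (𝔭 : Ideal (S.O T χ)) [𝔭.IsPrime] [Fintype s],
        ((p.submatrix id ((↑) : s → ι)).map (algebraMap _ 𝔭.ResidueField)).rank + A.ncard =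
          s.ncard := by
  exact f1_exists_proj h hA χ

/-- integral functionals that kill the flag. -/
def Perp (T : Type) [CommRing T] [Algebra T K] (S : Sys K σ) (χ : S.Chart) (u : M → ι → K)
    (A : Set M) (φ : ι → K) : Prop :=
  (∀ b, φ b ∈ S.O T χ) ∧ ∀ i ∈ A, φ ⬝ᵥ u i = 0

/-- `G` generates `a ^ k₀ · {φ ⬝ᵥ w}` on every chart. -/
structure Blk (T : Type) [CommRing T] [Algebra T K] (S : Sys K σ) (u : M → ι → K) (A : Set M)
    (w : ι → K) (G : Finset K) (k₀ : σ → ℤ) : Prop where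
  mem : ∀ χ, ∀ g ∈ G, ∃ φ, Perp T S χ u A φ ∧ g = S.a χ k₀ * (φ ⬝ᵥ w)
  gen : ∀ χ φ, Perp T S χ u A φ →
    S.a χ k₀ * (φ ⬝ᵥ w) ∈ Submodule.span (S.O T χ) (G : Set K)

/-- the annihilator of the flag. -/
def f1_W (u : M → ι → K) (A : Set M) : Submodule K (ι → K) where
  carrier := {φ | ∀ i ∈ A, φ ⬝ᵥ u i = 0}
  add_mem' := fun {a b} ha hb i hi => by rw [add_dotProduct, ha i hi, hb i hi, add_zero]
  zero_mem' := fun i hi => zero_dotProduct _
  smul_mem' := fun c a ha i hi => by rw [smul_dotProduct, ha i hi, smul_zero]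

/-- pairing with a vector. -/
def f1_dw (w : ι → K) : (ι → K) →ₗ[K] K where
  toFun φ := φ ⬝ᵥ w
  map_add' a b := add_dotProduct a b w
  map_smul' c a := smul_dotProduct c a w

/-- the rows of a projection that kills the flag are integral functionals. -/
theorem f1_row {χ : S.Chart} {p : Matrix ι ι (S.O T χ)}
    (hp : ∀ i ∈ A, (p.map (↑) : Matrix ι ι K).mulVec (u i) = 0) (b : ι) :
    Perp T S χ u A fun c => (p b c : K) :=
  ⟨fun c => (p b c).2, fun i hi => congrFun (hp i hi) b⟩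

/-- `M k = {φ ⬝ᵥ w | φ ∈ (L k) ^ ι, φ ⟂ u '' A}` is stable; let `G` be nonzero generators of `M k₀`. -/
theorem PFlag.exists_blk [IsNoetherianRing T] (h : PFlag T S s u wt γ A) (hA : A.Finite)
    {w : ι → K} (hw : w ∉ Submodule.span K (u '' A)) :
    ∃ (G : Finset K) (k₀ : σ → ℤ), G.Nonempty ∧ (0 : K) ∉ G ∧ Blk T S u A w G k₀ := by
  classical
  set N : (σ → ℤ) → Submodule T (ι → K) := fun k =>
    (Submodule.pi Set.univ fun _ : ι => S.L T (k + 0)) ⊓ (f1_W u A).restrictScalars T with hNdef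
  have hN : S.Stable N :=
    Sys.Stable.inf_const S (Sys.Stable.pi S fun _ : ι => S.stable_L 0) (f1_W u A)
  set Mk : (σ → ℤ) → Submodule T K := fun k => (N k).map ((f1_dw w).restrictScalars T) with hMdef
  have hM : S.Stable Mk := Sys.Stable.map S hN (f1_dw w)
  have hloc : ∀ χ x, x ∈ S.loc χ Mk ↔ ∃ φ, Perp T S χ u A φ ∧ φ ⬝ᵥ w = x := by
    intro χ x
    rw [hMdef, S.loc_map hN (f1_dw w) χ, hNdef, S.loc_inf, S.loc_pi, S.loc_const]
    constructor
    · rintro ⟨φ, ⟨h1, h2⟩, rfl⟩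
      refine ⟨φ, ⟨fun b => ?_, h2⟩, rfl⟩
      have := (S.mem_loc_L χ 0 (φ b)).1 (h1 b (Set.mem_univ b))
      rwa [S.a_zero, div_one] at this
    · rintro ⟨φ, ⟨h1, h2⟩, rfl⟩
      refine ⟨φ, ⟨fun b _ => ?_, h2⟩, rfl⟩
      refine (S.mem_loc_L χ 0 (φ b)).2 ?_
      rw [S.a_zero, div_one]
      exact h1 b
  obtain ⟨k₀, ⟨⟨G₀, hG₀⟩, -⟩, hk1, hk2⟩ :=
    (hM.and ((Sys.Stable.eq_smul S hM).and (Sys.Stable.mem_loc S hM))).exists
  have hB : Blk T S u A w (G₀.erase 0) k₀ := by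
    refine ⟨fun χ g hg => ?_, fun χ φ hφ => ?_⟩
    · have hg' : g ∈ Mk k₀ := by
        rw [← hG₀]
        exact Submodule.subset_span (Finset.mem_of_mem_erase hg)
      obtain ⟨φ, hφ, e⟩ := (hloc χ _).1 (hk2 χ g hg')
      refine ⟨φ, hφ, ?_⟩
      rw [e, smul_eq_mul, ← mul_assoc, ← S.a_add, add_neg_cancel, S.a_zero, one_mul]
    · have hx : φ ⬝ᵥ w ∈ S.loc χ Mk := (hloc χ _).2 ⟨φ, hφ, rfl⟩
      obtain ⟨k, hk, hk'⟩ := ((S.sys2_mem_loc.1 hx).and (eventually_ge_atTop k₀)).exists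
      have hm : 0 ≤ k - k₀ := sub_nonneg.2 hk'
      have e : Mk k = S.L T (k - k₀) • Mk k₀ := by
        rw [← hk1 _ hm, add_sub_cancel]
      have key : ∀ y ∈ S.L T (k - k₀) • Mk k₀,
          y / S.a χ (k - k₀) ∈ Submodule.span (S.O T χ) ((G₀.erase 0 : Finset K) : Set K) := by
        intro y hy
        refine Submodule.smul_induction_on hy (fun r hr x hx => ?_) (fun x y hx hy => ?_)
        · have hx' : x ∈ Submodule.span (S.O T χ) ((G₀.erase 0 : Finset K) : Set K) := by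
            rw [← hG₀] at hx
            refine Submodule.span_induction (fun x hx => ?_) (zero_mem _)
              (fun x y _ _ hx hy => add_mem hx hy) (fun c x _ hx => ?_) hx
            · by_cases h0 : x = 0
              · rw [h0]; exact zero_mem _
              · exact Submodule.subset_span (Finset.mem_erase.2 ⟨h0, hx⟩)
            · rw [← algebraMap_smul (S.O T χ) c x]
              exact Submodule.smul_mem _ _ hx
          have := Submodule.smul_mem _ (⟨_, S.div_mem_O χ hm hr⟩ : S.O T χ) hx'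
          convert this using 1
          show r * x / S.a χ (k - k₀) = r / S.a χ (k - k₀) * x
          ring
        · rw [add_div]; exact add_mem hx hy
      rw [e] at hk
      convert key _ hk using 1
      rw [S.a_sub, smul_eq_mul]
      have := S.a_ne χ k
      have := S.a_ne χ k₀
      field_simp
  refine ⟨G₀.erase 0, k₀, ?_, Finset.notMem_erase 0 G₀, hB⟩
  rw [Finset.nonempty_iff_ne_empty]
  intro h0
  obtain ⟨χ⟩ := S.nonempty_chart
  obtain ⟨p, hp1, hp2, -⟩ := h.exists_proj hA χ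
  refine hw ?_
  have : (p.map (↑) : Matrix ι ι K).mulVec w = 0 := by
    funext b
    have := hB.gen χ _ (f1_row hp1 b)
    rw [h0, Finset.coe_empty, Submodule.span_empty, Submodule.mem_bot, mul_eq_zero] at this
    exact this.resolve_left (S.a_ne χ k₀)
  have h2 := hp2 w
  rwa [this, sub_zero] at h2

theorem f1_div_mem {G : Finset K} (h1 : G.Nonempty) (h2 : (0 : K) ∉ G)
    (χ : (S.add G h1 h2).Chart) {x : K}
    (hx : x ∈ Submodule.span (S.O T (S.res G h1 h2 χ)) (G : Set K)) :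
    x / (χ none : K) ∈ (S.add G h1 h2).O T χ := by
  refine Submodule.span_induction (fun x hx => ?_) ?_ (fun x y _ _ hx hy => ?_)
    (fun c x _ hx => ?_) hx
  · exact Algebra.subset_adjoin ⟨none, x, hx, rfl⟩
  · rw [zero_div]; exact zero_mem _
  · rw [add_div]; exact add_mem hx hy
  · have : (c • x) / (χ none : K) = (c : K) * (x / (χ none : K)) := by
      show (c : K) * x / _ = _
      ring
    rw [this]
    exact mul_mem (S.O_le_add G h1 h2 χ c.2) hx

/-- on the chart with `χ none = b = a ^ k₀ φ_b ⬝ᵥ w` take `g = φ_b` and `f = (a ^ k₀ / b) • p w`. -/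
theorem Blk.pflag (h : PFlag T S s u wt γ A) (hA : A.Finite) {w : ι → K}
    (hw : ∀ b, w b ≠ 0 → b ∈ s) {G : Finset K} {k₀ : σ → ℤ} (hB : Blk T S u A w G k₀)
    (h1 : G.Nonempty) (h2 : (0 : K) ∉ G) {m : M} (hm : m ∉ A) (hwt : ∀ i ∈ A, wt i < wt m) :
    PFlag T (S.add G h1 h2) s (Function.update u m w) wt
      (Function.update (fun i => ext (γ i) 0) m (ext k₀ (-1))) (insert m A) := by
  have hne : ∀ i ∈ A, i ≠ m := fun i hi e => hm (e ▸ hi)
  have hu : ∀ i ∈ A, Function.update u m w i = u i := fun i hi =>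
    Function.update_of_ne (hne i hi) _ _
  have hγ : ∀ i ∈ A, Function.update (fun i => ext (γ i) 0) m (ext k₀ (-1)) i = ext (γ i) 0 :=
    fun i hi => Function.update_of_ne (hne i hi) _ _
  have h' := h.add G h1 h2
  refine ⟨fun i hi b hb => ?_, fun χ i hi => ?_, fun χ i hi => ?_⟩
  · rcases hi with rfl | hi
    · rw [Function.update_self] at hb
      exact hw b hb
    · rw [hu i hi] at hb
      exact h.supp i hi b hb
  · rcases hi with rfl | hi
    · obtain ⟨p, hp1, hp2, -⟩ := h.exists_proj hA (S.res G h1 h2 χ)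
      refine ⟨(S.a (S.res G h1 h2 χ) k₀ / (χ none : K)) • (p.map (↑) : Matrix ι ι K).mulVec w,
        fun b => ?_, ?_⟩
      · have := f1_div_mem h1 h2 χ (hB.gen _ _ (f1_row hp1 b))
        convert this using 1
        show _ / _ * ((fun c => (p b c : K)) ⬝ᵥ w) = _
        ring
      · rw [Function.update_self, Function.update_self, S.a_add_ext, zpow_neg_one,
          ← div_eq_mul_inv, ← smul_sub, ← neg_sub]
        refine Submodule.smul_mem _ _ (neg_mem (Submodule.span_mono ?_ (hp2 w)))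
        rintro _ ⟨j, hj, rfl⟩
        exact ⟨j, ⟨Set.mem_insert_of_mem _ hj, hwt j hj⟩, hu j hj⟩
    · obtain ⟨f, hf, hf'⟩ := h'.f χ i hi
      refine ⟨f, hf, ?_⟩
      rw [hu i hi, hγ i hi]
      refine Submodule.span_mono ?_ hf'
      rintro _ ⟨j, hj, rfl⟩
      exact ⟨j, ⟨Set.mem_insert_of_mem _ hj.1, hj.2⟩, hu j hj.1⟩
  · rcases hi with rfl | hi
    · obtain ⟨φ, hφ, e⟩ := hB.mem (S.res G h1 h2 χ) (χ none) (χ none).2
      refine ⟨φ, fun b => S.O_le_add G h1 h2 χ (hφ.1 b), fun j hj hji _ => ?_, ?_⟩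
      · have hj' : j ∈ A := hj.resolve_left hji
        rw [hu j hj']
        exact hφ.2 j hj'
      · rw [Function.update_self, Function.update_self, S.a_add_ext, zpow_neg_one, mul_right_comm,
          ← e]
        exact mul_inv_cancel₀ (Sys.Sys1_ne _ χ none)
    · obtain ⟨g, hg, hg', hg''⟩ := h'.g χ i hi
      refine ⟨g, hg, fun j hj hji hle => ?_, ?_⟩
      · have hj' : j ∈ A := hj.resolve_left fun e => absurd (hwt i hi) (by rw [← e]; omega)
        rw [hu j hj']
        exact hg' j hj' hji hle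
      · rw [hu i hi, hγ i hi]
        exact hg''

theorem f1_sum_s {R : Type} [AddCommMonoid R] [Fintype s] (g : ι → R)
    (hg : ∀ b, b ∉ s → g b = 0) : ∑ b, g b = ∑ c : s, g c := by
  classical
  rw [← Finset.sum_subtype (Finset.univ.filter (· ∈ s)) (by simp) g]
  exact (Finset.sum_subset (Finset.filter_subset _ _) fun b _ hb => hg b (by simpa using hb)).symm

theorem f1_rows {k q : Type} [Field k] [Fintype q] (N : Matrix ι q k) {r : ℕ} (hr : N.rank = r) :
    ∃ g : Fin r → ι, ∀ a, ∃ β : Fin r → k, ∑ j, β j • N (g j) = N a := by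
  rw [Matrix.rank_eq_finrank_span_row] at hr
  subst hr
  obtain ⟨f, hf, hf', -⟩ := Submodule.exists_fun_fin_finrank_span_eq k (Set.range N.row)
  choose g hg using hf
  refine ⟨g, fun a => ?_⟩
  have : N a ∈ Submodule.span k (Set.range f) := by
    rw [hf']
    exact Submodule.subset_span ⟨a, rfl⟩
  obtain ⟨β, hβ⟩ := (Submodule.mem_span_range_iff_exists_fun k).1 this
  refine ⟨β, ?_⟩
  rw [← hβ]
  exact Finset.sum_congr rfl fun j _ => by rw [← hg j]; rfl

theorem f1_fib {O O' q : Type} [CommRing O] [CommRing O'] [Algebra O O'] (𝔭 : Ideal O) [𝔭.IsPrime]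
    [Fintype q] (e : q → ι) (p : Matrix ι ι O) (Y : ι → O')
    (hY : ∀ i, Y i = ∑ c : q, p i (e c) • Y (e c)) {r : ℕ}
    (hr : ((p.submatrix id e).map (algebraMap O 𝔭.ResidueField)).rank = r) :
    ∃ g : Fin r → ι, ∀ φ : ι → O, ∃ t, t ∉ 𝔭 ∧ ∃ c : Fin r → O,
      t • (∑ a, φ a • Y a) - ∑ j, c j • Y (g j) ∈ 𝔭.map (algebraMap O O') := by
  obtain ⟨g, hg⟩ := f1_rows _ hr
  choose β hβ using hg
  refine ⟨g, fun φ => ?_⟩
  obtain ⟨t, ht, c, hc⟩ := gs_den 𝔭 fun j => ∑ a, algebraMap O 𝔭.ResidueField (φ a) * β a j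
  refine ⟨t, ht, c, ?_⟩
  have hψ : ∀ c' : q, t * ∑ a, φ a * p a (e c') - ∑ j, c j * p (g j) (e c') ∈ 𝔭 := by
    intro c'
    rw [← Ideal.algebraMap_residueField_eq_zero]
    have h1 : ∀ a, algebraMap O 𝔭.ResidueField (p a (e c')) =
        ∑ j, β a j * algebraMap O 𝔭.ResidueField (p (g j) (e c')) := fun a => by
      have := congrFun (hβ a) c'
      simp only [Finset.sum_apply, Pi.smul_apply, smul_eq_mul, Matrix.map_apply,
        Matrix.submatrix_apply, id] at this
      exact this.symm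
    simp only [map_sub, map_mul, map_sum, hc]
    rw [sub_eq_zero, Finset.sum_congr rfl fun a _ => by rw [h1 a]]
    simp only [Finset.mul_sum, Finset.sum_mul]
    rw [Finset.sum_comm]
    exact Finset.sum_congr rfl fun j _ => Finset.sum_congr rfl fun a _ => by ring
  have e1 : t • (∑ a, φ a • Y a) - ∑ j, c j • Y (g j) =
      ∑ c' : q, (t * ∑ a, φ a * p a (e c') - ∑ j, c j * p (g j) (e c')) • Y (e c') := by
    rw [Finset.sum_congr rfl fun a _ => by rw [hY a],
      Finset.sum_congr (s₁ := (Finset.univ : Finset (Fin r))) rfl fun j _ => by rw [hY (g j)]]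
    simp only [sub_smul, Finset.sum_sub_distrib, Finset.smul_sum, Finset.sum_smul, Finset.mul_sum,
      mul_smul]
    rw [Finset.sum_comm, Finset.sum_comm (s := (Finset.univ : Finset (Fin r)))]
  rw [e1]
  refine Ideal.sum_mem _ fun c' _ => ?_
  rw [Algebra.smul_def]
  exact Ideal.mul_mem_right _ _ (Ideal.mem_map_of_mem _ (hψ c'))

theorem f1_coe_incl {O O' : Subalgebra T K} (hle : O ≤ O') (x : O) :
    (((Subalgebra.inclusion hle).toRingHom x : O') : K) = x := rfl

/-- The new chart `O' = O[g / b]`.  Over a prime where some `φ ⬝ᵥ w / β` is a unit the fibre is at most a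
point: with `c g = φ_g ⬝ᵥ w / β` one has `c b ∉ 𝔭` and `c b • (g / b) = c g`.  Over the other primes the
elements `g / b` lie in the span of the images `a ^ k₀ (p w)_i / b` of the rows of the projection `p`, a space
of dimension `≤ r` over the residue field which contains `1`, so the fibre has dimension `≤ r - 1`
(`fibre_height_le`, `Small.fibre`; if `n < r` that set is empty). -/
theorem Blk.small [IsNoetherianRing T] (h : PFlag T S s u wt γ A) (hA : A.Finite) {w : ι → K}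
    (hw : ∀ b, w b ≠ 0 → b ∈ s) {G : Finset K} {k₀ : σ → ℤ} (hB : Blk T S u A w G k₀)
    (h1 : G.Nonempty) (h2 : (0 : K) ∉ G) (β : S.Chart → K) (hβ : ∀ χ, β χ ≠ 0)
    (hJ : ∀ χ φ, Perp T S χ u A φ → (φ ⬝ᵥ w) / β χ ∈ S.O T χ)
    (hs : ∀ χ, Small n (S.U 𝔶 χ))
    (hz : ∀ χ, Small (n - (s.ncard - A.ncard))
      {𝔓 ∈ S.U 𝔶 χ | ∀ φ, Perp T S χ u A φ → ¬ S.Nv χ 𝔓 ((φ ⬝ᵥ w) / β χ)}) :
    ∀ χ, Small n ((S.add G h1 h2).U 𝔶 χ) := by
  classical
  intro χ'
  set χ := S.res G h1 h2 χ' with hχ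
  have : Fintype s := Fintype.ofFinite s
  have : IsNoetherianRing (S.O T χ) := S.O_noeth χ
  have : IsNoetherianRing ((S.add G h1 h2).O T χ') := (S.add G h1 h2).O_noeth χ'
  let : Algebra (S.O T χ) ((S.add G h1 h2).O T χ') :=
    (Subalgebra.inclusion (S.O_le_add G h1 h2 χ')).toRingHom.toAlgebra
  have hcoe : ∀ x : S.O T χ,
      ((algebraMap (S.O T χ) ((S.add G h1 h2).O T χ') x : (S.add G h1 h2).O T χ') : K) = x :=
    fun x => f1_coe_incl _ x
  have hsm : ∀ (x : S.O T χ) (y : (S.add G h1 h2).O T χ'),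
      ((x • y : (S.add G h1 h2).O T χ') : K) = x * y := fun x y => by
    rw [Algebra.smul_def, MulMemClass.coe_mul, hcoe]
  have hb0 : (χ' none : K) ≠ 0 := Sys.Sys1_ne _ χ' none
  have ha0 := S.a_ne χ k₀
  have hβ0 := hβ χ
  let ρ : G → (S.add G h1 h2).O T χ' := fun g =>
    ⟨g / (χ' none : K), f1_div_mem h1 h2 χ' (Submodule.subset_span g.2)⟩
  have hρ : Algebra.adjoin (S.O T χ) (Set.range ρ) = ⊤ := by
    rw [eq_top_iff]
    rintro ⟨x, hx⟩ -
    refine Algebra.adjoin_induction (p := fun x hx =>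
      (⟨x, hx⟩ : (S.add G h1 h2).O T χ') ∈ Algebra.adjoin (S.O T χ) (Set.range ρ))
      ?_ (fun t => ?_) (fun x y _ _ hx hy => add_mem hx hy) (fun x y _ _ hx hy => mul_mem hx hy) hx
    · rintro _ ⟨_ | j, g, hg, rfl⟩
      · exact Algebra.subset_adjoin ⟨⟨g, hg⟩, rfl⟩
      · exact Subalgebra.algebraMap_mem _
          (⟨g / (χ j : K), Algebra.subset_adjoin ⟨j, g, hg, rfl⟩⟩ : S.O T χ)
    · exact Subalgebra.algebraMap_mem _ (algebraMap T (S.O T χ) t)
  set Zz := {𝔓 ∈ S.U 𝔶 χ | ∀ φ, Perp T S χ u A φ → ¬ S.Nv χ 𝔓 ((φ ⬝ᵥ w) / β χ)} with hZz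
  have hU : ∀ 𝔓 ∈ (S.add G h1 h2).U 𝔶 χ',
      PrimeSpectrum.comap (algebraMap (S.O T χ) ((S.add G h1 h2).O T χ')) 𝔓 ∈ S.U 𝔶 χ :=
    fun 𝔓 h𝔓 => (S.comap_mem_U G h1 h2 𝔶 χ' 𝔓).1 h𝔓
  -- the primes over which some `φ ⬝ᵥ w / β` is a unit
  have hZ1 : Small (n + 0) {𝔓 ∈ (S.add G h1 h2).U 𝔶 χ' |
      PrimeSpectrum.comap (algebraMap (S.O T χ) ((S.add G h1 h2).O T χ')) 𝔓 ∉ Zz} := by
    refine (hs χ).fibre ⊥ 0 fun 𝔓 h𝔓 => ⟨bot_le, hU 𝔓 h𝔓.1, ?_⟩
    have hc : ∀ g : G, (g : K) / (S.a χ k₀ * β χ) ∈ S.O T χ := by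
      intro g
      obtain ⟨φ, hφ, e⟩ := hB.mem χ g g.2
      rw [e, mul_div_mul_left _ _ ha0]
      exact hJ χ φ hφ
    let c : G → S.O T χ := fun g => ⟨_, hc g⟩
    have hcb : ∀ g : G, c (χ' none) • ρ g = algebraMap _ _ (c g) := by
      intro g
      apply Subtype.ext
      show (χ' none : K) / (S.a χ k₀ * β χ) * (g / (χ' none : K)) = g / (S.a χ k₀ * β χ)
      field_simp
    have hcn : c (χ' none) ∉
        𝔓.asIdeal.comap (algebraMap (S.O T χ) ((S.add G h1 h2).O T χ')) := by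
      intro hcn
      have hall : ∀ g : G,
          c g ∈ 𝔓.asIdeal.comap (algebraMap (S.O T χ) ((S.add G h1 h2).O T χ')) := by
        intro g
        rw [Ideal.mem_comap, ← hcb, Algebra.smul_def]
        exact Ideal.mul_mem_right _ _ hcn
      refine h𝔓.2 ⟨hU 𝔓 h𝔓.1, fun φ hφ ⟨hm, hn⟩ => hn ?_⟩
      obtain ⟨lam, hlam⟩ := Submodule.mem_span_finset'.1 (hB.gen χ φ hφ)
      have e : (⟨_, hm⟩ : S.O T χ) = ∑ g : G, lam g * c g := by
        apply Subtype.ext
        push_cast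
        show φ ⬝ᵥ w / β χ = ∑ g : G, (lam g : K) * ((g : K) / (S.a χ k₀ * β χ))
        rw [← mul_div_mul_left _ _ ha0, ← hlam, Finset.sum_div]
        refine Finset.sum_congr rfl fun g _ => ?_
        show (lam g : K) * g / _ = _
        ring
      rw [e]
      exact Ideal.sum_mem _ fun g _ => Ideal.mul_mem_left _ _ (hall g)
    refine fibre_height_le ⊥ ρ hρ 𝔓.asIdeal bot_le Fin.elim0 fun g =>
      ⟨c (χ' none), hcn, c g, Fin.elim0, ?_⟩
    rw [hcb]
    simp
  -- the other primes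
  have hZ2 : Small (n - (s.ncard - A.ncard) + (s.ncard - A.ncard))
      {𝔓 ∈ (S.add G h1 h2).U 𝔶 χ' |
        PrimeSpectrum.comap (algebraMap (S.O T χ) ((S.add G h1 h2).O T χ')) 𝔓 ∈ Zz} := by
    refine (hz χ).fibre ⊥ _ fun 𝔓 h𝔓 => ⟨bot_le, h𝔓.2, ?_⟩
    obtain ⟨p, hp1, hp2, hp3⟩ := h.exists_proj hA χ
    let Y : ι → (S.add G h1 h2).O T χ' := fun i =>
      ⟨_, f1_div_mem h1 h2 χ' (hB.gen _ _ (f1_row hp1 i))⟩
    have hYv : ∀ i, (Y i : K) =
        S.a χ k₀ / (χ' none : K) * (p.map (↑) : Matrix ι ι K).mulVec w i := by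
      intro i
      show S.a χ k₀ * ((fun c => (p i c : K)) ⬝ᵥ w) / _ = _ * ((fun c => (p i c : K)) ⬝ᵥ w)
      ring
    have hdot : ∀ φ, Perp T S χ u A φ →
        S.a χ k₀ * (φ ⬝ᵥ w) / (χ' none : K) = ∑ a, φ a * (Y a : K) := by
      intro φ hφ
      have := f1_dot_span hφ.2 (hp2 w)
      rw [dotProduct_sub, sub_eq_zero] at this
      rw [this, dotProduct, Finset.mul_sum, Finset.sum_div]
      refine Finset.sum_congr rfl fun a _ => ?_
      rw [hYv]
      ring
    have hY : ∀ i, Y i = ∑ c : s, p i c • Y c := by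
      intro i
      apply Subtype.ext
      have := hdot _ (f1_row hp1 i)
      rw [f1_sum_s (s := s)] at this
      · push_cast
        exact this
      · intro b hb
        have h3 := f1_supp_span h (hp2 w) hb
        have h4 : w b = 0 := by
          by_contra h5
          exact hb (hw b h5)
        rw [Pi.sub_apply, h4, zero_sub, neg_eq_zero] at h3
        rw [hYv, h3, mul_zero, mul_zero]
    obtain ⟨g, hg⟩ := f1_fib
      (𝔓.asIdeal.comap (algebraMap (S.O T χ) ((S.add G h1 h2).O T χ'))) ((↑) : s → ι) p Y hY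
      (r := s.ncard - A.ncard) (by
        have := hp3 (𝔓.asIdeal.comap (algebraMap (S.O T χ) ((S.add G h1 h2).O T χ')))
        omega)
    refine fibre_height_le ⊥ ρ hρ 𝔓.asIdeal bot_le (fun j => Y (g j)) fun x => ?_
    obtain ⟨φ, hφ, e⟩ := hB.mem χ x x.2
    obtain ⟨t, ht, c, hc⟩ := hg fun a => ⟨φ a, hφ.1 a⟩
    refine ⟨t, ht, 0, c, ?_⟩
    have e2 : ρ x = ∑ a, (⟨φ a, hφ.1 a⟩ : S.O T χ) • Y a := by
      apply Subtype.ext
      push_cast
      show (x : K) / (χ' none : K) = ∑ a, φ a * (Y a : K)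
      rw [← hdot φ hφ, ← e]
    rw [map_zero, zero_add, e2, sup_bot_eq]
    exact hc
  by_cases hr : s.ncard - A.ncard ≤ n
  · refine (Small.union (hZ1.mono le_rfl le_rfl) (hZ2.mono (by omega) le_rfl)).mono le_rfl
      fun 𝔓 h𝔓 => ?_
    by_cases h3 : PrimeSpectrum.comap (algebraMap (S.O T χ) ((S.add G h1 h2).O T χ')) 𝔓 ∈ Zz
    · exact Or.inr ⟨h𝔓, h3⟩
    · exact Or.inl ⟨h𝔓, h3⟩
  · have h3 := hz χ
    rw [show n - (s.ncard - A.ncard) = 0 by omega, small_zero_iff] at h3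
    refine hZ1.mono le_rfl fun 𝔓 h𝔓 => ⟨h𝔓, ?_⟩
    rw [hZz, h3]
    exact Set.notMem_empty _

theorem f1_small_bot {O : Type} [CommRing O] [IsDomain O] :
    Small 1 {𝔭 : PrimeSpectrum O | 𝔭.asIdeal = ⊥} := by
  refine ⟨{⊥}, fun 𝔭 h => ⟨⊥, Finset.mem_singleton_self _, bot_le, ?_⟩⟩
  have h' : 𝔭.asIdeal = ⊥ := h
  rw [h', Ideal.map_bot, Ideal.height_bot]
  exact zero_lt_one

/-- a generic constant vector (`exists_generic` for the projections `p`, with one more condition over the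
field `K` (`small_field`) that forces `p w ≠ 0`). -/
theorem PFlag.exists_vec [IsNoetherianRing T] (hC : Consts T) (h : PFlag T S s u wt γ A)
    (hA : A.Finite) (hs : ∀ χ, Small n (S.U 𝔶 χ))
    (hx : ∃ x : ι → K, (∀ b, x b ≠ 0 → b ∈ s) ∧ x ∉ Submodule.span K (u '' A)) :
    ∃ w : ι → K, (∀ b, w b ≠ 0 → b ∈ s) ∧ (∀ b, w b ∈ Set.range (algebraMap T K)) ∧
      w ∉ Submodule.span K (u '' A) ∧ ∀ χ, Small (n - (s.ncard - A.ncard))
        {𝔓 ∈ S.U 𝔶 χ | ∀ φ, Perp T S χ u A φ → ¬ S.Nv χ 𝔓 ((φ ⬝ᵥ w) / 1)} := by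
  classical
  have : Fintype s := Fintype.ofFinite s
  have : ∀ t : S.Chart × Bool, IsNoetherianRing (S.O T t.1) := fun t => S.O_noeth t.1
  choose p hp1 hp2 hp3 using fun χ => h.exists_proj hA χ
  obtain ⟨x, hx1, hx2⟩ := hx
  obtain ⟨l, hl⟩ := exists_generic hC (fun t : S.Chart × Bool => S.O T t.1) s (fun _ => ι)
    (fun t => if t.2 then n else 1) (fun t => if t.2 then s.ncard - A.ncard else 1)
    (fun t => if t.2 then S.U 𝔶 t.1 else {𝔭 | 𝔭.asIdeal = ⊥})
    (by
      rintro ⟨χ, _ | _⟩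
      · exact f1_small_bot
      · exact hs χ)
    (fun t => (p t.1).submatrix id ((↑) : s → ι)) (fun _ _ => 0)
    (by
      rintro ⟨χ, _ | _⟩ 𝔭 h𝔭
      · have h' : 𝔭.asIdeal = ⊥ := h𝔭
        show 1 ≤ _
        rw [Nat.one_le_iff_ne_zero]
        intro h0
        obtain ⟨g, hg⟩ := f1_rows _ h0
        refine hx2 ?_
        have : ((p χ).map (↑) : Matrix ι ι K).mulVec x = 0 := by
          funext a
          refine Finset.sum_eq_zero fun c _ => ?_
          by_cases hc : c ∈ s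
          · obtain ⟨β, hβ⟩ := hg a
            have := congrFun hβ.symm ⟨c, hc⟩
            simp only [Matrix.map_apply, Matrix.submatrix_apply, id, Finset.univ_eq_empty,
              Finset.sum_empty, Pi.zero_apply] at this
            rw [Ideal.algebraMap_residueField_eq_zero, h', Ideal.mem_bot] at this
            simp [this]
          · have : x c = 0 := by
              by_contra h1
              exact hc (hx1 c h1)
            simp [this]
        have h2 := hp2 χ x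
        rwa [this, sub_zero] at h2
      · have := hp3 χ 𝔭.asIdeal
        show s.ncard - A.ncard ≤ _
        dsimp only
        omega)
  set w : ι → K := fun b => if hb : b ∈ s then algebraMap T K (l ⟨b, hb⟩) else 0 with hw
  have key : ∀ χ a, (fun c => (p χ a c : K)) ⬝ᵥ w =
      ((0 + ∑ c : s, (p χ).submatrix id ((↑) : s → ι) a c * algebraMap T (S.O T χ) (l c) :
        S.O T χ) : K) := by
    intro χ a
    rw [zero_add, dotProduct, f1_sum_s (s := s) _ fun b hb => by simp [hw, hb]]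
    push_cast
    refine Finset.sum_congr rfl fun c _ => ?_
    simp [hw]
  refine ⟨w, fun b hb => ?_, fun b => ?_, fun hw' => ?_, fun χ => ?_⟩
  · by_contra h1
    exact hb (dif_neg h1)
  · by_cases hb : b ∈ s
    · exact ⟨l ⟨b, hb⟩, by simp [hw, hb]⟩
    · exact ⟨0, by simp [hw, hb]⟩
  · obtain ⟨χ⟩ := S.nonempty_chart
    have h0 := small_zero_iff.1 (hl (χ, false))
    refine Set.eq_empty_iff_forall_notMem.1 h0 ⟨⊥, Ideal.isPrime_bot⟩ ⟨rfl, fun a => ?_⟩
    have := f1_dot_span (f1_row (hp1 χ) a).2 hw'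
    rw [key] at this
    exact Ideal.mem_bot.2 (Subtype.ext this)
  · refine (hl (χ, true)).mono le_rfl fun 𝔓 h𝔓 => ⟨h𝔓.1, fun a => ?_⟩
    have := h𝔓.2 _ (f1_row (hp1 χ) a)
    rw [div_one, key] at this
    by_contra h1
    exact this ⟨Subtype.property _, h1⟩

/-- merging flags of the homogeneous pieces (truncate `g` to its degree). -/
theorem PFlag.merge (deg : ι → ℕ) (e : M → ℕ)
    (h : ∀ j, PFlag T S {b | deg b = j} u wt γ {i | i ∈ A ∧ e i = j}) :
    PFlag T S Set.univ u wt γ A := by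
  exact f1_merge deg e h

theorem PFlag.reindex (h : PFlag T S s u wt γ A) {M' : Type} (c : M' → M)
    (hc : Function.Injective c) (hA : Set.range c = A) :
    PFlag T S s (u ∘ c) (wt ∘ c) (γ ∘ c) Set.univ := by
  exact f1_reindex h c hc hA

theorem Flag.restrict (h : Flag T S u wt γ) (p : ι → Prop) [DecidablePred p] (q : M → Prop)
    (hpq : ∀ i b, u i b ≠ 0 → (p b ↔ q i)) :
    Flag T S (fun (i : {i // q i}) (b : {b // p b}) => u i.1 b.1) (fun i => wt i.1)
      fun i => γ i.1 := by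
  exact f1_restrict h p q hpq

theorem Flag.std (S : Sys K σ) (ι : Type) [Fintype ι] [DecidableEq ι] :
    Flag T S (fun b : ι => (Pi.single b 1 : ι → K)) (fun _ => 0) fun _ => 0 := by
  exact f1_std S ι

theorem Flag.card [Fintype M] (h : Flag T S u wt γ) : Fintype.card M = Fintype.card ι := by
  exact f1_card h

theorem Flag.pull (h : Flag T S u wt γ) {K' : Type} [Field K'] [Algebra K K'] [Algebra T K']
    [IsScalarTower T K K'] {r : ℕ} {v : Fin r → K'} (hv : AlgebraicIndependent K v) :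
    Flag T (S.prod v hv) (fun i b => algebraMap K K' (u i b)) wt fun i => ext (γ i) 0 := by
  exact f1_pull h hv

theorem Flag.pow [Fintype M] (h : Flag T S u wt γ) (ℓ : ℕ) [NeZero ℓ] :
    Flag T S (fun (i : ZMod ℓ → M) (b : ZMod ℓ → ι) => ∏ t, u (i t) (b t)) (powW ℓ wt)
      fun i => ∑ t, γ (i t) := by
  exact f1_pow h ℓ

/-- the graded pieces of the lattice `(L k) ^ ι` (compare two stable families in `M → K` on charts). -/
theorem Flag.gr [IsNoetherianRing T] [Fintype M] (h : Flag T S u wt γ) :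
    ∀ᶠ k in atTop, ∀ (w : ℕ) (z : M → K), (∀ i, z i ≠ 0 → wt i = w) →
      ((∀ i, z i ∈ S.L T (k + γ i)) ↔ ∃ x : ι → K, (∀ b, x b ∈ S.L T k) ∧
        x - ∑ i, z i • u i ∈ Submodule.span K (u '' {i | wt i < w})) := by
  exact f1_gr h

end Crest.Agent.R188
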