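import Crest.Agent.R188.Defs

/-!
# R188 / PowAux38

Auxiliary lemmas for `Pow`.
-/

set_option autoImplicit false
set_option linter.unusedSectionVars false

noncomputable section

namespace Crest.Agent.R188

open Crest.Agent.R183 (Zc Bd mact gr Htpy)

variable {R : Type} [CommRing R] {N : Type} [AddCommGroup N] [Module R N]

theorem pw38_mact_apply {ι ι' : Type} [Fintype ι'] (P : Matrix ι ι' R) (v : ι' → N) (b : ι) :
    mact P N v b = ∑ b', P b b' • v b' := rfl

theorem pw38_mact_mul {ι ι' ι'' : Type} [Fintype ι'] [Fintype ι''] (P : Matrix ι ι' R)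
    (Q : Matrix ι' ι'' R) (v : ι'' → N) : mact (P * Q) N v = mact P N (mact Q N v) := by
  funext b
  simp only [pw38_mact_apply, Matrix.mul_apply, Finset.sum_smul, Finset.smul_sum, mul_smul]
  exact Finset.sum_comm

theorem pw38_mact_one {ι : Type} [Fintype ι] [DecidableEq ι] (v : ι → N) :
    mact (1 : Matrix ι ι R) N v = v := by
  funext b
  simp [pw38_mact_apply, Matrix.one_apply]

theorem pw38_mem_gr {ι : Type} {deg : ι → ℕ} {i : ℤ} {L : Submodule R N} {v : ι → N} :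
    v ∈ gr deg i L ↔ ∀ b, v b ∈ L ∧ ((deg b : ℤ) ≠ i → v b = 0) := by
  simp only [gr, Submodule.mem_pi, Set.mem_univ, forall_true_left]
  refine forall_congr' fun b => ?_
  split_ifs with h
  · simp [h]
  · simp only [Submodule.mem_bot, ne_eq, h, not_false_eq_true, forall_true_left]
    exact ⟨fun h0 => ⟨h0 ▸ L.zero_mem, h0⟩, fun h0 => h0.2⟩

theorem pw38_gr_map {ι : Type} (deg : ι → ℕ) (i : ℤ) {N' : Type} [AddCommGroup N'] [Module R N']
    (f : N →ₗ[R] N') (L : Submodule R N) :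
    (gr deg i L).map (f.compLeft ι) = gr deg i (L.map f) := by
  classical
  ext v
  rw [Submodule.mem_map, pw38_mem_gr]
  constructor
  · rintro ⟨u, hu, rfl⟩ b
    rw [pw38_mem_gr] at hu
    exact ⟨⟨u b, (hu b).1, rfl⟩, fun hb => by simp [(hu b).2 hb]⟩
  · intro h
    choose x hx hx' using fun b => (h b).1
    refine ⟨fun b => if (deg b : ℤ) = i then x b else 0, pw38_mem_gr.2 fun b => ?_,
      funext fun b => ?_⟩
    · by_cases hb : (deg b : ℤ) = i
      · simpa [hb] using hx b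
      · simp [hb]
    · by_cases hb : (deg b : ℤ) = i
      · simpa [hb] using hx' b
      · simp [hb, (h b).2 hb]

theorem pw38_mact_compLeft {ι : Type} [Fintype ι] (P : Matrix ι ι R) {N' : Type} [AddCommGroup N']
    [Module R N'] (f : N →ₗ[R] N') (v : ι → N) :
    f.compLeft ι (mact P N v) = mact P N' (f.compLeft ι v) := by
  funext b
  simp [pw38_mact_apply]

theorem pw38_mact_mem_gr {ι ι' : Type} [Fintype ι'] {P : Matrix ι ι' R} {deg : ι → ℕ}
    {deg' : ι' → ℕ} {i j : ℤ} (h : ∀ b b', P b b' ≠ 0 → (deg' b' : ℤ) = i → (deg b : ℤ) = j)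
    {L : Submodule R N} {v : ι' → N} (hv : v ∈ gr deg' i L) : mact P N v ∈ gr deg j L := by
  rw [pw38_mem_gr] at hv ⊢
  refine fun b => ⟨L.sum_mem fun b' _ => L.smul_mem _ (hv b').1, fun hb => ?_⟩
  refine Finset.sum_eq_zero fun b' _ => ?_
  by_cases h1 : P b b' = 0
  · rw [h1, zero_smul]
  · rw [(hv b').2 fun h2 => hb (h b b' h1 h2), smul_zero]

/-- invertible matrices of degree zero. -/
theorem pw38_piso {κ κ' : Type} [Fintype κ] [DecidableEq κ] [Fintype κ'] [DecidableEq κ']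
    {w : κ → ℕ} {w' : κ' → ℕ} {d : Matrix κ κ R} {d' : Matrix κ' κ' R} {A : Matrix κ' κ R}
    {B : Matrix κ κ' R} (hA : ∀ b' b, A b' b ≠ 0 → w' b' = w b) (h1 : A * B = 1) (h2 : B * A = 1)
    (hc : A * d = d' * A) :
    PIso (mact A N) (mact d N) (fun i => gr w i (⊤ : Submodule R N)) ⊥ (mact d' N)
      (fun i => gr w' i (⊤ : Submodule R N)) ⊥ := by
  have hm : ∀ (i : ℤ) v, v ∈ gr w i (⊤ : Submodule R N) → mact A N v ∈ gr w' i ⊤ := fun i v hv =>
    pw38_mact_mem_gr (fun b b' h e => by rw [hA b b' h, e]) hv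
  refine ⟨fun i => ?_, fun i => ?_, fun i x _ => ?_⟩
  · rw [Pi.bot_apply, sup_bot_eq]
    refine le_antisymm (Submodule.map_le_iff_le_comap.2 (hm i)) fun x hx => ?_
    have hv : (fun b => if (w b : ℤ) = i then mact B N x b else 0) ∈ gr w i (⊤ : Submodule R N) :=
      pw38_mem_gr.2 fun b => ⟨trivial, fun hb => if_neg hb⟩
    refine ⟨_, hv, funext fun b' => ?_⟩
    by_cases hb : (w' b' : ℤ) = i
    · conv_rhs => rw [← pw38_mact_one (R := R) x, ← h1, pw38_mact_mul]
      refine Finset.sum_congr rfl fun b _ => ?_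
      by_cases h0 : A b' b = 0
      · rw [h0, zero_smul, zero_smul]
      · exact congrArg _ (if_pos (by rw [← hA b' b h0, hb]))
    · rw [(pw38_mem_gr.1 (hm i _ hv) b').2 hb, (pw38_mem_gr.1 hx b').2 hb]
  · refine eq_bot_iff.2 fun x hx => ?_
    have h0 : mact A N x = 0 := hx.2
    rw [Submodule.mem_bot, ← pw38_mact_one (R := R) x, ← h2, pw38_mact_mul, h0, map_zero]
  · rw [← pw38_mact_mul, ← pw38_mact_mul, hc, sub_self]
    exact Submodule.zero_mem _

/-- change of coefficients. -/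
theorem pw38_piso_coef {κ : Type} [Fintype κ] (w : κ → ℕ) (d : Matrix κ κ R) {N' : Type}
    [AddCommGroup N'] [Module R N'] (g : N →ₗ[R] N') {U : ℤ → Submodule R (κ → N)}
    {L : Submodule R N'} (hL : LinearMap.range g = L)
    (hU : ∀ i, U i = gr w i (LinearMap.ker g)) :
    PIso (g.compLeft κ) (mact d N) (fun i => gr w i (⊤ : Submodule R N)) U (mact d N')
      (fun i => gr w i L) ⊥ := by
  refine ⟨fun i => ?_, fun i => ?_, fun i x _ => ?_⟩
  · rw [Pi.bot_apply, sup_bot_eq, pw38_gr_map, Submodule.map_top, hL]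
  · ext v
    rw [hU, Submodule.mem_inf, pw38_mem_gr, pw38_mem_gr, Submodule.mem_comap, Pi.bot_apply,
      Submodule.mem_bot, funext_iff]
    exact ⟨fun h b => ⟨h.2 b, (h.1 b).2⟩, fun h => ⟨fun b => ⟨trivial, (h b).2⟩, fun b => (h b).1⟩⟩
  · rw [pw38_mact_compLeft, sub_self]
    exact Submodule.zero_mem _

theorem pw38_gr_bot {κ : Type} (w : κ → ℕ) (i : ℤ) : gr w i (⊥ : Submodule R N) = ⊥ :=
  eq_bot_iff.2 fun _ hv => funext fun b => (pw38_mem_gr.1 hv b).1

theorem pw38_tens_apply {κ ι ι' : Type} [Fintype κ] [DecidableEq κ] (M : κ → Matrix ι ι' R) (t : κ)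
    (b : κ → ι) (b' : κ → ι') :
    tens M b b' = M t (b t) (b' t) * ∏ s ∈ Finset.univ.erase t, M s (b s) (b' s) :=
  (Finset.mul_prod_erase _ (fun s => M s (b s) (b' s)) (Finset.mem_univ t)).symm

theorem pw38_tens_ne {κ ι ι' : Type} [Fintype κ] {M : κ → Matrix ι ι' R} {b : κ → ι} {b' : κ → ι'}
    (h : tens M b b' ≠ 0) (s : κ) : M s (b s) (b' s) ≠ 0 := fun h0 =>
  h (Finset.prod_eq_zero (Finset.mem_univ s) h0)

theorem pw38_tens_neg {κ ι ι' : Type} [Fintype κ] [DecidableEq κ] {M M' : κ → Matrix ι ι' R} (t : κ)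
    (h1 : M t = -M' t) (h2 : ∀ s, s ≠ t → M s = M' s) : tens M = -tens M' := by
  ext b b'
  rw [Matrix.neg_apply, pw38_tens_apply M t, pw38_tens_apply M' t, h1, Matrix.neg_apply, neg_mul]
  congr 2
  exact Finset.prod_congr rfl fun s hs => by rw [h2 s (Finset.ne_of_mem_erase hs)]

theorem pw38_tens_ite {κ ι ι' : Type} [Fintype κ] [DecidableEq κ] (A E : Matrix ι ι' R) (t : κ)
    (b : κ → ι) (b' : κ → ι') : tens (fun s => if s = t then A else E) b b' =
      A (b t) (b' t) * ∏ s ∈ Finset.univ.erase t, E (b s) (b' s) := by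
  rw [pw38_tens_apply _ t, if_pos rfl]
  congr 1
  exact Finset.prod_congr rfl fun s hs => by rw [if_neg (Finset.ne_of_mem_erase hs)]

theorem pw38_sign {ι : Type} [Fintype ι] [DecidableEq ι] (deg : ι → ℕ) {d : Matrix ι ι R}
    (hd : ∀ b b', d b b' ≠ 0 → Odd (deg b + deg b')) :
    d * Matrix.diagonal (fun b => (-1 : R) ^ deg b) =
      -(Matrix.diagonal (fun b => (-1 : R) ^ deg b) * d) := by
  ext b b'
  rw [Matrix.neg_apply, Matrix.mul_diagonal, Matrix.diagonal_mul]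
  by_cases h : d b b' = 0
  · simp [h]
  · have h1 := hd b b' h
    rcases Nat.even_or_odd (deg b) with h2 | h2
    · rw [h2.neg_one_pow, ((Nat.odd_add'.1 h1).2 h2).neg_one_pow]
      ring
    · rw [h2.neg_one_pow, ((Nat.odd_add.1 h1).1 h2).neg_one_pow]
      ring

theorem pw38_sign_sq {ι : Type} [Fintype ι] [DecidableEq ι] (deg : ι → ℕ) :
    Matrix.diagonal (fun b => (-1 : R) ^ deg b) * Matrix.diagonal (fun b => (-1 : R) ^ deg b) = 1 := by
  rw [Matrix.diagonal_mul_diagonal, ← Matrix.diagonal_one]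
  congr 1
  funext b
  rw [← mul_pow]
  simp

variable {ℓ : ℕ} [NeZero ℓ]

theorem pw38_slot_ne {ι : Type} [DecidableEq ι] {deg : ι → ℕ} {d : Matrix ι ι R} {t : ZMod ℓ}
    {b b' : ZMod ℓ → ι} (h : slot ℓ deg d t b b' ≠ 0) :
    d (b t) (b' t) ≠ 0 ∧ ∀ s, s ≠ t → b s = b' s := by
  refine ⟨by simpa using pw38_tens_ne h t, fun s hs => ?_⟩
  have h1 := pw38_tens_ne h s
  by_contra hcon
  rw [if_neg hs] at h1
  split_ifs at h1
  · exact h1 (Matrix.diagonal_apply_ne _ hcon)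
  · exact h1 (Matrix.one_apply_ne hcon)

theorem pw38_powW {ι : Type} (w : ι → ℕ) {b b' : ZMod ℓ → ι} {t : ZMod ℓ}
    (h : ∀ s, s ≠ t → b s = b' s) : powW ℓ w b + w (b' t) = powW ℓ w b' + w (b t) := by
  unfold powW
  rw [← Finset.add_sum_erase _ (fun s => w (b s)) (Finset.mem_univ t),
    ← Finset.add_sum_erase _ (fun s => w (b' s)) (Finset.mem_univ t),
    Finset.sum_congr rfl fun s hs => by rw [h s (Finset.ne_of_mem_erase hs)]]
  ring

theorem pw38_rot_apply {ι : Type} (v : (ZMod ℓ → ι) → N) (b : ZMod ℓ → ι) :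
    rot R ℓ ι N v b = v fun t => b (t + 1) := rfl

theorem pw38_rot_mact {ι ι' : Type} [Fintype ι] {P : Matrix (ZMod ℓ → ι') (ZMod ℓ → ι) R}
    (h : ∀ b b', P (fun t => b (t + 1)) (fun t => b' (t + 1)) = P b b') :
    rot R ℓ ι' N ∘ₗ mact P N = mact P N ∘ₗ rot R ℓ ι N := by
  ext1 v
  funext b
  simp only [LinearMap.comp_apply, pw38_rot_apply, pw38_mact_apply]
  refine (Fintype.sum_equiv (Equiv.arrowCongr (Equiv.addRight (1 : ZMod ℓ)).symm (Equiv.refl ι))
    _ _ fun b' => ?_).symm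
  rw [← h b b']
  rfl

theorem pw38_rot_gr {ι : Type} (w : ι → ℕ) (i : ℤ) (L : Submodule R N) :
    (gr (powW ℓ w) i L).map (rot R ℓ ι N) ≤ gr (powW ℓ w) i L := by
  rintro _ ⟨v, hv, rfl⟩
  refine pw38_mem_gr.2 fun b => ⟨(pw38_mem_gr.1 hv _).1, fun hb => (pw38_mem_gr.1 hv _).2 ?_⟩
  have e : powW ℓ w (fun t => b (t + 1)) = powW ℓ w b :=
    Fintype.sum_equiv (Equiv.addRight (1 : ZMod ℓ)) _ _ fun _ => rfl
  rwa [e]

end Crest.Agent.R188
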