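import Crest.Agent.R188.Tau
import Crest.Agent.R188.Free
import Crest.Agent.R188.PowAux38

/-!
# R188 / Pow

Tensor powers of free complexes.
-/

set_option autoImplicit false
set_option linter.unusedSectionVars false
set_option linter.unusedVariables false

noncomputable section

namespace Crest.Agent.R188

open Filter
open Crest.Agent.R183 (Zc Bd mact gr Htpy)
open scoped TensorProduct

variable {R : Type} [CommRing R] (ν : AddFn R) {ℓ : ℕ} [NeZero ℓ]
  (N : Type) [AddCommGroup N] [Module R N]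

theorem tens_mul {κ ι ι' ι'' : Type} [Fintype κ] [DecidableEq κ] [Fintype ι']
    (M : κ → Matrix ι ι' R) (M' : κ → Matrix ι' ι'' R) :
    tens M * tens M' = tens fun s => M s * M' s := by
  ext b b''
  simp only [tens, Matrix.mul_apply, Matrix.of_apply, Fintype.prod_sum, Finset.prod_mul_distrib]

theorem tens_one {κ ι : Type} [Fintype κ] [DecidableEq κ] [DecidableEq ι] :
    tens (fun _ : κ => (1 : Matrix ι ι R)) = 1 := by
  ext b b'
  simp only [tens, Matrix.of_apply, Matrix.one_apply, Finset.prod_boole, Finset.mem_univ,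
    forall_true_left, funext_iff]

theorem tour_total (hℓ : Odd ℓ) {s t : ZMod ℓ} (h : s ≠ t) : tour ℓ t s ↔ ¬ tour ℓ s t := by
  have h1 : (t - s).val = ℓ - (s - t).val := by
    rw [← neg_sub s t, ZMod.neg_val, if_neg (sub_ne_zero.2 h)]
  have h2 : (s - t).val ≠ 0 := fun h0 => sub_ne_zero.2 h ((ZMod.val_eq_zero _).1 h0)
  have h3 := ZMod.val_lt (s - t)
  obtain ⟨k, hk⟩ := hℓ
  unfold tour
  omega

section
variable {ι : Type} [Fintype ι] [DecidableEq ι] (deg : ι → ℕ)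

/-- odd operators in different slots anticommute. -/
theorem slot_anticomm (hℓ : Odd ℓ) {d h : Matrix ι ι R}
    (hd : ∀ b b', d b b' ≠ 0 → Odd (deg b + deg b')) (hh : ∀ b b', h b b' ≠ 0 → Odd (deg b + deg b'))
    {s t : ZMod ℓ} (hst : s ≠ t) :
    slot ℓ deg d s * slot ℓ deg h t = -(slot ℓ deg h t * slot ℓ deg d s) := by
  unfold slot
  rw [tens_mul, tens_mul]
  have ht := tour_total hℓ hst
  have hu : ∀ u, u ≠ s → u ≠ t →
      (if u = s then d else if tour ℓ s u then Matrix.diagonal fun b => (-1 : R) ^ deg b else 1) *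
        (if u = t then h else if tour ℓ t u then Matrix.diagonal fun b => (-1 : R) ^ deg b else 1) =
      (if u = t then h else if tour ℓ t u then Matrix.diagonal fun b => (-1 : R) ^ deg b else 1) *
        (if u = s then d else if tour ℓ s u then Matrix.diagonal fun b => (-1 : R) ^ deg b else 1) :=
    fun u h1 h2 => by
      rw [if_neg h1, if_neg h2]
      split_ifs <;> simp
  by_cases hc : tour ℓ t s
  · refine pw38_tens_neg s ?_ fun u h1 => ?_
    · simp only [if_true, if_neg hst, if_pos hc]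
      exact pw38_sign deg hd
    · by_cases h2 : u = t
      · subst h2
        simp only [if_true, if_neg h1, if_neg (ht.1 hc), mul_one, one_mul]
      · exact hu u h1 h2
  · have hc' : tour ℓ s t := not_not.1 fun h0 => hc (ht.2 h0)
    refine pw38_tens_neg t ?_ fun u h2 => ?_
    · simp only [if_true, if_neg hst.symm, if_pos hc']
      rw [pw38_sign deg hh, neg_neg]
    · by_cases h1 : u = s
      · subst h1
        simp only [if_true, if_neg h2, if_neg hc, mul_one, one_mul]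
      · exact hu u h1 h2

theorem slot_mul_self (d h : Matrix ι ι R) (t : ZMod ℓ) :
    slot ℓ deg d t * slot ℓ deg h t = tens fun s => if s = t then d * h else 1 := by
  unfold slot
  rw [tens_mul]
  congr 1
  funext s
  split_ifs
  · rfl
  · exact pw38_sign_sq deg
  · exact one_mul _

theorem powD_deg {d : Matrix ι ι R} (hd : ∀ b b', d b b' ≠ 0 → deg b' = deg b + 1)
    (b b' : ZMod ℓ → ι) (h : powD ℓ deg d b b' ≠ 0) : powW ℓ deg b' = powW ℓ deg b + 1 := by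
  rw [powD, Matrix.sum_apply] at h
  obtain ⟨t, -, ht⟩ := Finset.exists_ne_zero_of_sum_ne_zero h
  obtain ⟨h1, h2⟩ := pw38_slot_ne ht
  have h3 := pw38_powW deg h2
  have h4 := hd _ _ h1
  omega

/-- an entry of `powD` changes at most one slot, by an entry of `d`. -/
theorem powD_ne_zero {d : Matrix ι ι R} (b b' : ZMod ℓ → ι) (h : powD ℓ deg d b b' ≠ 0) :
    ∃ t, d (b t) (b' t) ≠ 0 ∧ ∀ s, s ≠ t → b s = b' s := by
  rw [powD, Matrix.sum_apply] at h
  obtain ⟨t, -, ht⟩ := Finset.exists_ne_zero_of_sum_ne_zero h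
  exact ⟨t, pw38_slot_ne ht⟩

theorem powD_map {S : Type} [CommRing S] (f : R →+* S) (d : Matrix ι ι R) :
    (powD ℓ deg d).map f = powD ℓ deg (d.map f) := by
  ext b b'
  simp only [powD, slot, tens, Matrix.map_apply, Matrix.sum_apply, Matrix.of_apply, map_sum, map_prod]
  refine Finset.sum_congr rfl fun t _ => Finset.prod_congr rfl fun s _ => ?_
  split_ifs
  · rfl
  · by_cases e : b s = b' s <;> simp [e]
  · by_cases e : b s = b' s <;> simp [Matrix.one_apply, e]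

theorem rot_powD (d : Matrix ι ι R) :
    rot R ℓ ι N ∘ₗ mact (powD ℓ deg d) N = mact (powD ℓ deg d) N ∘ₗ rot R ℓ ι N := by
  refine pw38_rot_mact fun b b' => ?_
  simp only [powD, slot, tens, Matrix.sum_apply, Matrix.of_apply]
  refine Fintype.sum_equiv (Equiv.addRight (1 : ZMod ℓ)) _ _ fun t => ?_
  refine Fintype.prod_equiv (Equiv.addRight (1 : ZMod ℓ)) _ _ fun s => ?_
  simp only [Equiv.coe_addRight, add_left_inj, tour, add_sub_add_right_eq_sub]

theorem rot_pow : rot R ℓ ι N ^ ℓ = 1 := by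
  have key : ∀ (k : ℕ) (v : (ZMod ℓ → ι) → N) (b : ZMod ℓ → ι),
      (rot R ℓ ι N ^ k) v b = v fun t => b (t + k) := by
    intro k
    induction k with
    | zero => intro v b; simp
    | succ k ih =>
      intro v b
      rw [pow_succ, Module.End.mul_apply, ih, pw38_rot_apply]
      congr 1
      funext t
      congr 1
      push_cast
      ring
  refine LinearMap.ext fun v => funext fun b => ?_
  rw [key]
  simp

theorem rot_tens {ι' : Type} [Fintype ι'] [DecidableEq ι'] (α : Matrix ι' ι R) :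
    rot R ℓ ι' N ∘ₗ mact (tens fun _ : ZMod ℓ => α) N =
      mact (tens fun _ : ZMod ℓ => α) N ∘ₗ rot R ℓ ι N := by
  refine pw38_rot_mact fun b b' => ?_
  exact Fintype.prod_equiv (Equiv.addRight (1 : ZMod ℓ)) _ _ fun s => rfl

/-- functoriality for maps of degree zero. -/
theorem tens_powD {ι' : Type} [Fintype ι'] [DecidableEq ι'] (deg' : ι' → ℕ) {d : Matrix ι ι R}
    {d' : Matrix ι' ι' R} (α : Matrix ι' ι R) (hα : ∀ b' b, α b' b ≠ 0 → deg' b' = deg b)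
    (hc : α * d = d' * α) :
    (tens fun _ : ZMod ℓ => α) * powD ℓ deg d = powD ℓ deg' d' * tens fun _ : ZMod ℓ => α := by
  rw [powD, powD, Matrix.mul_sum, Matrix.sum_mul]
  refine Finset.sum_congr rfl fun t _ => ?_
  unfold slot
  rw [tens_mul, tens_mul]
  congr 1
  funext s
  split_ifs
  · exact hc
  · ext b' b
    rw [Matrix.mul_diagonal, Matrix.diagonal_mul]
    by_cases h0 : α b' b = 0
    · simp [h0]
    · rw [hα b' b h0, mul_comm]
  · rw [Matrix.mul_one, Matrix.one_mul]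

end

/-- the tensor power as a free complex. -/
def FC.pow (F : FC R) (ℓ : ℕ) [NeZero ℓ] (hℓ : Odd ℓ) : FC R where
  ι := ZMod ℓ → F.ι
  deg := powW ℓ F.deg
  d := powD ℓ F.deg F.d
  d_deg := powD_deg F.deg F.d_deg
  dd := by
    have hd : ∀ b b', F.d b b' ≠ 0 → Odd (F.deg b + F.deg b') := fun b b' h =>
      ⟨F.deg b, by rw [F.d_deg b b' h]; ring⟩
    have h0 : ∀ t, slot ℓ F.deg F.d t * slot ℓ F.deg F.d t = 0 := fun t => by
      ext b b'
      rw [slot_mul_self, pw38_tens_ite, F.dd, Matrix.zero_apply, zero_mul, Matrix.zero_apply]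
    rw [powD, Finset.sum_mul_sum, ← Finset.sum_product']
    refine Finset.sum_ninvolution Prod.swap (fun a => ?_) (fun a ha e => ha ?_) (fun a => by simp)
      fun a => rfl
    · by_cases e : a.1 = a.2
      · simp only [Prod.fst_swap, Prod.snd_swap, e, h0, add_zero]
      · simp only [Prod.fst_swap, Prod.snd_swap]
        rw [slot_anticomm F.deg hℓ hd hd e, neg_add_cancel]
    · have e' : a.2 = a.1 := congrArg Prod.fst e
      rw [e', h0]

theorem FC.pow_act (F : FC R) (hℓ : Odd ℓ) :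
    IsAct ℓ ((F.pow ℓ hℓ).act N) (rot R ℓ F.ι N) ((F.pow ℓ hℓ).G N) ⊥ := by
  exact ⟨rot_pow N, rot_powD N F.deg F.d, fun i => pw38_rot_gr F.deg i ⊤, fun i => by simp⟩

theorem AddFn.adams_eq (F : FC R) (hℓ : Odd ℓ) :
    ν.adams ℓ F N = ν.tau ℓ ((F.pow ℓ hℓ).act N) (rot R ℓ F.ι N) ((F.pow ℓ hℓ).G N) ⊥ := rfl

/-- use `slot ℓ deg H 0`. -/
theorem FC.htpy_pow (F : FC R) (hℓ : Odd ℓ) {y : R} (h : Htpy F.deg F.d y) :
    Htpy (F.pow ℓ hℓ).deg (F.pow ℓ hℓ).d y := by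
  obtain ⟨H, h1, h2⟩ := h
  have hd : ∀ b b', F.d b b' ≠ 0 → Odd (F.deg b + F.deg b') := fun b b' h =>
    ⟨F.deg b, by rw [F.d_deg b b' h]; ring⟩
  have hH : ∀ b b', H b b' ≠ 0 → Odd (F.deg b + F.deg b') := fun b b' h =>
    ⟨F.deg b', by rw [h1 b b' h]; ring⟩
  refine ⟨slot ℓ F.deg H 0, fun b b' hb => ?_, ?_⟩
  · obtain ⟨h3, h4⟩ := pw38_slot_ne hb
    have h5 := pw38_powW F.deg h4
    have h6 := h1 _ _ h3
    change powW ℓ F.deg b = powW ℓ F.deg b' + 1
    omega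
  · change powD ℓ F.deg F.d * slot ℓ F.deg H 0 + slot ℓ F.deg H 0 * powD ℓ F.deg F.d =
      y • (1 : Matrix (ZMod ℓ → F.ι) (ZMod ℓ → F.ι) R)
    rw [powD, Finset.sum_mul, Finset.mul_sum, ← Finset.sum_add_distrib,
      Finset.sum_eq_single (0 : ZMod ℓ) (fun t _ ht => by
        rw [slot_anticomm F.deg hℓ hd hH ht, neg_add_cancel]) (by simp),
      slot_mul_self, slot_mul_self, ← tens_one]
    ext b b'
    rw [Matrix.add_apply, pw38_tens_ite, pw38_tens_ite, ← add_mul, ← Matrix.add_apply, h2,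
      Matrix.smul_apply, Matrix.smul_apply, pw38_tens_apply _ 0, smul_eq_mul, smul_eq_mul, mul_assoc]

theorem AddFn.adams_iso (hℓ : Odd ℓ) (hu : IsUnit (ℓ : R)) {F F' : FC R} (h : F.Iso F') :
    ν.adams ℓ F N = ν.adams ℓ F' N := by
  obtain ⟨α, β, hm, h1, h2⟩ := h
  rw [ν.adams_eq N F hℓ, ν.adams_eq N F' hℓ]
  refine ν.tau_iso hu (φ := mact (tens fun _ : ZMod ℓ => α) N)
    (pw38_piso (B := tens fun _ : ZMod ℓ => β) (fun b' b hb => ?_) ?_ ?_
      (tens_powD F.deg F'.deg α hm.deg hm.comm))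
    ((F.pow ℓ hℓ).isCx N) ((F'.pow ℓ hℓ).isCx N) (F.pow_act N hℓ) (F'.pow_act N hℓ) fun i x _ => ?_
  · exact Finset.sum_congr rfl fun s _ => hm.deg _ _ (pw38_tens_ne hb s)
  · exact (tens_mul _ _).trans (by rw [h1, tens_one])
  · exact (tens_mul _ _).trans (by rw [h2, tens_one])
  · exact sub_eq_zero.2 (LinearMap.congr_fun (rot_tens N α) x).symm

theorem AddFn.adams_exa (hℓ : Odd ℓ) (hu : IsUnit (ℓ : R)) (F : FC R)
    (h : Exa (F.act R) (F.G R) ⊥) : ν.adams ℓ F N = 0 := by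
  obtain ⟨k, hk⟩ := F.htpy_of_killed (y := 1) fun i x hx => by
    rw [one_smul]
    exact h i hx
  rw [one_pow] at hk
  rw [ν.adams_eq N F hℓ]
  refine ν.tau_exa hu ((F.pow ℓ hℓ).isCx N) (F.pow_act N hℓ) fun i x hx => ?_
  have := (F.pow ℓ hℓ).htpy_smul_mem N (F.htpy_pow hℓ hk) i x hx
  rwa [one_smul] at this

theorem AddFn.adams_coef (hℓ : Odd ℓ) (hu : IsUnit (ℓ : R)) (F : FC R)
    {N₁ N₂ N₃ : Type} [AddCommGroup N₁] [Module R N₁] [AddCommGroup N₂]
    [Module R N₂] [AddCommGroup N₃] [Module R N₃] (f : N₁ →ₗ[R] N₂) (g : N₂ →ₗ[R] N₃)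
    (hf : Function.Injective f) (hg : Function.Surjective g) (he : Function.Exact f g)
    (g1 : ν.gdF (F.pow ℓ hℓ) N₁) (g3 : ν.gdF (F.pow ℓ hℓ) N₃) :
    ν.adams ℓ F N₂ = ν.adams ℓ F N₁ + ν.adams ℓ F N₃ := by
  rw [ν.adams_eq N₁ F hℓ, ν.adams_eq N₂ F hℓ, ν.adams_eq N₃ F hℓ]
  have c1 := (F.pow ℓ hℓ).isCx N₁
  have c2 := (F.pow ℓ hℓ).isCx N₂
  have c3 := (F.pow ℓ hℓ).isCx N₃
  have a1 := F.pow_act N₁ hℓ
  have a2 := F.pow_act N₂ hℓ
  have a3 := F.pow_act N₃ hℓ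
  obtain ⟨W', hW'⟩ : ∃ W' : ℤ → Submodule R ((F.pow ℓ hℓ).ι → N₂),
      W' = fun i => gr (F.pow ℓ hℓ).deg i (LinearMap.range f) := ⟨_, rfl⟩
  have h1 : ∀ i, (⊥ : ℤ → Submodule R ((F.pow ℓ hℓ).ι → N₂)) i ≤ W' i := fun i => bot_le
  have h2 : ∀ i, W' i ≤ (F.pow ℓ hℓ).G N₂ i := fun i v hv => by
    rw [hW'] at hv
    exact pw38_mem_gr.2 fun b => ⟨trivial, (pw38_mem_gr.1 hv b).2⟩
  have h3 : ∀ i, (W' i).map ((F.pow ℓ hℓ).act N₂) ≤ W' (i - 1) := fun i => by
    rw [hW']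
    rintro _ ⟨v, hv, rfl⟩
    exact pw38_mact_mem_gr (fun b b' hb e => by have := (F.pow ℓ hℓ).d_deg b b' hb; omega) hv
  have h4 : ∀ i, (W' i).map (rot R ℓ F.ι N₂) ≤ W' i := fun i => by
    rw [hW']
    exact pw38_rot_gr F.deg i _
  have e1 : PIso (f.compLeft _) ((F.pow ℓ hℓ).act N₁) ((F.pow ℓ hℓ).G N₁) ⊥ ((F.pow ℓ hℓ).act N₂)
      W' ⊥ := by
    rw [hW']
    exact pw38_piso_coef _ _ f rfl fun i => by
      rw [LinearMap.ker_eq_bot.2 hf, pw38_gr_bot, Pi.bot_apply]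
  have e2 : PIso (g.compLeft _) ((F.pow ℓ hℓ).act N₂) ((F.pow ℓ hℓ).G N₂) W' ((F.pow ℓ hℓ).act N₃)
      ((F.pow ℓ hℓ).G N₃) ⊥ :=
    pw38_piso_coef _ _ g (LinearMap.range_eq_top.2 hg) fun i => by
      rw [hW', he.linearMap_ker_eq]
  have cs := c2.sub h1 h2 h3
  have cq := c2.quo h1 h2 h3
  rw [ν.tau_ses hu c2 a2 h1 h2 h3 h4 ((ν.chi_iso e1 c1 cs).1.1 g1) ((ν.chi_iso e2 cq c3).1.2 g3),
    ν.tau_iso hu e1 c1 cs a1 ⟨a2.pow, a2.comm, h4, a2.mapU⟩ fun i x _ => sub_eq_zero.2 rfl,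
    ν.tau_iso hu e2 cq c3 ⟨a2.pow, a2.comm, a2.mapW, h4⟩ a3 fun i x _ => sub_eq_zero.2 rfl]

theorem AddFn.adams_equiv (hℓ : Odd ℓ) (hu : IsUnit (ℓ : R)) (F : FC R) {N₁ N₂ : Type}
    [AddCommGroup N₁] [Module R N₁] [AddCommGroup N₂] [Module R N₂] (e : N₁ ≃ₗ[R] N₂) :
    ν.adams ℓ F N₁ = ν.adams ℓ F N₂ := by
  rw [ν.adams_eq N₁ F hℓ, ν.adams_eq N₂ F hℓ]
  exact ν.tau_iso hu (φ := e.toLinearMap.compLeft _)
    (pw38_piso_coef _ _ e.toLinearMap e.range fun i => by rw [e.ker, pw38_gr_bot, Pi.bot_apply])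
    ((F.pow ℓ hℓ).isCx N₁) ((F.pow ℓ hℓ).isCx N₂) (F.pow_act N₁ hℓ) (F.pow_act N₂ hℓ)
    fun i x _ => sub_eq_zero.2 rfl

theorem AddFn.adams_unit (hℓ : Odd ℓ) :
    ν.adams ℓ (FC.unit R) N = (ℓ - 1 : ℝ) * ν.val N := by
  have hdeg : ∀ b, ((FC.unit R).pow ℓ hℓ).deg b = 0 := fun b => Finset.sum_eq_zero fun _ _ => rfl
  have hD : ((FC.unit R).pow ℓ hℓ).act N = 0 := by
    refine LinearMap.ext fun v => funext fun b => Finset.sum_eq_zero fun b' _ => ?_
    by_cases h0 : ((FC.unit R).pow ℓ hℓ).d b b' = 0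
    · rw [h0, zero_smul]
    · have := ((FC.unit R).pow ℓ hℓ).d_deg b b' h0
      rw [hdeg, hdeg] at this
      omega
  rw [ν.adams_eq N _ hℓ, ν.tau_triv (fun i v _ => ?_) (((FC.unit R).pow ℓ hℓ).isCx N),
    ν.chi_single 0 fun i hi v hv => ?_]
  · have e1 : Zc (((FC.unit R).pow ℓ hℓ).act N) (((FC.unit R).pow ℓ hℓ).G N) ⊥ 0 = ⊤ :=
      eq_top_iff.2 fun v _ => ⟨pw38_mem_gr.2 fun b => ⟨trivial, fun hb => absurd (by simp [hdeg]) hb⟩,
        by rw [hD]; exact (Submodule.mem_bot R).2 rfl⟩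
    have e2 : Bd (((FC.unit R).pow ℓ hℓ).act N) (((FC.unit R).pow ℓ hℓ).G N) ⊥ 0 = ⊥ := by
      rw [hD, Bd, Submodule.map_zero, Pi.bot_apply, sup_bot_eq]
    rw [e1, e2, ν.rel_bot, zpow_zero, one_mul]
    congr 1
    exact ν.val_equiv (Submodule.topEquiv.trans (LinearEquiv.funUnique (ZMod ℓ → Unit) R N))
  · have : v = 0 := funext fun b => (pw38_mem_gr.1 hv.1 b).2 (by rw [hdeg]; exact fun e => hi e.symm)
    rw [this]
    exact Submodule.zero_mem _
  · exact funext fun b => rfl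

end Crest.Agent.R188
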