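import Crest.Agent.R183.Kos
import Crest.Agent.R188.Flag1
import Crest.Agent.R188.Pow

/-!
# R188 / FlagT

The Adams functional of a flagged complex.
-/

set_option autoImplicit false
set_option linter.unusedSectionVars false
set_option linter.unusedVariables false

noncomputable section

namespace Crest.Agent.R188

open Filter
open Crest.Agent.R183 (Zc Bd mact gr Htpy)
open scoped TensorProduct

variable {T : Type} [CommRing T] {K σ : Type} [Field K] [Algebra T K] [Fintype σ] [DecidableEq σ]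
  {S : Sys K σ} {𝔶 : Ideal T} {ν : AddFn T} {n : ℕ}

/-- the standard differential `(π, true) ↦ (π, false)`. -/
def stdD (R P : Type) [CommRing R] [DecidableEq P] : Matrix (P × Bool) (P × Bool) R :=
  Matrix.of fun i i' => if i.1 = i'.1 ∧ i.2 = false ∧ i'.2 = true then 1 else 0

/-- degrees of the standard basis. -/
def stdE {P : Type} (jd : P → ℕ) (i : P × Bool) : ℕ := if i.2 then jd i.1 + 1 else jd i.1

/-- `⊕_{deg b = i} L b`. -/
def grL {R V κ : Type} [CommRing R] [AddCommGroup V] [Module R V] (deg : κ → ℕ)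
    (L : κ → Submodule R V) (i : ℤ) : Submodule R (κ → V) :=
  Submodule.pi Set.univ fun b => if (deg b : ℤ) = i then L b else ⊥

open Crest.Agent.R183 (mact_apply mact_mul mact_add mact_smul_one mem_gr mact_compLeft)

section aux
variable {R V : Type} [CommRing R] [AddCommGroup V] [Module R V]

theorem FlagT_mem_grL {κ : Type} {deg : κ → ℕ} {L : κ → Submodule R V} {i : ℤ} {v : κ → V} :
    v ∈ grL deg L i ↔ ∀ b, v b ∈ L b ∧ ((deg b : ℤ) ≠ i → v b = 0) := by
  simp only [grL, Submodule.mem_pi, Set.mem_univ, forall_true_left]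
  refine forall_congr' fun b => ?_
  split_ifs with h
  · simp [h]
  · simp only [Submodule.mem_bot, ne_eq, h, not_false_eq_true, forall_true_left]
    exact ⟨fun h0 => ⟨h0 ▸ (L b).zero_mem, h0⟩, fun h0 => h0.2⟩

theorem FlagT_mact_mem {κ κ' : Type} [Fintype κ'] {deg : κ → ℕ} {deg' : κ' → ℕ}
    {L : κ → Submodule R V} {L' : κ' → Submodule R V} {i j : ℤ} {A : Matrix κ κ' R}
    (h : ∀ b b', A b b' ≠ 0 → ((deg' b' : ℤ) = i → (deg b : ℤ) = j) ∧ L' b' ≤ L b) :
    (grL deg' L' i).map (mact A V) ≤ grL deg L j := by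
  rintro _ ⟨v, hv, rfl⟩
  replace hv := FlagT_mem_grL.1 hv
  refine FlagT_mem_grL.2 fun b => ⟨(L b).sum_mem fun b' _ => ?_, fun hb => ?_⟩
  · by_cases h1 : A b b' = 0
    · rw [h1, zero_smul]; exact zero_mem _
    · exact (L b).smul_mem _ ((h b b' h1).2 (hv b').1)
  · refine Finset.sum_eq_zero fun b' _ => ?_
    by_cases h1 : A b b' = 0
    · rw [h1, zero_smul]
    · rw [(hv b').2 fun h2 => hb ((h b b' h1).1 h2), smul_zero]

theorem FlagT_tens_ne {κ ι ι' : Type} [Fintype κ] {M : κ → Matrix ι ι' R} {b : κ → ι}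
    {b' : κ → ι'} (h : tens M b b' ≠ 0) (s : κ) : M s (b s) (b' s) ≠ 0 := fun h0 =>
  h (Finset.prod_eq_zero (Finset.mem_univ s) h0)

theorem FlagT_slot_ne {ℓ : ℕ} [NeZero ℓ] {ι : Type} [DecidableEq ι] {deg : ι → ℕ}
    {d : Matrix ι ι R} {t : ZMod ℓ} {b b' : ZMod ℓ → ι} (h : slot ℓ deg d t b b' ≠ 0) :
    d (b t) (b' t) ≠ 0 ∧ ∀ s, s ≠ t → b s = b' s := by
  refine ⟨by simpa using FlagT_tens_ne h t, fun s hs => ?_⟩
  have := FlagT_tens_ne h s
  by_contra hne
  apply this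
  simp only [hs, if_false]
  split_ifs
  · exact Matrix.diagonal_apply_ne _ hne
  · exact Matrix.one_apply_ne hne

theorem FlagT_tens_add {κ ι : Type} [Fintype κ] [DecidableEq κ] [DecidableEq ι]
    (A B : Matrix ι ι R) (t : κ) :
    ((tens fun s => if s = t then A else 1) + tens fun s => if s = t then B else 1) =
      tens fun s => if s = t then A + B else 1 := by
  ext b b'
  have e : ∀ C : Matrix ι ι R, (tens fun s => if s = t then C else 1) b b' =
      C (b t) (b' t) * ∏ s ∈ Finset.univ.erase t, (1 : Matrix ι ι R) (b s) (b' s) := fun C => by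
    simp only [tens, Matrix.of_apply]
    rw [← Finset.mul_prod_erase _ _ (Finset.mem_univ t), if_pos rfl]
    congr 1
    exact Finset.prod_congr rfl fun s hs => by rw [if_neg (Finset.ne_of_mem_erase hs)]
  rw [Matrix.add_apply, e, e, e, Matrix.add_apply, add_mul]

theorem FlagT_stdD_ne {P : Type} [DecidableEq P] {i i' : P × Bool} (h : stdD R P i i' ≠ 0) :
    i = (i'.1, false) ∧ i'.2 = true := by
  simp only [stdD, Matrix.of_apply, ne_eq, ite_eq_right_iff, not_forall] at h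
  obtain ⟨⟨h1, h2, h3⟩, -⟩ := h
  exact ⟨Prod.ext h1 h2, h3⟩

theorem FlagT_stdD_deg {P : Type} [DecidableEq P] (jd : P → ℕ) (i i' : P × Bool)
    (h : stdD R P i i' ≠ 0) : stdE jd i' = stdE jd i + 1 := by
  obtain ⟨rfl, h2⟩ := FlagT_stdD_ne h
  simp [stdE, h2]

theorem FlagT_stdD_htpy (P : Type) [Fintype P] [DecidableEq P] :
    stdD R P * (stdD R P).transpose + (stdD R P).transpose * stdD R P = 1 := by
  ext ⟨a, x⟩ ⟨b, y⟩
  simp only [Matrix.add_apply, Matrix.mul_apply, Matrix.transpose_apply, stdD, Matrix.of_apply,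
    Fintype.sum_prod_type, Fintype.sum_bool, Matrix.one_apply, Prod.mk.injEq]
  cases x <;> cases y <;> simp [eq_comm]

/-- the split complex. -/
def FlagT_F0 (R : Type) [CommRing R] {P : Type} [Fintype P] [DecidableEq P] (jd : P → ℕ) :
    FC R where
  ι := P × Bool
  deg := stdE jd
  d := stdD R P
  d_deg := FlagT_stdD_deg jd
  dd := by
    ext i i'
    rw [Matrix.mul_apply]
    refine Finset.sum_eq_zero fun j _ => ?_
    by_cases h1 : stdD R P i j = 0
    · rw [h1, zero_mul]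
    by_cases h2 : stdD R P j i' = 0
    · rw [h2, mul_zero]
    have e1 := (FlagT_stdD_ne h1).2
    rw [(FlagT_stdD_ne h2).1] at e1
    simp at e1

theorem FlagT_powD_ne {P : Type} [Fintype P] [DecidableEq P] {ℓ : ℕ} [NeZero ℓ] (jd : P → ℕ)
    {b b' : ZMod ℓ → P × Bool} (h : powD ℓ (stdE jd) (stdD R P) b b' ≠ 0) :
    (∃ t, b = Function.update b' t ((b' t).1, false)) ∧ (fun t => (b t).1) = fun t => (b' t).1 := by
  obtain ⟨t, h1, h2⟩ := powD_ne_zero (stdE jd) b b' h
  have e := (FlagT_stdD_ne h1).1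
  refine ⟨⟨t, funext fun s => ?_⟩, funext fun s => ?_⟩
  · by_cases hs : s = t
    · rw [hs, Function.update_self, e]
    · rw [Function.update_of_ne hs, h2 s hs]
  · by_cases hs : s = t
    · rw [hs, e]
    · rw [h2 s hs]

theorem FlagT_powW_rot {ℓ : ℕ} [NeZero ℓ] {ι : Type} (w : ι → ℕ) (b : ZMod ℓ → ι) :
    powW ℓ w (fun t => b (t + 1)) = powW ℓ w b :=
  Equiv.sum_comp (Equiv.addRight (1 : ZMod ℓ)) fun t => w (b t)

theorem FlagT_rot_mem {ℓ : ℕ} [NeZero ℓ] {ι : Type} (w : ι → ℕ)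
    {L : (ZMod ℓ → ι) → Submodule R V} (h : ∀ i, L (fun t => i (t + 1)) = L i) (i : ℤ) :
    (grL (powW ℓ w) L i).map (rot R ℓ ι V) ≤ grL (powW ℓ w) L i := by
  rintro _ ⟨v, hv, rfl⟩
  replace hv := FlagT_mem_grL.1 hv
  refine FlagT_mem_grL.2 fun b => ?_
  have := hv fun t => b (t + 1)
  rwa [h, FlagT_powW_rot] at this

theorem FlagT_cx {P : Type} [Fintype P] [DecidableEq P] {ℓ : ℕ} [NeZero ℓ] (hℓ : Odd ℓ)
    (jd : P → ℕ) (L : (ZMod ℓ → P × Bool) → Submodule R V)
    (h3 : ∀ b b', powD ℓ (stdE jd) (stdD R P) b b' ≠ 0 → L b' ≤ L b)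
    (h5 : ∀ i, L (fun t => i (t + 1)) = L i) :
    IsCx (mact (powD ℓ (stdE jd) (stdD R P)) V) (grL (powW ℓ (stdE jd)) L) ⊥ ∧
    IsAct ℓ (mact (powD ℓ (stdE jd) (stdD R P)) V) (rot R ℓ (P × Bool) V)
      (grL (powW ℓ (stdE jd)) L) ⊥ := by
  refine ⟨(((FlagT_F0 R jd).pow ℓ hℓ).isCx V).sub (fun i => bot_le) (fun i v hv => ?_)
    fun i => FlagT_mact_mem fun b b' hb => ⟨fun h => ?_, h3 b b' hb⟩,
    rot_pow V, rot_powD V _ _, FlagT_rot_mem _ h5, fun i => by simp⟩
  · exact mem_gr.2 fun b => ⟨trivial, (FlagT_mem_grL.1 hv b).2⟩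
  · have := powD_deg (stdE jd) (FlagT_stdD_deg jd) b b' hb
    omega

theorem FlagT_exa {P : Type} [Fintype P] [DecidableEq P] {ℓ : ℕ} [NeZero ℓ] (hℓ : Odd ℓ)
    (jd : P → ℕ) (L' : (ZMod ℓ → P) → Submodule R V)
    (hc : IsCx (mact (powD ℓ (stdE jd) (stdD R P)) V)
      (grL (powW ℓ (stdE jd)) fun i => L' fun t => (i t).1) ⊥) :
    Exa (mact (powD ℓ (stdE jd) (stdD R P)) V)
      (grL (powW ℓ (stdE jd)) fun i => L' fun t => (i t).1) ⊥ := by
  set H := slot ℓ (stdE jd) (stdD R P).transpose 0 with hH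
  have o1 : ∀ b b', stdD R P b b' ≠ 0 → Odd (stdE jd b + stdE jd b') := fun b b' h => by
    rw [FlagT_stdD_deg jd b b' h]
    exact ⟨stdE jd b, by ring⟩
  have o2 : ∀ b b', (stdD R P).transpose b b' ≠ 0 → Odd (stdE jd b + stdE jd b') := fun b b' h => by
    rw [add_comm]
    exact o1 b' b h
  have e : powD ℓ (stdE jd) (stdD R P) * H + H * powD ℓ (stdE jd) (stdD R P) = (1 : R) • 1 := by
    rw [powD, Finset.sum_mul, Finset.mul_sum, ← Finset.sum_add_distrib,
      Finset.sum_eq_single (0 : ZMod ℓ), hH, slot_mul_self, slot_mul_self, FlagT_tens_add,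
      FlagT_stdD_htpy, one_smul]
    · simp only [ite_self]
      exact tens_one
    · intro s _ hs
      rw [hH, slot_anticomm (stdE jd) hℓ o1 o2 hs, neg_add_cancel]
    · simp
  intro i x hx
  have := hc.smul_mem_bd (mact H V) 1 (fun i => FlagT_mact_mem fun b b' hb => ?_)
    (fun i => by simp) (fun i x _ => ?_) i x hx
  · rwa [one_smul] at this
  · obtain ⟨h1, h2⟩ := FlagT_slot_ne hb
    have h3 := FlagT_stdD_deg jd _ _ h1
    have h4 := (FlagT_stdD_ne h1).1
    refine ⟨fun h => ?_, le_of_eq (congrArg L' (funext fun s => ?_))⟩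
    · have : powW ℓ (stdE jd) b = powW ℓ (stdE jd) b' + 1 := by
        simp only [powW]
        rw [← Finset.add_sum_erase _ _ (Finset.mem_univ 0),
          ← Finset.add_sum_erase _ _ (Finset.mem_univ 0), h3, add_right_comm]
        congr 2
        exact Finset.sum_congr rfl fun s hs => by rw [h2 s (Finset.ne_of_mem_erase hs)]
      omega
    · by_cases hs : s = 0
      · rw [hs, h4]
      · rw [h2 s hs]
  · rw [← mact_smul_one, ← e, mact_add, mact_mul, mact_mul]
    simp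

/-- rotation of the index tuples. -/
def FlagT_pi (ℓ : ℕ) (ι : Type) : Equiv.Perm (ZMod ℓ → ι) where
  toFun b t := b (t - 1)
  invFun b t := b (t + 1)
  left_inv b := by funext t; simp
  right_inv b := by funext t; simp

theorem FlagT_pi_pow (ℓ : ℕ) (ι : Type) : FlagT_pi ℓ ι ^ ℓ = 1 := by
  have : ∀ (m : ℕ) (b : ZMod ℓ → ι) (t : ZMod ℓ), (FlagT_pi ℓ ι ^ m) b t = b (t - m) := by
    intro m
    induction m with
    | zero => simp
    | succ m ih =>
      intro b t
      rw [pow_succ', Equiv.Perm.mul_apply]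
      refine (ih b (t - 1)).trans ?_
      congr 1
      push_cast
      ring
  ext b t
  simp [this]

theorem FlagT_pi_fix {ℓ : ℕ} [NeZero ℓ] {ι : Type} {b : ZMod ℓ → ι} :
    FlagT_pi ℓ ι b = b ↔ ∃ c, (fun _ => c) = b := by
  constructor
  · intro h
    have : ∀ m : ℕ, b 0 = b m := by
      intro m
      induction m with
      | zero => simp
      | succ m ih =>
        rw [ih, ← congrFun h ((m + 1 : ℕ) : ZMod ℓ)]
        simp [FlagT_pi]
    exact ⟨b 0, funext fun t => by rw [this t.val, ZMod.natCast_zmod_val]⟩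
  · rintro ⟨c, rfl⟩
    rfl

/-- with zero differential only the constant tuples contribute. -/
theorem FlagT_tau_zero (ν : AddFn R) {ℓ : ℕ} [NeZero ℓ] (hp : ℓ.Prime) (hu : IsUnit (ℓ : R))
    {ι : Type} [Fintype ι] [DecidableEq ι] (w : ι → ℕ) (L L' : (ZMod ℓ → ι) → Submodule R V)
    (h1 : ∀ i, L i ≤ L' i) (h2 : ∀ i, ν.grel (L' i) (L i))
    (h5 : ∀ i, L (fun t => i (t + 1)) = L i) (h6 : ∀ i, L' (fun t => i (t + 1)) = L' i) :
    ν.tau ℓ 0 (rot R ℓ ι V) (grL (powW ℓ w) L') (grL (powW ℓ w) L) =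
      (ℓ - 1 : ℝ) * ∑ c, (-1 : ℝ) ^ (ℓ * w c) * ν.rel (L' fun _ => c) (L fun _ => c) := by
  have hc : IsCx (0 : ((ZMod ℓ → ι) → V) →ₗ[R] _) (grL (powW ℓ w) L') (grL (powW ℓ w) L) := by
    refine ⟨fun i v hv => FlagT_mem_grL.2 fun b => ?_, fun i => by simp, fun i => by simp,
      fun i x _ => by simp, ?_⟩
    · exact ⟨h1 b (FlagT_mem_grL.1 hv b).1, (FlagT_mem_grL.1 hv b).2⟩
    · refine (Set.finite_range fun b => (powW ℓ w b : ℤ)).subset fun i hi => ?_
      by_contra hn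
      refine hi fun v hv => FlagT_mem_grL.2 fun b => ?_
      rw [(FlagT_mem_grL.1 hv b).2 fun h => hn ⟨b, h⟩]
      exact ⟨zero_mem _, fun _ => rfl⟩
  have ha : IsAct ℓ (0 : ((ZMod ℓ → ι) → V) →ₗ[R] _) (rot R ℓ ι V) (grL (powW ℓ w) L')
      (grL (powW ℓ w) L) := ⟨rot_pow V, by simp, FlagT_rot_mem w h6, FlagT_rot_mem w h5⟩
  have hg : ∀ i, ν.grel (grL (powW ℓ w) L' i) (grL (powW ℓ w) L i) := fun i =>
    (ν.rel_pi _ _).1.2 fun b => by
      split_ifs
      · exact h2 b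
      · exact ν.grel_of_le le_rfl
  set e : (ZMod ℓ → ι) → ((ZMod ℓ → ι) → V) →ₗ[R] ((ZMod ℓ → ι) → V) := fun ω =>
    LinearMap.single R (fun _ => V) ω ∘ₗ LinearMap.proj ω with he
  have e1 : ∀ ω v, e ω v = Pi.single ω (v ω) := fun ω v => rfl
  have e2 : ∀ (X : (ZMod ℓ → ι) → Submodule R V) ω (i : ℤ), (grL (powW ℓ w) X i).map (e ω) =
      if (powW ℓ w ω : ℤ) = i then (X ω).map (LinearMap.single R (fun _ => V) ω) else ⊥ := by
    intro X ω i
    have : (grL (powW ℓ w) X i).map (LinearMap.proj ω) =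
        if (powW ℓ w ω : ℤ) = i then X ω else ⊥ := by
      refine le_antisymm ?_ fun x hx => ⟨Pi.single ω x, fun b _ => ?_, by simp⟩
      · rintro _ ⟨v, hv, rfl⟩
        exact hv ω trivial
      · by_cases hb : b = ω
        · subst hb
          simpa using hx
        · simp [hb]
    rw [he, Submodule.map_comp, this]
    split_ifs <;> simp
  have s1 : ∑ ω, e ω = LinearMap.id := by
    refine LinearMap.ext fun v => ?_
    simp only [LinearMap.sum_apply, e1, LinearMap.id_apply, Finset.univ_sum_single]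
  have s2 : ∀ ω ω', ω ≠ ω' → e ω ∘ₗ e ω' = 0 := fun ω ω' h => by
    refine LinearMap.ext fun v => ?_
    simp [e1, h]
  have s3 : ∀ (X : (ZMod ℓ → ι) → Submodule R V) ω (i : ℤ),
      (grL (powW ℓ w) X i).map (e ω) ≤ grL (powW ℓ w) X i := by
    rintro X ω i _ ⟨v, hv, rfl⟩ b -
    by_cases hb : b = ω
    · subst hb
      simpa [e1] using hv b trivial
    · simp [e1, hb]
  have s4 : ∀ ω, rot R ℓ ι V ∘ₗ e ω = e (FlagT_pi ℓ ι ω) ∘ₗ rot R ℓ ι V := fun ω => by
    refine LinearMap.ext fun v => funext fun b => ?_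
    change (Pi.single ω (v ω) : (ZMod ℓ → ι) → V) ((FlagT_pi ℓ ι).symm b) =
      (Pi.single (FlagT_pi ℓ ι ω) (v ((FlagT_pi ℓ ι).symm (FlagT_pi ℓ ι ω))) :
        (ZMod ℓ → ι) → V) b
    simp only [Pi.single_apply, Equiv.symm_apply_apply, Equiv.symm_apply_eq]
  have s5 : Finset.univ.filter (fun ω => FlagT_pi ℓ ι ω = ω) =
      Finset.univ.image fun (c : ι) (_ : ZMod ℓ) => c := by
    ext ω
    simp [FlagT_pi_fix]
  rw [ν.tau_ind hp hu hc ha (ν.chi_terms hc hg).1 e s1 s2 (fun ω => by simp) (s3 L') (s3 L)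
    (FlagT_pi ℓ ι) (FlagT_pi_pow ℓ ι) s4, s5,
    Finset.sum_image fun c _ c' _ h => congrFun h 0, Finset.mul_sum]
  refine Finset.sum_congr rfl fun c _ => ?_
  have d1 : powW ℓ w (fun _ => c) = ℓ * w c := by simp [powW]
  rw [ν.tau_triv _ ((ν.chi_idem hc e s1 s2 (fun ω => by simp) (s3 L') (s3 L)).1 _),
    ν.chi_single (powW ℓ w (fun _ => c) : ℤ)]
  · simp only [Zc, Bd, e2, if_true, Submodule.map_zero, Submodule.comap_zero, inf_top_eq,
      bot_sup_eq, zpow_natCast, d1]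
    congr 2
    refine (ν.rel_map (LinearMap.single R (fun _ => V) fun _ => c) rfl ?_).2.symm
    rw [Submodule.comap_map_eq_of_injective fun x y h => by simpa using congrFun h fun _ => c]
  · intro i hi
    simp [Zc, e2, hi.symm]
  · rintro i _ ⟨v, -, rfl⟩
    have := LinearMap.congr_fun (s4 fun _ => c) v
    exact this

end aux

/-- Split complexes.  `X = ⊕ L i` embeds in `X' = ⊕ L' (fst ∘ i)`, which is exact (homotopy
`slot ℓ e (stdD)ᵀ 0`), the terms of `X' / X` are good, so `τ X = - τ(X' / X)` can be computed with zero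
differential (`tau_terms`) and `tau_ind` for the coordinate projections leaves the constant tuples. -/
theorem tau_split {R V P : Type} [CommRing R] [AddCommGroup V] [Module R V] [Fintype P]
    [DecidableEq P] (ν : AddFn R) {ℓ : ℕ} [NeZero ℓ] (hp : ℓ.Prime) (hℓ : Odd ℓ)
    (hu : IsUnit (ℓ : R)) (jd : P → ℕ) (L : (ZMod ℓ → P × Bool) → Submodule R V)
    (L' : (ZMod ℓ → P) → Submodule R V) (h1 : ∀ i, L i ≤ L' fun t => (i t).1)
    (h2 : ∀ i, ν.grel (L' fun t => (i t).1) (L i))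
    (h3 : ∀ i t, L i ≤ L (Function.update i t ((i t).1, false)))
    (h4 : ∀ π : P, L' (fun _ => π) ≤ L fun _ => (π, false))
    (h5 : ∀ i, L (fun t => i (t + 1)) = L i) (h6 : ∀ i, L' (fun t => i (t + 1)) = L' i) :
    IsCx (mact (powD ℓ (stdE jd) (stdD R P)) V) (grL (powW ℓ (stdE jd)) L) ⊥ ∧
    IsAct ℓ (mact (powD ℓ (stdE jd) (stdD R P)) V) (rot R ℓ (P × Bool) V)
      (grL (powW ℓ (stdE jd)) L) ⊥ ∧
    ν.gd (mact (powD ℓ (stdE jd) (stdD R P)) V) (grL (powW ℓ (stdE jd)) L) ⊥ ∧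
    ν.tau ℓ (mact (powD ℓ (stdE jd) (stdD R P)) V) (rot R ℓ (P × Bool) V)
        (grL (powW ℓ (stdE jd)) L) ⊥ =
      (ℓ - 1 : ℝ) * ∑ π, (-1 : ℝ) ^ jd π * ν.rel (L' fun _ => π) (L fun _ => (π, true)) := by
  have c1 := FlagT_cx hℓ jd L (fun b b' hb => by
    obtain ⟨⟨t, rfl⟩, -⟩ := FlagT_powD_ne jd hb
    exact h3 b' t) h5
  have c2 := FlagT_cx hℓ jd (fun i => L' fun t => (i t).1)
    (fun b b' hb => by rw [(FlagT_powD_ne jd hb).2]) fun i => h6 fun t => (i t).1
  have ex := FlagT_exa hℓ jd L' c2.1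
  have l1 : ∀ i, grL (powW ℓ (stdE jd)) L i ≤
      grL (powW ℓ (stdE jd)) (fun i => L' fun t => (i t).1) i := fun i v hv =>
    FlagT_mem_grL.2 fun b => ⟨h1 b (FlagT_mem_grL.1 hv b).1, (FlagT_mem_grL.1 hv b).2⟩
  have c3 := c2.1.quo (fun i => bot_le) l1 c1.1.subW
  have hg : ∀ i, ν.grel (grL (powW ℓ (stdE jd)) (fun i => L' fun t => (i t).1) i)
      (grL (powW ℓ (stdE jd)) L i) := fun i =>
    (ν.rel_pi _ _).1.2 fun b => by
      split_ifs
      · exact h2 b
      · exact ν.grel_of_le le_rfl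
  have g2 := (ν.chi_terms c3 hg).1
  have g1 := (ν.gd_ses c2.1 (fun i => bot_le) l1 c1.1.subW).2.2 (ν.chi_exa ex).1 g2
  refine ⟨c1.1, c1.2, g1, ?_⟩
  have e := ν.tau_ses hu c2.1 c2.2 (fun i => bot_le) l1 c1.1.subW c1.2.mapW g1 g2
  rw [ν.tau_exa hu c2.1 c2.2 ex, ν.tau_terms hu c3 ⟨c2.2.pow, c2.2.comm, c2.2.mapW, c1.2.mapW⟩ hg,
    FlagT_tau_zero ν hp hu (stdE jd) L _ h1 h2 h5 fun i => h6 fun t => (i t).1] at e
  rw [eq_neg_of_add_eq_zero_left e.symm, ← mul_neg, ← Finset.sum_neg_distrib,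
    Fintype.sum_prod_type]
  congr 1
  refine Finset.sum_congr rfl fun π _ => ?_
  simp only [Fintype.sum_bool, ν.rel_of_le (h4 π), mul_zero, pow_mul, hℓ.neg_one_pow,
    stdE, if_true, pow_succ]
  ring

section aux2
variable {R V : Type} [CommRing R] [AddCommGroup V] [Module R V]

/-- filtration by the kernels of a triangular family of maps. -/
theorem FlagT_filt (ν : AddFn R) {ℓ : ℕ} (hu : IsUnit (ℓ : R)) {D ρ : V →ₗ[R] V}
    {W : ℤ → Submodule R V} (h : IsCx D W ⊥) (a : IsAct ℓ D ρ W ⊥) {V' : Type} [AddCommGroup V']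
    [Module R V'] {D' ρ' : V' →ₗ[R] V'} (Q : ℕ → V →ₗ[R] V') (m : ℕ)
    (hD : ∀ j x, Q j (D x) = D' (Q j x)) (hρ : ∀ j x, Q j (ρ x) = ρ' (Q j x))
    (h0 : ∀ x, (∀ j, Q j x = 0) → x = 0) (hm : ∀ j, m ≤ j → ∀ x, Q j x = 0)
    (Z : ℕ → ℤ → Submodule R V')
    (hZ : ∀ j, IsCx D' (Z j) ⊥ ∧ IsAct ℓ D' ρ' (Z j) ⊥ ∧ ν.gd D' (Z j) ⊥)
    (hs : ∀ j i z, z ∈ Z j i ↔ ∃ x ∈ W i, (∀ j', j < j' → Q j' x = 0) ∧ Q j x = z) :
    ν.tau ℓ D ρ W ⊥ = ∑ j ∈ Finset.range m, ν.tau ℓ D' ρ' (Z j) ⊥ := by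
  set X : ℕ → ℤ → Submodule R V := fun j i => W i ⊓ ⨅ j', ⨅ _ : j ≤ j', LinearMap.ker (Q j')
    with hX
  have mem : ∀ j i x, x ∈ X j i ↔ x ∈ W i ∧ ∀ j', j ≤ j' → Q j' x = 0 := fun j i x => by
    simp [hX]
  have x0 : X 0 = ⊥ := funext fun i => eq_bot_iff.2 fun x hx =>
    h0 x fun j => ((mem 0 i x).1 hx).2 j (Nat.zero_le j)
  have xm : X m = W := funext fun i =>
    le_antisymm inf_le_left fun x hx => (mem m i x).2 ⟨hx, fun j hj => hm j hj x⟩
  have x1 : ∀ j i, X j i ≤ X (j + 1) i := fun j i x hx =>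
    (mem _ i x).2 ⟨((mem j i x).1 hx).1, fun j' hj => ((mem j i x).1 hx).2 j' (by omega)⟩
  have x2 : ∀ j i, (X j i).map D ≤ X j (i - 1) := by
    rintro j i _ ⟨x, hx, rfl⟩
    obtain ⟨p1, p2⟩ := (mem j i x).1 hx
    exact (mem _ _ _).2 ⟨h.subW i ⟨x, p1, rfl⟩, fun j' hj => by rw [hD, p2 j' hj, map_zero]⟩
  have x3 : ∀ j i, (X j i).map ρ ≤ X j i := by
    rintro j i _ ⟨x, hx, rfl⟩
    obtain ⟨p1, p2⟩ := (mem j i x).1 hx
    exact (mem _ _ _).2 ⟨a.mapW i ⟨x, p1, rfl⟩, fun j' hj => by rw [hρ, p2 j' hj, map_zero]⟩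
  have cx : ∀ j, IsCx D (X (j + 1)) (X j) := fun j =>
    (h.sub (W' := X (j + 1)) (fun i => bot_le) (fun i => inf_le_left) (x2 _)).quo
      (fun i => bot_le) (x1 j) (x2 j)
  have iso : ∀ j, PIso (Q j) D (X (j + 1)) (X j) D' (Z j) ⊥ := fun j => by
    refine ⟨fun i => ?_, fun i => ?_, fun i x _ => by simp [hD]⟩
    · ext z
      simp only [Pi.bot_apply, sup_bot_eq, Submodule.mem_map, mem, hs, and_assoc, Nat.succ_le_iff]
    · ext x
      simp only [Pi.bot_apply, Submodule.mem_inf, Submodule.mem_comap, Submodule.mem_bot, mem]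
      refine ⟨fun ⟨⟨p1, p2⟩, p3⟩ => ⟨p1, fun j' hj => ?_⟩,
        fun ⟨p1, p2⟩ => ⟨⟨p1, fun j' hj => p2 j' (by omega)⟩, p2 j le_rfl⟩⟩
      rcases hj.eq_or_lt with rfl | hj
      · exact p3
      · exact p2 j' hj
  have e := ν.tau_filt hu X m (by rwa [x0, xm]) (by rwa [x0, xm]) x1 x2 x3 fun j _ =>
    (ν.chi_iso (iso j) (cx j) (hZ j).1).1.2 (hZ j).2.2
  rw [x0, xm] at e
  rw [e]
  exact Finset.sum_congr rfl fun j _ => ν.tau_iso hu (iso j) (cx j) (hZ j).1
    ⟨a.pow, a.comm, x3 _, x3 _⟩ (hZ j).2.1 fun i x _ => by simp [hρ]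

/-- coordinate projections. -/
def FlagT_pr (R V : Type) [CommRing R] [AddCommGroup V] [Module R V] {κ : Type} (p : κ → Prop)
    [DecidablePred p] : (κ → V) →ₗ[R] (κ → V) where
  toFun z b := if p b then z b else 0
  map_add' z z' := by funext b; by_cases h : p b <;> simp [h]
  map_smul' c z := by funext b; by_cases h : p b <;> simp [h]

theorem FlagT_pr_apply {κ : Type} (p : κ → Prop) [DecidablePred p] (z : κ → V) (b : κ) :
    FlagT_pr R V p z b = if p b then z b else 0 := rfl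

theorem FlagT_pr_mact {κ κ' : Type} [Fintype κ'] (p : κ → Prop) [DecidablePred p] (q : κ' → Prop)
    [DecidablePred q] {A : Matrix κ κ' R} (h : ∀ b b', A b b' ≠ 0 → (p b ↔ q b')) (z : κ' → V) :
    FlagT_pr R V p (mact A V z) = mact A V (FlagT_pr R V q z) := by
  funext b
  simp only [FlagT_pr_apply, mact_apply]
  split_ifs with hb
  · refine Finset.sum_congr rfl fun b' _ => ?_
    by_cases h1 : A b b' = 0
    · simp [h1]
    · rw [if_pos ((h b b' h1).1 hb)]
  · refine (Finset.sum_eq_zero fun b' _ => ?_).symm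
    by_cases h1 : A b b' = 0
    · simp [h1]
    · rw [if_neg fun hq => hb ((h b b' h1).2 hq), smul_zero]

end aux2

theorem FlagT_mact_map {κ κ' : Type} [Fintype κ'] (A : Matrix κ κ' T) (z : κ' → K) :
    mact (A.map (algebraMap T K)) K z = mact A K z := by
  funext b
  simp only [mact_apply, Matrix.map_apply, algebraMap_smul]

theorem FlagT_alpha_deg {F : FC T} {W : ℕ} {v : Fin W → F.ι → K} {jd : Fin W → ℕ}
    (h : ∀ π b, v π b ≠ 0 → F.deg b = jd π + 1) (b : F.ι) (i : Fin W × Bool)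
    (hb : pairU T F v i b ≠ 0) : F.deg b = stdE jd i := by
  obtain ⟨π, _ | _⟩ := i
  · simp only [pairU, Bool.false_eq_true, if_false, Matrix.mulVec, dotProduct] at hb
    obtain ⟨b', -, h'⟩ := Finset.exists_ne_zero_of_sum_ne_zero hb
    have e1 := h π b' (right_ne_zero_of_mul h')
    have e2 := F.d_deg b b' fun h0 => left_ne_zero_of_mul h' (by simp [h0])
    simp only [stdE, Bool.false_eq_true, if_false]
    omega
  · exact h π b hb

theorem FlagT_alpha_comm (F : FC T) {W : ℕ} (v : Fin W → F.ι → K) :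
    (Matrix.of fun b i => pairU T F v i b) * stdD K (Fin W) =
      F.d.map (algebraMap T K) * Matrix.of fun b i => pairU T F v i b := by
  ext b ⟨π, x⟩
  have e : (F.d.map (algebraMap T K) * Matrix.of fun b i => pairU T F v i b) b (π, x) =
      (F.d.map (algebraMap T K)).mulVec (pairU T F v (π, x)) b := rfl
  rw [e, Matrix.mul_apply]
  cases x
  · simp only [pairU, Bool.false_eq_true, if_false, Matrix.mulVec_mulVec, ← Matrix.map_mul, F.dd]
    simp [stdD]
  · simp [stdD, Fintype.sum_prod_type, pairU]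

theorem FlagT_L {W : ℕ} {γ : Fin W × Bool → σ → ℤ} [IsNoetherianRing T]
    (hν : ∀ (N : Type) [AddCommGroup N] [Module T N], ν.good N ↔ InPhi 𝔶 N)
    (h1 : ∀ χ π, S.a χ (γ (π, true) - γ (π, false)) ∈ S.O T χ)
    (h2 : ∀ χ π, ∀ 𝔓 ∈ S.U 𝔶 χ, S.Nv χ 𝔓 (S.a χ (γ (π, true) - γ (π, false))))
    {κ : Type} [Fintype κ] :
    ∀ᶠ k in atTop, ∀ i i' : κ → Fin W × Bool, (∀ t, i' t = i t ∨ i' t = ((i t).1, false)) →
      S.L T (k + ∑ t, γ (i t)) ≤ S.L T (k + ∑ t, γ (i' t)) ∧
      ν.grel (S.L T (k + ∑ t, γ (i' t))) (S.L T (k + ∑ t, γ (i t))) := by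
  classical
  refine eventually_all.2 fun i => eventually_all.2 fun i' =>
    eventually_imp_distrib_left.2 fun hi => ?_
  have e : ∀ χ, S.a χ (∑ t, γ (i t) - ∑ t, γ (i' t)) = ∏ t, S.a χ (γ (i t) - γ (i' t)) :=
    fun χ => by rw [← Finset.sum_sub_distrib, S.a_sum]
  have c : ∀ χ t, S.a χ (γ (i t) - γ (i' t)) = 1 ∨
      S.a χ (γ (i t) - γ (i' t)) = S.a χ (γ ((i t).1, true) - γ ((i t).1, false)) := fun χ t => by
    rcases hi t with h | h
    · left; rw [h, sub_self, S.a_zero]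
    · rw [h]
      rcases hx : i t with ⟨π, _ | _⟩
      · left; rw [sub_self, S.a_zero]
      · right; rfl
  refine (S.L_le_of_mem_O fun χ => ?_).and ((Sys.Stable.inPhi S (S.stable_L _) (S.stable_L _) 𝔶
    fun χ 𝔓 h𝔓 => ⟨S.a χ (∑ t, γ (i t) - ∑ t, γ (i' t)), ?_, fun x hx => ?_⟩).mono
      fun k hk => (hν _).2 hk)
  · rw [e]
    refine prod_mem fun t _ => ?_
    rcases c χ t with h | h <;> rw [h]
    exacts [one_mem _, h1 χ _]
  · rw [e]
    refine Finset.prod_induction _ (S.Nv χ 𝔓) (fun a b => Sys.Nv.mul S) (Sys.Nv.one S χ 𝔓)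
      fun t _ => ?_
    rcases c χ t with h | h <;> rw [h]
    exacts [Sys.Nv.one S χ 𝔓, h2 χ _ 𝔓 h𝔓]
  · rw [S.mem_loc_L] at hx ⊢
    convert hx using 1
    rw [S.a_sub, smul_eq_mul]
    field_simp [S.a_ne χ]

/-- Transport the lattice `(L k) ^ Ω ⊆ K ^ Ω` along the isomorphism `z ↦ ∑ z i • u i` (`tens_powD`, `rot_tens`
over `K`, for the matrix of `pairU`, which intertwines `stdD` and `d`), filter by the weight
(`tau_filt`); by `Flag.pow`, `Flag.gr` (project to the degree) the graded piece of weight `w` is the split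
complex with `L i = L (k + ∑ γ (i t))` for `i` of weight `w`, `⊥` otherwise; `tau_split`.  Goodness of
`L (k + ∑ γ (π t, false)) / L (k + ∑ γ (i t))`: `Stable.inPhi`. -/
theorem FlagCx.adams [IsNoetherianRing T]
    (hν : ∀ (N : Type) [AddCommGroup N] [Module T N], ν.good N ↔ InPhi 𝔶 N) {F : FC T} {W : ℕ}
    {v : Fin W → F.ι → K} {jd : Fin W → ℕ} {γ : Fin W × Bool → σ → ℤ}
    (h : FlagCx T 𝔶 F S W v jd γ) {ℓ : ℕ} [NeZero ℓ] (hp : ℓ.Prime) (hℓ : Odd ℓ)
    (hu : IsUnit (ℓ : T)) :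
    ∀ᶠ k in atTop, ν.adams ℓ F (S.L T k) = (ℓ - 1 : ℝ) * ∑ π, (-1 : ℝ) ^ jd π *
      ν.rel (S.L T (k + ℓ • γ (π, false))) (S.L T (k + ℓ • γ (π, true))) := by
  classical
  set α : Matrix F.ι (Fin W × Bool) K := Matrix.of fun b i => pairU T F v i b with hα
  set A := tens fun _ : ZMod ℓ => α with hA
  set wt : (ZMod ℓ → Fin W × Bool) → ℕ := powW ℓ fun i => i.1.val with hwt
  set U : (ZMod ℓ → Fin W × Bool) → (ZMod ℓ → F.ι) → K :=
    fun i b => ∏ t, pairU T F v (i t) (b t) with hU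
  have fl : Flag T S U wt fun i => ∑ t, γ (i t) := h.flag.pow ℓ
  have eA : ∀ z, mact A K z = ∑ i, z i • U i := fun z => by
    funext b
    simp only [mact_apply, Finset.sum_apply, Pi.smul_apply, smul_eq_mul]
    exact Finset.sum_congr rfl fun i _ => mul_comm _ _
  have bij : Function.Bijective (mact A K) := by
    constructor
    · refine (injective_iff_map_eq_zero _).2 fun z hz => funext ?_
      exact Fintype.linearIndependent_iff.1
        (linearIndepOn_univ_iff.1 (fl.pf.linearIndependent Set.finite_univ)) z (eA z ▸ hz)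
    · intro x
      obtain ⟨z, hz⟩ := (Submodule.mem_span_range_iff_exists_fun K).1
        (fl.span ▸ Submodule.mem_top : x ∈ Submodule.span K (Set.range U))
      exact ⟨z, (eA z).trans hz⟩
  set Φ := LinearEquiv.ofBijective _ bij with hΦ
  have sp : ∀ j, ∀ x ∈ Submodule.span K (U '' {i | wt i < j}), ∀ ω, j ≤ wt ω →
      Φ.symm x ω = 0 := by
    intro j x hx ω hω
    induction hx using Submodule.span_induction with
    | mem x hx =>
      obtain ⟨i, hi, rfl⟩ := hx
      have : Φ.symm (U i) = Pi.single i 1 := by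
        rw [LinearEquiv.symm_apply_eq]
        refine Eq.trans ?_ (eA _).symm
        simp [Pi.single_apply]
      rw [this, Pi.single_eq_of_ne]
      rintro rfl
      exact absurd hi (not_lt.2 hω)
    | zero => simp
    | add x y _ _ hx hy => simp [hx, hy]
    | smul c x _ hx => simp [hx]
  have dA : ∀ b ω, A b ω ≠ 0 → powW ℓ F.deg b = powW ℓ (stdE jd) ω := fun b ω hb =>
    Finset.sum_congr rfl fun t _ => FlagT_alpha_deg h.hom _ _ (FlagT_tens_ne hb t)
  have cA := tens_powD (ℓ := ℓ) (stdE jd) F.deg α (FlagT_alpha_deg h.hom) (FlagT_alpha_comm F v)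
  have sD : (stdD T (Fin W)).map (algebraMap T K) = stdD K (Fin W) := by
    ext i i'
    simp [stdD, apply_ite (algebraMap T K)]
  rw [← sD, ← powD_map, ← powD_map] at cA
  filter_upwards [fl.gr, FlagT_L hν h.incl h.unit (κ := ZMod ℓ)] with k hk1 hk2
  set inc := (S.L T k).subtype.compLeft (ZMod ℓ → F.ι) with hinc
  set Ψ : ((ZMod ℓ → F.ι) → S.L T k) →ₗ[T] ((ZMod ℓ → Fin W × Bool) → K) :=
    Φ.symm.toLinearMap.restrictScalars T ∘ₗ inc with hΨ
  have eΨ : ∀ x, mact A K (Ψ x) = inc x := fun x => Φ.apply_symm_apply (inc x)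
  have p1 : ∀ x, Ψ (mact (powD ℓ F.deg F.d) _ x) =
      mact (powD ℓ (stdE jd) (stdD T (Fin W))) K (Ψ x) := fun x => by
    apply bij.1
    have := congrArg (fun M => mact M K (Ψ x)) cA
    simp only [mact_mul, LinearMap.comp_apply, FlagT_mact_map] at this
    rw [eΨ, ← mact_compLeft, ← eΨ]
    exact this.symm
  have p2 : ∀ x, Ψ (rot T ℓ F.ι _ x) = rot T ℓ _ K (Ψ x) := fun x => by
    apply bij.1
    rw [eΨ]
    refine Eq.trans ?_ (LinearMap.congr_fun (rot_tens K α) (Ψ x))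
    rw [LinearMap.comp_apply, eΨ]
    rfl
  have p3 : ∀ (i : ℤ) x, Ψ (FlagT_pr T _ (fun b => (powW ℓ F.deg b : ℤ) = i) x) =
      FlagT_pr K K (fun ω => (powW ℓ (stdE jd) ω : ℤ) = i) (Ψ x) := fun i x => by
    apply bij.1
    rw [eΨ, ← FlagT_pr_mact (fun b => (powW ℓ F.deg b : ℤ) = i) _ fun b ω hb => by rw [dA b ω hb],
      eΨ]
    funext b
    simp [hinc, FlagT_pr_apply, apply_ite Subtype.val]
  set L : ℕ → (ZMod ℓ → Fin W × Bool) → Submodule T K := fun j ω =>
    if wt ω = j then S.L T (k + ∑ t, γ (ω t)) else ⊥ with hL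
  set L' : ℕ → (ZMod ℓ → Fin W) → Submodule T K := fun j a =>
    if powW ℓ Fin.val a = j then S.L T (k + ∑ t, γ (a t, false)) else ⊥ with hL'
  have eL' : ∀ j (i : ZMod ℓ → Fin W × Bool), L' j (fun t => (i t).1) =
      if wt i = j then S.L T (k + ∑ t, γ ((i t).1, false)) else ⊥ := fun j i => rfl
  have spl := fun j => tau_split ν hp hℓ hu jd (L j) (L' j)
    (fun i => by
      simp only [eL', hL]
      split_ifs
      · exact (hk2 i _ fun t => Or.inr rfl).1
      · exact le_rfl)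
    (fun i => by
      simp only [eL', hL]
      split_ifs
      · exact (hk2 i _ fun t => Or.inr rfl).2
      · exact ν.grel_of_le le_rfl)
    (fun i t => by
      have : wt (Function.update i t ((i t).1, false)) = wt i :=
        Finset.sum_congr rfl fun s _ => by
          by_cases hs : s = t
          · rw [hs, Function.update_self]
          · rw [Function.update_of_ne hs]
      simp only [hL, this]
      split_ifs
      · refine (hk2 i _ fun s => ?_).1
        by_cases hs : s = t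
        · rw [hs, Function.update_self]
          exact Or.inr rfl
        · rw [Function.update_of_ne hs]
          exact Or.inl rfl
      · exact le_rfl)
    (fun π => le_rfl)
    (fun i => by
      simp only [hL, hwt, FlagT_powW_rot]
      rw [← Equiv.sum_comp (Equiv.addRight (1 : ZMod ℓ)) fun t => γ (i t)]
      rfl)
    (fun i => by
      simp only [hL', FlagT_powW_rot]
      rw [← Equiv.sum_comp (Equiv.addRight (1 : ZMod ℓ)) fun t => γ (i t, false)]
      rfl)
  have wm : ∀ ω, wt ω < Finset.univ.sup wt + 1 := fun ω =>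
    Nat.lt_succ_of_le (Finset.le_sup (Finset.mem_univ ω))
  have c0 : IsCx (mact (powD ℓ F.deg F.d) (S.L T k)) (fun i => gr (powW ℓ F.deg) i ⊤) ⊥ :=
    (F.pow ℓ hℓ).isCx _
  have a0 : IsAct ℓ (mact (powD ℓ F.deg F.d) (S.L T k)) (rot T ℓ F.ι (S.L T k))
    (fun i => gr (powW ℓ F.deg) i ⊤) ⊥ := F.pow_act _ hℓ
  rw [AddFn.adams, FlagT_filt ν hu c0 a0
    (fun j => FlagT_pr T K (fun ω => wt ω = j) ∘ₗ Ψ) (Finset.univ.sup wt + 1) ?_ ?_ ?_ ?_ _
    (fun j => ⟨(spl j).1, (spl j).2.1, (spl j).2.2.1⟩) ?_]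
  · simp only [fun j => (spl j).2.2.2]
    rw [← Finset.mul_sum, Finset.sum_comm]
    congr 1
    refine Finset.sum_congr rfl fun π _ => ?_
    rw [Finset.sum_eq_single_of_mem (wt fun _ => (π, true)) (Finset.mem_range.2 (wm _))]
    · rw [eL' _ fun _ => (π, true)]
      simp [hL]
    · intro j _ hj
      rw [eL' _ fun _ => (π, true), if_neg hj.symm, ν.rel_of_le bot_le, mul_zero]
  · intro j x
    refine (congrArg _ (p1 x)).trans (FlagT_pr_mact _ _ (fun b b' hb => ?_) _)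
    have : wt b = wt b' := congrArg (powW ℓ Fin.val) (FlagT_powD_ne jd hb).2
    rw [this]
  · intro j x
    rw [LinearMap.comp_apply, p2]
    funext b
    change _ = if wt (fun t => b (t + 1)) = j then _ else _
    rw [hwt, FlagT_powW_rot]
    rfl
  · intro x hx
    have : Ψ x = 0 := funext fun ω => by simpa [FlagT_pr_apply] using congrFun (hx (wt ω)) ω
    have e := eΨ x
    rw [this, map_zero] at e
    exact funext fun b => Subtype.ext (congrFun e b).symm
  · intro j hj x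
    funext ω
    exact if_neg (by have := wm ω; omega)
  · intro j i z
    rw [FlagT_mem_grL]
    constructor
    · intro hz
      have z1 : ∀ ω, wt ω ≠ j → z ω = 0 := fun ω hω => by simpa [hL, hω] using (hz ω).1
      obtain ⟨x, hx1, hx2⟩ := (hk1 j z fun ω hω => by_contra fun hn => hω (z1 ω hn)).1 fun ω => by
        by_cases hω : wt ω = j
        · simpa [hL, hω] using (hz ω).1
        · rw [z1 ω hω]
          exact zero_mem _
      have e : ∀ ω, j ≤ wt ω → Ψ (fun b => ⟨x b, hx1 b⟩) ω = z ω := fun ω hω => by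
        have := sp j _ hx2 ω hω
        rw [← eA, map_sub, show Φ.symm (mact A K z) = z from Φ.symm_apply_apply z] at this
        exact sub_eq_zero.1 this
      refine ⟨FlagT_pr T _ (fun b => (powW ℓ F.deg b : ℤ) = i) fun b => ⟨x b, hx1 b⟩,
        mem_gr.2 fun b => ⟨trivial, fun hb => if_neg hb⟩, fun j' hj => funext fun ω => ?_,
        funext fun ω => ?_⟩
      · simp only [LinearMap.comp_apply, p3, FlagT_pr_apply, Pi.zero_apply, ite_eq_right_iff]
        intro q1 _
        rw [e ω (by omega), z1 ω (by omega)]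
      · simp only [LinearMap.comp_apply, p3, FlagT_pr_apply]
        split_ifs with q1 q2
        · exact e ω q1.ge
        · exact ((hz ω).2 q2).symm
        · exact (z1 ω q1).symm
    · rintro ⟨x, hx, q, rfl⟩ ω
      have e : FlagT_pr T _ (fun b => (powW ℓ F.deg b : ℤ) = i) x = x := funext fun b => by
        rw [FlagT_pr_apply]
        split_ifs with hb
        · rfl
        · exact ((mem_gr.1 hx b).2 hb).symm
      refine ⟨?_, fun hω => ?_⟩
      · by_cases hω : wt ω = j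
        · simp only [hL, hω, if_true]
          refine (hk1 j _ fun ω hω => by_contra fun hn => hω (if_neg hn)).2
            ⟨inc x, fun b => (x b).2, ?_⟩ ω
          rw [← eΨ, eA, ← Finset.sum_sub_distrib]
          refine Submodule.sum_mem _ fun ω' _ => ?_
          rw [← sub_smul]
          rcases lt_trichotomy (wt ω') j with c | c | c
          · exact Submodule.smul_mem _ _ (Submodule.subset_span ⟨ω', c, rfl⟩)
          · simp [c]
          · have := congrFun (q _ c) ω'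
            simp only [LinearMap.comp_apply, FlagT_pr_apply, if_true, Pi.zero_apply] at this
            simp [this]
        · simp [FlagT_pr_apply, hω]
      · rw [← e]
        simp [p3, FlagT_pr_apply, hω]

end Crest.Agent.R188
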