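import Crest.Agent.R188.Whit
import Crest.Agent.R188.FlagT
import Crest.Agent.R188.Flag2
import Crest.Agent.R188.Adams

/-!
# R188 / EStar

The vanishing theorem `E*`.
-/

set_option autoImplicit false
set_option linter.unusedSectionVars false
set_option linter.unusedVariables false

noncomputable section

namespace Crest.Agent.R188

open Filter
open Crest.Agent.R183 (Zc Bd mact gr Htpy)
open scoped TensorProduct

variable {T : Type} [CommRing T] {K σ : Type} [Field K] [Algebra T K] [Fintype σ] [DecidableEq σ]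
  {S : Sys K σ} {𝔶 : Ideal T} {ν : AddFn T} {n : ℕ}

/-- `a δ` is a function on every chart and a unit over `U`. -/
def esPos (T : Type) [CommRing T] [Algebra T K] (S : Sys K σ) (𝔶 : Ideal T) (δ : σ → ℤ) : Prop :=
  (∀ χ, S.a χ δ ∈ S.O T χ) ∧ ∀ χ, ∀ 𝔓 ∈ S.U 𝔶 χ, S.Nv χ 𝔓 (S.a χ δ)

theorem esPos_nsmul {δ : σ → ℤ} (h : esPos T S 𝔶 δ) (m : ℕ) : esPos T S 𝔶 (m • δ) := by
  induction m with
  | zero => exact ⟨fun χ => by rw [zero_smul, S.a_zero]; exact one_mem _,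
      fun χ 𝔓 _ => by rw [zero_smul, S.a_zero]; exact Sys.Nv.one S χ 𝔓⟩
  | succ m ih => exact ⟨fun χ => by rw [succ_nsmul, S.a_add]; exact mul_mem (ih.1 χ) (h.1 χ),
      fun χ 𝔓 hP => by rw [succ_nsmul, S.a_add]; exact (ih.2 χ 𝔓 hP).mul S (h.2 χ 𝔓 hP)⟩

theorem esPos_ev (hc : Ctx T S 𝔶 ν n) {γ γ' : σ → ℤ} (h : esPos T S 𝔶 (γ - γ')) :
    ∀ᶠ k in atTop, S.L T (k + γ) ≤ S.L T (k + γ') ∧ ν.grel (S.L T (k + γ')) (S.L T (k + γ)) := by
  have := hc.noeth
  refine (S.L_le_of_mem_O h.1).and ?_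
  refine ((S.stable_L γ').inPhi S (S.stable_L γ) 𝔶 fun χ 𝔓 hP =>
    ⟨_, h.2 χ 𝔓 hP, fun x hx => ?_⟩).mono fun k hk => (hc.good _).2 hk
  rw [S.mem_loc_L] at hx ⊢
  convert hx using 1
  rw [S.a_sub, smul_eq_mul]
  field_simp [S.a_ne χ γ, S.a_ne χ γ']

theorem es_TT_pow (γ : σ → ℤ) (m : ℕ) : (TT γ : GR σ) ^ m = TT (m • γ) := by
  rw [AddMonoidAlgebra.single_pow, one_pow]

theorem es_shift (γ : σ → ℤ) : Tendsto (fun k : σ → ℤ => k + γ) atTop atTop :=
  tendsto_atTop_add_const_right _ γ tendsto_id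

theorem es_tele (hc : Ctx T S 𝔶 ν n) {γ γ' : σ → ℤ} (h : esPos T S 𝔶 (γ - γ')) (m : ℕ) :
    ∀ᶠ k in atTop, ν.rel (S.L T (k + m • γ')) (S.L T (k + m • γ)) =
      act (∑ i ∈ Finset.range m, TT γ' ^ i * TT γ ^ (m - 1 - i))
        (fun k => ν.rel (S.L T (k + γ')) (S.L T (k + γ))) k := by
  induction m with
  | zero =>
    refine Eventually.of_forall fun k => ?_
    rw [zero_smul, zero_smul, ν.rel_of_le le_rfl]
    simp [act]
  | succ m ih =>
    have e : ∑ i ∈ Finset.range (m + 1), (TT γ' : GR σ) ^ i * TT γ ^ (m + 1 - 1 - i) =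
        TT γ' * ∑ i ∈ Finset.range m, TT γ' ^ i * TT γ ^ (m - 1 - i) + TT γ ^ m := by
      rw [Finset.sum_range_succ', Finset.mul_sum]
      congr 1
      · refine Finset.sum_congr rfl fun i _ => ?_
        rw [show m + 1 - 1 - (i + 1) = m - 1 - i by omega]; ring
      · simp
    have h1 : esPos T S 𝔶 ((γ' + m • γ) - (m + 1) • γ') := by
      convert esPos_nsmul h m using 1
      rw [succ_nsmul, smul_sub]; abel
    have h2 : esPos T S 𝔶 ((m + 1) • γ - (γ' + m • γ)) := by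
      convert h using 1
      rw [succ_nsmul]; abel
    have h3 : esPos T S 𝔶 ((m + 1) • γ - (m + 1) • γ') := by
      convert esPos_nsmul h (m + 1) using 1
      rw [smul_sub]
    filter_upwards [(es_shift γ').eventually ih, esPos_ev hc h1, esPos_ev hc h2, esPos_ev hc h3]
      with k hk k1 k2 k3
    rw [ν.rel_trans k2.1 k1.1 k3.2, e, act_add, act_mul, Pi.add_apply, act_TT, ← hk, es_TT_pow,
      act_TT]
    congr 2
    · congr 1; rw [succ_nsmul]; abel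
    · congr 1; abel
    · congr 1; abel
    · congr 1; rw [succ_nsmul]; abel

theorem es_hom {F : FC T} {W : ℕ} {v : Fin W → F.ι → K}
    {jd : Fin W → ℕ} {γ : Fin W × Bool → σ → ℤ} (h : FlagCx T 𝔶 F S W v jd γ) (i : Fin W × Bool)
    (b : F.ι) (hb : pairU T F v i b ≠ 0) : F.deg b = stdE jd i := by
  obtain ⟨π, _ | _⟩ := i
  · simp only [pairU, Bool.false_eq_true, if_false, Matrix.mulVec, dotProduct] at hb
    obtain ⟨b', -, hb'⟩ := Finset.exists_ne_zero_of_sum_ne_zero hb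
    have h1 := h.hom π b' (right_ne_zero_of_mul hb')
    have h2 := F.d_deg b b' fun h0 => left_ne_zero_of_mul hb' (by simp [h0])
    simp only [stdE, Bool.false_eq_true, if_false]
    omega
  · simpa [stdE] using h.hom π b (by simpa [pairU] using hb)

theorem es_whit (hc : Ctx T S 𝔶 ν n) {F : FC T} {W : ℕ} {v : Fin W → F.ι → K}
    {jd : Fin W → ℕ} {γ : Fin W × Bool → σ → ℤ} (h : FlagCx T 𝔶 F S W v jd γ) (k' : ℕ) :
    ∑ π, ((-1 : ℝ) ^ jd π) • ((TT (γ (π, false)) ^ k' * (TT (γ (π, false)) - 1) ^ (n + 1) -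
      TT (γ (π, true)) ^ k' * (TT (γ (π, true)) - 1) ^ (n + 1) : GR σ)) ∈ kerG S 𝔶 ν n := by
  classical
  let g : Fin W × Bool → GR σ := fun i => TT (γ i) ^ k' * (TT (γ i) - 1) ^ (n + 1)
  have w1 := whitney hc (h.flag.restrict (fun b => Even (F.deg b)) (fun i => Even (stdE jd i))
    fun i b hb => by rw [es_hom h i b hb]) k'
  have w2 := whitney hc (h.flag.restrict (fun b => ¬ Even (F.deg b)) (fun i => ¬ Even (stdE jd i))
    fun i b hb => by rw [es_hom h i b hb]) k'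
  have e : ∑ π, ((-1 : ℝ) ^ jd π) • (g (π, false) - g (π, true)) =
      ∑ i : {i // Even (stdE jd i)}, g i.1 - ∑ i : {i // ¬ Even (stdE jd i)}, g i.1 := by
    have e1 : ∑ π, ((-1 : ℝ) ^ jd π) • (g (π, false) - g (π, true)) =
        ∑ i, ((-1 : ℝ) ^ stdE jd i) • g i := by
      rw [Fintype.sum_prod_type]
      refine Finset.sum_congr rfl fun π _ => ?_
      simp [stdE, pow_succ, smul_sub, sub_eq_add_neg, add_comm]
    rw [e1, ← Fintype.sum_subtype_add_sum_subtype (fun i => Even (stdE jd i)), sub_eq_add_neg,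
      ← Finset.sum_neg_distrib]
    congr 1
    · exact Finset.sum_congr rfl fun i _ => by rw [i.2.neg_one_pow, one_smul]
    · exact Finset.sum_congr rfl fun i _ => by
        rw [(Nat.not_even_iff_odd.1 i.2).neg_one_pow, neg_one_smul]
  exact e ▸ sub_mem w1 w2

/-- `f k' = ∑ π, ± act (s k' (A' π, A π)) (D π)` (telescoping, `rel_trans`), so the `(n+1)`-st difference is
`∑ ± act (μ π) (D π)`; `Gam.div`, `fwdDiff_geom_mem`, and `whitney` for each degree (`Flag.restrict`) give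
`(0, Δ^{n+1} f) ∈ Gam`. -/
theorem FlagCx.fwdDiff (hc : Ctx T S 𝔶 ν n) {F : FC T} {W : ℕ} {v : Fin W → F.ι → K}
    {jd : Fin W → ℕ} {γ : Fin W × Bool → σ → ℤ} (h : FlagCx T 𝔶 F S W v jd γ) (k' : ℕ) :
    ∀ᶠ k in atTop, (fwdDiff 1)^[n + 1] (fun m : ℕ => ∑ π, (-1 : ℝ) ^ jd π *
      ν.rel (S.L T (k + m • γ (π, false))) (S.L T (k + m • γ (π, true)))) k' = 0 := by
  let D : Fin W → (σ → ℤ) → ℝ := fun π k =>
    ν.rel (S.L T (k + γ (π, false))) (S.L T (k + γ (π, true)))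
  let s : Fin W → ℕ → GR σ := fun π m =>
    ∑ i ∈ Finset.range m, TT (γ (π, false)) ^ i * TT (γ (π, true)) ^ (m - 1 - i)
  let μ : Fin W → GR σ := fun π => (_root_.fwdDiff 1)^[n + 1] (s π) k'
  have hm : ∀ γ : σ → ℤ, (TT γ : GR σ) - 1 ∈ aug σ := fun γ => Ideal.subset_span ⟨γ, rfl⟩
  have hμ := fun π => fwdDiff_geom_mem (aug σ) (hm (γ (π, false))) (hm (γ (π, true))) n k'
  have h1 : ∑ π, ((-1 : ℝ) ^ jd π) • (μ π * (TT (γ (π, false)) - TT (γ (π, true))), act (μ π) (D π)) ∈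
      Gam S 𝔶 ν (n + 1) :=
    Submodule.sum_mem _ fun π _ => Submodule.smul_mem _ _
      (Gam.div hc (fun χ => h.incl χ π) (fun χ => h.unit χ π) (hμ π).1)
  have h2 := sub_mem h1 (es_whit hc h k')
  have h3 : ∑ π, ((-1 : ℝ) ^ jd π) • act (μ π) (D π) =ᶠ[atTop] 0 := by
    refine Gam.functional hc ?_
    convert h2 using 1
    refine Prod.ext ?_ ?_
    · simp only [Prod.fst_sub, Prod.fst_sum, Prod.smul_fst]
      rw [eq_comm, sub_eq_zero]
      exact Finset.sum_congr rfl fun π _ => by rw [← (hμ π).2]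
    · simp [Prod.snd_sum]
  have h4 : ∀ᶠ k in atTop, ∀ π ∈ Finset.univ, ∀ e ∈ Finset.range (n + 1 + 1),
      ν.rel (S.L T (k + (k' + e) • γ (π, false))) (S.L T (k + (k' + e) • γ (π, true))) =
        act (s π (k' + e)) (D π) k :=
    (eventually_all_finset _).2 fun π _ => (eventually_all_finset _).2 fun e _ =>
      es_tele hc ⟨fun χ => h.incl χ π, fun χ => h.unit χ π⟩ _
  filter_upwards [h3, h4] with k k3 k4
  let φ : Fin W → GR σ →+ ℝ := fun π => AddMonoidHom.mk' (fun ξ => act ξ (D π) k)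
    fun ξ η => by rw [act_add]; rfl
  have k5 : ∀ π, act (μ π) (D π) k = ∑ e ∈ Finset.range (n + 1 + 1),
      ((-1 : ℤ) ^ (n + 1 - e) * ((n + 1).choose e : ℤ)) • act (s π (k' + e)) (D π) k := by
    intro π
    change φ π (μ π) = _
    simp only [μ, fwdDiff_iter_eq_sum_shift, map_sum, map_zsmul, smul_eq_mul, mul_one]
    rfl
  rw [Pi.zero_apply, Finset.sum_apply] at k3
  rw [← k3, fwdDiff_iter_eq_sum_shift]
  simp only [Pi.smul_apply, k5, Finset.smul_sum, smul_eq_mul, mul_one, Finset.mul_sum]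
  rw [Finset.sum_comm]
  refine Finset.sum_congr rfl fun π _ => Finset.sum_congr rfl fun e he => ?_
  rw [k4 π (Finset.mem_univ _) e he, mul_smul_comm]

theorem exists_primes (T : Type) [CommRing T] [IsLocalRing T] (c : ℕ) :
    ∃ s : Finset ℕ, c < s.card ∧ ∀ ℓ ∈ s, ℓ.Prime ∧ Odd ℓ ∧ IsUnit (ℓ : T) := by
  obtain ⟨p, hp⟩ := CharP.exists (IsLocalRing.ResidueField T)
  have hinf : ({ℓ : ℕ | ℓ.Prime} \ {2, p}).Infinite :=
    Nat.infinite_setOfPred_prime.sdiff (Set.toFinite _)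
  obtain ⟨s, hs, hc⟩ := hinf.exists_subset_card_eq (c + 1)
  refine ⟨s, by omega, fun ℓ hℓ => ?_⟩
  obtain ⟨h1, h2⟩ := hs hℓ
  simp only [Set.mem_insert_iff, Set.mem_singleton_iff, not_or] at h2
  have h1' : ℓ.Prime := h1
  refine ⟨h1', h1'.odd_of_ne_two h2.1, ?_⟩
  rw [← IsLocalRing.residue_ne_zero_iff_isUnit, map_natCast]
  intro h0
  rw [CharP.cast_eq_zero_iff _ p] at h0
  rcases CharP.char_is_prime_or_zero (IsLocalRing.ResidueField T) p with hq | rfl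
  · exact h2.2 ((Nat.prime_dvd_prime_iff_eq hq h1').1 h0).symm
  · exact h1'.ne_zero (zero_dvd_iff.1 h0)

theorem estar_exa {K : Type} [Field K] [Algebra T K] (hinj : Function.Injective (algebraMap T K))
    (F : FC T) {y : T} (hy : y ≠ 0) (h : Htpy F.deg F.d y) :
    Exa ((F.map (algebraMap T K)).act K) ((F.map (algebraMap T K)).G K) ⊥ := by
  intro i x hx
  have h1 := (F.map (algebraMap T K)).htpy_smul_mem K (F.htpy_map (algebraMap T K) h) i x hx
  have h2 : algebraMap T K y ≠ 0 := fun h0 => hy (hinj (by rw [h0, map_zero]))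
  have := Submodule.smul_mem _ (algebraMap T K y)⁻¹ h1
  rwa [smul_smul, inv_mul_cancel₀ h2, one_smul] at this

/-- Noetherian induction on `𝔮`; `K = FractionRing T`, `exists_flagCx` for a resolution of `T / 𝔮`,
`adams_eval`, `FlagCx.adams`, `FlagCx.fwdDiff`, `eq_zero_of_fwdDiff`. -/
theorem estar (hT : Nice T) (𝔶 : Ideal T) (n : ℕ) (hdim : ringKrullDim (T ⧸ 𝔶) ≤ n) (ν : AddFn T)
    (hν : ∀ (N : Type) [AddCommGroup N] [Module T N], ν.good N ↔ InPhi 𝔶 N) (𝔮 : Ideal T)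
    (hq : 𝔮.IsPrime) (hg : InPhi 𝔶 (T ⧸ 𝔮)) (hn : (n : ℕ∞) < 𝔮.height) : ν.val (T ⧸ 𝔮) = 0 := by
  have := hT.dom
  have := hT.noeth
  have := hT.loc
  induction 𝔮 using IsNoetherian.induction with
  | hgt 𝔮 ih =>
  have hgood : ν.good (T ⧸ 𝔮) := (hν _).2 hg
  have h0 : ∀ 𝔭 : Ideal T, 𝔭.IsPrime → 𝔮 < 𝔭 → ν.val (T ⧸ 𝔭) = 0 := fun 𝔭 hp hlt =>
    ih 𝔭 hlt hp ((hν _).1 (ν.good_of_surj (Submodule.factor hlt.le)
      (Submodule.factor_surjective hlt.le) hgood)) (hn.trans_le (Ideal.height_mono hlt.le))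
  obtain ⟨c, hc⟩ : ∃ c : ℕ, Ideal.height 𝔮 = c :=
    ⟨_, (ENat.natCast_toNat (Ideal.height_ne_top hq.ne_top)).symm⟩
  have hnc : n < c := by rw [hc] at hn; exact_mod_cast hn
  obtain ⟨F, hF⟩ := hT.ffr (T ⧸ 𝔮) inferInstance
  have hann : Module.annihilator T (T ⧸ 𝔮) = 𝔮 := Ideal.annihilator_quotient
  have hne : 𝔮 ≠ ⊥ := by
    rintro rfl
    rw [Ideal.height_bot] at hn
    exact absurd hn (by simp)
  obtain ⟨y, hy, hy0⟩ := Submodule.exists_mem_ne_zero_of_ne_bot hne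
  let K := FractionRing T
  have hinj : Function.Injective (algebraMap T K) := IsFractionRing.injective T K
  obtain ⟨σ, _, _, S, W, v, jd, γ, hfl, hsm⟩ := exists_flagCx (K := K) hT.consts hinj hdim F
    (estar_exa hinj F hy0 (hF.htpy (hann.symm ▸ hy))) (fun 𝔭 hp h1 h2 => by
      by_contra hcon
      push Not at hcon
      refine h2 (hg.2 𝔭 hp h1 fun z hz => ?_)
      by_contra hz'
      exact hcon z hz' (hF.htpy hz))
  have hctx : Ctx T S 𝔶 ν n := ⟨hT.noeth, hT.consts, hν, hsm⟩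
  obtain ⟨s, hs, hprime⟩ := exists_primes T c
  let f : (σ → ℤ) → ℕ → ℝ := fun k m => ∑ π, (-1 : ℝ) ^ jd π *
    ν.rel (S.L T (k + m • γ (π, false))) (S.L T (k + m • γ (π, true)))
  have e1 : ∀ᶠ k in atTop, ∀ k' ∈ Finset.range (s.sup id + 1), (fwdDiff 1)^[n + 1] (f k) k' = 0 :=
    (eventually_all_finset _).2 fun k' _ => hfl.fwdDiff hctx k'
  have e2 : ∀ᶠ k in atTop, ∀ ℓ ∈ s, f k ℓ = (ℓ : ℝ) ^ c * ν.val (T ⧸ 𝔮) := by
    refine (eventually_all_finset _).2 fun ℓ hℓ => ?_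
    obtain ⟨p1, p2, p3⟩ := hprime ℓ hℓ
    have : NeZero ℓ := ⟨p1.ne_zero⟩
    filter_upwards [hfl.adams hν p1 p2 p3] with k hk
    have : Module.Finite T (S.L T k) := Module.Finite.iff_fg.2 (S.L_fg k)
    rw [adams_eval hT p1 p2 p3 ν 𝔮 c hc hgood h0 F hF, S.finrank_L k] at hk
    have hl : (ℓ - 1 : ℝ) ≠ 0 := by
      have : (1 : ℝ) < ℓ := by exact_mod_cast p1.one_lt
      linarith
    apply mul_left_cancel₀ hl
    rw [← hk]
    push_cast
    ring
  obtain ⟨k, hk1, hk2⟩ := (e1.and e2).exists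
  exact eq_zero_of_fwdDiff (f k) n c (s.sup id) hnc _
    (fun k' hk' => hk1 k' (Finset.mem_range.2 (by omega))) s hs
    (fun ℓ hℓ => Finset.le_sup (f := id) hℓ) hk2

end Crest.Agent.R188
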