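import Crest.Agent.R188.Flag1

/-!
# R188 / Euler1

Koszul complexes of sections of the quotients of a flag.
-/

set_option autoImplicit false
set_option linter.unusedSectionVars false
set_option linter.unusedVariables false

noncomputable section

namespace Crest.Agent.R188

open Filter
open Crest.Agent.R183 (Zc Bd mact gr Htpy)
open scoped TensorProduct

variable {T : Type} [CommRing T] {K σ : Type} [Field K] [Algebra T K] [Fintype σ] [DecidableEq σ]
  {S : Sys K σ} {𝔶 : Ideal T} {ν : AddFn T} {n : ℕ}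
  {ι M : Type} [Fintype ι] [DecidableEq ι] [Fintype M] [DecidableEq M] {u : M → ι → K}
  {wt : M → ℕ} {γ : M → σ → ℤ}

/-- contraction with a vector. -/
def ctr (v : ι → K) : ExteriorAlgebra K (ι → K) →ₗ[K] ExteriorAlgebra K (ι → K) :=
  CliffordAlgebra.contractLeft (Q := (0 : QuadraticForm K (ι → K)))
    (∑ b, v b • (LinearMap.proj b : (ι → K) →ₗ[K] K))

/-- the standard lattice in the exterior powers. -/
def Lam (T K ι : Type) [CommRing T] [Field K] [Algebra T K] [Fintype ι] [DecidableEq ι] (i : ℕ) :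
    Submodule T (ExteriorAlgebra K (ι → K)) :=
  Submodule.span T (Set.range fun b : ι => ExteriorAlgebra.ι K (Pi.single b 1 : ι → K)) ^ i

/-- the Koszul complex of the section `x` of type `θ` of `K ^ ι / span Vs`. -/
def eulCx (T : Type) [CommRing T] [Algebra T K] (S : Sys K σ) (x : ι → K) (θ : σ → ℤ)
    (Vs : Set (ι → K)) : FCx T K σ where
  V := ExteriorAlgebra K (ι → K)
  D := ctr x
  G k i := if 0 ≤ i then (S.L T (k - i • θ) • Lam T K ι i.toNat) ⊓
    (⨅ v ∈ Vs, LinearMap.ker (ctr v)).restrictScalars T else ⊥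

theorem eul1_form (v g : ι → K) :
    (∑ b, v b • (LinearMap.proj b : (ι → K) →ₗ[K] K)) g = g ⬝ᵥ v := by
  simp only [LinearMap.coe_sum, Finset.sum_apply, LinearMap.smul_apply, LinearMap.proj_apply,
    smul_eq_mul, dotProduct]
  exact Finset.sum_congr rfl fun b _ => mul_comm _ _

theorem eul1_ctr_ι_mul (v g : ι → K) (y : ExteriorAlgebra K (ι → K)) :
    ctr v (ExteriorAlgebra.ι K g * y) = (g ⬝ᵥ v) • y - ExteriorAlgebra.ι K g * ctr v y := by
  rw [← eul1_form]
  exact CliffordAlgebra.contractLeft_ι_mul _ g y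

theorem eul1_ctr_algebraMap (v : ι → K) (c : K) :
    ctr v (algebraMap K (ExteriorAlgebra K (ι → K)) c) = 0 :=
  CliffordAlgebra.contractLeft_algebraMap _ _ c

theorem eul1_ctr_ctr (v : ι → K) (y : ExteriorAlgebra K (ι → K)) : ctr v (ctr v y) = 0 :=
  CliffordAlgebra.contractLeft_contractLeft _ y

theorem eul1_ctr_comm (v w : ι → K) (y : ExteriorAlgebra K (ι → K)) :
    ctr v (ctr w y) = -ctr w (ctr v y) :=
  CliffordAlgebra.contractLeft_comm _ _ y

theorem eul1_ctr_add (v w : ι → K) (y : ExteriorAlgebra K (ι → K)) :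
    ctr (v + w) y = ctr v y + ctr w y := by
  unfold ctr
  simp only [Pi.add_apply, add_smul, Finset.sum_add_distrib, map_add, LinearMap.add_apply]

theorem eul1_ctr_smul (c : K) (v : ι → K) (y : ExteriorAlgebra K (ι → K)) :
    ctr (c • v) y = c • ctr v y := by
  unfold ctr
  simp only [Pi.smul_apply, smul_eq_mul, mul_smul, ← Finset.smul_sum, map_smul,
    LinearMap.smul_apply]

theorem eul1_ctr_span {Vs : Set (ι → K)} {y : ExteriorAlgebra K (ι → K)}
    (hy : ∀ v ∈ Vs, ctr v y = 0) {v : ι → K} (hv : v ∈ Submodule.span K Vs) : ctr v y = 0 := by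
  induction hv using Submodule.span_induction with
  | mem v hv => exact hy v hv
  | zero => rw [← zero_smul K (0 : ι → K), eul1_ctr_smul, zero_smul]
  | add v w _ _ h1 h2 => rw [eul1_ctr_add, h1, h2, add_zero]
  | smul c v _ h => rw [eul1_ctr_smul, h, smul_zero]

theorem eul1_mem_ker {Vs : Set (ι → K)} {y : ExteriorAlgebra K (ι → K)} :
    y ∈ (⨅ v ∈ Vs, LinearMap.ker (ctr v)).restrictScalars T ↔ ∀ v ∈ Vs, ctr v y = 0 := by
  simp only [Submodule.restrictScalars_mem, Submodule.mem_iInf, LinearMap.mem_ker]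

section
variable {V V' : Type} [AddCommGroup V] [Module K V] [Module T V] [IsScalarTower T K V]
  [AddCommGroup V'] [Module K V'] [Module T V'] [IsScalarTower T K V']

theorem eul1_mul_smul (A B : Submodule T K) (N : Submodule T V) : (A * B) • N = A • B • N :=
  Submodule.smul_assoc A B N

theorem eul1_fg_smul {A : Submodule T K} {N : Submodule T V} (hA : A.FG) (hN : N.FG) :
    (A • N).FG := by
  have : A • N = Submodule.map₂ (Algebra.lsmul T T V : K →ₐ[T] Module.End T V).toLinearMap A N :=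
    le_antisymm (Submodule.smul_le.2 fun r hr m hm => Submodule.apply_mem_map₂ _ hr hm)
      (Submodule.map₂_le.2 fun r hr m hm => Submodule.smul_mem_smul hr hm)
  rw [this]
  exact hA.map₂ _ hN

theorem eul1_map_smul (φ : V →ₗ[K] V') {N : Submodule T V} {N' : Submodule T V'}
    {A B : Submodule T K} (h : ∀ y ∈ N, φ y ∈ B • N') {y : V} (hy : y ∈ A • N) :
    φ y ∈ (A * B) • N' := by
  rw [eul1_mul_smul]
  refine Submodule.smul_induction_on hy (fun r hr m hm => ?_) fun a b ha hb => ?_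
  · rw [map_smul]
    exact Submodule.smul_mem_smul hr (h m hm)
  · rw [map_add]
    exact add_mem ha hb

theorem eul1_stable (γ : σ → ℤ) {N : Submodule T V} (hN : N.FG) :
    S.Stable fun k => S.L T (k + γ) • N := by
  refine (S.stable_L (T := T) γ).mono fun k hk => ⟨eul1_fg_smul hk.1 hN, fun j => ?_⟩
  have := hk.2 j
  simp only at this ⊢
  rw [this, smul_eq_mul, eul1_mul_smul]

theorem eul1_tendsto (γ : σ → ℤ) : Tendsto (fun k : σ → ℤ => k + γ) atTop atTop :=
  tendsto_atTop_add_const_right _ γ tendsto_id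

theorem eul1_loc_map (χ : S.Chart) (φ : V →ₗ[K] V') {N : Submodule T V} {N' : Submodule T V'}
    {m : σ → ℤ} (hm : 0 ≤ m) (h : ∀ y ∈ N, (S.a χ m • φ) y ∈ S.L T m • N') (γ γ' : σ → ℤ) {y : V}
    (hy : y ∈ S.loc χ fun k => S.L T (k + γ) • N) :
    S.a χ (γ' - γ) • φ y ∈ S.loc χ fun k => S.L T (k + γ') • N' := by
  have h1 : ∀ᶠ k in atTop, S.a χ k • y ∈ S.L T (k + γ) • N := hy
  have h2 := (eul1_tendsto (γ' - γ - m)).eventually h1
  change ∀ᶠ k in atTop, S.a χ k • S.a χ (γ' - γ) • φ y ∈ S.L T (k + γ') • N'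
  filter_upwards [h2, eventually_ge_atTop (m - γ')] with k hk hk'
  have h3 := eul1_map_smul (S.a χ m • φ) h hk
  rw [← S.L_add (by
    intro j
    have := hk' j
    simp only [Pi.add_apply, Pi.sub_apply, Pi.zero_apply] at this ⊢
    omega) hm] at h3
  have e1 : k + (γ' - γ - m) + γ + m = k + γ' := by abel
  rw [e1, map_smul, LinearMap.smul_apply, smul_smul, ← S.a_add] at h3
  have e2 : k + (γ' - γ - m) + m = k + (γ' - γ) := by abel
  rw [e2, S.a_add, mul_smul] at h3
  exact h3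

theorem eul1_loc_bot (χ : S.Chart) {y : V} (hy : y ∈ S.loc χ fun _ => (⊥ : Submodule T V)) :
    y = 0 := by
  have h1 : ∀ᶠ k in atTop, S.a χ k • y ∈ (⊥ : Submodule T V) := hy
  obtain ⟨k, hk⟩ := h1.exists
  rw [Submodule.mem_bot, smul_eq_zero] at hk
  exact hk.resolve_left (S.a_ne χ k)

end

theorem eul1_exists_m (χ : S.Chart) {g : ι → K} (hg : ∀ b, g b ∈ S.O T χ) :
    ∃ m : σ → ℤ, 0 ≤ m ∧ ∀ b, (S.a χ m • g) b ∈ S.L T m := by
  have h1 : ∀ᶠ k in atTop, ∀ b, S.a χ k * g b ∈ S.L T k :=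
    eventually_all.2 fun b => (S.mem_O_iff χ (g b)).1 (hg b)
  obtain ⟨m, hm⟩ := (h1.and (eventually_ge_atTop 0)).exists
  exact ⟨m, hm.2, hm.1⟩

theorem eul1_Lam_succ (i : ℕ) : Lam T K ι (i + 1) =
    Submodule.span T (Set.range fun b : ι => ExteriorAlgebra.ι K (Pi.single b 1 : ι → K)) *
      Lam T K ι i := pow_succ' _ _

theorem eul1_Lam_induction {i : ℕ} {P : ExteriorAlgebra K (ι → K) → Prop}
    (h0 : P 0) (hadd : ∀ y z, P y → P z → P (y + z)) (hsmul : ∀ (t : T) y, P y → P (t • y))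
    (h : ∀ b, ∀ z ∈ Lam T K ι i, P (ExteriorAlgebra.ι K (Pi.single b 1 : ι → K) * z)) :
    ∀ y ∈ Lam T K ι (i + 1), P y := by
  intro y hy
  rw [eul1_Lam_succ] at hy
  refine Submodule.mul_induction_on hy (fun e he z hz => ?_) hadd
  induction he using Submodule.span_induction with
  | mem e he => obtain ⟨b, rfl⟩ := he; exact h b z hz
  | zero => rw [zero_mul]; exact h0
  | add a b _ _ ha hb => rw [add_mul]; exact hadd _ _ ha hb
  | smul t a _ ha => rw [smul_mul_assoc]; exact hsmul _ _ ha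

theorem eul1_single_mul_mem {i : ℕ} (b : ι) {z : ExteriorAlgebra K (ι → K)}
    (hz : z ∈ Lam T K ι i) :
    ExteriorAlgebra.ι K (Pi.single b 1 : ι → K) * z ∈ Lam T K ι (i + 1) := by
  rw [eul1_Lam_succ]
  exact Submodule.mul_mem_mul (Submodule.subset_span ⟨b, rfl⟩) hz

theorem eul1_Lam_zero {y : ExteriorAlgebra K (ι → K)} :
    y ∈ Lam T K ι 0 ↔ ∃ t : T, y = algebraMap K _ (algebraMap T K t) := by
  unfold Lam
  rw [pow_zero, Submodule.mem_one]
  simp only [← IsScalarTower.algebraMap_apply, eq_comm]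

theorem eul1_ctr_zero (v : ι → K) {A : Submodule T K} {y : ExteriorAlgebra K (ι → K)}
    (hy : y ∈ A • Lam T K ι 0) : ctr v y = 0 := by
  refine Submodule.smul_induction_on hy (fun r hr m hm => ?_) fun a b ha hb => ?_
  · obtain ⟨t, rfl⟩ := eul1_Lam_zero.1 hm
    rw [map_smul, eul1_ctr_algebraMap, smul_zero]
  · rw [map_add, ha, hb, add_zero]

theorem eul1_ι_mul_mem {B : Submodule T K} {g : ι → K} (hg : ∀ b, g b ∈ B) {i : ℕ}
    {z : ExteriorAlgebra K (ι → K)} (hz : z ∈ Lam T K ι i) :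
    ExteriorAlgebra.ι K g * z ∈ B • Lam T K ι (i + 1) := by
  have e : g = ∑ b, g b • (Pi.single b 1 : ι → K) := by
    ext b
    simp [Finset.sum_apply, Pi.single_apply]
  rw [e, map_sum, Finset.sum_mul]
  refine Submodule.sum_mem _ fun b _ => ?_
  rw [map_smul, smul_mul_assoc]
  exact Submodule.smul_mem_smul (hg b) (eul1_single_mul_mem b hz)

theorem eul1_ctr_mem {B : Submodule T K} {v : ι → K} (hv : ∀ b, v b ∈ B) (i : ℕ) :
    ∀ y ∈ Lam T K ι (i + 1), ctr v y ∈ B • Lam T K ι i := by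
  have hT : ∀ (t : T) (y : ExteriorAlgebra K (ι → K)), ctr v (t • y) = t • ctr v y := fun t y =>
    (ctr v).map_smul_of_tower t y
  induction i with
  | zero =>
    refine eul1_Lam_induction (by simp) (fun y z hy hz => by rw [map_add]; exact add_mem hy hz)
      (fun t y hy => by rw [hT]; exact Submodule.smul_mem _ t hy) fun b z hz => ?_
    have hz0 : ctr v z = 0 := by
      obtain ⟨t, rfl⟩ := eul1_Lam_zero.1 hz
      exact eul1_ctr_algebraMap _ _
    rw [eul1_ctr_ι_mul, hz0, mul_zero, sub_zero, single_one_dotProduct]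
    exact Submodule.smul_mem_smul (hv b) hz
  | succ i ih =>
    refine eul1_Lam_induction (by simp) (fun y z hy hz => by rw [map_add]; exact add_mem hy hz)
      (fun t y hy => by rw [hT]; exact Submodule.smul_mem _ t hy) fun b z hz => ?_
    rw [eul1_ctr_ι_mul, single_one_dotProduct]
    refine sub_mem (Submodule.smul_mem_smul (hv b) hz) ?_
    refine Submodule.smul_induction_on (ih z hz) (fun r hr m hm => ?_) fun a c ha hc => ?_
    · rw [mul_smul_comm]
      exact Submodule.smul_mem_smul hr (eul1_single_mul_mem b hm)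
    · rw [mul_add]
      exact add_mem ha hc

theorem eul1_Lam_fg (i : ℕ) : (Lam T K ι i).FG :=
  (Submodule.fg_span (Set.finite_range _)).pow i

theorem eul1_Lam_bot {i : ℕ} (hi : Fintype.card ι < i) : Lam T K ι i = ⊥ := by
  unfold Lam
  rw [Submodule.span_pow, Submodule.span_eq_bot]
  intro y hy
  obtain ⟨f, rfl⟩ := Set.mem_pow.1 hy
  choose b hb using fun j => (f j).2
  have e : (List.ofFn fun j => (f j : ExteriorAlgebra K (ι → K))).prod =
      ExteriorAlgebra.ιMulti K i fun j => (Pi.single (b j) 1 : ι → K) := by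
    rw [ExteriorAlgebra.ιMulti_apply]
    congr 2
    funext j
    exact (hb j).symm
  rw [e]
  refine AlternatingMap.map_eq_zero_of_not_injective _ _ fun hinj => ?_
  have : Function.Injective b := fun j j' h => hinj (by simp only [h])
  have := Fintype.card_le_of_injective b this
  rw [Fintype.card_fin] at this
  omega

/-- the terms of `eulCx`, with a transparent type. -/
def eul1_G (T : Type) [CommRing T] [Algebra T K] (S : Sys K σ) (θ : σ → ℤ) (Vs : Set (ι → K))
    (k : σ → ℤ) (i : ℤ) : Submodule T (ExteriorAlgebra K (ι → K)) :=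
  if 0 ≤ i then (S.L T (k - i • θ) • Lam T K ι i.toNat) ⊓
    (⨅ v ∈ Vs, LinearMap.ker (ctr v)).restrictScalars T else ⊥

theorem eul1_G_nat (θ : σ → ℤ) (Vs : Set (ι → K)) (k : σ → ℤ) (i : ℕ) :
    eul1_G T S θ Vs k i = (S.L T (k + -((i : ℤ) • θ)) • Lam T K ι i) ⊓
      (⨅ v ∈ Vs, LinearMap.ker (ctr v)).restrictScalars T := by
  simp only [eul1_G, Int.natCast_nonneg, if_true, Int.toNat_natCast, sub_eq_add_neg]

theorem eul1_G_neg (θ : σ → ℤ) (Vs : Set (ι → K)) (k : σ → ℤ) {i : ℤ} (hi : i < 0) :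
    eul1_G T S θ Vs k i = ⊥ := by
  simp only [eul1_G, not_le.2 hi, if_false]

theorem eul1_G_big (θ : σ → ℤ) (Vs : Set (ι → K)) (k : σ → ℤ) {i : ℤ}
    (hi : (Fintype.card ι : ℤ) < i) : eul1_G T S θ Vs k i = ⊥ := by
  obtain ⟨i, rfl⟩ := Int.eq_ofNat_of_zero_le (show 0 ≤ i by omega)
  rw [eul1_G_nat, eul1_Lam_bot (by omega), Submodule.smul_bot, bot_inf_eq]

theorem eul1_G_stable [IsNoetherianRing T] (θ : σ → ℤ) (Vs : Set (ι → K)) (i : ℤ) :
    S.Stable fun k => eul1_G T S θ Vs k i := by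
  rcases lt_or_ge i 0 with hi | hi
  · simp only [eul1_G_neg _ _ _ hi]
    exact S.stable_bot
  · obtain ⟨i, rfl⟩ := Int.eq_ofNat_of_zero_le hi
    simp only [eul1_G_nat]
    exact Sys.Stable.inf_const S (eul1_stable _ (eul1_Lam_fg i)) _

theorem eul1_mem_loc (χ : S.Chart) (θ : σ → ℤ) (Vs : Set (ι → K)) (δ : σ → ℤ) (i : ℕ)
    (y : ExteriorAlgebra K (ι → K)) :
    y ∈ S.loc χ (fun k => eul1_G T S θ Vs (k - δ) i) ↔
      y ∈ S.loc χ (fun k => S.L T (k + (-δ - (i : ℤ) • θ)) • Lam T K ι i) ∧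
        ∀ v ∈ Vs, ctr v y = 0 := by
  have e : (fun k => eul1_G T S θ Vs (k - δ) i) =
      fun k => (S.L T (k + (-δ - (i : ℤ) • θ)) • Lam T K ι i) ⊓
        (⨅ v ∈ Vs, LinearMap.ker (ctr v)).restrictScalars T := by
    funext k
    rw [eul1_G_nat]
    congr 3
    abel
  rw [e]
  have := S.loc_inf (T := T) (M := fun k => S.L T (k + (-δ - (i : ℤ) • θ)) • Lam T K ι i)
    (M' := fun _ => (⨅ v ∈ Vs, LinearMap.ker (ctr v)).restrictScalars T) χ
  rw [S.loc_const] at this
  rw [← eul1_mem_ker (T := T), ← Submodule.mem_inf, ← this]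

theorem eul1_mem_loc0 (χ : S.Chart) (θ : σ → ℤ) (Vs : Set (ι → K)) (i : ℕ)
    (y : ExteriorAlgebra K (ι → K)) :
    y ∈ S.loc χ (fun k => eul1_G T S θ Vs k i) ↔
      y ∈ S.loc χ (fun k => S.L T (k + (-((i : ℤ) • θ))) • Lam T K ι i) ∧
        ∀ v ∈ Vs, ctr v y = 0 := by
  have := eul1_mem_loc (T := T) χ θ Vs 0 i y
  simpa only [sub_zero, neg_zero, zero_sub] using this

theorem eul1_loc_ι (χ : S.Chart) {g : ι → K} (hg : ∀ b, g b ∈ S.O T χ) (i : ℕ) (γ γ' : σ → ℤ)
    {y : ExteriorAlgebra K (ι → K)} (hy : y ∈ S.loc χ fun k => S.L T (k + γ) • Lam T K ι i) :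
    S.a χ (γ' - γ) • (ExteriorAlgebra.ι K g * y) ∈
      S.loc χ fun k => S.L T (k + γ') • Lam T K ι (i + 1) := by
  obtain ⟨m, hm, hmg⟩ := eul1_exists_m χ hg
  refine eul1_loc_map χ (LinearMap.mulLeft K (ExteriorAlgebra.ι K g)) hm (fun z hz => ?_) γ γ' hy
  rw [LinearMap.smul_apply, LinearMap.mulLeft_apply, ← smul_mul_assoc, ← map_smul]
  exact eul1_ι_mul_mem hmg hz

theorem eul1_loc_ctr (χ : S.Chart) {f : ι → K} (hf : ∀ b, f b ∈ S.O T χ) (i : ℕ) (γ γ' : σ → ℤ)
    {y : ExteriorAlgebra K (ι → K)} (hy : y ∈ S.loc χ fun k => S.L T (k + γ) • Lam T K ι (i + 1)) :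
    S.a χ (γ' - γ) • ctr f y ∈ S.loc χ fun k => S.L T (k + γ') • Lam T K ι i := by
  obtain ⟨m, hm, hmf⟩ := eul1_exists_m χ hf
  refine eul1_loc_map χ (ctr f) hm (fun z hz => ?_) γ γ' hy
  rw [LinearMap.smul_apply, ← eul1_ctr_smul]
  exact eul1_ctr_mem hmf i z hz

/-- the projection killing the coordinates in `s`. -/
def eul1_pr (K : Type) [Field K] (s : Finset ι) : (ι → K) →ₗ[K] (ι → K) :=
  LinearMap.pi fun b => if b ∈ s then 0 else LinearMap.proj b

theorem eul1_pr_apply (s : Finset ι) (m : ι → K) (b : ι) :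
    eul1_pr K s m b = if b ∈ s then 0 else m b := by
  unfold eul1_pr
  rw [LinearMap.pi_apply]
  split_ifs <;> rfl

theorem eul1_map_pr (b : ι) (y : ExteriorAlgebra K (ι → K)) :
    ExteriorAlgebra.map (eul1_pr K {b}) y =
      y - ExteriorAlgebra.ι K (Pi.single b 1 : ι → K) * ctr (Pi.single b 1) y := by
  induction y using CliffordAlgebra.left_induction with
  | algebraMap r => rw [AlgHom.commutes, eul1_ctr_algebraMap, mul_zero, sub_zero]
  | add y z hy hz => rw [map_add, map_add, hy, hz, mul_add]; abel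
  | ι_mul y m hy =>
    have e : eul1_pr K {b} m = m - m b • (Pi.single b 1 : ι → K) := by
      ext c
      rw [eul1_pr_apply]
      by_cases h : c = b
      · subst h; simp
      · simp [h]
    change ExteriorAlgebra.map (eul1_pr K {b}) (ExteriorAlgebra.ι K m * y) =
      ExteriorAlgebra.ι K m * y - ExteriorAlgebra.ι K (Pi.single b 1 : ι → K) *
        ctr (Pi.single b 1) (ExteriorAlgebra.ι K m * y)
    rw [map_mul, ExteriorAlgebra.map_apply_ι, hy, e, eul1_ctr_ι_mul, dotProduct_single_one, map_sub,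
      map_smul]
    have h1 := ExteriorAlgebra.ι_sq_zero (R := K) (Pi.single b 1 : ι → K)
    have h2 := ExteriorAlgebra.ι_add_mul_swap (R := K) m (Pi.single b 1 : ι → K)
    set p := ExteriorAlgebra.ι K (Pi.single b 1 : ι → K)
    set q := ExteriorAlgebra.ι K m
    set z := ctr (Pi.single b 1) y
    have h3 : q * (p * z) = -(p * (q * z)) := by
      rw [← mul_assoc, ← mul_assoc, ← neg_mul, eq_neg_of_add_eq_zero_left h2]
    have h4 : p * (p * z) = 0 := by rw [← mul_assoc, h1, zero_mul]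
    simp only [sub_mul, mul_sub, smul_mul_assoc, mul_smul_comm, h3, h4, smul_zero]
    abel

theorem eul1_map_zero {y : ExteriorAlgebra K (ι → K)} (hy : ∀ b, ctr (Pi.single b 1) y = 0) :
    ExteriorAlgebra.map (0 : (ι → K) →ₗ[K] (ι → K)) y = y := by
  have h : ∀ s : Finset ι, ExteriorAlgebra.map (eul1_pr K s) y = y := by
    intro s
    induction s using Finset.induction_on with
    | empty =>
      have : eul1_pr K (∅ : Finset ι) = LinearMap.id := by
        refine LinearMap.ext fun m => funext fun c => ?_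
        rw [eul1_pr_apply]; simp
      rw [this, ExteriorAlgebra.map_id, AlgHom.id_apply]
    | insert b s hb ih =>
      have : eul1_pr K (insert b s) = eul1_pr K {b} ∘ₗ eul1_pr K s := by
        refine LinearMap.ext fun m => funext fun c => ?_
        rw [LinearMap.comp_apply, eul1_pr_apply, eul1_pr_apply, eul1_pr_apply]
        by_cases h : c = b <;> simp [h]
      rw [this, ← ExteriorAlgebra.map_comp_map, AlgHom.comp_apply, ih, eul1_map_pr, hy, mul_zero,
        sub_zero]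
  have : eul1_pr K (Finset.univ : Finset ι) = 0 := by
    refine LinearMap.ext fun m => funext fun c => ?_
    rw [eul1_pr_apply]; simp
  rw [← this]
  exact h _

theorem eul1_map_zero_succ {A : Submodule T K} {i : ℕ} {y : ExteriorAlgebra K (ι → K)}
    (hy : y ∈ A • Lam T K ι (i + 1)) :
    ExteriorAlgebra.map (0 : (ι → K) →ₗ[K] (ι → K)) y = 0 := by
  refine Submodule.smul_induction_on hy (fun r hr m hm => ?_) fun a b ha hb => ?_
  · have : ExteriorAlgebra.map (0 : (ι → K) →ₗ[K] (ι → K)) m = 0 := by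
      refine eul1_Lam_induction (T := T) (P := fun m => ExteriorAlgebra.map
        (0 : (ι → K) →ₗ[K] (ι → K)) m = 0) (map_zero _)
        (fun y z hy hz => by rw [map_add, hy, hz, add_zero]) (fun t y hy => ?_) (fun b z hz => ?_) m hm
      · rw [← algebraMap_smul K t y, map_smul, hy, smul_zero]
      · rw [map_mul, ExteriorAlgebra.map_apply_ι, LinearMap.zero_apply, map_zero, zero_mul]
    rw [map_smul, this, smul_zero]
  · rw [map_add, ha, hb, add_zero]

theorem eulCx_wf [IsNoetherianRing T] {x : ι → K} {θ : σ → ℤ} (hθ : 0 ≤ θ)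
    (hx : ∀ b, x b ∈ S.L T θ) (Vs : Set (ι → K)) : (eulCx T S x θ Vs).WF S := by
  refine ⟨fun y => eul1_ctr_ctr x y, ⟨0, Fintype.card ι, fun k i hi => ?_⟩,
    eul1_G_stable θ Vs, ?_⟩
  · rcases hi with hi | hi
    · exact eul1_G_neg _ _ _ hi
    · exact eul1_G_big _ _ _ hi
  · filter_upwards [eventually_ge_atTop ((Fintype.card ι : ℤ) • θ)] with k hk i
    change (eul1_G T S θ Vs k i).map ((ctr x).restrictScalars T) ≤ eul1_G T S θ Vs k (i - 1)
    rcases lt_or_ge i 0 with hi | hi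
    · rw [eul1_G_neg _ _ _ hi, Submodule.map_bot]
      exact bot_le
    rcases lt_or_ge (Fintype.card ι : ℤ) i with hi' | hi'
    · rw [eul1_G_big _ _ _ hi', Submodule.map_bot]
      exact bot_le
    obtain ⟨i, rfl⟩ := Int.eq_ofNat_of_zero_le hi
    rintro _ ⟨y, hy, rfl⟩
    rw [eul1_G_nat] at hy
    obtain ⟨hy1, hy2⟩ := hy
    change ctr x y ∈ _
    cases i with
    | zero =>
      rw [eul1_ctr_zero x hy1]
      exact zero_mem _
    | succ i =>
      have e : ((i + 1 : ℕ) : ℤ) - 1 = (i : ℤ) := by omega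
      rw [e, eul1_G_nat]
      refine ⟨?_, ?_⟩
      · have h1 := eul1_map_smul (ctr x) (eul1_ctr_mem hx i) hy1
        rw [← S.L_add ?_ hθ] at h1
        · have e2 : k + -(((i + 1 : ℕ) : ℤ) • θ) + θ = k + -((i : ℤ) • θ) := by
            rw [Nat.cast_succ, add_smul, one_smul]; abel
          rw [e2] at h1
          exact h1
        · intro j
          have h2 := hk j
          have h3 := hθ j
          simp only [Pi.add_apply, Pi.neg_apply, Pi.smul_apply, smul_eq_mul, Pi.zero_apply]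
            at h2 h3 ⊢
          nlinarith
      · have h2 := (eul1_mem_ker (T := T)).1 hy2
        refine (eul1_mem_ker (T := T)).2 fun v hv => ?_
        rw [eul1_ctr_comm, h2 v hv, map_zero, neg_zero]

/-- the homotopy is multiplication by `ι g / a θ`. -/
theorem eulCx_nh [IsNoetherianRing T] {x : ι → K} {θ : σ → ℤ} (hθ : 0 ≤ θ) (Vs : Set (ι → K))
    (χ : S.Chart) (g : ι → K) (hg : ∀ b, g b ∈ S.O T χ) (hV : ∀ v ∈ Vs, g ⬝ᵥ v = 0) :
    (eulCx T S x θ Vs).NH S χ ((g ⬝ᵥ x) / S.a χ θ) := by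
  refine ⟨S.a χ (-θ) • LinearMap.mulLeft K (ExteriorAlgebra.ι K g),
    fun y : ExteriorAlgebra K (ι → K) => ?_, fun i (y : ExteriorAlgebra K (ι → K)) hy => ?_⟩
  · change ctr x (S.a χ (-θ) • (ExteriorAlgebra.ι K g * y)) +
      S.a χ (-θ) • (ExteriorAlgebra.ι K g * ctr x y) = ((g ⬝ᵥ x) / S.a χ θ) • y
    rw [map_smul, eul1_ctr_ι_mul, ← smul_add, sub_add_cancel, smul_smul, ← zero_sub, S.a_sub,
      S.a_zero]
    congr 1
    ring
  · change y ∈ S.loc χ fun k => eul1_G T S θ Vs k i at hy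
    change S.a χ (-θ) • (ExteriorAlgebra.ι K g * y) ∈ S.loc χ fun k => eul1_G T S θ Vs k (i + 1)
    rcases lt_or_ge i 0 with hi | hi
    · simp only [eul1_G_neg _ _ _ hi] at hy
      rw [eul1_loc_bot χ hy, mul_zero, smul_zero]
      exact zero_mem _
    obtain ⟨i, rfl⟩ := Int.eq_ofNat_of_zero_le hi
    obtain ⟨hy1, hy2⟩ := (eul1_mem_loc0 χ θ Vs i y).1 hy
    have e : (i : ℤ) + 1 = ((i + 1 : ℕ) : ℤ) := by omega
    rw [e]
    refine (eul1_mem_loc0 χ θ Vs (i + 1) _).2 ⟨?_, fun v hv => ?_⟩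
    · have h1 := eul1_loc_ι χ hg i _ (-(((i + 1 : ℕ) : ℤ) • θ)) hy1
      have e2 : -(((i + 1 : ℕ) : ℤ) • θ) - -((i : ℤ) • θ) = -θ := by
        rw [Nat.cast_succ, add_smul, one_smul]; abel
      rw [e2] at h1
      exact h1
    · rw [map_smul, eul1_ctr_ι_mul, hV v hv, hy2 v hv, zero_smul, mul_zero, sub_zero, smul_zero]

/-- `0 → K^{(Vs ∪ w)} → K^{(Vs)} → K^{(Vs ∪ w)}[1](-θ-δ) → 0`, the second map is `ctr w`; check on charts:
`ctr w = a (-δ) • ctr f` on the kernel of the `ctr v`, and `y = ctr f (ι g * y)`. -/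
theorem eulCx_ses [IsNoetherianRing T] {x : ι → K} {θ : σ → ℤ} (hθ : 0 ≤ θ)
    (Vs : Set (ι → K)) (w : ι → K) (δ : σ → ℤ)
    (hf : ∀ χ, ∃ f : ι → K, (∀ b, f b ∈ S.O T χ) ∧ f - S.a χ δ • w ∈ Submodule.span K Vs)
    (hg : ∀ χ, ∃ g : ι → K, (∀ b, g b ∈ S.O T χ) ∧ (∀ v ∈ Vs, g ⬝ᵥ v = 0) ∧
      S.a χ δ * (g ⬝ᵥ w) = 1) :
    FCx.SES (eulCx T S x θ (insert w Vs)) (eulCx T S x θ Vs)
      ((eulCx T S x θ (insert w Vs)).sh (θ + δ)) := by
  have key : ∀ i : ℕ, ∀ᶠ k in atTop,
      (eul1_G T S θ Vs k ((i + 1 : ℕ) : ℤ)).map ((ctr w).restrictScalars T) =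
        eul1_G T S θ (insert w Vs) (k - (θ + δ)) i := by
    intro i
    have hB := eul1_G_stable (T := T) (S := S) θ Vs ((i + 1 : ℕ) : ℤ)
    have hA := Sys.Stable.shift S (eul1_G_stable (T := T) (S := S) θ (insert w Vs) i) (-(θ + δ))
    simp only [← sub_eq_add_neg] at hA
    refine Sys.Stable.eq_of_loc S (Sys.Stable.map S hB (ctr w)) hA fun χ => ?_
    rw [S.loc_map hB]
    obtain ⟨f, hf1, hf2⟩ := hf χ
    obtain ⟨g, hg1, hg2, hg3⟩ := hg χ
    apply le_antisymm
    · rintro _ ⟨y, hy, rfl⟩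
      obtain ⟨hy1, hy2⟩ := (eul1_mem_loc0 χ θ Vs (i + 1) y).1 hy
      refine (eul1_mem_loc χ θ (insert w Vs) (θ + δ) i _).2 ⟨?_, fun v hv => ?_⟩
      · have h1 := eul1_loc_ctr χ hf1 i _ (-(θ + δ) - (i : ℤ) • θ) hy1
        have e2 : -(θ + δ) - (i : ℤ) • θ - -(((i + 1 : ℕ) : ℤ) • θ) = -δ := by
          rw [Nat.cast_succ, add_smul, one_smul]; abel
        have h2 := eul1_ctr_span hy2 hf2
        have h3 : ctr f y = S.a χ δ • ctr w y := by
          rw [← sub_add_cancel f (S.a χ δ • w), eul1_ctr_add, h2, zero_add, eul1_ctr_smul]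
        rw [e2, h3, smul_smul, ← S.a_add, neg_add_cancel, S.a_zero, one_smul] at h1
        exact h1
      · change ctr v (ctr w y) = 0
        rcases hv with rfl | hv
        · exact eul1_ctr_ctr _ _
        · rw [eul1_ctr_comm, hy2 v hv, map_zero, neg_zero]
    · intro y hy
      obtain ⟨hy1, hy2⟩ := (eul1_mem_loc χ θ (insert w Vs) (θ + δ) i y).1 hy
      refine ⟨S.a χ δ • (ExteriorAlgebra.ι K g * y), ?_, ?_⟩
      · refine (eul1_mem_loc0 χ θ Vs (i + 1) _).2 ⟨?_, fun v hv => ?_⟩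
        · have h1 := eul1_loc_ι χ hg1 i _ (-(((i + 1 : ℕ) : ℤ) • θ)) hy1
          have e2 : -(((i + 1 : ℕ) : ℤ) • θ) - (-(θ + δ) - (i : ℤ) • θ) = δ := by
            rw [Nat.cast_succ, add_smul, one_smul]; abel
          rw [e2] at h1
          exact h1
        · rw [map_smul, eul1_ctr_ι_mul, hg2 v hv, hy2 v (Set.mem_insert_of_mem _ hv), zero_smul,
            mul_zero, sub_zero, smul_zero]
      · change ctr w (S.a χ δ • (ExteriorAlgebra.ι K g * y)) = y
        rw [map_smul, eul1_ctr_ι_mul, hy2 w (Set.mem_insert _ _), mul_zero, sub_zero, smul_smul,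
          hg3, one_smul]
  refine ⟨LinearMap.id, ctr w, Function.injective_id, rfl, ?_, ?_⟩
  · refine LinearMap.ext fun y => ?_
    exact eul1_ctr_comm w x y
  · have key2 := (Finset.range (Fintype.card ι + 1)).eventually_all.2 fun i _ => key i
    filter_upwards [key2] with k hk n
    constructor
    · change (eul1_G T S θ (insert w Vs) k n).map (((LinearMap.id : ExteriorAlgebra K (ι → K) →ₗ[K] _).restrictScalars T) :
        ExteriorAlgebra K (ι → K) →ₗ[T] ExteriorAlgebra K (ι → K)) =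
          eul1_G T S θ Vs k n ⊓ LinearMap.ker ((ctr w).restrictScalars T)
      rcases lt_or_ge n 0 with hn | hn
      · rw [eul1_G_neg _ _ _ hn, eul1_G_neg _ _ _ hn, Submodule.map_bot, bot_inf_eq]
      obtain ⟨n, rfl⟩ := Int.eq_ofNat_of_zero_le hn
      apply le_antisymm
      · rintro _ ⟨y, hy, rfl⟩
        rw [eul1_G_nat] at hy ⊢
        have h2 := (eul1_mem_ker (T := T)).1 hy.2
        exact ⟨⟨hy.1, (eul1_mem_ker (T := T)).2 fun v hv => h2 v (Set.mem_insert_of_mem _ hv)⟩,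
          h2 w (Set.mem_insert _ _)⟩
      · rintro y ⟨hy, hy'⟩
        refine ⟨y, ?_, rfl⟩
        rw [eul1_G_nat] at hy ⊢
        have h2 := (eul1_mem_ker (T := T)).1 hy.2
        refine ⟨hy.1, (eul1_mem_ker (T := T)).2 fun v hv => ?_⟩
        rcases hv with rfl | hv
        · exact hy'
        · exact h2 v hv
    · change (eul1_G T S θ Vs k n).map ((ctr w).restrictScalars T) =
        eul1_G T S θ (insert w Vs) (k - (θ + δ)) (n - 1)
      rcases lt_or_ge n 0 with hn | hn
      · rw [eul1_G_neg _ _ _ hn, eul1_G_neg _ _ _ (by omega), Submodule.map_bot]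
      rcases lt_or_ge ((Fintype.card ι : ℤ) + 1) n with hn' | hn'
      · rw [eul1_G_big _ _ _ (by omega), eul1_G_big _ _ _ (by omega), Submodule.map_bot]
      obtain ⟨n, rfl⟩ := Int.eq_ofNat_of_zero_le hn
      cases n with
      | zero =>
        rw [eul1_G_neg _ _ _ (show ((0 : ℕ) : ℤ) - 1 < 0 by omega), eq_bot_iff]
        rintro _ ⟨y, hy, rfl⟩
        rw [eul1_G_nat] at hy
        exact eul1_ctr_zero w hy.1
      | succ n =>
        have e : ((n + 1 : ℕ) : ℤ) - 1 = (n : ℤ) := by omega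
        rw [e]
        exact hk n (Finset.mem_range.2 (by omega))

/-- an element killed by all contractions is a scalar. -/
theorem eulCx_top {x : ι → K} {θ : σ → ℤ} {Vs : Set (ι → K)} (h : Submodule.span K Vs = ⊤) :
    FCx.Iso (S.line T 0) (eulCx T S x θ Vs) := by
  refine ⟨Algebra.linearMap K (ExteriorAlgebra K (ι → K)),
    (ExteriorAlgebra.algebraMap_leftInverse (R := K) (ι → K)).injective, ?_,
    Eventually.of_forall fun k n => ?_⟩
  · refine LinearMap.ext fun c => ?_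
    change algebraMap K (ExteriorAlgebra K (ι → K)) 0 =
      ctr x (algebraMap K (ExteriorAlgebra K (ι → K)) c)
    rw [map_zero, eul1_ctr_algebraMap]
  · change (if n = 0 then S.L T (k + 0) else ⊥).map
      ((Algebra.linearMap K (ExteriorAlgebra K (ι → K))).restrictScalars T) = eul1_G T S θ Vs k n
    rcases lt_or_ge n 0 with hn | hn
    · rw [if_neg hn.ne, eul1_G_neg _ _ _ hn, Submodule.map_bot]
    obtain ⟨n, rfl⟩ := Int.eq_ofNat_of_zero_le hn
    rw [eul1_G_nat]
    cases n with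
    | zero =>
      rw [if_pos (by simp)]
      simp only [Nat.cast_zero, zero_smul, neg_zero]
      apply le_antisymm
      · rintro _ ⟨c, hc, rfl⟩
        change algebraMap K (ExteriorAlgebra K (ι → K)) c ∈ _
        refine ⟨?_, (eul1_mem_ker (T := T)).2 fun v _ => eul1_ctr_algebraMap v c⟩
        rw [Algebra.algebraMap_eq_smul_one]
        exact Submodule.smul_mem_smul hc (eul1_Lam_zero.2 ⟨1, by simp⟩)
      · rintro y ⟨hy, -⟩
        refine Submodule.smul_induction_on hy (fun r hr m hm => ?_) fun a b ha hb => add_mem ha hb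
        obtain ⟨t, rfl⟩ := eul1_Lam_zero.1 hm
        refine ⟨t • r, Submodule.smul_mem _ t hr, ?_⟩
        change algebraMap K (ExteriorAlgebra K (ι → K)) (t • r) = _
        rw [Algebra.smul_def, Algebra.smul_def, ← map_mul, mul_comm]
    | succ n =>
      rw [if_neg (by omega), Submodule.map_bot, eq_comm, eq_bot_iff]
      rintro y ⟨hy1, hy2⟩
      have h2 := (eul1_mem_ker (T := T)).1 hy2
      have h3 := eul1_map_zero (y := y) fun b => eul1_ctr_span h2 (by rw [h]; trivial)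
      rw [eul1_map_zero_succ hy1] at h3
      exact h3.symm

end Crest.Agent.R188
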