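import Crest.Agent.R188.Indep

/-!
# R188 / Gam

The relation `Gam` is the graph of a function.
-/

set_option autoImplicit false
set_option linter.unusedSectionVars false
set_option linter.unusedVariables false

noncomputable section

namespace Crest.Agent.R188

open Filter
open Crest.Agent.R183 (Zc Bd mact gr Htpy)
open scoped TensorProduct

variable {T : Type} [CommRing T] {K σ : Type} [Field K] [Algebra T K] [Fintype σ] [DecidableEq σ]
  {S : Sys K σ} {𝔶 : Ideal T} {ν : AddFn T} {n : ℕ}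

theorem gam_TT_mul (a b : σ → ℤ) : (TT a * TT b : GR σ) = TT (a + b) := by
  simp [TT, AddMonoidAlgebra.single_mul_single]

theorem gam_TT_zero : (TT 0 : GR σ) = 1 := rfl

theorem gam_one_sub (a : σ → ℤ) : (1 - TT a : GR σ) ∈ aug σ := by
  rw [← neg_sub]
  exact neg_mem (Ideal.subset_span ⟨a, rfl⟩)

theorem gam_act_zero (f : (σ → ℤ) → ℝ) : act (0 : GR σ) f = 0 := by
  have := act_smul 0 (0 : GR σ) f
  rwa [zero_smul, zero_smul] at this

theorem gam_act_zero' (ξ : GR σ) : act ξ (0 : (σ → ℤ) → ℝ) = 0 := by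
  have := act_smul' 0 ξ (0 : (σ → ℤ) → ℝ)
  rwa [zero_smul, zero_smul] at this

theorem gam_eul_cons (p : K × (σ → ℤ)) (Ls : List (K × (σ → ℤ))) :
    eul (p :: Ls) = (1 - TT (-p.2)) * eul Ls := by
  simp [eul]

theorem gam_eul_types {L₁ L₂ : List (K × (σ → ℤ))} (h : L₁.map Prod.snd = L₂.map Prod.snd) :
    eul L₁ = eul L₂ := by
  have e : ∀ L : List (K × (σ → ℤ)),
      eul L = ((L.map Prod.snd).map fun δ => (1 - TT (-δ) : GR σ)).prod := fun L => by
    rw [eul, List.map_map]; rfl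
  rw [e, e, h]

theorem gam_ee_nonneg (j : σ) : (0 : σ → ℤ) ≤ ee j := fun i => by
  by_cases h : i = j <;> simp [h]

theorem aug_eq_span : aug σ = Ideal.span (Set.range fun j : σ => (1 - TT (-ee j) : GR σ)) := by
  apply le_antisymm
  · rw [aug, Ideal.span_le]
    rintro _ ⟨γ, rfl⟩
    let H : AddSubgroup (σ → ℤ) :=
      { carrier := {γ | (TT γ - 1 : GR σ) ∈
          Ideal.span (Set.range fun j : σ => (1 - TT (-ee j) : GR σ))}
        zero_mem' := by simp [gam_TT_zero]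
        add_mem' := fun {a b} ha hb => by
          have e : (TT (a + b) - 1 : GR σ) = TT a * (TT b - 1) + (TT a - 1) := by
            rw [← gam_TT_mul]; ring
          simp only [Set.mem_ofPred_eq] at ha hb ⊢
          rw [e]
          exact add_mem (Ideal.mul_mem_left _ _ hb) ha
        neg_mem' := fun {a} ha => by
          have e : (TT (-a) - 1 : GR σ) = -TT (-a) * (TT a - 1) := by
            rw [neg_mul, mul_sub, gam_TT_mul, neg_add_cancel, gam_TT_zero]; ring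
          simp only [Set.mem_ofPred_eq] at ha ⊢
          rw [e]
          exact Ideal.mul_mem_left _ _ ha }
    have h1 : ∀ j, ee j ∈ H := fun j => by
      rw [← neg_mem_iff]
      change (TT (-ee j) - 1 : GR σ) ∈ Ideal.span _
      rw [← neg_sub]
      exact neg_mem (Ideal.subset_span ⟨j, rfl⟩)
    have h2 : γ = ∑ j, γ j • ee j := by
      funext i
      simp [Finset.sum_apply, Pi.single_apply]
    have h3 : γ ∈ H := by
      rw [h2]
      exact sum_mem fun j _ => H.zsmul_mem (h1 j) _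
    exact h3
  · rw [Ideal.span_le]
    rintro _ ⟨j, rfl⟩
    exact gam_one_sub _

theorem TT_sub_mem (γ γ' : σ → ℤ) : TT γ - TT γ' ∈ aug σ := by
  have e : (TT γ - TT γ' : GR σ) = (1 - TT γ') - (1 - TT γ) := by ring
  rw [e]
  exact sub_mem (gam_one_sub _) (gam_one_sub _)

theorem eul_mem (Ls : List (K × (σ → ℤ))) : eul Ls ∈ aug σ ^ Ls.length := by
  induction Ls with
  | nil => simp
  | cons p Ls ih =>
    rw [gam_eul_cons, List.length_cons, pow_succ']
    exact Ideal.mul_mem_mul (gam_one_sub _) ih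

/-- `P` of the Koszul complex. -/
abbrev gamP (S : Sys K σ) (ν : AddFn T) (Ls : List (K × (σ → ℤ))) : (σ → ℤ) → ℝ :=
  ((S.line T 0).kos Ls).P ν

/-- the span attached to a class of lists. -/
def gamS (S : Sys K σ) (ν : AddFn T) (A : List (K × (σ → ℤ)) → Prop) :
    Submodule ℝ (GR σ × ((σ → ℤ) → ℝ)) :=
  Submodule.span ℝ ({p | p.1 = 0 ∧ p.2 =ᶠ[atTop] 0} ∪
    {p | ∃ (γ : σ → ℤ) (Ls : List (K × (σ → ℤ))), A Ls ∧
      p = (TT γ * eul Ls, act (TT γ) (gamP S ν Ls))})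

theorem gam_eq (e : ℕ) :
    Gam S 𝔶 ν e = gamS S ν fun Ls => e ≤ Ls.length ∧ S.Sec T Ls ∧ S.AdmL T 𝔶 Ls := by
  simp only [Gam, gamS, and_assoc]

section
variable {A : List (K × (σ → ℤ)) → Prop}

theorem gamS_congr {ξ : GR σ} {f g : (σ → ℤ) → ℝ} (h : (ξ, f) ∈ gamS S ν A)
    (hfg : f =ᶠ[atTop] g) : (ξ, g) ∈ gamS S ν A := by
  have e : (ξ, g) = (ξ, f) + (0, g - f) := by simp
  rw [e]
  refine add_mem h (Submodule.subset_span (Or.inl ⟨rfl, ?_⟩))
  filter_upwards [hfg] with k hk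
  simp [hk]

theorem gamS_gen {Ls : List (K × (σ → ℤ))} (h : A Ls) (η : GR σ) :
    (η * eul Ls, act η (gamP S ν Ls)) ∈ gamS S ν A := by
  induction η using AddMonoidAlgebra.induction_on with
  | of m => exact Submodule.subset_span (Or.inr ⟨m, Ls, h, rfl⟩)
  | add x y hx hy =>
    rw [add_mul, act_add]
    exact add_mem hx hy
  | smul r x hx =>
    rw [smul_mul_assoc, act_smul]
    exact Submodule.smul_mem _ r hx

theorem gamS_gen1 {Ls : List (K × (σ → ℤ))} (h : A Ls) : (eul Ls, gamP S ν Ls) ∈ gamS S ν A := by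
  have := gamS_gen (S := S) (ν := ν) h 1
  rwa [one_mul, act_one] at this

/-- induction principle for operators. -/
theorem gamS_ind {A' : List (K × (σ → ℤ)) → Prop} (η : GR σ)
    (hA : ∀ γ Ls, A Ls → (η * (TT γ * eul Ls), act η (act (TT γ) (gamP S ν Ls))) ∈ gamS S ν A')
    {p : GR σ × ((σ → ℤ) → ℝ)} (h : p ∈ gamS S ν A) : (η * p.1, act η p.2) ∈ gamS S ν A' := by
  induction h using Submodule.span_induction with
  | mem p hp =>
    rcases hp with ⟨h1, h2⟩ | ⟨γ, Ls, h1, rfl⟩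
    · refine Submodule.subset_span (Or.inl ⟨by simp [h1], ?_⟩)
      have := act_congr η h2
      rwa [gam_act_zero'] at this
    · exact hA γ Ls h1
  | zero =>
    rw [Prod.fst_zero, Prod.snd_zero, mul_zero, gam_act_zero']
    exact zero_mem _
  | add x y _ _ hx hy =>
    rw [Prod.fst_add, Prod.snd_add, mul_add, act_add']
    exact add_mem hx hy
  | smul r x _ hx =>
    rw [Prod.smul_fst, Prod.smul_snd, mul_smul_comm, act_smul']
    exact Submodule.smul_mem _ r hx

theorem gamS_mul {ξ : GR σ} {f : (σ → ℤ) → ℝ} (h : (ξ, f) ∈ gamS S ν A) (η : GR σ) :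
    (η * ξ, act η f) ∈ gamS S ν A := by
  refine gamS_ind (p := (ξ, f)) η (fun γ Ls hL => ?_) h
  rw [← mul_assoc, ← act_mul]
  exact gamS_gen hL _

/-- it is enough to test the generators of the augmentation ideal. -/
theorem gamS_aug {ξ : GR σ} {f : (σ → ℤ) → ℝ}
    (h : ∀ j, ((1 - TT (-ee j)) * ξ, act (1 - TT (-ee j)) f) ∈ gamS S ν A) {η : GR σ}
    (hη : η ∈ aug σ) : (η * ξ, act η f) ∈ gamS S ν A := by
  rw [aug_eq_span] at hη
  induction hη using Submodule.span_induction with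
  | mem x hx =>
    obtain ⟨j, rfl⟩ := hx
    exact h j
  | zero =>
    rw [zero_mul, gam_act_zero]
    exact zero_mem _
  | add x y _ _ hx hy =>
    rw [add_mul, act_add]
    exact add_mem hx hy
  | smul c x _ hx =>
    rw [smul_eq_mul, mul_assoc, act_mul]
    exact gamS_mul hx c

end

theorem gam_sec_cons {p : K × (σ → ℤ)} {Ls : List (K × (σ → ℤ))} (h1 : 0 ≤ p.2)
    (h2 : p.1 ∈ S.L T p.2) (h : S.Sec T Ls) : S.Sec T (p :: Ls) := by
  intro q hq
  rcases List.mem_cons.1 hq with rfl | hq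
  · exact ⟨h1, h2⟩
  · exact h q hq

theorem gam_adm_mono {L₁ L₂ : List (K × (σ → ℤ))} (h : L₁ ⊆ L₂) (a : S.AdmL T 𝔶 L₁) :
    S.AdmL T 𝔶 L₂ := fun χ 𝔓 h𝔓 => by
  obtain ⟨p, hp, h1⟩ := a χ 𝔓 h𝔓
  exact ⟨p, h hp, h1⟩

theorem gam_gd (hc : Ctx T S 𝔶 ν n) (γ : σ → ℤ) {Ls : List (K × (σ → ℤ))} (s : S.Sec T Ls)
    (a : S.AdmL T 𝔶 Ls) : ((S.line T γ).kos Ls).Gd ν :=
  haveI := hc.noeth
  FCx.Adm.gd S hc.good (FCx.WF.kos S (FCx.wf_line S γ) s) (FCx.adm_kos S a)

theorem gamP_cons (hc : Ctx T S 𝔶 ν n) {p : K × (σ → ℤ)} {Ls : List (K × (σ → ℤ))} (h1 : 0 ≤ p.2)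
    (h2 : p.1 ∈ S.L T p.2) (s : S.Sec T Ls) (a : S.AdmL T 𝔶 Ls) :
    gamP S ν (p :: Ls) =ᶠ[atTop] act (1 - TT (-p.2)) (gamP S ν Ls) :=
  (FCx.P_cone S (FCx.WF.kos S (FCx.wf_line S 0) s) (gam_gd hc 0 s a) h1 h2).2

theorem gamP_perm {L₁ L₂ : List (K × (σ → ℤ))} (h : L₁.Perm L₂) (s : S.Sec T L₁) :
    gamP S ν L₁ =ᶠ[atTop] gamP S ν L₂ :=
  (FCx.Iso.P S (FCx.iso_perm h) (FCx.WF.kos S (FCx.wf_line S 0) s)
    (FCx.WF.kos S (FCx.wf_line S 0) fun p hp => s p (h.mem_iff.2 hp))).2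

theorem gam_exists_sec (T : Type) [CommRing T] [Algebra T K] (S : Sys K σ) (j : σ) :
    ∃ y : K, y ∈ S.L T (ee j) := by
  obtain ⟨χ⟩ := S.nonempty_chart
  exact ⟨_, S.a_mem_L χ (gam_ee_nonneg j)⟩

/-- the Euler class of a list of basic types. -/
def gamE (js : List σ) : GR σ := (js.map fun j => (1 - TT (-ee j) : GR σ)).prod

theorem gam_eul_basic {Ls : List (K × (σ → ℤ))} {js : List σ}
    (h : Ls.map Prod.snd = js.map ee) : eul Ls = gamE js := by
  have e : eul Ls = ((Ls.map Prod.snd).map fun δ => (1 - TT (-δ) : GR σ)).prod := by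
    rw [eul, List.map_map]; rfl
  rw [e, h, List.map_map]; rfl

theorem gam_pow_le (e : ℕ) :
    aug σ ^ e ≤ Ideal.span {ξ | ∃ js : List σ, js.length = e ∧ ξ = gamE js} := by
  induction e with
  | zero =>
    rw [pow_zero, Ideal.one_eq_top, top_le_iff, Ideal.eq_top_iff_one]
    exact Ideal.subset_span ⟨[], rfl, rfl⟩
  | succ e ih =>
    rw [pow_succ']
    refine (Ideal.mul_mono aug_eq_span.le ih).trans ?_
    rw [Ideal.span_mul_span', Ideal.span_le]
    rintro _ ⟨_, ⟨j, rfl⟩, _, ⟨js, h1, rfl⟩, rfl⟩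
    exact Ideal.subset_span ⟨j :: js, by simp [h1], by simp [gamE]⟩

theorem gam_adm_basic (hc : Ctx T S 𝔶 ν n) (js : List σ) (h : n ≤ js.length) :
    ∃ Ls : List (K × (σ → ℤ)), Ls.map Prod.snd = js.map ee ∧ Ls.length = js.length ∧ S.Sec T Ls ∧
      S.AdmL T 𝔶 Ls := by
  obtain ⟨Ls, h1, h2, h3⟩ := hc.exists_adm (js.map ee) fun δ hδ => by
    obtain ⟨j, -, rfl⟩ := List.mem_map.1 hδ
    exact gam_ee_nonneg j
  have h4 : Ls.length = js.length := by simpa using congrArg List.length h1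
  exact ⟨Ls, h1, h4, h2, h3 Ls (List.Sublist.refl _) (h4 ▸ h)⟩

theorem Gam.anti {e e' : ℕ} (h : e ≤ e') : Gam S 𝔶 ν e' ≤ Gam S 𝔶 ν e := by
  refine Submodule.span_mono (Set.union_subset_union_right _ ?_)
  rintro p ⟨γ, Ls, h1, h2⟩
  exact ⟨γ, Ls, h.trans h1, h2⟩

theorem Gam.congr {e : ℕ} {ξ : GR σ} {f g : (σ → ℤ) → ℝ} (h : (ξ, f) ∈ Gam S 𝔶 ν e)
    (hfg : f =ᶠ[atTop] g) : (ξ, g) ∈ Gam S 𝔶 ν e := by
  rw [gam_eq] at h ⊢
  exact gamS_congr h hfg

theorem Gam.mul {e : ℕ} {ξ : GR σ} {f : (σ → ℤ) → ℝ} (h : (ξ, f) ∈ Gam S 𝔶 ν e) (η : GR σ) :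
    (η * ξ, act η f) ∈ Gam S 𝔶 ν e := by
  rw [gam_eq] at h ⊢
  exact gamS_mul h η

/-- add a section. -/
theorem Gam.succ (hc : Ctx T S 𝔶 ν n) {e : ℕ} {ξ : GR σ} {f : (σ → ℤ) → ℝ}
    (h : (ξ, f) ∈ Gam S 𝔶 ν e) {η : GR σ} (hη : η ∈ aug σ) :
    (η * ξ, act η f) ∈ Gam S 𝔶 ν (e + 1) := by
  rw [gam_eq] at h ⊢
  refine gamS_aug (fun j => gamS_ind (p := (ξ, f)) _ (fun γ Ls hL => ?_) h) hη
  obtain ⟨h1, h2, h3⟩ := hL
  obtain ⟨y, hy⟩ := gam_exists_sec T S j
  have h4 := gamS_gen (S := S) (ν := ν)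
    (A := fun Ls => e + 1 ≤ Ls.length ∧ S.Sec T Ls ∧ S.AdmL T 𝔶 Ls) (Ls := (y, ee j) :: Ls)
    ⟨by simpa using h1, gam_sec_cons (gam_ee_nonneg j) hy h2,
      gam_adm_mono (List.subset_cons_self _ _) h3⟩ (TT γ)
  rw [gam_eul_cons, mul_left_comm] at h4
  refine gamS_congr h4 ?_
  rw [← act_mul, mul_comm, act_mul]
  exact act_congr _ (gamP_cons hc (p := (y, ee j)) (gam_ee_nonneg j) hy h2 h3)

theorem Gam.exists (hc : Ctx T S 𝔶 ν n) {e : ℕ} (he : n ≤ e) {ξ : GR σ} (h : ξ ∈ aug σ ^ e) :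
    ∃ f, (ξ, f) ∈ Gam S 𝔶 ν e := by
  have h' := gam_pow_le e h
  clear h
  induction h' using Submodule.span_induction with
  | mem x hx =>
    obtain ⟨js, h1, rfl⟩ := hx
    obtain ⟨Ls, a1, a2, a3, a4⟩ := gam_adm_basic hc js (h1 ▸ he)
    refine ⟨gamP S ν Ls, ?_⟩
    rw [gam_eq, ← gam_eul_basic a1]
    exact gamS_gen1 ⟨by omega, a3, a4⟩
  | zero => exact ⟨0, zero_mem _⟩
  | add x y _ _ hx hy =>
    obtain ⟨f, hf⟩ := hx
    obtain ⟨g, hg⟩ := hy
    exact ⟨f + g, add_mem hf hg⟩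
  | smul c x _ hx =>
    obtain ⟨f, hf⟩ := hx
    exact ⟨_, Gam.mul hf c⟩

open Classical in
theorem gam_basic (hc : Ctx T S 𝔶 ν n) (m : ℕ) : ∀ Ls : List (K × (σ → ℤ)),
    (Ls.map Prod.snd).countP (fun δ => decide (¬ ∃ j, δ = ee j)) = m → n + 1 ≤ Ls.length →
      S.Sec T Ls → S.AdmL T 𝔶 Ls → (eul Ls, gamP S ν Ls) ∈ gamS S ν fun Ls =>
        n + 1 ≤ Ls.length ∧ S.Sec T Ls ∧ S.AdmL T 𝔶 Ls ∧ ∀ q ∈ Ls, ∃ j, q.2 = ee j := by
  induction m with
  | zero =>
    intro Ls h0 h1 h2 h3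
    refine gamS_gen1 ⟨h1, h2, h3, fun q hq => ?_⟩
    have := List.countP_eq_zero.1 h0 q.2 (List.mem_map_of_mem hq)
    simpa using this
  | succ m ih =>
    intro Ls h0 h1 h2 h3
    obtain ⟨δ, hδ, hb⟩ := List.countP_pos_iff.1 (lt_of_lt_of_eq (Nat.succ_pos m) h0.symm)
    obtain ⟨q, hq, rfl⟩ := List.mem_map.1 hδ
    obtain ⟨s, t, rfl⟩ := List.append_of_mem hq
    have hp : (s ++ q :: t).Perm (q :: (s ++ t)) := List.perm_middle
    have h2' : S.Sec T (q :: (s ++ t)) := fun p hp' => h2 p (hp.mem_iff.2 hp')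
    have h3' : S.AdmL T 𝔶 (q :: (s ++ t)) := gam_adm_mono hp.subset h3
    have hl : n ≤ (s ++ t).length := by
      have := hp.length_eq
      rw [List.length_cons] at this
      omega
    obtain ⟨R, r1, r2, r3⟩ := hc.exists_adm ((s ++ t).map Prod.snd) fun δ hδ => by
      obtain ⟨p, hp', rfl⟩ := List.mem_map.1 hδ
      exact (h2' p (List.mem_cons_of_mem _ hp')).1
    have r4 : R.length = (s ++ t).length := by
      have := congrArg List.length r1
      rwa [List.length_map, List.length_map] at this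
    have r5 := r3 R (List.Sublist.refl _) (r4 ▸ hl)
    obtain ⟨q1, q2⟩ := h2 q hq
    have hm : (R.map Prod.snd).countP (fun δ => decide (¬ ∃ j, δ = ee j)) = m := by
      have a1 := (hp.map Prod.snd).countP_eq (fun δ => decide (¬ ∃ j, δ = ee j))
      rw [h0, List.map_cons, List.countP_cons, if_pos hb] at a1
      rw [r1]
      omega
    have key := gamS_aug (S := S) (ν := ν) (ξ := eul R) (f := gamP S ν R) (A := fun Ls =>
        n + 1 ≤ Ls.length ∧ S.Sec T Ls ∧ S.AdmL T 𝔶 Ls ∧ ∀ q ∈ Ls, ∃ j, q.2 = ee j)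
      (fun j => by
        obtain ⟨y, hy⟩ := gam_exists_sec T S j
        have a1 := ih ((y, ee j) :: R) (by
            rw [List.map_cons, List.countP_cons_of_neg (by simp), hm])
          (by rw [List.length_cons]; omega) (gam_sec_cons (gam_ee_nonneg j) hy r2)
          (gam_adm_mono (List.subset_cons_self _ _) r5)
        rw [gam_eul_cons] at a1
        exact gamS_congr a1 (gamP_cons hc (p := (y, ee j)) (gam_ee_nonneg j) hy r2 r5))
      (gam_one_sub (-q.2))
    have ht : (q :: (s ++ t)).map Prod.snd = (q :: R).map Prod.snd := by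
      rw [List.map_cons, List.map_cons, r1]
    have e1 : eul (s ++ q :: t) = (1 - TT (-q.2)) * eul R := by
      rw [← gam_eul_cons, ← gam_eul_types ht]
      exact (hp.map _).prod_eq
    rw [e1]
    refine gamS_congr key (EventuallyEq.symm ?_)
    exact (gamP_perm hp h2).trans ((P_indep hc ht (hp.length_eq ▸ h1) h2' (gam_sec_cons q1 q2 r2) h3'
      (gam_adm_mono (List.subset_cons_self _ _) r5)).trans (gamP_cons hc q1 q2 r2 r5))

/-- the generators with all types of the form `ee j` suffice: induction on the sum of the types, using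
`P_indep` to replace the list by `(y y', δ' + ee j) :: rest` with `rest` admissible, and `P_cone_mul`; a type
`0` gives `(0, 0)` (take the section `1`). -/
theorem Gam.eq_basic (hc : Ctx T S 𝔶 ν n) :
    Gam S 𝔶 ν (n + 1) = Submodule.span ℝ ({p | p.1 = 0 ∧ p.2 =ᶠ[atTop] 0} ∪
      {p | ∃ (γ : σ → ℤ) (Ls : List (K × (σ → ℤ))), n + 1 ≤ Ls.length ∧ S.Sec T Ls ∧
        S.AdmL T 𝔶 Ls ∧ (∀ q ∈ Ls, ∃ j, q.2 = ee j) ∧
        p = (TT γ * eul Ls, act (TT γ) (((S.line T 0).kos Ls).P ν))}) := by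
  have e : Submodule.span ℝ ({p : GR σ × ((σ → ℤ) → ℝ) | p.1 = 0 ∧ p.2 =ᶠ[atTop] 0} ∪
      {p | ∃ (γ : σ → ℤ) (Ls : List (K × (σ → ℤ))), n + 1 ≤ Ls.length ∧ S.Sec T Ls ∧
        S.AdmL T 𝔶 Ls ∧ (∀ q ∈ Ls, ∃ j, q.2 = ee j) ∧
        p = (TT γ * eul Ls, act (TT γ) (((S.line T 0).kos Ls).P ν))}) =
      gamS S ν fun Ls => n + 1 ≤ Ls.length ∧ S.Sec T Ls ∧ S.AdmL T 𝔶 Ls ∧
        ∀ q ∈ Ls, ∃ j, q.2 = ee j := by
    simp only [gamS, and_assoc]
  rw [e, gam_eq]
  apply le_antisymm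
  · refine Submodule.span_le.2 ?_
    rintro p (hp | ⟨γ, Ls, ⟨h1, h2, h3⟩, rfl⟩)
    · exact Submodule.subset_span (Or.inl hp)
    · exact gamS_mul (gam_basic hc _ Ls rfl h1 h2 h3) _
  · refine Submodule.span_mono (Set.union_subset_union_right _ ?_)
    rintro p ⟨γ, Ls, ⟨h1, h2, h3, -⟩, h4⟩
    exact ⟨γ, Ls, ⟨h1, h2, h3⟩, h4⟩

/-- the substitution `X j ↦ 1 - TT (-ee j)` is injective. -/
theorem aeval_h_injective : Function.Injective
    (MvPolynomial.aeval (R := ℝ) fun j : σ => (1 - TT (-ee j) : GR σ)) := by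
  let φ : (σ →₀ ℕ) →+ (σ → ℤ) :=
    { toFun := fun α j => -(α j : ℤ)
      map_zero' := by funext j; simp
      map_add' := fun a b => by funext j; simp [add_comm] }
  have hφ : Function.Injective φ := fun a b h => by
    ext j
    have : -(a j : ℤ) = -(b j : ℤ) := congrFun h j
    omega
  let ψ : MvPolynomial σ ℝ →ₐ[ℝ] MvPolynomial σ ℝ :=
    MvPolynomial.aeval fun j => 1 - MvPolynomial.X j
  have hψ : ψ.comp ψ = AlgHom.id ℝ _ := by
    refine MvPolynomial.algHom_ext fun j => ?_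
    simp [ψ]
  have hψ' : Function.Injective ψ :=
    Function.LeftInverse.injective (g := ψ) fun x => congrArg (fun F => F x) hψ
  have e : (MvPolynomial.aeval (R := ℝ) fun j : σ => (1 - TT (-ee j) : GR σ)) =
      (AddMonoidAlgebra.mapDomainAlgHom ℝ ℝ φ).comp ψ := by
    refine MvPolynomial.algHom_ext fun j => ?_
    have a1 : φ (Finsupp.single j 1) = -ee j := by
      funext i
      by_cases h : i = j
      · subst h; simp [φ]
      · simp [φ, h]
    have a2 : AddMonoidAlgebra.mapDomainAlgHom ℝ ℝ φ (MvPolynomial.X j) = TT (-ee j) := by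
      rw [← a1]
      exact AddMonoidAlgebra.mapDomain_single
    simp only [MvPolynomial.aeval_X, AlgHom.comp_apply, ψ, map_sub, map_one, a2]
  rw [e]
  exact (AddMonoidAlgebra.mapDomain_injective hφ).comp hψ'

theorem gam_perm_map {α β : Type} (f : α → β) (m : List β) :
    ∀ l : List α, (l.map f).Perm m → ∃ l' : List α, l.Perm l' ∧ l'.map f = m := by
  induction m with
  | nil =>
    intro l h
    exact ⟨l, List.Perm.refl _, h.eq_nil⟩
  | cons b m ih =>
    intro l h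
    obtain ⟨a, ha, rfl⟩ := List.mem_map.1 (h.mem_iff.2 List.mem_cons_self)
    obtain ⟨s, t, rfl⟩ := List.append_of_mem ha
    have hp : (s ++ a :: t).Perm (a :: (s ++ t)) := List.perm_middle
    obtain ⟨l', h1, h2⟩ := ih (s ++ t) ((hp.map f).symm.trans h).cons_inv
    exact ⟨a :: l', hp.trans (h1.cons a), by rw [List.map_cons, h2]⟩

/-- the exponent of a list of variables. -/
def gamF (js : List σ) : σ →₀ ℕ := (js.map fun j => Finsupp.single j 1).sum

theorem gamF_cons (j : σ) (js : List σ) : gamF (j :: js) = Finsupp.single j 1 + gamF js := by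
  simp [gamF]

theorem gamF_apply (js : List σ) (i : σ) : gamF js i = js.count i := by
  induction js with
  | nil => simp [gamF]
  | cons j js ih =>
    rw [gamF_cons, Finsupp.add_apply, ih, List.count_cons, Finsupp.single_apply, add_comm]
    simp

theorem gam_exists_lam (hc : Ctx T S 𝔶 ν n) :
    ∃ Λ : MvPolynomial σ ℝ →ₗ[ℝ] ((σ → ℤ) → ℝ), ∀ (js : List σ) (Ls : List (K × (σ → ℤ))),
      Ls.map Prod.snd = js.map ee → n + 1 ≤ Ls.length → S.Sec T Ls → S.AdmL T 𝔶 Ls →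
        Λ (MvPolynomial.monomial (gamF js) 1) =ᶠ[atTop] gamP S ν Ls := by
  have h : ∀ α : σ →₀ ℕ, ∃ f : (σ → ℤ) → ℝ, ∀ (js : List σ) (Ls : List (K × (σ → ℤ))),
      gamF js = α → Ls.map Prod.snd = js.map ee → n + 1 ≤ Ls.length → S.Sec T Ls →
        S.AdmL T 𝔶 Ls → f =ᶠ[atTop] gamP S ν Ls := by
    intro α
    by_cases h0 : ∃ (js : List σ) (Ls : List (K × (σ → ℤ))), gamF js = α ∧
      Ls.map Prod.snd = js.map ee ∧ n + 1 ≤ Ls.length ∧ S.Sec T Ls ∧ S.AdmL T 𝔶 Ls
    · obtain ⟨js₀, L₀, a1, a2, a3, a4, a5⟩ := h0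
      refine ⟨gamP S ν L₀, fun js Ls b1 b2 b3 b4 b5 => ?_⟩
      have hp : js₀.Perm js := List.perm_iff_count.2 fun i => by
        rw [← gamF_apply, ← gamF_apply, a1, b1]
      obtain ⟨L', c1, c2⟩ := gam_perm_map Prod.snd (Ls.map Prod.snd) L₀ (by
        rw [a2, b2]; exact hp.map _)
      exact (gamP_perm c1 a4).trans (P_indep hc c2 (c1.length_eq ▸ a3)
        (fun p hp' => a4 p (c1.mem_iff.2 hp')) b4 (gam_adm_mono c1.subset a5) b5)
    · exact ⟨0, fun js Ls b1 b2 b3 b4 b5 => absurd ⟨js, Ls, b1, b2, b3, b4, b5⟩ h0⟩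
  choose p hp using h
  refine ⟨(MvPolynomial.basisMonomials σ ℝ).constr ℝ p, fun js Ls b2 b3 b4 b5 => ?_⟩
  have e : (MvPolynomial.basisMonomials σ ℝ).constr ℝ p (MvPolynomial.monomial (gamF js) 1) =
      p (gamF js) := (MvPolynomial.basisMonomials σ ℝ).constr_basis ℝ p (gamF js)
  rw [e]
  exact hp _ js Ls rfl b2 b3 b4 b5

/-- For `α : σ →₀ ℕ` of degree `≥ n + 1` let `p α` be `P` of an admissible list of types `α` (well defined up
to `=ᶠ` by `P_indep`, `iso_perm`), `p (α + single j 1) =ᶠ act h_j (p α)`.  Let `Λ` be the linear map on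
`MvPolynomial σ ℝ` with `Λ (monomial α 1) = p α` (zero in degree `≤ n`).  For `(ξ, f) ∈ Gam` and all large `m`
there is `q` supported in degrees `≥ n + 1` with `aeval h q = TT (-m) * ξ`, `Λ q =ᶠ act (TT (-m)) f`. -/
theorem Gam.functional (hc : Ctx T S 𝔶 ν n) {f : (σ → ℤ) → ℝ}
    (h : ((0 : GR σ), f) ∈ Gam S 𝔶 ν (n + 1)) : f =ᶠ[atTop] 0 := by
  obtain ⟨Λ, hΛ⟩ := gam_exists_lam hc
  let M : Submodule ℝ (MvPolynomial σ ℝ) := Submodule.span ℝ
    {q | ∃ js : List σ, n + 1 ≤ js.length ∧ q = MvPolynomial.monomial (gamF js) 1}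
  let ev : MvPolynomial σ ℝ →ₐ[ℝ] GR σ :=
    MvPolynomial.aeval (R := ℝ) fun j : σ => (1 - TT (-ee j) : GR σ)
  have hX : ∀ j, ∀ q ∈ M, MvPolynomial.X j * q ∈ M ∧
      Λ (MvPolynomial.X j * q) =ᶠ[atTop] act (1 - TT (-ee j)) (Λ q) := by
    intro j q hq
    induction hq using Submodule.span_induction with
    | mem q hq =>
      obtain ⟨js, h1, rfl⟩ := hq
      have e : MvPolynomial.X j * MvPolynomial.monomial (gamF js) (1 : ℝ) =
          MvPolynomial.monomial (gamF (j :: js)) 1 := by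
        rw [MvPolynomial.X, MvPolynomial.monomial_mul, one_mul, gamF_cons]
      rw [e]
      refine ⟨Submodule.subset_span ⟨j :: js, by rw [List.length_cons]; omega, rfl⟩, ?_⟩
      obtain ⟨Ls, a1, a2, a3, a4⟩ := gam_adm_basic hc js (by omega)
      obtain ⟨y, hy⟩ := gam_exists_sec T S j
      refine (hΛ (j :: js) ((y, ee j) :: Ls) (by simp [a1]) (by rw [List.length_cons]; omega)
        (gam_sec_cons (gam_ee_nonneg j) hy a3) (gam_adm_mono (List.subset_cons_self _ _) a4)).trans ?_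
      exact (gamP_cons hc (p := (y, ee j)) (gam_ee_nonneg j) hy a3 a4).trans
        (act_congr _ (hΛ js Ls a1 (by omega) a3 a4).symm)
    | zero =>
      rw [mul_zero, map_zero, gam_act_zero']
      exact ⟨zero_mem _, EventuallyEq.rfl⟩
    | add x y _ _ hx hy =>
      rw [mul_add, map_add, map_add, act_add']
      exact ⟨add_mem hx.1 hy.1, hx.2.add hy.2⟩
    | smul c x _ hx =>
      rw [mul_smul_comm, map_smul, map_smul, act_smul']
      exact ⟨M.smul_mem c hx.1, hx.2.const_smul c⟩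
  have hR : ∀ r : MvPolynomial σ ℝ, ∀ q ∈ M, r * q ∈ M ∧ Λ (r * q) =ᶠ[atTop] act (ev r) (Λ q) := by
    intro r
    induction r using MvPolynomial.induction_on with
    | C a =>
      intro q hq
      rw [← MvPolynomial.smul_eq_C_mul, map_smul, MvPolynomial.algHom_C, Algebra.algebraMap_eq_smul_one,
        act_smul, act_one]
      exact ⟨M.smul_mem a hq, EventuallyEq.rfl⟩
    | add r r' h1 h2 =>
      intro q hq
      rw [add_mul, map_add, map_add, act_add]
      exact ⟨add_mem (h1 q hq).1 (h2 q hq).1, (h1 q hq).2.add (h2 q hq).2⟩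
    | mul_X r j h1 =>
      intro q hq
      obtain ⟨a1, a2⟩ := hX j q hq
      obtain ⟨b1, b2⟩ := h1 _ a1
      rw [mul_assoc, map_mul ev, act_mul, MvPolynomial.aeval_X]
      exact ⟨b1, b2.trans (act_congr _ a2)⟩
  have hT : ∀ m : σ → ℤ, 0 ≤ m → ∃ r, ev r = TT (-m) := by
    intro m hm
    have a1 : ∀ j, (TT (-ee j) : GR σ) ∈ ev.range := fun j =>
      ⟨1 - MvPolynomial.X j, by simp [ev]⟩
    have a2 : ∀ (s : Finset σ), (TT (-∑ j ∈ s, m j • ee j) : GR σ) ∈ ev.range := by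
      intro s
      induction s using Finset.induction_on with
      | empty => rw [Finset.sum_empty, neg_zero, gam_TT_zero]; exact one_mem _
      | insert j s hj ih =>
        rw [Finset.sum_insert hj, neg_add, ← gam_TT_mul]
        refine mul_mem ?_ ih
        obtain ⟨k, hk⟩ := Int.eq_ofNat_of_zero_le (hm j)
        rw [hk]
        have a3 : ∀ k : ℕ, (TT (-((k : ℤ) • ee j)) : GR σ) ∈ ev.range := by
          intro k
          induction k with
          | zero => rw [Nat.cast_zero, zero_smul, neg_zero, gam_TT_zero]; exact one_mem _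
          | succ k ih' =>
            rw [Nat.cast_succ, add_smul, one_smul, neg_add, ← gam_TT_mul]
            exact mul_mem ih' (a1 j)
        exact a3 k
    have a4 : m = ∑ j, m j • ee j := by
      funext i
      simp [Finset.sum_apply, Pi.single_apply]
    have a5 := a2 Finset.univ
    rw [← a4] at a5
    exact a5
  have hE : ∀ js : List σ, ev (MvPolynomial.monomial (gamF js) 1) = gamE js := by
    intro js
    induction js with
    | nil => exact map_one ev
    | cons j js ih =>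
      have e : MvPolynomial.monomial (gamF (j :: js)) (1 : ℝ) =
          MvPolynomial.X j * MvPolynomial.monomial (gamF js) 1 := by
        rw [MvPolynomial.X, MvPolynomial.monomial_mul, one_mul, gamF_cons]
      rw [e, map_mul, ih, MvPolynomial.aeval_X]
      simp [gamE]
  have main : ∀ p ∈ Gam S 𝔶 ν (n + 1), ∀ᶠ m : σ → ℤ in atTop,
      ∃ q ∈ M, ev q = TT (-m) * p.1 ∧ Λ q =ᶠ[atTop] act (TT (-m)) p.2 := by
    intro p hp
    rw [Gam.eq_basic hc] at hp
    induction hp using Submodule.span_induction with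
    | mem p hp =>
      rcases hp with ⟨h1, h2⟩ | ⟨γ, Ls, h1, h2, h3, h4, rfl⟩
      · refine Eventually.of_forall fun m => ⟨0, zero_mem _, by simp [h1], ?_⟩
        have := act_congr (TT (-m)) h2
        rw [gam_act_zero'] at this
        rw [map_zero]
        exact this.symm
      · obtain ⟨js, hjs⟩ : ∃ js : List σ, Ls.map Prod.snd = js.map ee := by
          clear h1 h2 h3
          induction Ls with
          | nil => exact ⟨[], rfl⟩
          | cons q Ls ih =>
            obtain ⟨js, hjs⟩ := ih fun q' hq' => h4 q' (List.mem_cons_of_mem _ hq')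
            obtain ⟨j, hj⟩ := h4 q List.mem_cons_self
            exact ⟨j :: js, by simp [hj, hjs]⟩
        have hl : Ls.length = js.length := by simpa using congrArg List.length hjs
        filter_upwards [eventually_ge_atTop γ] with m hm
        obtain ⟨r, hr⟩ := hT (m - γ) (sub_nonneg.2 hm)
        obtain ⟨b1, b2⟩ := hR r _ (Submodule.subset_span ⟨js, hl ▸ h1, rfl⟩)
        have e : (TT (-(m - γ)) : GR σ) = TT (-m) * TT γ := by
          rw [gam_TT_mul]; congr 1; abel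
        refine ⟨_, b1, ?_, ?_⟩
        · rw [map_mul, hr, hE, e, gam_eul_basic hjs, mul_assoc]
        · rw [hr, e, act_mul] at b2
          exact b2.trans (act_congr _ (act_congr _ (hΛ js Ls hjs h1 h2 h3)))
    | zero =>
      refine Eventually.of_forall fun m => ⟨0, zero_mem _, by simp, ?_⟩
      rw [map_zero, Prod.snd_zero, gam_act_zero']
    | add x y _ _ hx hy =>
      filter_upwards [hx, hy] with m ⟨q, a1, a2, a3⟩ ⟨q', b1, b2, b3⟩
      refine ⟨q + q', add_mem a1 b1, by rw [map_add, a2, b2, Prod.fst_add, mul_add], ?_⟩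
      rw [map_add, Prod.snd_add, act_add']
      exact a3.add b3
    | smul c x _ hx =>
      filter_upwards [hx] with m ⟨q, a1, a2, a3⟩
      refine ⟨c • q, M.smul_mem c a1, by rw [map_smul, a2, Prod.smul_fst, mul_smul_comm], ?_⟩
      rw [map_smul, Prod.smul_snd, act_smul']
      exact a3.const_smul c
  obtain ⟨m, q, -, a2, a3⟩ := (main _ h).exists
  have a4 : q = 0 := aeval_h_injective (by rw [map_zero]; exact a2.trans (mul_zero _))
  rw [a4, map_zero] at a3
  have a5 := act_congr (TT m) a3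
  rw [gam_act_zero', ← act_mul, gam_TT_mul, add_neg_cancel, gam_TT_zero, act_one] at a5
  exact a5.symm

/-- the kernel of `Λ`. -/
def kerG (S : Sys K σ) (𝔶 : Ideal T) (ν : AddFn T) (n : ℕ) : Ideal (GR σ) where
  carrier := {ξ | (ξ, (0 : (σ → ℤ) → ℝ)) ∈ Gam S 𝔶 ν (n + 1)}
  add_mem' := fun ha hb => by
    have := (Gam S 𝔶 ν (n + 1)).add_mem ha hb
    rwa [Prod.mk_add_mk, add_zero] at this
  zero_mem' := zero_mem (Gam S 𝔶 ν (n + 1))
  smul_mem' := fun c x hx => by
    have := Gam.mul hx c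
    rwa [gam_act_zero'] at this

/-- the divisor class of `I ^ γ ⊆ I ^ γ'`: for `μ = eul Z`, `Z` admissible of length `n`, `P_kos` and `P_two`
give `P (kos (two γ γ') Z) = act μ D`, `ses_two` gives `act (TT γ' - TT γ) (P (kos (line 0) Z))`. -/
theorem Gam.div (hc : Ctx T S 𝔶 ν n) {γ γ' : σ → ℤ} (h1 : ∀ χ, S.a χ (γ - γ') ∈ S.O T χ)
    (h2 : ∀ χ, ∀ 𝔓 ∈ S.U 𝔶 χ, S.Nv χ 𝔓 (S.a χ (γ - γ'))) {μ : GR σ} (hμ : μ ∈ aug σ ^ n) :
    (μ * (TT γ' - TT γ), act μ fun k => ν.rel (S.L T (k + γ')) (S.L T (k + γ))) ∈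
      Gam S 𝔶 ν (n + 1) := by
  have := hc.noeth
  have h' := gam_pow_le n hμ
  clear hμ
  induction h' using Submodule.span_induction with
  | mem x hx =>
    obtain ⟨js, a0, rfl⟩ := hx
    obtain ⟨Z, a1, a2, a3, a4⟩ := gam_adm_basic hc js a0.ge
    rw [← gam_eul_basic a1, mul_comm]
    have b0 : (eul Z, gamP S ν Z) ∈ Gam S 𝔶 ν n := by
      rw [gam_eq]
      exact gamS_gen1 ⟨by omega, a3, a4⟩
    refine Gam.congr (Gam.succ hc b0 (TT_sub_mem γ' γ)) ?_
    have w2 : (S.two T γ γ').WF S := FCx.wf_two S h1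
    have g2 : (S.two T γ γ').Gd ν := FCx.Adm.gd S hc.good w2 fun χ 𝔓 h𝔓 =>
      ⟨_, h2 χ 𝔓 h𝔓, FCx.nh_two S γ γ' χ⟩
    have b1 := (FCx.P_kos S w2 g2 a3).2.trans (act_congr _ (FCx.P_two S (ν := ν) h1))
    have w3 : (((S.line T γ).sh 0).kos Z).WF S :=
      FCx.WF.kos S (FCx.WF.sh S (FCx.wf_line S γ) 0) a3
    have b2 := (FCx.SES.P S (FCx.SES.kos (FCx.ses_two S γ γ') Z)
      (FCx.WF.kos S (FCx.wf_line S γ') a3) (FCx.WF.kos S w2 a3) w3 (gam_gd hc γ' a3 a4)
      (FCx.Adm.gd S hc.good w3 (FCx.adm_kos S a4))).2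
    have b3 := (FCx.Iso.P S (ν := ν) (FCx.iso_kos_sh (C := S.line T γ) Z 0) w3
      (FCx.WF.sh S (FCx.WF.kos S (FCx.wf_line S γ) a3) 0)).2
    rw [(FCx.P_sh 0).2, neg_zero, gam_TT_zero, act_one, (FCx.P_line_kos S γ Z).2] at b3
    rw [(FCx.P_line_kos S γ' Z).2] at b2
    rw [act_sub, sub_eq_add_neg]
    exact ((EventuallyEq.rfl.add b3.symm).trans b2.symm).trans b1
  | zero =>
    rw [zero_mul, gam_act_zero]
    exact zero_mem _
  | add x y _ _ hx hy =>
    rw [add_mul, act_add]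
    exact add_mem hx hy
  | smul c x _ hx =>
    rw [smul_eq_mul, mul_assoc, act_mul]
    exact Gam.mul hx c

section
variable {K' : Type} [Field K'] [Algebra K K'] [Algebra T K'] [IsScalarTower T K K'] {r : ℕ}
  {u : Fin r → K'} (hu : AlgebraicIndependent K u)

theorem Gam.pull (hc : Ctx T S 𝔶 ν n) {e : ℕ} {ξ : GR σ} {f : (σ → ℤ) → ℝ}
    (h : (ξ, f) ∈ Gam S 𝔶 ν e) : (pullG ξ, pullF r f) ∈ Gam (S.prod u hu) 𝔶 ν e := by
  have key : ∀ p ∈ Gam S 𝔶 ν e, (pullG p.1, pullF r p.2) ∈ Gam (S.prod u hu) 𝔶 ν e := by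
    intro p hp
    have z : pullF r (0 : (σ → ℤ) → ℝ) = 0 := by funext k; simp [pullF]
    induction hp using Submodule.span_induction with
    | mem p hp =>
      rcases hp with ⟨h1, h2⟩ | ⟨γ, Ls, h1, h2, h3, rfl⟩
      · refine Submodule.subset_span (Or.inl ⟨by simp [h1], ?_⟩)
        have := pullF_congr (r := r) h2
        rwa [z] at this
      · refine Gam.congr (f := act (TT (ext γ 0))
          ((((S.prod u hu).line T 0).kos (pullL K' Ls)).P ν)) ?_ ?_
        · refine Submodule.subset_span (Or.inr ⟨ext γ 0, pullL K' Ls, by simpa [pullL] using h1,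
            Sys.Sec.pull hu h2, Sys.AdmL.pull hu h2 h3, ?_⟩)
          rw [map_mul, pullG_TT, eul_pull]
        · rw [← act_pull, pullG_TT]
          exact act_congr _ (P_pull hu Ls h2 (gam_gd hc 0 h2 h3))
    | zero =>
      rw [Prod.fst_zero, Prod.snd_zero, map_zero, z]
      exact zero_mem _
    | add x y _ _ hx hy =>
      have e1 : pullF r (x + y).2 = pullF r x.2 + pullF r y.2 := by
        funext k; simp [pullF, mul_add]
      rw [Prod.fst_add, map_add, e1]
      exact add_mem hx hy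
    | smul c x _ hx =>
      have e1 : pullF r (c • x).2 = c • pullF r x.2 := by
        funext k; simp [pullF, mul_left_comm]
      rw [Prod.smul_fst, map_smul, e1]
      exact Submodule.smul_mem _ c hx
  exact key _ h

/-- the sections `1, u₁, …, u_r` have no common zero. -/
theorem Gam.pow_zero (hc : Ctx T S 𝔶 ν n) {e : ℕ} {ξ : GR (Option σ)}
    (h : ξ ∈ aug (Option σ) ^ e) :
    ((1 - TT (-ee (none : Option σ))) ^ (r + 1) * ξ, 0) ∈ Gam (S.prod u hu) 𝔶 ν (e + (r + 1)) := by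
  classical
  have := hc.noeth
  have h' := gam_pow_le e h
  clear h
  induction h' using Submodule.span_induction with
  | mem x hx =>
    obtain ⟨js, a0, rfl⟩ := hx
    choose y hy using gam_exists_sec T (S.prod u hu)
    obtain ⟨L₀, hL₀⟩ : ∃ L₀ : List (K' × (Option σ → ℤ)), L₀ = js.map fun j => (y j, ee j) :=
      ⟨_, rfl⟩
    obtain ⟨W, hW⟩ : ∃ W : List (K' × (Option σ → ℤ)),
      W = (1, ee none) :: List.ofFn fun i => (u i, ee none) := ⟨_, rfl⟩
    have hg : ∀ g ∈ (S.prod u hu).gens none, (g, ee none) ∈ W := by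
      intro g hg
      rw [hW]
      rcases Finset.mem_insert.1 hg with rfl | hg
      · exact List.mem_cons_self
      · obtain ⟨i, -, rfl⟩ := Finset.mem_image.1 hg
        exact List.mem_cons_of_mem _ (List.mem_ofFn.2 ⟨i, rfl⟩)
    have hg' : ∀ p ∈ W, p.2 = ee none ∧ p.1 ∈ (S.prod u hu).gens none := by
      intro p hp
      rw [hW] at hp
      rcases List.mem_cons.1 hp with rfl | hp
      · exact ⟨rfl, Finset.mem_insert_self _ _⟩
      · obtain ⟨i, rfl⟩ := List.mem_ofFn.1 hp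
        exact ⟨rfl, Finset.mem_insert_of_mem (Finset.mem_image_of_mem _ (Finset.mem_univ i))⟩
    have hs : (S.prod u hu).Sec T (W ++ L₀) := by
      intro p hp
      rcases List.mem_append.1 hp with hp | hp
      · obtain ⟨b1, b2⟩ := hg' p hp
        rw [b1, Sys.L_ee]
        exact ⟨gam_ee_nonneg _, Submodule.subset_span b2⟩
      · rw [hL₀] at hp
        obtain ⟨j, -, rfl⟩ := List.mem_map.1 hp
        exact ⟨gam_ee_nonneg _, hy j⟩
    have h1 : ∀ χ : (S.prod u hu).Chart, ∃ p ∈ W ++ L₀, (1 : K') = p.1 / (S.prod u hu).a χ p.2 :=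
      fun χ => ⟨((χ none : K'), ee none), List.mem_append_left _ (hg _ (χ none).2), by
        rw [← Sys.a_ee, div_self (Sys.a_ne _ _ _)]⟩
    have ha : (S.prod u hu).AdmL T 𝔶 (W ++ L₀) := fun χ 𝔓 _ => by
      obtain ⟨p, hp, e1⟩ := h1 χ
      exact ⟨p, hp, e1 ▸ Sys.Nv.one _ χ 𝔓⟩
    have hz : gamP (S.prod u hu) ν (W ++ L₀) =ᶠ[atTop] 0 :=
      (FCx.P_zero _ (FCx.WF.kos _ (FCx.wf_line _ 0) hs) fun χ =>
        FCx.nh_kos _ _ (Or.inr (h1 χ))).2
    have he : eul (W ++ L₀) = (1 - TT (-ee (none : Option σ))) ^ (r + 1) * gamE js := by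
      rw [gam_eul_basic (js := List.replicate (r + 1) none ++ js)]
      · simp [gamE]
      · rw [hW, hL₀]
        simp [List.replicate_succ, Function.comp_def, List.map_ofFn]
    rw [← he, gam_eq]
    refine gamS_congr (gamS_gen1 ⟨?_, hs, ha⟩) hz
    rw [hW, hL₀]
    simp
    omega
  | zero =>
    rw [mul_zero]
    exact zero_mem _
  | add x y _ _ hx hy =>
    have := add_mem hx hy
    rwa [Prod.mk_add_mk, add_zero, ← mul_add] at this
  | smul c x _ hx =>
    have := Gam.mul hx c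
    rwa [gam_act_zero', mul_left_comm] at this

end

end Crest.Agent.R188
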