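import Crest.Agent.R188.Euler1
import Crest.Agent.R188.Gam

/-!
# R188 / Euler2

The Euler class of a flagged trivial bundle; the Whitney formula.
-/

set_option autoImplicit false
set_option linter.unusedSectionVars false
set_option linter.unusedVariables false

noncomputable section

namespace Crest.Agent.R188

open Filter
open Crest.Agent.R183 (Zc Bd mact gr Htpy)
open scoped TensorProduct

variable {T : Type} [CommRing T] {K σ : Type} [Field K] [Algebra T K] [Fintype σ] [DecidableEq σ]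
  {S : Sys K σ} {𝔶 : Ideal T} {ν : AddFn T} {n : ℕ}
  {ι M : Type} [Fintype ι] [DecidableEq ι] [Fintype M] [DecidableEq M] {u : M → ι → K}
  {wt : M → ℕ} {γ : M → σ → ℤ}

/-- Induction on `post`, for all `pre`: `P (kos K^{(pre)} Z') = (1 - TT (-(θ + γ m))) P (kos K^{(pre, m)} Z')
= P (kos K^{(pre, m)} (τ m :: Z'))` by `eulCx_ses`, `SES.kos`, `iso_kos_sh`, `P_cone`. -/
theorem euler_chain (hc : Ctx T S 𝔶 ν n) (hF : Flag T S u wt γ) {x : ι → K} {θ : σ → ℤ}
    (hθ : 0 ≤ θ) (hx : ∀ b, x b ∈ S.L T θ) (ms : List M) (hnd : ms.Nodup) (hall : ∀ m, m ∈ ms)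
    (hsort : ms.Pairwise fun m m' => wt m ≤ wt m') (τ : M → K) (hγ : ∀ m, 0 ≤ θ + γ m)
    (hτ : ∀ m, τ m ∈ S.L T (θ + γ m)) (Z : List (K × (σ → ℤ))) (hZ : S.Sec T Z)
    (hadm : ∀ pre m post, ms = pre ++ m :: post →
      ((eulCx T S x θ (u '' {i | i ∈ pre ++ [m]})).kos
        ((pre.map fun i => (τ i, θ + γ i)) ++ Z)).Adm S 𝔶)
    (hadm' : S.AdmL T 𝔶 ((ms.map fun i => (τ i, θ + γ i)) ++ Z)) :
    ((eulCx T S x θ ∅).kos Z).P ν =ᶠ[atTop]
      ((S.line T 0).kos ((ms.map fun i => (τ i, θ + γ i)) ++ Z)).P ν := by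
  have := hc.noeth
  have hsec : ∀ l : List M, S.Sec T ((l.map fun i => (τ i, θ + γ i)) ++ Z) := by
    intro l p hp
    rcases List.mem_append.1 hp with h | h
    · obtain ⟨i, -, rfl⟩ := List.mem_map.1 h
      exact ⟨hγ i, hτ i⟩
    · exact hZ p h
  have key : ∀ post pre : List M, ms = pre ++ post →
      ((eulCx T S x θ (u '' {i | i ∈ pre})).kos ((pre.map fun i => (τ i, θ + γ i)) ++ Z)).P ν
        =ᶠ[atTop] ((S.line T 0).kos ((ms.map fun i => (τ i, θ + γ i)) ++ Z)).P ν := by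
    intro post
    induction post with
    | nil =>
      intro pre h
      rw [List.append_nil] at h
      subst h
      have hsp : Submodule.span K (u '' {i | i ∈ ms}) = ⊤ := by
        rw [← hF.span, ← Set.image_univ]
        congr 2
        exact Set.eq_univ_of_forall hall
      exact (((eulCx_top (T := T) (S := S) (x := x) (θ := θ) hsp).kos _).P S (ν := ν)
        ((FCx.wf_line S 0).kos S (hsec ms)) ((eulCx_wf hθ hx _).kos S (hsec ms))).2.symm
    | cons m post ih =>
      intro pre h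
      have ih' := ih (pre ++ [m]) (by rw [h]; simp)
      have hA := hadm pre m post h
      have e : u '' {i | i ∈ pre ++ [m]} = insert (u m) (u '' {i | i ∈ pre}) := by
        rw [← Set.image_insert_eq]
        congr 1
        ext i
        simp [or_comm]
      rw [e] at ih' hA
      refine EventuallyEq.trans ?_ ih'
      rw [h] at hnd hsort
      have hlt : ∀ i, wt i < wt m → i ∈ pre := by
        intro i hi
        have h1 := hall i
        rw [h] at h1
        rcases List.mem_append.1 h1 with h2 | h2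
        · exact h2
        · rcases List.mem_cons.1 h2 with rfl | h3
          · exact absurd hi (lt_irrefl _)
          · exact absurd ((List.pairwise_cons.1 (List.pairwise_append.1 hsort).2.1).1 i h3)
              (not_le.2 hi)
      have hses := eulCx_ses (T := T) (S := S) (x := x) hθ (u '' {i | i ∈ pre}) (u m) (γ m)
        (fun χ => by
          obtain ⟨f, h1, h2⟩ := hF.pf.f χ m trivial
          exact ⟨f, h1, Submodule.span_mono (Set.image_mono fun i hi => hlt i hi.2) h2⟩)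
        (fun χ => by
          obtain ⟨g, h1, h2, h3⟩ := hF.pf.g χ m trivial
          refine ⟨g, h1, ?_, h3⟩
          rintro _ ⟨i, hi, rfl⟩
          exact h2 i trivial ((List.nodup_append.1 hnd).2.2 i hi m List.mem_cons_self)
            ((List.pairwise_append.1 hsort).2.2 i hi m List.mem_cons_self))
      set A := eulCx T S x θ (insert (u m) (u '' {i | i ∈ pre})) with hAdef
      set Z' := (pre.map fun i => (τ i, θ + γ i)) ++ Z with hZ'
      have wA : A.WF S := eulCx_wf hθ hx _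
      have wAk : (A.kos Z').WF S := wA.kos S (hsec pre)
      have wAs : ((A.sh (θ + γ m)).kos Z').WF S := (wA.sh S _).kos S (hsec pre)
      have gA : (A.kos Z').Gd ν := hA.gd S hc.good wAk
      have h1 := (FCx.iso_kos_sh (C := A) Z' (θ + γ m)).P S (ν := ν) wAs (wAk.sh S _)
      have h2 := FCx.P_sh (C := A.kos Z') (ν := ν) (θ + γ m)
      have h3 := ((hses.kos Z').P S wAk ((eulCx_wf hθ hx _).kos S (hsec pre)) wAs gA
        (h1.1.2 (h2.1.2 gA))).2
      have h4 := (FCx.P_cone S wAk gA (hγ m) (hτ m)).2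
      have hp : ((τ m, θ + γ m) :: Z').Perm
          (((pre ++ [m]).map fun i => (τ i, θ + γ i)) ++ Z) := by
        rw [List.map_append, List.append_assoc]
        exact List.perm_middle.symm
      have h5 := ((FCx.iso_perm (C := A) hp).P S (ν := ν) (wAk.cone S (hγ m) (hτ m))
        (wA.kos S (hsec _))).2
      refine h3.trans (EventuallyEq.trans ?_ (h4.symm.trans h5))
      rw [act_sub, act_one, sub_eq_add_neg, ← h2.2]
      exact EventuallyEq.add EventuallyEq.rfl h1.2
  have h := key ms [] rfl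
  simpa using h

/-- the matrix with rows `m ∈ B`, columns `(b, c)` and entries `g_m b · q c / a θ` has rank `#B` at every
prime if one of the `q c` is `a χ θ` (the matrix `g_m ⬝ᵥ f_m'` is unitriangular). -/
theorem Flag.exists_rows (hF : Flag T S u wt γ) (χ : S.Chart) :
    ∃ g : M → ι → S.O T χ,
      (∀ m m', m' ≠ m → wt m' ≤ wt m → (fun b => (g m b : K)) ⬝ᵥ u m' = 0) ∧
      ∀ (B : Finset M) (𝔭 : Ideal (S.O T χ)) [𝔭.IsPrime],
        B.card ≤ ((Matrix.of fun (m : B) b => g m b).map (algebraMap _ 𝔭.ResidueField)).rank := by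
  choose f hf1 hf2 using fun m => hF.pf.f χ m trivial
  choose g hg1 hg2 hg3 using fun m => hF.pf.g χ m trivial
  refine ⟨fun m b => ⟨g m b, hg1 m b⟩, fun m m' h1 h2 => hg2 m m' trivial h1 h2, fun B 𝔭 _ => ?_⟩
  have hk : ∀ m m', wt m' ≤ wt m → g m ⬝ᵥ (f m' - S.a χ (γ m') • u m') = 0 := by
    intro m m' h
    refine Submodule.span_induction (p := fun v _ => g m ⬝ᵥ v = 0) ?_ (dotProduct_zero _)
      (fun v w _ _ h1 h2 => by rw [dotProduct_add, h1, h2, add_zero])
      (fun c v _ h1 => by rw [dotProduct_smul, h1, smul_zero]) (hf2 m')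
    rintro _ ⟨i, hi, rfl⟩
    refine hg2 m i trivial ?_ (hi.2.le.trans h)
    rintro rfl
    exact absurd hi.2 (not_lt.2 h)
  set G : Matrix B ι (S.O T χ) := Matrix.of fun (m : B) b => (⟨g m b, hg1 m b⟩ : S.O T χ) with hG
  set F : Matrix ι B (S.O T χ) := Matrix.of fun b (m : B) => (⟨f m b, hf1 m b⟩ : S.O T χ) with hFd
  have hGF : ∀ m m' : B, ((G * F) m m' : K) = g m ⬝ᵥ f m' := by
    intro m m'
    simp [Matrix.mul_apply, hG, hFd, dotProduct]
  have h0 : ∀ m m' : B, m' ≠ m → wt m' ≤ wt m → (G * F) m m' = 0 := by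
    intro m m' h1 h2
    refine Subtype.ext ?_
    have h3 := hk m m' h2
    rw [dotProduct_sub, dotProduct_smul, hg2 m m' trivial (fun e => h1 (Subtype.ext e)) h2,
      smul_zero, sub_zero] at h3
    rw [hGF, h3]
    rfl
  have h1 : ∀ m : B, (G * F) m m = 1 := by
    intro m
    refine Subtype.ext ?_
    have h3 := hk m m le_rfl
    rw [dotProduct_sub, dotProduct_smul, smul_eq_mul, hg3, sub_eq_zero] at h3
    rw [hGF, h3]
    rfl
  set φ := algebraMap (S.O T χ) 𝔭.ResidueField with hφ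
  have hinj : Function.Injective ((G * F).map φ).mulVec := by
    refine (injective_iff_map_eq_zero ((G * F).map φ).mulVecLin).2 fun v hv => ?_
    by_contra hne
    classical
    obtain ⟨m, hm, hmax⟩ := Finset.exists_max_image (Finset.univ.filter fun m : B => v m ≠ 0)
      (fun m => wt m) (by
        obtain ⟨m, hm⟩ := Function.ne_iff.1 hne
        exact ⟨m, Finset.mem_filter.2 ⟨Finset.mem_univ _, hm⟩⟩)
    have h2 := congrFun hv m
    rw [Matrix.mulVecLin_apply, Matrix.mulVec, dotProduct, Finset.sum_eq_single m] at h2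
    · rw [Matrix.map_apply, h1, map_one, one_mul] at h2
      exact (Finset.mem_filter.1 hm).2 h2
    · intro m' _ hm'
      by_cases h3 : v m' = 0
      · rw [h3, mul_zero]
      · rw [Matrix.map_apply, h0 m m' hm' (hmax m' (Finset.mem_filter.2 ⟨Finset.mem_univ _, h3⟩)),
          map_zero, zero_mul]
    · exact fun h => absurd (Finset.mem_univ _) h
  have h3 := Matrix.rank_of_isUnit _ (Matrix.mulVec_injective_iff_isUnit.1 hinj)
  rw [Fintype.card_coe, Matrix.map_mul] at h3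
  rw [← h3]
  exact Matrix.rank_mul_le_left _ _

theorem eul2_aug_pow_le (e : ℕ) : aug σ ^ e ≤ Ideal.span {ξ : GR σ | ∃ δs : List (σ → ℤ),
    δs.length = e ∧ (∀ δ ∈ δs, 0 ≤ δ) ∧ ξ = (δs.map fun δ => (1 - TT (-δ) : GR σ)).prod} := by
  induction e with
  | zero =>
    rw [pow_zero, Ideal.one_eq_top, top_le_iff, Ideal.eq_top_iff_one]
    exact Ideal.subset_span ⟨[], rfl, by simp, by simp⟩
  | succ e ih =>
    rw [pow_succ']
    refine (Ideal.mul_mono (le_of_eq aug_eq_span) ih).trans ?_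
    rw [Ideal.span_mul_span', Ideal.span_le]
    rintro _ ⟨_, ⟨j, rfl⟩, _, ⟨δs, h1, h2, rfl⟩, rfl⟩
    refine Ideal.subset_span ⟨ee j :: δs, by simp [h1], ?_, by simp⟩
    intro δ hδ
    rcases List.mem_cons.1 hδ with rfl | h
    · exact Pi.single_nonneg.2 zero_le_one
    · exact h2 δ h

theorem eul2_exists_sorted (wt : M → ℕ) : ∃ ms : List M, ms.Nodup ∧ (∀ m, m ∈ ms) ∧
    (ms.Pairwise fun m m' => wt m ≤ wt m') ∧ ms.length = Fintype.card M := by
  have hp := List.mergeSort_perm (Finset.univ : Finset M).toList fun m m' => decide (wt m ≤ wt m')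
  refine ⟨_, hp.nodup_iff.2 (Finset.nodup_toList _),
    fun m => hp.mem_iff.2 (Finset.mem_toList.2 (Finset.mem_univ m)), ?_, ?_⟩
  · refine (List.pairwise_mergeSort (le := fun m m' => decide (wt m ≤ wt m')) ?_ ?_ _).imp ?_
    · intro a b c h1 h2
      simp only [decide_eq_true_eq] at h1 h2 ⊢
      exact h1.trans h2
    · intro a b
      simp only [Bool.or_eq_true, decide_eq_true_eq]
      exact le_total _ _
    · intro a b h
      simpa using h
  · rw [hp.length_eq, Finset.length_toList, Finset.card_univ]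

theorem eul2_exists_fun (ms : List M) (hnd : ms.Nodup) (f : M → σ → ℤ) (L : List (K × (σ → ℤ)))
    (h : L.map Prod.snd = ms.map f) : ∃ τ : M → K, L = ms.map fun i => (τ i, f i) := by
  induction ms generalizing L with
  | nil => exact ⟨0, by simpa using h⟩
  | cons m ms ih =>
    obtain ⟨p, L', rfl, h1, h2⟩ := List.map_eq_cons_iff.1 h
    obtain ⟨h3, h4⟩ := List.nodup_cons.1 hnd
    obtain ⟨τ, rfl⟩ := ih h4 L' h2
    refine ⟨Function.update τ m p.1, ?_⟩
    rw [List.map_cons, Function.update_self, ← h1]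
    congr 1
    refine List.map_congr_left fun i hi => ?_
    rw [Function.update_of_ne (fun e : i = m => h3 (e ▸ hi))]

theorem eul2_mem_Gam {e : ℕ} (Ls : List (K × (σ → ℤ))) (hl : e ≤ Ls.length) (hs : S.Sec T Ls)
    (ha : S.AdmL T 𝔶 Ls) : (eul Ls, ((S.line T 0).kos Ls).P ν) ∈ Gam S 𝔶 ν e := by
  refine Submodule.subset_span (Or.inr ⟨0, Ls, hl, hs, ha, ?_⟩)
  have e : (TT 0 : GR σ) = 1 := rfl
  rw [e, one_mul, act_one]

/-- a genericity condition for a section of the trivial bundle. -/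
structure Eul2Cond (T : Type) [CommRing T] [Algebra T K] (S : Sys K σ) (ι : Type) [Fintype ι] where
  χ : S.Chart
  Z : Set (PrimeSpectrum (S.O T χ))
  ρ : Type
  [fin : Fintype ρ]
  g : ρ → ι → S.O T χ
  small : Small (Fintype.card ρ) Z
  rank : ∀ 𝔭 ∈ Z, Fintype.card ρ ≤
    ((Matrix.of g).map (algebraMap _ 𝔭.asIdeal.ResidueField)).rank

attribute [instance] Eul2Cond.fin

/-- the section `x` satisfies the condition. -/
def Eul2Cond.ok (c : Eul2Cond T S ι) (θ : σ → ℤ) (x : ι → K) : Prop :=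
  ∀ 𝔓 ∈ c.Z, ∃ a, S.Nv c.χ 𝔓 (((fun b => (c.g a b : K)) ⬝ᵥ x) / S.a c.χ θ)

theorem eul2_exists_x [IsNoetherianRing T] (hC : Consts T) {θ : σ → ℤ} (hθ : 0 ≤ θ) {J : Type}
    [Finite J] (c : J → Eul2Cond T S ι) :
    ∃ x : ι → K, (∀ b, x b ∈ S.L T θ) ∧ ∀ j, (c j).ok θ x := by
  have : ∀ j, IsNoetherianRing (S.O T (c j).χ) := fun j => S.O_noeth _
  set w : ∀ χ : S.Chart, S.Chart → S.O T χ := fun χ χ' =>
    ⟨S.a χ' θ / S.a χ θ, S.div_mem_O χ hθ (S.a_mem_L χ' hθ)⟩ with hw
  have hw1 : ∀ χ, w χ χ = 1 := fun χ => Subtype.ext (div_self (S.a_ne χ θ))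
  obtain ⟨l, hl⟩ := exists_generic hC (fun j => S.O T (c j).χ) (ι × S.Chart) (fun j => (c j).ρ)
    (fun j => Fintype.card (c j).ρ) (fun j => Fintype.card (c j).ρ) (fun j => (c j).Z)
    (fun j => (c j).small) (fun j => Matrix.of fun a q => (c j).g a q.1 * w _ q.2) (fun _ _ => 0) (by
      intro j 𝔭 h𝔭
      refine ((c j).rank 𝔭 h𝔭).trans (le_of_eq_of_le ?_
        (Matrix.rank_submatrix_le _ id fun b => (b, (c j).χ)))
      congr 1
      ext a b
      simp [hw1])
  refine ⟨fun b => ∑ χ', l (b, χ') • S.a χ' θ,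
    fun b => Submodule.sum_mem _ fun χ' _ => Submodule.smul_mem _ _ (S.a_mem_L χ' hθ),
    fun j 𝔓 h𝔓 => ?_⟩
  have h1 := hl j
  rw [Nat.sub_self, small_zero_iff, Set.eq_empty_iff_forall_notMem] at h1
  have h2 := h1 𝔓
  simp only [Set.mem_ofPred_eq, not_and, not_forall] at h2
  obtain ⟨a, ha⟩ := h2 h𝔓
  have e : ((0 + ∑ q : ι × S.Chart, (Matrix.of fun a q => (c j).g a q.1 * w _ q.2) a q *
      algebraMap T (S.O T (c j).χ) (l q) : S.O T (c j).χ) : K) =
      ((fun b => ((c j).g a b : K)) ⬝ᵥ fun b => ∑ χ', l (b, χ') • S.a χ' θ) / S.a (c j).χ θ := by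
    simp only [zero_add, Matrix.of_apply, AddSubmonoidClass.coe_finsetSum, MulMemClass.coe_mul,
      hw, Subalgebra.coe_algebraMap, dotProduct, Finset.mul_sum, Finset.sum_div,
      Fintype.sum_prod_type, Algebra.smul_def]
    exact Finset.sum_congr rfl fun b _ => Finset.sum_congr rfl fun χ' _ => by ring
  refine ⟨a, ?_⟩
  rw [← e]
  exact ⟨Subtype.property _, ha⟩

theorem eul2_conds [IsNoetherianRing T] (hF : Flag T S u wt γ) {θ : σ → ℤ} (hθ : 0 ≤ θ)
    (ms : List M) (hnd : ms.Nodup) (hsort : ms.Pairwise fun m m' => wt m ≤ wt m') (τ : M → K)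
    (Z : List (K × (σ → ℤ)))
    (h : ∀ χ pre m post, ms = pre ++ m :: post → Small post.length
      (S.zer χ (S.U 𝔶 χ) ((pre.map fun i => (τ i, θ + γ i)) ++ Z))) :
    ∃ (J : Type) (_ : Finite J) (c : J → Eul2Cond T S ι), ∀ x : ι → K, (∀ j, (c j).ok θ x) →
      ∀ pre m post, ms = pre ++ m :: post →
        ((eulCx T S x θ (u '' {i | i ∈ pre ++ [m]})).kos
          ((pre.map fun i => (τ i, θ + γ i)) ++ Z)).Adm S 𝔶 := by
  choose g hg1 hg2 using hF.exists_rows
  have hfin : Finite {p : List M × M × List M // ms = p.1 ++ p.2.1 :: p.2.2} := by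
    refine Finite.of_injective (fun p => (⟨p.1.1.length, ?_⟩ : Fin (ms.length + 1))) ?_
    · have := congrArg List.length p.2
      rw [List.length_append] at this
      omega
    · rintro ⟨⟨a, b, c⟩, h1⟩ ⟨⟨a', b', c'⟩, h2⟩ h3
      obtain ⟨h4, h5⟩ := List.append_inj (h1.symm.trans h2) (congrArg Fin.val h3)
      obtain ⟨h6, h7⟩ := List.cons.inj h5
      exact Subtype.ext (Prod.ext h4 (Prod.ext h6 h7))
  have hcard : ∀ p : {p : List M × M × List M // ms = p.1 ++ p.2.1 :: p.2.2},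
      Fintype.card p.1.2.2.toFinset = p.1.2.2.length := fun p => by
    rw [Fintype.card_coe, List.toFinset_card_of_nodup]
    rw [p.2] at hnd
    exact (List.nodup_cons.1 (List.nodup_append.1 hnd).2.1).2
  refine ⟨S.Chart × {p : List M × M × List M // ms = p.1 ++ p.2.1 :: p.2.2}, inferInstance,
    fun j => ⟨j.1, S.zer j.1 (S.U 𝔶 j.1) ((j.2.1.1.map fun i => (τ i, θ + γ i)) ++ Z),
      j.2.1.2.2.toFinset, fun m => g j.1 m, (hcard j.2).symm ▸ h j.1 _ _ _ j.2.2,
      fun 𝔭 _ => (Fintype.card_coe _).trans_le (hg2 j.1 _ 𝔭.asIdeal)⟩, ?_⟩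
  intro x hx pre m post e χ 𝔓 h𝔓
  by_cases hz : 𝔓 ∈ S.zer χ (S.U 𝔶 χ) ((pre.map fun i => (τ i, θ + γ i)) ++ Z)
  · obtain ⟨⟨a, ha⟩, h1⟩ := hx (χ, ⟨(pre, m, post), e⟩) 𝔓 hz
    refine ⟨_, h1, FCx.nh_kos S _ (Or.inl (eulCx_nh hθ _ χ _ (fun b => (g χ a b).2) ?_))⟩
    rintro _ ⟨i, hi, rfl⟩
    have ha' : a ∈ post := List.mem_toFinset.1 ha
    have e' : ms = (pre ++ [m]) ++ post := by rw [e]; simp
    rw [e'] at hnd hsort
    exact hg1 χ a i ((List.nodup_append.1 hnd).2.2 i hi a ha')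
      ((List.pairwise_append.1 hsort).2.2 i hi a ha')
  · simp only [Sys.zer, Set.mem_ofPred_eq, not_and, not_forall, not_not] at hz
    obtain ⟨p, hp, h1⟩ := hz h𝔓
    exact ⟨_, h1, FCx.nh_kos S _ (Or.inr ⟨p, hp, rfl⟩)⟩

/-- For `μ = eul Z` choose `Z`, `τ`, `τ⁰` generic (`exists_sections` for the concatenated list), then `x`
generic for both flags (`exists_generic`, `Flag.exists_rows`, `eulCx_nh`), and apply `euler_chain` to `u` and
to `Flag.std`. -/
theorem euler (hc : Ctx T S 𝔶 ν n) (hF : Flag T S u wt γ) {θ : σ → ℤ} (hθ : 0 ≤ θ)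
    (hγ : ∀ m, 0 ≤ θ + γ m) (hN : Fintype.card M ≤ n + 1) {μ : GR σ}
    (hμ : μ ∈ aug σ ^ (n + 1 - Fintype.card M)) :
    μ * (∏ m, (1 - TT (-(θ + γ m))) - (1 - TT (-θ)) ^ Fintype.card M) ∈ kerG S 𝔶 ν n := by
  have := hc.noeth
  set E : GR σ := ∏ m, (1 - TT (-(θ + γ m))) - (1 - TT (-θ)) ^ Fintype.card M with hE
  suffices H : ∀ δs : List (σ → ℤ), δs.length = n + 1 - Fintype.card M → (∀ δ ∈ δs, 0 ≤ δ) →
      (δs.map fun δ => (1 - TT (-δ) : GR σ)).prod * E ∈ kerG S 𝔶 ν n by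
    refine Submodule.span_induction (p := fun μ _ => μ * E ∈ kerG S 𝔶 ν n) ?_
      (by rw [zero_mul]; exact zero_mem _)
      (fun a b _ _ h1 h2 => by rw [add_mul]; exact add_mem h1 h2)
      (fun c a _ h1 => by rw [smul_eq_mul, mul_assoc]; exact Ideal.mul_mem_left _ _ h1)
      (eul2_aug_pow_le _ hμ)
    rintro _ ⟨δs, h1, h2, rfl⟩
    exact H δs h1 h2
  intro δs hlen hδs
  obtain ⟨ms, hnd, hall, hsort, hms⟩ := eul2_exists_sorted wt
  obtain ⟨ms₀, hnd₀, hall₀, hsort₀, hms₀⟩ := eul2_exists_sorted (fun _ : ι => 0)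
  rw [← hF.card] at hms₀
  obtain ⟨Ls, h1, hsec, hgen⟩ := exists_sections (S := S) hc.consts
    ((ms.map fun i => θ + γ i) ++ ((ms₀.map fun _ => θ + 0) ++ δs)) (by
      intro δ hδ
      simp only [List.mem_append, List.mem_map] at hδ
      rcases hδ with ⟨i, -, rfl⟩ | ⟨i, -, rfl⟩ | h
      exacts [hγ i, by rwa [add_zero], hδs δ h]) (fun χ : S.Chart => χ) (fun _ => n)
    (fun χ => S.U 𝔶 χ) hc.small
  obtain ⟨L₁, L', rfl, h2, h3⟩ := List.map_eq_append_iff.1 h1
  obtain ⟨L₂, Z, rfl, h4, h5⟩ := List.map_eq_append_iff.1 h3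
  obtain ⟨τ, rfl⟩ := eul2_exists_fun ms hnd _ L₁ h2
  obtain ⟨τ₀, rfl⟩ := eul2_exists_fun ms₀ hnd₀ _ L₂ h4
  have hZl : Z.length = n + 1 - Fintype.card M := by rw [← hlen, ← h5, List.length_map]
  have hZ : S.Sec T Z := fun p hp =>
    hsec p (List.mem_append_right _ (List.mem_append_right _ hp))
  have hτ : ∀ m, τ m ∈ S.L T (θ + γ m) := fun m =>
    (hsec (τ m, θ + γ m) (List.mem_append_left _ (List.mem_map.2 ⟨m, hall m, rfl⟩))).2
  have hτ₀ : ∀ m, τ₀ m ∈ S.L T (θ + 0) := fun m =>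
    (hsec (τ₀ m, θ + 0) (List.mem_append_right _
      (List.mem_append_left _ (List.mem_map.2 ⟨m, hall₀ m, rfl⟩)))).2
  have hsub : ∀ l : List M, l.Sublist ms → ∀ χ,
      Small (n - (l.length + Z.length)) (S.zer χ (S.U 𝔶 χ) ((l.map fun i => (τ i, θ + γ i)) ++ Z)) := by
    intro l hl χ
    have := hgen χ _ ((hl.map fun i => (τ i, θ + γ i)).append (List.sublist_append_right _ Z))
    rwa [List.length_append, List.length_map] at this
  have hsub₀ : ∀ l : List ι, l.Sublist ms₀ → ∀ χ,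
      Small (n - (l.length + Z.length)) (S.zer χ (S.U 𝔶 χ) ((l.map fun i => (τ₀ i, θ + 0)) ++ Z)) := by
    intro l hl χ
    have := hgen χ _ (((hl.map fun i => (τ₀ i, θ + 0)).append (List.Sublist.refl Z)).trans
      (List.sublist_append_right _ _))
    rwa [List.length_append, List.length_map] at this
  obtain ⟨J, _, c, hJ⟩ := eul2_conds (𝔶 := 𝔶) hF hθ ms hnd hsort τ Z (by
    intro χ pre m post h
    refine (hsub pre (h ▸ List.sublist_append_left _ _) χ).mono ?_ subset_rfl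
    have := congrArg List.length h
    rw [List.length_append, List.length_cons] at this
    omega)
  obtain ⟨J₀, _, c₀, hJ₀⟩ := eul2_conds (𝔶 := 𝔶) (Flag.std (T := T) S ι) hθ ms₀ hnd₀ hsort₀ τ₀ Z (by
    intro χ pre m post h
    refine (hsub₀ pre (h ▸ List.sublist_append_left _ _) χ).mono ?_ subset_rfl
    have := congrArg List.length h
    rw [List.length_append, List.length_cons] at this
    omega)
  obtain ⟨x, hx, hxc⟩ := eul2_exists_x hc.consts hθ (Sum.elim c c₀)
  have a1 : S.AdmL T 𝔶 ((ms.map fun i => (τ i, θ + γ i)) ++ Z) :=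
    (admL_iff _).2 fun χ => (hsub ms (List.Sublist.refl _) χ).mono (by omega) subset_rfl
  have a2 : S.AdmL T 𝔶 ((ms₀.map fun i => (τ₀ i, θ + 0)) ++ Z) :=
    (admL_iff _).2 fun χ => (hsub₀ ms₀ (List.Sublist.refl _) χ).mono (by omega) subset_rfl
  have e1 := euler_chain hc hF hθ hx ms hnd hall hsort τ hγ hτ Z hZ
    (hJ x fun j => hxc (Sum.inl j)) a1
  have e2 := euler_chain hc (Flag.std (T := T) S ι) hθ hx ms₀ hnd₀ hall₀ hsort₀ τ₀
    (fun _ => by rwa [add_zero]) hτ₀ Z hZ (hJ₀ x fun j => hxc (Sum.inr j)) a2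
  have s1 : S.Sec T ((ms.map fun i => (τ i, θ + γ i)) ++ Z) := fun p hp =>
    hsec p (((List.Sublist.refl _).append (List.sublist_append_right _ Z)).subset hp)
  have s2 : S.Sec T ((ms₀.map fun i => (τ₀ i, θ + 0)) ++ Z) := fun p hp =>
    hsec p (List.mem_append_right _ hp)
  have g1 := eul2_mem_Gam (ν := ν) (e := n + 1) _ (by
    rw [List.length_append, List.length_map]; omega) s1 a1
  have g2 := eul2_mem_Gam (ν := ν) (e := n + 1) _ (by
    rw [List.length_append, List.length_map]; omega) s2 a2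
  have g3 := Gam.congr (sub_mem g1 g2) (g := 0) (by
    filter_upwards [e1, e2] with k h1 h2
    show ((S.line T 0).kos _).P ν k - ((S.line T 0).kos _).P ν k = 0
    rw [← h1, ← h2, sub_self])
  have p1 : ((ms.map fun i => (τ i, θ + γ i)).map fun p => (1 - TT (-p.2) : GR σ)).prod =
      ∏ m, (1 - TT (-(θ + γ m))) := by
    rw [List.map_map, ← List.prod_toFinset _ hnd,
      Finset.eq_univ_of_forall fun m => List.mem_toFinset.2 (hall m)]
    rfl
  have p2 : ((ms₀.map fun i => (τ₀ i, θ + 0)).map fun p => (1 - TT (-p.2) : GR σ)).prod =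
      (1 - TT (-θ)) ^ Fintype.card M := by
    rw [List.map_map, ← hms₀, add_zero]
    exact (congrArg List.prod (List.map_const' (l := ms₀) (b := (1 - TT (-θ) : GR σ)))).trans
      (List.prod_replicate _ _)
  have p3 : (Z.map fun p => (1 - TT (-p.2) : GR σ)).prod =
      (δs.map fun δ => (1 - TT (-δ) : GR σ)).prod := by
    rw [← h5, List.map_map]
    rfl
  have e3 : (δs.map fun δ => (1 - TT (-δ) : GR σ)).prod * E =
      eul ((ms.map fun i => (τ i, θ + γ i)) ++ Z) - eul ((ms₀.map fun i => (τ₀ i, θ + 0)) ++ Z) := by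
    simp only [eul, List.map_append, List.prod_append, p1, p2, p3, hE]
    ring
  rw [e3]
  exact g3

end Crest.Agent.R188
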