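import Crest.Agent.R188.Sys3
import Crest.Agent.R188.Chi

/-!
# R188 / FC1

Complexes of families: well-formedness, exact sequences, homotopies.
-/

set_option autoImplicit false
set_option linter.unusedSectionVars false
set_option linter.unusedVariables false

noncomputable section

namespace Crest.Agent.R188

open Filter
open Crest.Agent.R183 (Zc Bd mact gr Htpy)
open scoped TensorProduct

variable {T : Type} [CommRing T] {K σ : Type} [Field K] [Algebra T K] [Fintype σ] [DecidableEq σ]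
  (S : Sys K σ)
  {𝔶 : Ideal T} {ν : AddFn T} {n : ℕ} {A B C : FCx T K σ}

theorem FC1_add {p : (σ → ℤ) → Prop} (h : ∀ᶠ k in atTop, p k) (δ : σ → ℤ) :
    ∀ᶠ k in atTop, p (k + δ) :=
  (tendsto_atTop_add_const_right atTop δ tendsto_id).eventually h

theorem FC1_sub {p : (σ → ℤ) → Prop} (h : ∀ᶠ k in atTop, p k) (δ : σ → ℤ) :
    ∀ᶠ k in atTop, p (k - δ) := by
  simpa only [sub_eq_add_neg] using FC1_add h (-δ)

section
variable {V : Type} [AddCommGroup V] [Module K V] [Module T V] [IsScalarTower T K V]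
  {M M' : (σ → ℤ) → Submodule T V}

theorem FC1_stable_sub (h : S.Stable M) (δ : σ → ℤ) : S.Stable fun k => M (k - δ) := by
  simpa only [sub_eq_add_neg] using h.shift S (-δ)

theorem FC1_loc_sub {χ : S.Chart} (f : V →ₗ[K] V) (h : ∀ x ∈ S.loc χ M, f x ∈ S.loc χ M')
    (ε : σ → ℤ) : ∀ x ∈ S.loc χ (fun k => M (k - ε)), f x ∈ S.loc χ (fun k => M' (k - ε)) := by
  simp only [sub_eq_add_neg]
  intro x hx
  rw [S.mem_loc_shift] at hx ⊢
  rw [← map_smul]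
  exact h _ hx

end

namespace FCx

theorem FC1_smul (h : C.WF S) {x : K} {δ : σ → ℤ} (hδ : 0 ≤ δ) (hx : x ∈ S.L T δ) :
    ∀ᶠ k in atTop, ∀ i, ∀ v ∈ C.G (k - δ) i, x • v ∈ C.G k i := by
  obtain ⟨lo, hi, hb⟩ := h.bdd
  have h1 := (eventually_all_finset (Finset.Icc lo hi)).2 fun i _ => (h.stable i).smul_mem S hδ hx
  refine h1.mono fun k hk i v hv => ?_
  by_cases hi' : i < lo ∨ hi < i
  · rw [hb _ i hi', Submodule.mem_bot] at hv
    rw [hv, smul_zero]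
    exact zero_mem _
  · exact hk i (Finset.mem_Icc.2 (by omega)) v hv

theorem FC1_iso_iff : Iso A B ↔ ∃ i : A.V →ₗ[K] B.V, Function.Injective i ∧
    (∀ x, i (A.D x) = B.D (i x)) ∧
      ∀ᶠ k in atTop, ∀ n y, (∃ x ∈ A.G k n, i x = y) ↔ y ∈ B.G k n := by
  refine exists_congr fun i => and_congr_right fun _ => and_congr LinearMap.ext_iff ?_
  exact eventually_congr (Eventually.of_forall fun k => forall_congr' fun n => SetLike.ext_iff)

theorem FC1_ses_iff : SES A B C ↔ ∃ (i : A.V →ₗ[K] B.V) (q : B.V →ₗ[K] C.V), Function.Injective i ∧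
    (∀ x, i (A.D x) = B.D (i x)) ∧ (∀ x, q (B.D x) = C.D (q x)) ∧
      ∀ᶠ k in atTop, ∀ n, (∀ y, (∃ x ∈ A.G k n, i x = y) ↔ y ∈ B.G k n ∧ q y = 0) ∧
        ∀ z, (∃ y ∈ B.G k n, q y = z) ↔ z ∈ C.G k n := by
  refine exists_congr fun i => exists_congr fun q => and_congr_right fun _ =>
    and_congr LinearMap.ext_iff (and_congr LinearMap.ext_iff ?_)
  exact eventually_congr (Eventually.of_forall fun k => forall_congr' fun n =>
    and_congr SetLike.ext_iff SetLike.ext_iff)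

theorem FC1_cone_D (x : K) (δ : σ → ℤ) (v : C.V × C.V) :
    (C.cone x δ).D v = ((C.D v.1 + x • v.2, -(C.D v.2)) : C.V × C.V) := rfl

theorem FC1_iso_cone_sh (x : K) (δ ε : σ → ℤ) :
    Iso ((C.sh δ).cone x ε) ((C.cone x ε).sh δ) := by
  refine FC1_iso_iff.2 ⟨(LinearMap.id.prodMap (-LinearMap.id) : C.V × C.V →ₗ[K] C.V × C.V), ?_, ?_,
    Eventually.of_forall fun k n => ?_⟩
  · rintro ⟨a, b⟩ ⟨a', b'⟩ h
    obtain ⟨h1, h2⟩ := Prod.mk.inj (show ((a, -b) : C.V × C.V) = (a', -b') from h)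
    exact Prod.ext h1 (neg_injective h2)
  · rintro (⟨a, b⟩ : C.V × C.V)
    show ((-(C.D a) + x • b, -(-(-(C.D b)))) : C.V × C.V) = -(C.D a + x • (-b), -(C.D (-b)))
    refine Prod.ext ?_ ?_ <;> simp [add_comm]
  · rintro ⟨a, b⟩
    show (∃ v : C.V × C.V, (v.1 ∈ C.G (k - δ) (n - 1) ∧ v.2 ∈ C.G (k - ε - δ) (n - 1 - 1)) ∧
      (v.1, -v.2) = (a, b)) ↔ a ∈ C.G (k - δ) (n - 1) ∧ b ∈ C.G (k - δ - ε) (n - 1 - 1)
    rw [sub_right_comm k ε δ]
    constructor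
    · rintro ⟨v, hv, e⟩
      obtain ⟨rfl, rfl⟩ := Prod.mk.inj e
      exact ⟨hv.1, neg_mem hv.2⟩
    · exact fun h => ⟨(a, -b), ⟨h.1, neg_mem h.2⟩, by simp⟩

end FCx

namespace FCx

theorem WF.isCx (h : C.WF S) : ∀ᶠ k in atTop, IsCx (C.D.restrictScalars T) (C.G k) ⊥ := by
  obtain ⟨lo, hi, hb⟩ := h.bdd
  refine h.sub.mono fun k hk => ⟨fun i => bot_le, hk, fun i => ?_, fun i x _ => ?_, ?_⟩
  · rw [Pi.bot_apply, Submodule.map_bot]
    exact bot_le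
  · show C.D (C.D x) ∈ _
    rw [h.dd]
    exact zero_mem _
  · refine (Set.finite_Icc lo hi).subset fun i hi' => ?_
    by_contra hn
    refine hi' ?_
    rw [hb k i (by rw [Set.mem_Icc] at hn; omega)]
    exact bot_le

theorem WF.sh (h : C.WF S) (δ : σ → ℤ) : (C.sh δ).WF S := by
  obtain ⟨lo, hi, hb⟩ := h.bdd
  refine ⟨fun x => ?_, ⟨lo + 1, hi + 1, fun k i hi' => hb _ _ (by omega)⟩,
    fun i => FC1_stable_sub S (h.stable (i - 1)) δ, (FC1_sub h.sub δ).mono fun k hk i => ?_⟩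
  · show -(C.D (-(C.D x))) = 0
    rw [map_neg, h.dd, neg_zero, neg_zero]
  · rintro _ ⟨x, hx, rfl⟩
    exact neg_mem (hk (i - 1) ⟨x, hx, rfl⟩)

theorem WF.cone (h : C.WF S) {x : K} {δ : σ → ℤ} (hδ : 0 ≤ δ) (hx : x ∈ S.L T δ) :
    (C.cone x δ).WF S := by
  obtain ⟨lo, hi, hb⟩ := h.bdd
  refine ⟨fun v => ?_, ⟨lo, hi + 1, fun k i hi' => ?_⟩,
    fun i => (h.stable i).prod S (FC1_stable_sub S (h.stable (i - 1)) δ), ?_⟩
  · obtain ⟨a, b⟩ := v
    show ((C.D (C.D a + x • b) + x • -(C.D b), -(C.D (-(C.D b)))) : C.V × C.V) = 0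
    refine Prod.ext ?_ ?_ <;> simp [h.dd]
  · show (C.G k i).prod (C.G (k - δ) (i - 1)) = ⊥
    rw [hb k i (by omega), hb _ (i - 1) (by omega), Submodule.prod_bot]
  · filter_upwards [h.sub, FC1_sub h.sub δ, FC1_smul S h hδ hx] with k h1 h2 h3 i
    rintro _ ⟨v, hv, rfl⟩
    exact ⟨add_mem (h1 i ⟨_, hv.1, rfl⟩) (h3 _ _ hv.2), neg_mem (h2 (i - 1) ⟨_, hv.2, rfl⟩)⟩

theorem WF.kos (h : C.WF S) {Ls : List (K × (σ → ℤ))} (hL : S.Sec T Ls) : (C.kos Ls).WF S := by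
  induction Ls with
  | nil => exact h
  | cons p Ls ih =>
    exact (ih fun q hq => hL q (List.mem_cons_of_mem _ hq)).cone S (hL p List.mem_cons_self).1
      (hL p List.mem_cons_self).2

theorem wf_line (γ : σ → ℤ) : (S.line T γ).WF S := by
  refine ⟨fun x => rfl, ⟨0, 0, fun k i hi => if_neg (by omega)⟩, fun i => ?_,
    Eventually.of_forall fun k i => ?_⟩
  · show S.Stable fun k => if i = 0 then S.L T (k + γ) else ⊥
    split_ifs
    exacts [S.stable_L γ, S.stable_bot]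
  · rintro _ ⟨x, -, rfl⟩
    exact zero_mem _

theorem wf_two {γ γ' : σ → ℤ} (h : ∀ χ, S.a χ (γ - γ') ∈ S.O T χ) : (S.two T γ γ').WF S := by
  refine ⟨fun x => rfl, ⟨0, 1, fun k i hi => (if_neg (by omega)).trans (if_neg (by omega))⟩,
    fun i => ?_, (S.L_le_of_mem_O h).mono fun k hk i => ?_⟩
  · show S.Stable fun k => if i = 0 then (S.L T (k + γ')).prod ⊥ else
      if i = 1 then (⊥ : Submodule T K).prod (S.L T (k + γ)) else ⊥
    split_ifs
    exacts [(S.stable_L γ').prod S S.stable_bot, S.stable_bot.prod S (S.stable_L γ), S.stable_bot]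
  · rintro _ ⟨⟨a, b⟩, hx, rfl⟩
    have hx' : ((a, b) : K × K) ∈ (if i = 0 then (S.L T (k + γ')).prod ⊥ else
      if i = 1 then (⊥ : Submodule T K).prod (S.L T (k + γ)) else ⊥ : Submodule T (K × K)) := hx
    show ((b, 0) : K × K) ∈ (if i - 1 = 0 then (S.L T (k + γ')).prod ⊥ else
      if i - 1 = 1 then (⊥ : Submodule T K).prod (S.L T (k + γ)) else ⊥ : Submodule T (K × K))
    by_cases h1 : i = 1
    · rw [if_neg (by omega), if_pos h1] at hx'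
      rw [if_pos (by omega)]
      exact ⟨hk hx'.2, rfl⟩
    · have hb : b = 0 := by
        split_ifs at hx'
        · exact hx'.2
        · exact congrArg Prod.snd hx'
      rw [hb]
      exact zero_mem _

theorem kos_append (L₁ L₂ : List (K × (σ → ℤ))) : C.kos (L₁ ++ L₂) = (C.kos L₂).kos L₁ := by
  induction L₁ with
  | nil => rfl
  | cons p L₁ ih => exact congrArg (fun X : FCx T K σ => X.cone p.1 p.2) ih

theorem ses_cone (x : K) (δ : σ → ℤ) : SES C (C.cone x δ) (C.sh δ) := by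
  refine FC1_ses_iff.2 ⟨LinearMap.inl K C.V C.V, LinearMap.snd K C.V C.V, LinearMap.inl_injective,
    fun a => ?_, fun v => rfl, Eventually.of_forall fun k n => ⟨?_, fun z => ?_⟩⟩
  · show ((C.D a, 0) : C.V × C.V) = (C.D a + x • 0, -(C.D 0))
    simp
  · rintro ⟨a, b⟩
    constructor
    · rintro ⟨a', h1, e⟩
      obtain ⟨rfl, rfl⟩ := Prod.mk.inj (show ((a', 0) : C.V × C.V) = (a, b) from e)
      exact ⟨⟨h1, zero_mem _⟩, rfl⟩
    · rintro ⟨h1, h2⟩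
      obtain rfl : b = 0 := h2
      exact ⟨a, h1.1, rfl⟩
  · constructor
    · rintro ⟨y, h1, rfl⟩
      exact h1.2
    · exact fun h => ⟨((0, z) : C.V × C.V), ⟨zero_mem _, h⟩, rfl⟩

theorem SES.cone (h : SES A B C) (x : K) (δ : σ → ℤ) :
    SES (A.cone x δ) (B.cone x δ) (C.cone x δ) := by
  obtain ⟨i, q, h1, h2, h3, h4⟩ := FC1_ses_iff.1 h
  refine FC1_ses_iff.2 ⟨i.prodMap i, q.prodMap q, h1.prodMap h1, ?_, ?_, ?_⟩
  · rintro ⟨a, b⟩
    show ((i (A.D a + x • b), i (-(A.D b))) : B.V × B.V) = (B.D (i a) + x • i b, -(B.D (i b)))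
    rw [map_add, map_smul, map_neg, h2, h2]
  · rintro ⟨a, b⟩
    show ((q (B.D a + x • b), q (-(B.D b))) : C.V × C.V) = (C.D (q a) + x • q b, -(C.D (q b)))
    rw [map_add, map_smul, map_neg, h3, h3]
  · filter_upwards [h4, FC1_sub h4 δ] with k e1 e2 n
    constructor
    · rintro ⟨a, b⟩
      constructor
      · rintro ⟨⟨a', b'⟩, hv, e⟩
        obtain ⟨rfl, rfl⟩ := Prod.mk.inj (show ((i a', i b') : B.V × B.V) = (a, b) from e)
        have f1 := ((e1 n).1 _).1 ⟨a', hv.1, rfl⟩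
        have f2 := ((e2 (n - 1)).1 _).1 ⟨b', hv.2, rfl⟩
        exact ⟨⟨f1.1, f2.1⟩, Prod.ext f1.2 f2.2⟩
      · rintro ⟨hv, e⟩
        obtain ⟨a', f1, rfl⟩ := ((e1 n).1 a).2 ⟨hv.1, congrArg Prod.fst e⟩
        obtain ⟨b', f2, rfl⟩ := ((e2 (n - 1)).1 b).2 ⟨hv.2, congrArg Prod.snd e⟩
        exact ⟨((a', b') : A.V × A.V), ⟨f1, f2⟩, rfl⟩
    · rintro ⟨a, b⟩
      constructor
      · rintro ⟨⟨a', b'⟩, hv, e⟩
        obtain ⟨rfl, rfl⟩ := Prod.mk.inj (show ((q a', q b') : C.V × C.V) = (a, b) from e)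
        exact ⟨((e1 n).2 _).1 ⟨a', hv.1, rfl⟩, ((e2 (n - 1)).2 _).1 ⟨b', hv.2, rfl⟩⟩
      · intro hv
        obtain ⟨a', f1, rfl⟩ := ((e1 n).2 a).2 hv.1
        obtain ⟨b', f2, rfl⟩ := ((e2 (n - 1)).2 b).2 hv.2
        exact ⟨((a', b') : B.V × B.V), ⟨f1, f2⟩, rfl⟩

theorem SES.kos (h : SES A B C) (Ls : List (K × (σ → ℤ))) :
    SES (A.kos Ls) (B.kos Ls) (C.kos Ls) := by
  induction Ls with
  | nil => exact h
  | cons p Ls ih => exact ih.cone p.1 p.2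

theorem ses_two (γ γ' : σ → ℤ) : SES (S.line T γ') (S.two T γ γ') ((S.line T γ).sh 0) := by
  refine FC1_ses_iff.2 ⟨LinearMap.inl K K K, LinearMap.snd K K K,
    LinearMap.inl_injective (R := K) (M := K) (M₂ := K),
    fun a => rfl, fun v => (neg_zero (G := K)).symm, Eventually.of_forall fun k n => ⟨?_, fun z => ?_⟩⟩
  · rintro (⟨a, b⟩ : K × K)
    show (∃ x : K, x ∈ (if n = 0 then S.L T (k + γ') else ⊥ : Submodule T K) ∧
      ((x, 0) : K × K) = (a, b)) ↔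
      ((a, b) : K × K) ∈ (if n = 0 then (S.L T (k + γ')).prod ⊥ else
        if n = 1 then (⊥ : Submodule T K).prod (S.L T (k + γ)) else ⊥ : Submodule T (K × K)) ∧ b = 0
    split_ifs <;> simp +contextual [Prod.ext_iff, iff_def, @eq_comm K 0]
  · show (∃ y ∈ (if n = 0 then (S.L T (k + γ')).prod ⊥ else
        if n = 1 then (⊥ : Submodule T K).prod (S.L T (k + γ)) else ⊥ : Submodule T (K × K)),
          y.2 = (z : K)) ↔ (z : K) ∈ (if n - 1 = 0 then S.L T (k - 0 + γ) else ⊥ : Submodule T K)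
    rw [sub_zero]
    by_cases h1 : n = 1
    · rw [if_neg (by omega), if_pos h1, if_pos (by omega)]
      exact ⟨fun ⟨y, hy, e⟩ => e ▸ hy.2, fun h => ⟨(0, z), ⟨rfl, h⟩, rfl⟩⟩
    · rw [if_neg h1, if_neg (show ¬ n - 1 = 0 by omega)]
      refine ⟨fun ⟨y, hy, e⟩ => ?_, fun h => ⟨0, zero_mem _, (h : z = 0).symm⟩⟩
      rw [← e]
      split_ifs at hy
      · exact hy.2
      · exact congrArg Prod.snd hy

theorem Iso.refl (C : FCx T K σ) : Iso C C :=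
  ⟨LinearMap.id, Function.injective_id, rfl, Eventually.of_forall fun k n => Submodule.map_id _⟩

theorem Iso.trans (h : Iso A B) (h' : Iso B C) : Iso A C := by
  obtain ⟨i, h1, h2, h3⟩ := h
  obtain ⟨j, g1, g2, g3⟩ := h'
  refine ⟨j ∘ₗ i, g1.comp h1, ?_, ?_⟩
  · rw [LinearMap.comp_assoc, h2, ← LinearMap.comp_assoc, g2, LinearMap.comp_assoc]
  · filter_upwards [h3, g3] with k e1 e2 n
    rw [← e2 n, ← e1 n, ← Submodule.map_comp]
    rfl

theorem Iso.cone (h : Iso A B) (x : K) (δ : σ → ℤ) : Iso (A.cone x δ) (B.cone x δ) := by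
  obtain ⟨i, h1, h2, h4⟩ := FC1_iso_iff.1 h
  refine FC1_iso_iff.2 ⟨i.prodMap i, h1.prodMap h1, ?_, ?_⟩
  · rintro ⟨a, b⟩
    show ((i (A.D a + x • b), i (-(A.D b))) : B.V × B.V) = (B.D (i a) + x • i b, -(B.D (i b)))
    rw [map_add, map_smul, map_neg, h2, h2]
  · filter_upwards [h4, FC1_sub h4 δ] with k e1 e2 n
    rintro ⟨a, b⟩
    constructor
    · rintro ⟨⟨a', b'⟩, hv, e⟩
      obtain ⟨rfl, rfl⟩ := Prod.mk.inj (show ((i a', i b') : B.V × B.V) = (a, b) from e)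
      exact ⟨(e1 n _).1 ⟨a', hv.1, rfl⟩, (e2 (n - 1) _).1 ⟨b', hv.2, rfl⟩⟩
    · intro hv
      obtain ⟨a', f1, rfl⟩ := (e1 n a).2 hv.1
      obtain ⟨b', f2, rfl⟩ := (e2 (n - 1) b).2 hv.2
      exact ⟨((a', b') : A.V × A.V), ⟨f1, f2⟩, rfl⟩

theorem Iso.kos (h : Iso A B) (Ls : List (K × (σ → ℤ))) : Iso (A.kos Ls) (B.kos Ls) := by
  induction Ls with
  | nil => exact h
  | cons p Ls ih => exact ih.cone p.1 p.2

/-- `((a, b), (c, e)) ↦ ((a, c), (b, -e))`. -/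
theorem iso_swap (x y : K) (δ ε : σ → ℤ) :
    Iso ((C.cone x δ).cone y ε) ((C.cone y ε).cone x δ) := by
  let φ : (C.V × C.V) × (C.V × C.V) →ₗ[K] (C.V × C.V) × (C.V × C.V) :=
    { toFun := fun v => ((v.1.1, v.2.1), (v.1.2, -v.2.2))
      map_add' := fun v w => by simp [add_comm]
      map_smul' := fun c v => by simp }
  refine FC1_iso_iff.2 ⟨φ, ?_, ?_, Eventually.of_forall fun k n => ?_⟩
  · rintro ⟨⟨a, b⟩, ⟨c, e⟩⟩ ⟨⟨a', b'⟩, ⟨c', e'⟩⟩ h
    have h' : (((a, c), (b, -e)) : (C.V × C.V) × (C.V × C.V)) = ((a', c'), (b', -e')) := h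
    simp only [Prod.mk.injEq, neg_inj] at h'
    rw [h'.1.1, h'.1.2, h'.2.1, h'.2.2]
  · rintro ⟨⟨a, b⟩, ⟨c, e⟩⟩
    show (((C.D a + x • b + y • c, -(C.D c + x • e)), (-(C.D b) + y • e, -(-(-(C.D e))))) :
      (C.V × C.V) × (C.V × C.V)) =
      ((C.D a + y • c + x • b, -(C.D c) + x • -e), (-(C.D b + y • -e), -(-(C.D (-e)))))
    simp [add_comm, add_left_comm]
  · rintro ⟨⟨a, c⟩, ⟨b, e⟩⟩
    show (∃ v : (C.V × C.V) × (C.V × C.V), ((v.1.1 ∈ C.G k n ∧ v.1.2 ∈ C.G (k - δ) (n - 1)) ∧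
      (v.2.1 ∈ C.G (k - ε) (n - 1) ∧ v.2.2 ∈ C.G (k - ε - δ) (n - 1 - 1))) ∧
        ((v.1.1, v.2.1), (v.1.2, -v.2.2)) = ((a, c), (b, e))) ↔
      (a ∈ C.G k n ∧ c ∈ C.G (k - ε) (n - 1)) ∧
        (b ∈ C.G (k - δ) (n - 1) ∧ e ∈ C.G (k - δ - ε) (n - 1 - 1))
    rw [sub_right_comm k ε δ]
    constructor
    · rintro ⟨v, hv, h⟩
      simp only [Prod.mk.injEq] at h
      obtain ⟨⟨rfl, rfl⟩, rfl, rfl⟩ := h
      exact ⟨⟨hv.1.1, hv.2.1⟩, hv.1.2, neg_mem hv.2.2⟩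
    · exact fun h => ⟨((a, b), (c, -e)), ⟨⟨h.1.1, h.2.1⟩, h.1.2, neg_mem h.2.2⟩, by simp⟩

theorem iso_perm {L₁ L₂ : List (K × (σ → ℤ))} (h : L₁.Perm L₂) : Iso (C.kos L₁) (C.kos L₂) := by
  induction h with
  | nil => exact Iso.refl _
  | cons p _ ih => exact ih.cone p.1 p.2
  | swap p q l => exact iso_swap _ _ _ _
  | trans _ _ ih ih' => exact ih.trans ih'

theorem iso_kos_sh (Ls : List (K × (σ → ℤ))) (δ : σ → ℤ) :
    Iso ((C.sh δ).kos Ls) ((C.kos Ls).sh δ) := by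
  induction Ls with
  | nil => exact Iso.refl _
  | cons p Ls ih => exact (ih.cone p.1 p.2).trans (FC1_iso_cone_sh _ _ _)

theorem GNH.cone {w : K} {δ : σ → ℤ} (h : C.GNH w δ) (x : K) (ε : σ → ℤ) :
    (C.cone x ε).GNH w δ := by
  obtain ⟨f, h1, h2⟩ := h
  refine ⟨(f.prodMap (-f) : C.V × C.V →ₗ[K] C.V × C.V), ?_, ?_⟩
  · rintro ⟨a, b⟩
    show ((C.D (f a) + x • -(f b) + f (C.D a + x • b), -(C.D (-(f b))) + -(f (-(C.D b)))) :
      C.V × C.V) = (w • a, w • b)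
    rw [← h1, ← h1]
    refine Prod.ext ?_ ?_ <;> simp [add_comm, add_left_comm]
  · filter_upwards [h2, FC1_sub h2 ε] with k e1 e2 i
    rintro _ ⟨⟨a, b⟩, hv, rfl⟩
    refine ⟨e1 i ⟨a, hv.1, rfl⟩, neg_mem ?_⟩
    have := e2 (i - 1) ⟨b, (by rw [sub_right_comm]; exact hv.2), rfl⟩
    rwa [sub_add_cancel, ← add_sub_cancel_right i 1] at this

theorem gnh_cone_self (x : K) (ε : σ → ℤ) : (C.cone x ε).GNH x ε := by
  refine ⟨(LinearMap.inr K C.V C.V ∘ₗ LinearMap.fst K C.V C.V : C.V × C.V →ₗ[K] C.V × C.V), ?_,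
    Eventually.of_forall fun k i => ?_⟩
  · rintro ⟨a, b⟩
    show ((C.D 0 + x • a + 0, -(C.D a) + (C.D a + x • b)) : C.V × C.V) = (x • a, x • b)
    simp
  · rintro _ ⟨⟨a, b⟩, hv, rfl⟩
    refine ⟨zero_mem _, ?_⟩
    show a ∈ C.G (k - ε) (i + 1 - 1)
    rw [add_sub_cancel_right]
    exact hv.1

theorem GNH.mul (hC : C.WF S) {w : K} {δ : σ → ℤ} (h : C.GNH w δ) {c : K} {ε : σ → ℤ} (hε : 0 ≤ ε)
    (hc : c ∈ S.L T ε) : C.GNH (c * w) (δ + ε) := by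
  obtain ⟨f, h1, h2⟩ := h
  refine ⟨c • f, fun x => ?_, ?_⟩
  · rw [LinearMap.smul_apply, LinearMap.smul_apply, map_smul, ← smul_add, h1, mul_smul]
  · filter_upwards [FC1_sub h2 ε, FC1_smul S hC hε hc] with k e1 e2 i
    rintro _ ⟨a, ha, rfl⟩
    refine e2 _ _ (e1 i ⟨a, ?_, rfl⟩)
    rw [sub_sub, add_comm ε]
    exact ha

/-- `(a, b) ↦ (a + h b, b)`. -/
theorem GNH.iso_cone {w : K} {δ : σ → ℤ} (h : C.GNH w δ) (x : K) :
    Iso (C.cone (x + w) δ) (C.cone x δ) := by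
  obtain ⟨f, h1, h2⟩ := h
  let φ : C.V × C.V →ₗ[K] C.V × C.V :=
    { toFun := fun v => (v.1 + f v.2, v.2)
      map_add' := fun v w => by simp [add_add_add_comm]
      map_smul' := fun c v => by simp }
  refine FC1_iso_iff.2 ⟨φ, ?_, ?_, h2.mono fun k hk n => ?_⟩
  · rintro ⟨a, b⟩ ⟨a', b'⟩ h
    obtain ⟨e1, rfl⟩ := Prod.mk.inj (show ((a + f b, b) : C.V × C.V) = (a' + f b', b') from h)
    rw [add_right_cancel e1]
  · rintro ⟨a, b⟩
    show ((C.D a + (x + w) • b + f (-(C.D b)), -(C.D b)) : C.V × C.V) =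
      (C.D (a + f b) + x • b, -(C.D b))
    rw [add_smul, ← h1, map_neg, map_add]
    refine Prod.ext ?_ rfl
    dsimp only
    abel
  · have key : ∀ b ∈ C.G (k - δ) (n - 1), f b ∈ C.G k n := fun b hb => by
      have := hk (n - 1) ⟨b, hb, rfl⟩
      rwa [sub_add_cancel] at this
    rintro ⟨a, b⟩
    constructor
    · rintro ⟨⟨a', b'⟩, hv, e⟩
      obtain ⟨rfl, rfl⟩ := Prod.mk.inj (show ((a' + f b', b') : C.V × C.V) = (a, b) from e)
      exact ⟨add_mem hv.1 (key _ hv.2), hv.2⟩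
    · exact fun hv => ⟨((a - f b, b) : C.V × C.V), ⟨sub_mem hv.1 (key _ hv.2), hv.2⟩,
        Prod.ext (sub_add_cancel _ _) rfl⟩

theorem GNH.nh {w : K} {δ : σ → ℤ} (h : C.GNH w δ) (χ : S.Chart) : C.NH S χ (w / S.a χ δ) := by
  obtain ⟨f, h1, h2⟩ := h
  refine ⟨(S.a χ δ)⁻¹ • f, fun x => ?_, fun i x hx => ?_⟩
  · rw [LinearMap.smul_apply, LinearMap.smul_apply, map_smul, ← smul_add, h1, smul_smul,
      div_eq_inv_mul]
  · have hx' : ∀ᶠ k in atTop, S.a χ k • x ∈ C.G k i := hx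
    show ∀ᶠ k in atTop, S.a χ k • ((S.a χ δ)⁻¹ • f x) ∈ C.G k (i + 1)
    filter_upwards [h2, FC1_sub hx' δ] with k e1 e2
    rw [smul_smul, ← div_eq_mul_inv, ← S.a_sub, ← map_smul]
    exact e1 i ⟨_, e2, rfl⟩

theorem NH.cone {χ : S.Chart} {s : K} (h : C.NH S χ s) (x : K) (ε : σ → ℤ) :
    (C.cone x ε).NH S χ s := by
  obtain ⟨f, h1, h2⟩ := h
  refine ⟨(f.prodMap (-f) : C.V × C.V →ₗ[K] C.V × C.V), ?_, fun i => ?_⟩
  · rintro ⟨a, b⟩
    show ((C.D (f a) + x • -(f b) + f (C.D a + x • b), -(C.D (-(f b))) + -(f (-(C.D b)))) :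
      C.V × C.V) = (s • a, s • b)
    rw [← h1, ← h1]
    refine Prod.ext ?_ ?_ <;> simp [add_comm, add_left_comm]
  · rintro ⟨a, b⟩ hv
    have hv' : ((a, b) : C.V × C.V) ∈
        S.loc χ (fun k => (C.G k i).prod (C.G (k - ε) (i - 1))) := hv
    show ((f a, -(f b)) : C.V × C.V) ∈
      S.loc χ (fun k => (C.G k (i + 1)).prod (C.G (k - ε) (i + 1 - 1)))
    rw [S.loc_prod] at hv' ⊢
    refine ⟨h2 i a hv'.1, neg_mem ?_⟩
    have := FC1_loc_sub S f (h2 (i - 1)) ε b hv'.2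
    rwa [sub_add_cancel, ← add_sub_cancel_right i 1] at this

theorem NH.sh {χ : S.Chart} {s : K} (h : C.NH S χ s) (ε : σ → ℤ) : (C.sh ε).NH S χ s := by
  obtain ⟨f, h1, h2⟩ := h
  refine ⟨(-f : C.V →ₗ[K] C.V), fun a => ?_, fun i a ha => ?_⟩
  · show -(C.D (-(f a))) + -(f (-(C.D a))) = s • (a : C.V)
    rw [map_neg, map_neg, neg_neg, neg_neg]
    exact h1 a
  · show -(f a) ∈ S.loc χ (fun k => C.G (k - ε) (i + 1 - 1))
    have := FC1_loc_sub S f (h2 (i - 1)) ε a ha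
    rw [sub_add_cancel, ← add_sub_cancel_right i 1] at this
    exact neg_mem this

theorem nh_kos {χ : S.Chart} {s : K} (Ls : List (K × (σ → ℤ)))
    (h : C.NH S χ s ∨ ∃ p ∈ Ls, s = p.1 / S.a χ p.2) : (C.kos Ls).NH S χ s := by
  induction Ls with
  | nil => exact h.resolve_right fun ⟨p, hp, _⟩ => List.not_mem_nil hp
  | cons p Ls ih =>
    rcases h with h | ⟨q, hq, e⟩
    · exact (ih (Or.inl h)).cone S p.1 p.2
    · rcases List.mem_cons.1 hq with rfl | hq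
      · rw [e]
        exact (gnh_cone_self q.1 q.2).nh S χ
      · exact (ih (Or.inr ⟨q, hq, e⟩)).cone S p.1 p.2

theorem nh_two (γ γ' : σ → ℤ) (χ : S.Chart) : (S.two T γ γ').NH S χ (S.a χ (γ - γ')) := by
  refine ⟨(S.a χ (γ - γ') • (LinearMap.inr K K K ∘ₗ LinearMap.fst K K K) : K × K →ₗ[K] K × K), ?_,
    fun i => ?_⟩
  · rintro ⟨a, b⟩
    show ((S.a χ (γ - γ') • a + S.a χ (γ - γ') • 0, 0 + S.a χ (γ - γ') • b) : K × K) =
      (S.a χ (γ - γ') • a, S.a χ (γ - γ') • b)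
    simp
  · rintro ⟨a, b⟩ hv
    have hv' : ∀ᶠ k in atTop, ((S.a χ k • a, S.a χ k • b) : K × K) ∈
        (if i = 0 then (S.L T (k + γ')).prod ⊥ else
          if i = 1 then (⊥ : Submodule T K).prod (S.L T (k + γ)) else ⊥ : Submodule T (K × K)) := hv
    show ∀ᶠ k in atTop, ((S.a χ k • S.a χ (γ - γ') • 0, S.a χ k • S.a χ (γ - γ') • a) : K × K) ∈
        (if i + 1 = 0 then (S.L T (k + γ')).prod ⊥ else
          if i + 1 = 1 then (⊥ : Submodule T K).prod (S.L T (k + γ)) else ⊥ : Submodule T (K × K))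
    by_cases h0 : i = 0
    · filter_upwards [FC1_add hv' (γ - γ')] with k hk
      rw [if_pos h0, add_assoc, sub_add_cancel, S.a_add] at hk
      rw [if_neg (by omega), if_pos (by omega), smul_zero, smul_zero, smul_smul]
      exact ⟨rfl, hk.1⟩
    · filter_upwards [hv'] with k hk
      have ha : S.a χ k • a = 0 := by
        rw [if_neg h0] at hk
        split_ifs at hk
        · exact hk.1
        · exact congrArg Prod.fst hk
      rw [smul_comm (S.a χ k) _ a, ha, smul_zero, smul_zero]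
      exact zero_mem _

theorem Adm.kos (h : C.Adm S 𝔶) (Ls : List (K × (σ → ℤ))) : (C.kos Ls).Adm S 𝔶 := by
  intro χ 𝔓 h𝔓
  obtain ⟨s, h1, h2⟩ := h χ 𝔓 h𝔓
  exact ⟨s, h1, nh_kos S Ls (Or.inl h2)⟩

theorem adm_kos {Ls : List (K × (σ → ℤ))} (h : S.AdmL T 𝔶 Ls) : (C.kos Ls).Adm S 𝔶 := by
  intro χ 𝔓 h𝔓
  obtain ⟨p, h1, h2⟩ := h χ 𝔓 h𝔓
  exact ⟨_, h2, nh_kos S Ls (Or.inr ⟨p, h1, rfl⟩)⟩

end FCx

end Crest.Agent.R188
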