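import Crest.Agent.R188.FC1

/-!
# R188 / FC2

Euler characteristics of complexes of families.
-/

set_option autoImplicit false
set_option linter.unusedSectionVars false
set_option linter.unusedVariables false

noncomputable section

namespace Crest.Agent.R188

open Filter
open Crest.Agent.R183 (Zc Bd mact gr Htpy)
open scoped TensorProduct

variable {T : Type} [CommRing T] {K σ : Type} [Field K] [Algebra T K] [Fintype σ] [DecidableEq σ]
  (S : Sys K σ)
  {𝔶 : Ideal T} {ν : AddFn T} {n : ℕ} {A B C : FCx T K σ}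

theorem FC2_single (γ : σ → ℤ) (c : ℝ) (f : (σ → ℤ) → ℝ) (k : σ → ℤ) :
    act (AddMonoidAlgebra.single γ c) f k = c * f (k + γ) := by
  simp only [act, AddMonoidAlgebra.coeff_single]
  exact Finsupp.sum_single_index (zero_mul _)

theorem FC2_zero (f : (σ → ℤ) → ℝ) : act (0 : GR σ) f = 0 := by
  funext k
  simp [act]

theorem FC2_add (ξ η : GR σ) (f : (σ → ℤ) → ℝ) : act (ξ + η) f = act ξ f + act η f := by
  funext k
  simp only [act, AddMonoidAlgebra.coeff_add, Pi.add_apply]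
  exact Finsupp.sum_add_index' (fun _ => zero_mul _) fun _ _ _ => add_mul _ _ _

theorem FC2_add' (ξ : GR σ) (f g : (σ → ℤ) → ℝ) : act ξ (f + g) = act ξ f + act ξ g := by
  funext k
  simp only [act, Pi.add_apply, mul_add, Finsupp.sum_add]

theorem FC2_tendsto (γ : σ → ℤ) : Tendsto (fun k : σ → ℤ => k + γ) atTop atTop :=
  tendsto_atTop_add_const_right _ γ tendsto_id

theorem FC2_ev_sub {p : (σ → ℤ) → Prop} (γ : σ → ℤ) :
    (∀ᶠ k in atTop, p (k - γ)) ↔ ∀ᶠ k in atTop, p k := by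
  constructor
  · intro h
    simpa using (FC2_tendsto γ).eventually h
  · intro h
    simpa only [sub_eq_add_neg] using (FC2_tendsto (-γ)).eventually h

theorem act_TT (γ : σ → ℤ) (f : (σ → ℤ) → ℝ) (k : σ → ℤ) : act (TT γ) f k = f (k + γ) := by
  rw [FC2_single, one_mul]

theorem act_one (f : (σ → ℤ) → ℝ) : act 1 f = f := by
  funext k
  rw [AddMonoidAlgebra.one_def, FC2_single, one_mul, add_zero]

theorem act_mul (ξ η : GR σ) (f : (σ → ℤ) → ℝ) : act (ξ * η) f = act ξ (act η f) := by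
  induction ξ using AddMonoidAlgebra.induction_linear with
  | zero => rw [zero_mul, FC2_zero, FC2_zero]
  | add a b ha hb => rw [add_mul, FC2_add, FC2_add, ha, hb]
  | single a c =>
    induction η using AddMonoidAlgebra.induction_linear with
    | zero =>
      rw [mul_zero, FC2_zero]
      funext k
      simp [FC2_single]
    | add a' b' ha hb => rw [mul_add, FC2_add, FC2_add, FC2_add', ha, hb]
    | single a' c' =>
      funext k
      rw [AddMonoidAlgebra.single_mul_single, FC2_single, FC2_single, FC2_single, mul_assoc,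
        add_assoc]

theorem act_add (ξ η : GR σ) (f : (σ → ℤ) → ℝ) : act (ξ + η) f = act ξ f + act η f := by
  exact FC2_add ξ η f

theorem act_sub (ξ η : GR σ) (f : (σ → ℤ) → ℝ) : act (ξ - η) f = act ξ f - act η f := by
  rw [eq_sub_iff_add_eq, ← act_add, sub_add_cancel]

theorem act_smul (c : ℝ) (ξ : GR σ) (f : (σ → ℤ) → ℝ) : act (c • ξ) f = c • act ξ f := by
  funext k
  simp only [act, AddMonoidAlgebra.coeff_smul, Pi.smul_apply, smul_eq_mul]
  rw [Finsupp.sum_smul_index' (fun _ => zero_mul _), Finsupp.mul_sum]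
  simp only [smul_eq_mul, mul_assoc]

theorem act_add' (ξ : GR σ) (f g : (σ → ℤ) → ℝ) : act ξ (f + g) = act ξ f + act ξ g := by
  exact FC2_add' ξ f g

theorem act_smul' (c : ℝ) (ξ : GR σ) (f : (σ → ℤ) → ℝ) : act ξ (c • f) = c • act ξ f := by
  funext k
  simp only [act, Pi.smul_apply, smul_eq_mul, Finsupp.mul_sum, mul_left_comm c]

theorem act_congr (ξ : GR σ) {f g : (σ → ℤ) → ℝ} (h : f =ᶠ[atTop] g) :
    act ξ f =ᶠ[atTop] act ξ g := by
  have : ∀ᶠ k in atTop, ∀ γ ∈ ξ.coeff.support, f (k + γ) = g (k + γ) :=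
    (eventually_all_finset _).2 fun γ _ => (FC2_tendsto γ).eventually h
  exact this.mono fun k hk => Finset.sum_congr rfl fun γ hγ => congrArg (_ * ·) (hk γ hγ)

namespace FCx

theorem FC2_all (hC : C.WF S) {p : (σ → ℤ) → ℤ → Prop} (h1 : ∀ i, ∀ᶠ k in atTop, p k i)
    (h2 : ∀ k i, C.G k i = ⊥ → p k i) : ∀ᶠ k in atTop, ∀ i, p k i := by
  obtain ⟨lo, hi, hb⟩ := hC.bdd
  filter_upwards [(eventually_all_finset (Finset.Icc lo hi)).2 fun i _ => h1 i] with k hk i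
  by_cases h : i < lo ∨ hi < i
  · exact h2 k i (hb k i h)
  · exact hk i (Finset.mem_Icc.2 (by omega))

theorem FC2_stZ [IsNoetherianRing T] (hC : C.WF S) (i : ℤ) :
    S.Stable fun k => Zc (C.D.restrictScalars T) (C.G k) ⊥ i :=
  Sys.Stable.inf_comap S (hC.stable i) C.D (Sys.stable_bot S)

theorem FC2_stB (hC : C.WF S) (i : ℤ) :
    S.Stable fun k => Bd (C.D.restrictScalars T) (C.G k) ⊥ i :=
  Sys.Stable.sup S (Sys.Stable.map S (hC.stable (i + 1)) C.D) (Sys.stable_bot S)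

theorem FC2_loc {χ : S.Chart} {s : K} (h : C.NH S χ s) (i : ℤ) :
    ∀ x ∈ S.loc χ fun k => Zc (C.D.restrictScalars T) (C.G k) ⊥ i,
      s • x ∈ S.loc χ fun k => Bd (C.D.restrictScalars T) (C.G k) ⊥ i := by
  obtain ⟨H, h1, h2⟩ := h
  intro x hx
  have hx' : ∀ᶠ k in atTop, S.a χ k • x ∈ Zc (C.D.restrictScalars T) (C.G k) ⊥ i := hx
  have hD : C.D x = 0 := by
    obtain ⟨k, hk⟩ := hx'.exists
    have : C.D (S.a χ k • x) = 0 := hk.2
    rw [map_smul] at this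
    exact (smul_eq_zero_iff_right (S.a_ne χ k)).1 this
  have hH : ∀ᶠ k in atTop, S.a χ k • H x ∈ C.G k (i + 1) :=
    h2 i x (show ∀ᶠ k in atTop, S.a χ k • x ∈ C.G k i from hx'.mono fun k hk => hk.1)
  refine hH.mono fun k hk => Submodule.mem_sup_left ⟨_, hk, ?_⟩
  rw [← h1 x, hD, map_zero, add_zero]
  exact map_smul C.D _ _

variable (ν) in
theorem FC2_ses (h : SES A B C) (hA : ∀ᶠ k in atTop, IsCx (A.D.restrictScalars T) (A.G k) ⊥)
    (hB : ∀ᶠ k in atTop, IsCx (B.D.restrictScalars T) (B.G k) ⊥)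
    (hC : ∀ᶠ k in atTop, IsCx (C.D.restrictScalars T) (C.G k) ⊥) :
    ∀ᶠ k in atTop, ((ν.gd (A.D.restrictScalars T) (A.G k) ⊥ → ν.gd (C.D.restrictScalars T) (C.G k) ⊥ →
      ν.gd (B.D.restrictScalars T) (B.G k) ⊥) ∧
      (ν.gd (B.D.restrictScalars T) (B.G k) ⊥ → ν.gd (A.D.restrictScalars T) (A.G k) ⊥ →
      ν.gd (C.D.restrictScalars T) (C.G k) ⊥) ∧
      (ν.gd (B.D.restrictScalars T) (B.G k) ⊥ → ν.gd (C.D.restrictScalars T) (C.G k) ⊥ →
      ν.gd (A.D.restrictScalars T) (A.G k) ⊥)) ∧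
      (ν.gd (A.D.restrictScalars T) (A.G k) ⊥ → ν.gd (C.D.restrictScalars T) (C.G k) ⊥ →
        B.P ν k = A.P ν k + C.P ν k) := by
  obtain ⟨i, q, hi, hiD, hqD, e⟩ := h
  filter_upwards [e, hA, hB, hC] with k e a b c
  exact ν.chi_ses_map (i.restrictScalars T) (q.restrictScalars T) a b c hi
    (LinearMap.ext fun x => LinearMap.congr_fun hiD x)
    (LinearMap.ext fun x => LinearMap.congr_fun hqD x) (fun n => (e n).1) fun n => (e n).2

/-- the twist by `-δ`. -/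
def FC2_tw (C : FCx T K σ) (δ : σ → ℤ) : FCx T K σ where
  V := C.V
  D := C.D
  G k i := C.G (k - δ) i

theorem FC2_tw_kos (δ : σ → ℤ) (Ls : List (K × (σ → ℤ))) :
    (FC2_tw C δ).kos Ls = FC2_tw (C.kos Ls) δ := by
  induction Ls with
  | nil => rfl
  | cons p Ls ih =>
    rw [kos, kos, ih]
    unfold FC2_tw cone
    simp only [sub_right_comm _ p.2 δ]

/-- the auxiliary complex for multiplicativity. -/
def FC2_W (C : FCx T K σ) (x y : K) (δ ε : σ → ℤ) : FCx T K σ where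
  V := (C.V × C.V) × (C.V × C.V)
  tw := ⟨fun a b v => Prod.ext (smul_assoc a b v.1) (smul_assoc a b v.2)⟩
  D :=
    { toFun := fun v => ((C.D v.1.1 + x • v.1.2, -C.D v.1.2),
        (C.D v.2.1 + y • v.2.2 + v.1.2, -C.D v.2.2))
      map_add' := fun v w => by
        refine Prod.ext (Prod.ext ?_ ?_) (Prod.ext ?_ ?_) <;> simp <;> abel
      map_smul' := fun c v => by
        refine Prod.ext (Prod.ext ?_ ?_) (Prod.ext ?_ ?_) <;> simp [smul_comm c] }
  G k i := ((C.cone x δ).G k i).prod ((C.cone y ε).G (k - δ) i)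

theorem FC2_W_isCx {x y : K} {δ ε k : σ → ℤ} (hd : ∀ v, C.D (C.D v) = 0)
    (hx : IsCx ((C.cone x δ).D.restrictScalars T) ((C.cone x δ).G k) ⊥)
    (hy : IsCx ((FC2_tw (C.cone y ε) δ).D.restrictScalars T) ((FC2_tw (C.cone y ε) δ).G k) ⊥) :
    IsCx ((FC2_W C x y δ ε).D.restrictScalars T) ((FC2_W C x y δ ε).G k) ⊥ where
  le _ := bot_le
  subW i := by
    rintro _ ⟨v, hv, rfl⟩
    have h1 := hx.subW i ⟨v.1, hv.1, rfl⟩
    have h2 := hy.subW i ⟨v.2, hv.2, rfl⟩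
    exact ⟨h1, add_mem h2.1 hv.1.2, h2.2⟩
  subU i := (Submodule.map_bot _).le.trans bot_le
  dd i v _ := by
    change (FC2_W C x y δ ε).D ((FC2_W C x y δ ε).D v) = 0
    refine Prod.ext (Prod.ext ?_ ?_) (Prod.ext ?_ ?_)
    · change C.D (C.D v.1.1 + x • v.1.2) + x • -C.D v.1.2 = 0
      simp [hd]
    · change -C.D (-C.D v.1.2) = 0
      simp [hd]
    · change C.D (C.D v.2.1 + y • v.2.2 + v.1.2) + y • -C.D v.2.2 + -C.D v.1.2 = 0
      simp [hd]
    · change -C.D (-C.D v.2.2) = 0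
      simp [hd]
  fin := (hx.fin.union hy.fin).subset fun i hi => by
    by_contra h
    rw [Set.mem_union, not_or] at h
    exact hi fun v hv => Prod.ext (not_not.1 h.1 hv.1) (not_not.1 h.2 hv.2)

theorem FC2_ses1 (C : FCx T K σ) (x y : K) (δ ε : σ → ℤ) :
    SES (FC2_tw (C.cone y ε) δ) (FC2_W C x y δ ε) (C.cone x δ) := by
  refine ⟨LinearMap.inr K (C.V × C.V) (C.V × C.V), LinearMap.fst K (C.V × C.V) (C.V × C.V),
    fun v w h => congrArg Prod.snd h, LinearMap.ext fun v => ?_, LinearMap.ext fun v => rfl,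
    .of_forall fun k n => ⟨?_, ?_⟩⟩
  · refine Prod.ext (Prod.ext ?_ ?_) (Prod.ext ?_ rfl)
    · change (0 : C.V) = C.D 0 + x • 0
      simp
    · change (0 : C.V) = -C.D 0
      simp
    · exact (add_zero _).symm
  · ext v
    constructor
    · rintro ⟨w, hw, rfl⟩
      exact ⟨⟨zero_mem _, hw⟩, rfl⟩
    · exact fun hv => ⟨v.2, hv.1.2, Prod.ext (Eq.symm hv.2) rfl⟩
  · ext v
    constructor
    · rintro ⟨w, hw, rfl⟩
      exact hw.1
    · exact fun hv => ⟨(v, 0), ⟨hv, zero_mem _⟩, rfl⟩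

theorem FC2_ses2 (C : FCx T K σ) (x y : K) (δ ε : σ → ℤ)
    (hy : ∀ᶠ k in atTop, ∀ i, ∀ v ∈ C.G (k - δ - ε) i, y • v ∈ C.G (k - δ) i) :
    SES (C.cone (x * y) (δ + ε)) (FC2_W C x y δ ε) (FC2_tw (C.cone 1 0) δ) := by
  let i : (C.V × C.V) →ₗ[K] (C.V × C.V) × (C.V × C.V) :=
    { toFun := fun v => ((v.1, y • v.2), (0, -v.2))
      map_add' := fun v w => by
        refine Prod.ext (Prod.ext ?_ ?_) (Prod.ext ?_ ?_) <;> simp [add_comm]
      map_smul' := fun c v => by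
        refine Prod.ext (Prod.ext ?_ ?_) (Prod.ext ?_ ?_) <;> simp [smul_comm c] }
  let q : ((C.V × C.V) × (C.V × C.V)) →ₗ[K] C.V × C.V :=
    { toFun := fun v => (v.2.1, v.1.2 + y • v.2.2)
      map_add' := fun v w => by
        refine Prod.ext ?_ ?_ <;> simp
        abel
      map_smul' := fun c v => by
        refine Prod.ext ?_ ?_ <;> simp [smul_comm c] }
  refine ⟨i, q, fun v w h => ?_, LinearMap.ext fun v => ?_, LinearMap.ext fun v => ?_,
    hy.mono fun k hk n => ⟨?_, ?_⟩⟩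
  · exact Prod.ext (congrArg (fun u => u.1.1) h) (neg_injective (congrArg (fun u => u.2.2) h))
  · refine Prod.ext (Prod.ext ?_ ?_) (Prod.ext ?_ ?_)
    · change C.D v.1 + (x * y) • v.2 = C.D v.1 + x • y • v.2
      rw [mul_smul]
    · change y • -C.D v.2 = -C.D (y • v.2)
      simp
    · change (0 : C.V) = C.D 0 + y • -v.2 + y • v.2
      simp
    · change - -C.D v.2 = -C.D (-v.2)
      simp
  · refine Prod.ext ?_ ?_
    · change C.D v.2.1 + y • v.2.2 + v.1.2 = C.D v.2.1 + (1 : K) • (v.1.2 + y • v.2.2)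
      rw [one_smul]
      abel
    · change -C.D v.1.2 + y • -C.D v.2.2 = -C.D (v.1.2 + y • v.2.2)
      simp [add_comm]
  · ext v
    constructor
    · rintro ⟨w, hw, rfl⟩
      have h2 : w.2 ∈ C.G (k - δ - ε) (n - 1) := by
        rw [sub_sub]
        exact hw.2
      refine ⟨⟨⟨hw.1, hk _ _ h2⟩, zero_mem _, neg_mem h2⟩, ?_⟩
      change ((0 : C.V), y • w.2 + y • -w.2) = 0
      simp
    · rintro ⟨hv, h0⟩
      have h1 : v.2.1 = 0 := congrArg Prod.fst h0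
      have h2 : v.1.2 + y • v.2.2 = 0 := congrArg Prod.snd h0
      refine ⟨(v.1.1, -v.2.2), ⟨hv.1.1, ?_⟩, Prod.ext (Prod.ext rfl ?_) (Prod.ext h1.symm ?_)⟩
      · have h3 : v.2.2 ∈ C.G (k - δ - ε) (n - 1) := hv.2.2
        rw [sub_sub] at h3
        exact neg_mem h3
      · change y • -v.2.2 = v.1.2
        rw [smul_neg, eq_neg_of_add_eq_zero_left h2]
      · exact neg_neg _
  · ext v
    constructor
    · rintro ⟨w, hw, rfl⟩
      refine ⟨hw.2.1, ?_⟩
      change w.1.2 + y • w.2.2 ∈ C.G (k - δ - 0) (n - 1)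
      rw [sub_zero]
      exact add_mem hw.1.2 (hk _ _ hw.2.2)
    · intro hv
      have h2 : v.2 ∈ C.G (k - δ - 0) (n - 1) := hv.2
      rw [sub_zero] at h2
      refine ⟨((0, v.2), (v.1, 0)), ⟨⟨zero_mem _, h2⟩, hv.1, zero_mem _⟩, Prod.ext rfl ?_⟩
      change v.2 + y • (0 : C.V) = v.2
      simp

theorem FC2_exa (C : FCx T K σ) (δ k : σ → ℤ) :
    Exa ((FC2_tw (C.cone 1 0) δ).D.restrictScalars T) ((FC2_tw (C.cone 1 0) δ).G k) ⊥ := by
  intro i v hv
  have h1 : C.D v.1 + (1 : K) • v.2 = 0 := congrArg Prod.fst hv.2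
  refine Submodule.mem_sup_left ⟨(0, v.1), ⟨zero_mem _, ?_⟩, Prod.ext ?_ ?_⟩
  · change v.1 ∈ C.G (k - δ - 0) (i + 1 - 1)
    rw [sub_zero, add_sub_cancel_right]
    exact hv.1.1
  · change C.D 0 + (1 : K) • v.1 = v.1
    simp
  · change -C.D v.1 = v.2
    rw [one_smul] at h1
    exact neg_eq_of_add_eq_zero_right h1

theorem Adm.gd [IsNoetherianRing T]
    (hν : ∀ (N : Type) [AddCommGroup N] [Module T N], ν.good N ↔ InPhi 𝔶 N) (hC : C.WF S)
    (h : C.Adm S 𝔶) : C.Gd ν := by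
  refine FC2_all S hC (fun i => ?_) fun k i hk => ν.grel_of_le (inf_le_left.trans (hk.le.trans bot_le))
  refine (Sys.Stable.inPhi S (FC2_stZ S hC i) (FC2_stB S hC i) 𝔶 fun χ 𝔓 h𝔓 => ?_).mono
    fun k hk => (hν _).2 hk
  obtain ⟨s, hs, hn⟩ := h χ 𝔓 h𝔓
  exact ⟨s, hs, FC2_loc S hn i⟩

theorem P_zero [IsNoetherianRing T] (hC : C.WF S) (h : ∀ χ, C.NH S χ 1) :
    C.Gd ν ∧ C.P ν =ᶠ[atTop] 0 := by
  have : ∀ᶠ k in atTop, Exa (C.D.restrictScalars T) (C.G k) ⊥ := by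
    refine FC2_all S hC (fun i => ?_) fun k i hk => inf_le_left.trans (hk.le.trans bot_le)
    refine Sys.Stable.le_of_loc S (FC2_stZ S hC i) (FC2_stB S hC i) fun χ x hx => ?_
    simpa using FC2_loc S (h χ) i x hx
  exact ⟨this.mono fun k hk => (ν.chi_exa hk).1, this.mono fun k hk => (ν.chi_exa hk).2⟩

theorem SES.P (h : SES A B C) (hA : A.WF S) (hB : B.WF S) (hC : C.WF S) (gA : A.Gd ν)
    (gC : C.Gd ν) : B.Gd ν ∧ B.P ν =ᶠ[atTop] A.P ν + C.P ν := by
  have := FC2_ses ν h (hA.isCx S) (hB.isCx S) (hC.isCx S)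
  constructor
  · filter_upwards [this, gA, gC] with k hk a c using hk.1.1 a c
  · filter_upwards [this, gA, gC] with k hk a c using hk.2 a c

theorem Iso.P (h : Iso A B) (hA : A.WF S) (hB : B.WF S) :
    (A.Gd ν ↔ B.Gd ν) ∧ A.P ν =ᶠ[atTop] B.P ν := by
  obtain ⟨i, hi, hD, e⟩ := h
  have : ∀ᶠ k in atTop, (ν.gd (A.D.restrictScalars T) (A.G k) ⊥ ↔
      ν.gd (B.D.restrictScalars T) (B.G k) ⊥) ∧ A.P ν k = B.P ν k := by
    filter_upwards [e, hA.isCx S, hB.isCx S] with k e a b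
    have := ν.chi_iso (φ := i.restrictScalars T) ⟨fun n => ?_, fun n => ?_, fun n x _ => ?_⟩ a b
    · exact ⟨this.1, this.2.1⟩
    · rw [e n]
      exact sup_bot_eq _
    · refine le_antisymm (fun x hx => hi ?_) bot_le
      rw [map_zero]
      exact hx.2
    · exact sub_eq_zero.2 (LinearMap.congr_fun hD x)
  exact ⟨eventually_congr (this.mono fun k hk => hk.1), this.mono fun k hk => hk.2⟩

theorem P_sh (δ : σ → ℤ) : ((C.sh δ).Gd ν ↔ C.Gd ν) ∧ (C.sh δ).P ν = -act (TT (-δ)) (C.P ν) := by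
  have e : (-C.D).restrictScalars T = (-1 : T) • C.D.restrictScalars T := by
    ext x
    simp
  have h : ∀ k, (ν.gd ((C.sh δ).D.restrictScalars T) ((C.sh δ).G k) ⊥ ↔
      ν.gd (C.D.restrictScalars T) (C.G (k - δ)) ⊥) ∧ (C.sh δ).P ν k = -C.P ν (k - δ) := by
    intro k
    have := ν.chi_shift (D := C.D.restrictScalars T) (W := C.G (k - δ)) (U := ⊥) 1 (-1)
      isUnit_one.neg
    rw [← e, zpow_one, neg_one_mul] at this
    exact this
  constructor
  · exact (eventually_congr (.of_forall fun k => (h k).1)).trans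
      (FC2_ev_sub (p := fun k => ν.gd (C.D.restrictScalars T) (C.G k) ⊥) δ)
  · funext k
    rw [(h k).2, Pi.neg_apply, act_TT, sub_eq_add_neg]

theorem P_cone (hC : C.WF S) (g : C.Gd ν) {x : K} {δ : σ → ℤ} (hδ : 0 ≤ δ) (hx : x ∈ S.L T δ) :
    (C.cone x δ).Gd ν ∧ (C.cone x δ).P ν =ᶠ[atTop] act (1 - TT (-δ)) (C.P ν) := by
  have := SES.P S (ses_cone (C := C) x δ) hC (hC.cone S hδ hx) (hC.sh S δ) g ((P_sh δ).1.2 g)
  refine ⟨this.1, ?_⟩
  rw [act_sub, act_one, sub_eq_add_neg, ← (P_sh δ).2]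
  exact this.2

theorem P_kos (hC : C.WF S) (g : C.Gd ν) {Ls : List (K × (σ → ℤ))} (hL : S.Sec T Ls) :
    (C.kos Ls).Gd ν ∧ (C.kos Ls).P ν =ᶠ[atTop] act (eul Ls) (C.P ν) := by
  induction Ls with
  | nil => exact ⟨g, by rw [eul, List.map_nil, List.prod_nil, act_one]; exact .rfl⟩
  | cons p Ls ih =>
    have hL' : S.Sec T Ls := fun q hq => hL q (List.mem_cons_of_mem _ hq)
    have h1 := ih hL'
    have h2 := P_cone S (hC.kos S hL') h1.1 (hL p List.mem_cons_self).1 (hL p List.mem_cons_self).2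
    refine ⟨h2.1, h2.2.trans ?_⟩
    rw [eul, List.map_cons, List.prod_cons, act_mul]
    exact act_congr _ h1.2

theorem P_line_kos (γ : σ → ℤ) (Ls : List (K × (σ → ℤ))) :
    (((S.line T γ).kos Ls).Gd ν ↔ ((S.line T 0).kos Ls).Gd ν) ∧
      ((S.line T γ).kos Ls).P ν = act (TT γ) (((S.line T 0).kos Ls).P ν) := by
  have e : S.line T γ = FC2_tw (S.line T 0) (-γ) := by
    unfold Sys.line FC2_tw
    simp only [sub_neg_eq_add, add_zero]
  rw [e, FC2_tw_kos]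
  refine ⟨FC2_ev_sub (p := fun k => ν.gd (((S.line T 0).kos Ls).D.restrictScalars T)
    (((S.line T 0).kos Ls).G k) ⊥) (-γ), ?_⟩
  funext k
  rw [act_TT, ← sub_neg_eq_add]
  rfl

theorem P_two {γ γ' : σ → ℤ} (h : ∀ χ, S.a χ (γ - γ') ∈ S.O T χ) :
    (S.two T γ γ').P ν =ᶠ[atTop] fun k => ν.rel (S.L T (k + γ')) (S.L T (k + γ)) := by
  refine .of_forall fun k => ?_
  have h0 : (S.two T γ γ').G k 0 = (S.L T (k + γ')).prod ⊥ := rfl
  have h1 : (S.two T γ γ').G k (0 + 1) = (⊥ : Submodule T K).prod (S.L T (k + γ)) := rfl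
  have hZ : ∀ x : K × K, x ∈ Zc ((S.two T γ γ').D.restrictScalars T) ((S.two T γ γ').G k) ⊥ 0 ↔
      x.1 ∈ S.L T (k + γ') ∧ x.2 = 0 := fun x => by
    rw [Zc, h0]
    constructor
    · exact fun hx => hx.1
    · exact fun hx => ⟨hx, Prod.ext hx.2 rfl⟩
  have hB : ∀ x : K × K, x ∈ Bd ((S.two T γ γ').D.restrictScalars T) ((S.two T γ γ').G k) ⊥ 0 ↔
      x.1 ∈ S.L T (k + γ) ∧ x.2 = 0 := fun x => by
    rw [Bd, h1, Pi.bot_apply, sup_bot_eq]
    constructor
    · rintro ⟨w, hw, rfl⟩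
      exact ⟨hw.2, rfl⟩
    · exact fun hx => ⟨(0, x.1), ⟨rfl, hx.1⟩, Prod.ext rfl hx.2.symm⟩
  rw [P, ν.chi_single 0, zpow_zero, one_mul]
  · refine (ν.rel_map (LinearMap.fst T K K) ?_ ?_).2
    · congr 1
      ext x
      constructor
      · rintro ⟨w, hw, rfl⟩
        exact ((hZ w).1 hw).1
      · exact fun hx => ⟨(x, 0), (hZ _).2 ⟨hx, rfl⟩, rfl⟩
    · ext x
      constructor
      · exact fun hx => ⟨hx.1, (hB x).2 ⟨hx.2, ((hZ x).1 hx.1).2⟩⟩
      · exact fun hx => ⟨hx.1, ((hB x).1 hx.2).1⟩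
  · intro i hi x hx
    have : x = 0 := by
      obtain ⟨hx1, hx2⟩ := hx
      by_cases h1 : i = 1
      · have e : (S.two T γ γ').G k i = (⊥ : Submodule T K).prod (S.L T (k + γ)) :=
          (if_neg hi).trans (if_pos h1)
        rw [e] at hx1
        exact Prod.ext hx1.1 (congrArg Prod.fst hx2)
      · have e : (S.two T γ γ').G k i = ⊥ := (if_neg hi).trans (if_neg h1)
        rw [e] at hx1
        exact hx1
    rw [this]
    exact zero_mem _

/-- Multiplicativity.  Let `W` be the cone of `C(-δ) ⊕ C(-δ-ε) → C ⊕ C(-δ)`, `(b, e) ↦ (x b, y e - b)`.  It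
contains `cone (x y)` with exact quotient, and it contains `cone y (C(-δ))` with quotient `cone x`. -/
theorem P_cone_mul (hC : C.WF S) {x y : K} {δ ε : σ → ℤ} (hδ : 0 ≤ δ) (hx : x ∈ S.L T δ)
    (hε : 0 ≤ ε) (hy : y ∈ S.L T ε) (gx : (C.cone x δ).Gd ν) (gy : (C.cone y ε).Gd ν) :
    (C.cone (x * y) (δ + ε)).Gd ν ∧ (C.cone (x * y) (δ + ε)).P ν =ᶠ[atTop]
      (C.cone x δ).P ν + act (TT (-δ)) ((C.cone y ε).P ν) := by
  have h1 : (1 : K) ∈ S.L T 0 := by
    rw [S.L_zero]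
    exact Submodule.mem_one.2 ⟨1, map_one _⟩
  have hxy : x * y ∈ S.L T (δ + ε) := by
    rw [S.L_add hδ hε]
    exact Submodule.mul_mem_mul hx hy
  have cx := (hC.cone S hδ hx).isCx S
  have cy : ∀ᶠ k in atTop, IsCx ((FC2_tw (C.cone y ε) δ).D.restrictScalars T)
      ((FC2_tw (C.cone y ε) δ).G k) ⊥ := (FC2_ev_sub δ).2 ((hC.cone S hε hy).isCx S)
  have c1 : ∀ᶠ k in atTop, IsCx ((FC2_tw (C.cone 1 0) δ).D.restrictScalars T)
      ((FC2_tw (C.cone 1 0) δ).G k) ⊥ := (FC2_ev_sub δ).2 ((hC.cone S le_rfl h1).isCx S)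
  have cxy := (hC.cone S (add_nonneg hδ hε) hxy).isCx S
  have cW : ∀ᶠ k in atTop, IsCx ((FC2_W C x y δ ε).D.restrictScalars T) ((FC2_W C x y δ ε).G k) ⊥ :=
    (cx.and cy).mono fun k hk => FC2_W_isCx hC.dd hk.1 hk.2
  have hyv : ∀ᶠ k in atTop, ∀ i, ∀ v ∈ C.G (k - δ - ε) i, y • v ∈ C.G (k - δ) i := by
    refine (FC2_ev_sub (p := fun k => ∀ i, ∀ v ∈ C.G (k - ε) i, y • v ∈ C.G k i) δ).2 ?_
    filter_upwards [(hC.cone S hε hy).isCx S] with k hk i v hv
    have : C.D 0 + y • v ∈ C.G k (i + 1 - 1) :=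
      (hk.subW (i + 1) ⟨(0, v), ⟨zero_mem _, by simpa using hv⟩, rfl⟩).1
    simpa using this
  have s1 := FC2_ses ν (FC2_ses1 C x y δ ε) cy cW cx
  have s2 := FC2_ses ν (FC2_ses2 C x y δ ε hyv) cxy cW c1
  have gy' : (FC2_tw (C.cone y ε) δ).Gd ν := (FC2_ev_sub (p := fun k =>
    ν.gd ((C.cone y ε).D.restrictScalars T) ((C.cone y ε).G k) ⊥) δ).2 gy
  have key : ∀ᶠ k in atTop,
      ν.gd ((C.cone (x * y) (δ + ε)).D.restrictScalars T) ((C.cone (x * y) (δ + ε)).G k) ⊥ ∧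
        (C.cone (x * y) (δ + ε)).P ν k = (C.cone x δ).P ν k + (C.cone y ε).P ν (k - δ) := by
    filter_upwards [s1, s2, gx, gy'] with k s1 s2 gx gy'
    have e := ν.chi_exa (FC2_exa C δ k)
    have g := s2.1.2.2 (s1.1.1 gy' gx) e.1
    refine ⟨g, ?_⟩
    have a1 := s1.2 gy' gx
    have a2 := s2.2 g e.1
    have a3 : (FC2_tw (C.cone 1 0) δ).P ν k = 0 := e.2
    have a4 : (FC2_tw (C.cone y ε) δ).P ν k = (C.cone y ε).P ν (k - δ) := rfl
    linarith
  refine ⟨key.mono fun k hk => hk.1, key.mono fun k hk => ?_⟩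
  rw [hk.2, Pi.add_apply, act_TT, ← sub_eq_add_neg]

end FCx

end Crest.Agent.R188
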