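import Crest.Agent.R188.Small

/-!
# R188 / GS

Generic sections.
-/

set_option autoImplicit false
set_option linter.unusedSectionVars false
set_option linter.unusedVariables false

noncomputable section

namespace Crest.Agent.R188

open Filter
open Crest.Agent.R183 (Zc Bd mact gr Htpy)
open scoped TensorProduct

variable {T : Type} [CommRing T]

theorem gs_cut (hC : Consts T) {τ : Type} [Finite τ] (O : τ → Type) [∀ t, CommRing (O t)]
    [∀ t, Algebra T (O t)] [∀ t, IsNoetherianRing (O t)] (q : Type) [Fintype q] (δ : τ → ℕ)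
    (Wt : ∀ t, Set (PrimeSpectrum (MvPolynomial q (O t)))) (h : ∀ t, Small (δ t) (Wt t))
    (s : Finset q) :
    ∃ l : q → T, ∀ t, Small (δ t - s.card)
      {𝔓 ∈ Wt t | ∀ c ∈ s, MvPolynomial.X c - MvPolynomial.C (algebraMap T (O t) (l c)) ∈ 𝔓.asIdeal} := by
  classical
  induction s using Finset.induction_on with
  | empty => exact ⟨fun _ => 0, fun t => (h t).mono (by simp) fun 𝔓 h𝔓 => h𝔓.1⟩
  | insert c s hc ih =>
    obtain ⟨l, hl⟩ := ih
    choose P hP hcut using fun t => (hl t).cut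
    obtain ⟨C, hCi, hCu⟩ := hC
    have hfin : (⋃ t, ⋃ 𝔰 ∈ (P t : Set (Ideal (MvPolynomial q (O t)))),
        {x ∈ C | MvPolynomial.X c - MvPolynomial.C (algebraMap T (O t) x) ∈ 𝔰}).Finite := by
      refine Set.finite_iUnion fun t => (P t).finite_toSet.biUnion fun 𝔰 h𝔰 => ?_
      refine Set.Subsingleton.finite fun x hx y hy => ?_
      by_contra hne
      have hu := ((hCu x hx.1 y hy.1 hne).map (algebraMap T (O t))).map
        (MvPolynomial.C : O t →+* MvPolynomial q (O t))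
      have hm := 𝔰.sub_mem hy.2 hx.2
      refine (hP t 𝔰 h𝔰).ne_top (𝔰.eq_top_of_isUnit_mem ?_ hu)
      convert hm using 1
      simp only [map_sub]
      ring
    obtain ⟨x, hxC, hx⟩ := (hCi.sdiff hfin).nonempty
    refine ⟨Function.update l c x, fun t => ?_⟩
    have := hcut t (MvPolynomial.X c - MvPolynomial.C (algebraMap T (O t) x)) fun 𝔰 h𝔰 hm =>
      hx (Set.mem_iUnion.2 ⟨t, Set.mem_biUnion (Finset.mem_coe.2 h𝔰) ⟨hxC, hm⟩⟩)
    refine this.mono (by rw [Finset.card_insert_of_notMem hc]; omega) fun 𝔓 h𝔓 => ⟨⟨h𝔓.1, ?_⟩, ?_⟩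
    · intro c' hc'
      have := h𝔓.2 c' (Finset.mem_insert_of_mem hc')
      have hne : c' ≠ c := fun e => hc (e ▸ hc')
      rwa [Function.update_of_ne hne] at this
    · have := h𝔓.2 c (Finset.mem_insert_self _ _)
      rwa [Function.update_self] at this

theorem gs_pull {R O : Type} [CommRing R] [CommRing O] [IsNoetherianRing R] [IsNoetherianRing O]
    (f : R →+* O) (hf : Function.Surjective f) {δ : ℕ} {W : Set (PrimeSpectrum R)} (h : Small δ W) :
    Small δ {𝔭 : PrimeSpectrum O | PrimeSpectrum.comap f 𝔭 ∈ W} := by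
  let _ : Algebra R O := f.toAlgebra
  have := h.fibre (O' := O) ⊥ 0 (Z' := {𝔭 : PrimeSpectrum O | PrimeSpectrum.comap f 𝔭 ∈ W})
    fun 𝔓 h𝔓 => ⟨bot_le, h𝔓, ?_⟩
  · simpa using this
  · refine fibre_height_le (O := R) ⊥ (κ := Empty) (fun e => e.elim) ?_ 𝔓.asIdeal bot_le
      (φ := 0) (fun i => i.elim0) fun e => e.elim
    refine eq_top_iff.2 fun x _ => ?_
    obtain ⟨y, rfl⟩ := hf x
    exact Subalgebra.algebraMap_mem _ y

theorem gs_lin {k : Type} [Field k] {q ρ : Type} [Fintype q] [DecidableEq q] [Fintype ρ]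
    (N : Matrix ρ q k) {r : ℕ} (hr : r ≤ N.rank) :
    ∃ φ : ℕ, φ ≤ Fintype.card q - r ∧ ∃ g : Fin φ → q, ∀ c, ∃ (α : ρ → k) (β : Fin φ → k), ∀ c',
      (Pi.single c 1 : q → k) c' =
        ∑ a, α a * N a c' + ∑ j, β j * (Pi.single (g j) 1 : q → k) c' := by
  classical
  set U : Submodule k (q → k) := Submodule.span k (Set.range N.row) with hU
  have hUr : r ≤ Module.finrank k U := by rwa [hU, ← Matrix.rank_eq_finrank_span_row]
  obtain ⟨κ, a, ha, hspan, hli⟩ := exists_linearIndependent' k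
    (fun c : q => U.mkQ (Pi.single c 1 : q → k))
  have : Fintype κ := Fintype.ofInjective a ha
  have hcard := hli.fintype_card_le_finrank
  have hq := U.finrank_quotient_add_finrank
  rw [Module.finrank_fintype_fun_eq_card] at hq
  refine ⟨Fintype.card κ, by omega, fun j => a ((Fintype.equivFin κ).symm j), fun c => ?_⟩
  have hc : U.mkQ (Pi.single c 1 : q → k) ∈ Submodule.span k
      (Set.range ((fun c : q => U.mkQ (Pi.single c 1 : q → k)) ∘ a)) := by
    rw [hspan]; exact Submodule.subset_span ⟨c, rfl⟩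
  obtain ⟨β, hβ⟩ := (Submodule.mem_span_range_iff_exists_fun k).1 hc
  have hm : (Pi.single c 1 : q → k) - ∑ i, β i • (Pi.single (a i) 1 : q → k) ∈ U := by
    rw [← Submodule.Quotient.mk_eq_zero, ← Submodule.mkQ_apply, map_sub, map_sum, ← hβ]
    simp
  obtain ⟨α, hα⟩ := (Submodule.mem_span_range_iff_exists_fun k).1 hm
  refine ⟨α, fun j => β ((Fintype.equivFin κ).symm j), fun c' => ?_⟩
  have h1 := congrFun hα c'
  have h2 : ∑ j, β ((Fintype.equivFin κ).symm j) *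
      (Pi.single (a ((Fintype.equivFin κ).symm j)) 1 : q → k) c' =
      ∑ i, β i * (Pi.single (a i) 1 : q → k) c' :=
    (Fintype.equivFin κ).symm.sum_comp (fun i => β i * (Pi.single (a i) 1 : q → k) c')
  rw [h2]
  simp only [Finset.sum_apply, Pi.smul_apply, smul_eq_mul, Pi.sub_apply, Matrix.row] at h1
  rw [h1]
  ring

theorem gs_den {O : Type} [CommRing O] (𝔭 : Ideal O) [𝔭.IsPrime] {ι : Type} [Finite ι]
    (x : ι → 𝔭.ResidueField) :
    ∃ s : O, s ∉ 𝔭 ∧ ∃ y : ι → O, ∀ i, algebraMap O 𝔭.ResidueField (y i) =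
      algebraMap O 𝔭.ResidueField s * x i := by
  obtain ⟨b, hb⟩ := IsLocalization.exist_integer_multiples_of_finite (nonZeroDivisors (O ⧸ 𝔭)) x
  obtain ⟨s, hs⟩ := Ideal.Quotient.mk_surjective (b : O ⧸ 𝔭)
  choose z hz using hb
  choose y hy using fun i => Ideal.Quotient.mk_surjective (z i)
  refine ⟨s, fun h => nonZeroDivisors.ne_zero b.2 (hs ▸ Ideal.Quotient.eq_zero_iff_mem.2 h), y,
    fun i => ?_⟩
  have e : ∀ u : O, algebraMap O 𝔭.ResidueField u =
      algebraMap (O ⧸ 𝔭) 𝔭.ResidueField (Ideal.Quotient.mk 𝔭 u) := fun u => rfl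
  rw [e, e, hy, hz, hs, Algebra.smul_def]

theorem gs_def {O : Type} [CommRing O] {q ρ : Type} [Fintype q] [DecidableEq q] [Fintype ρ]
    (𝔭 : Ideal O) [𝔭.IsPrime] (M : Matrix ρ q O) {φ : ℕ} (g : Fin φ → q) (c : q)
    (α : ρ → 𝔭.ResidueField) (β : Fin φ → 𝔭.ResidueField)
    (hαβ : ∀ c', (Pi.single c 1 : q → 𝔭.ResidueField) c' =
      ∑ a, α a * (M.map (algebraMap O 𝔭.ResidueField)) a c' +
        ∑ j, β j * (Pi.single (g j) 1 : q → 𝔭.ResidueField) c') :
    ∃ s : O, s ∉ 𝔭 ∧ ∃ (u : ρ → O) (v : Fin φ → O), ∀ c',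
      s * (Pi.single c 1 : q → O) c' - (∑ a, u a * M a c' +
        ∑ j, v j * (Pi.single (g j) 1 : q → O) c') ∈ 𝔭 := by
  obtain ⟨s, hs, y, hy⟩ := gs_den 𝔭 (Sum.elim α β)
  refine ⟨s, hs, fun a => y (Sum.inl a), fun j => y (Sum.inr j), fun c' => ?_⟩
  rw [← Ideal.algebraMap_residueField_eq_zero]
  have e : ∀ c₁ : q, algebraMap O 𝔭.ResidueField ((Pi.single c₁ 1 : q → O) c') =
      (Pi.single c₁ 1 : q → 𝔭.ResidueField) c' := fun c₁ => by
    by_cases h : c' = c₁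
    · subst h; simp
    · simp [h]
  simp only [map_sub, map_mul, map_add, map_sum, hy, e, Sum.elim_inl, Sum.elim_inr]
  have := hαβ c'
  simp only [Matrix.map_apply] at this
  rw [this]
  simp only [mul_add, Finset.mul_sum, mul_assoc]
  exact sub_self _

theorem gs_id {O : Type} [CommRing O] {q ρ : Type} [Fintype q] [DecidableEq q] [Fintype ρ]
    (M : Matrix ρ q O) (w₀ : ρ → O) {φ : ℕ} (g : Fin φ → q) (c : q) (s : O) (u : ρ → O)
    (v : Fin φ → O) :
    s • (MvPolynomial.X c : MvPolynomial q O) - (algebraMap O (MvPolynomial q O) (-∑ a, u a * w₀ a) +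
      ∑ j, v j • (MvPolynomial.X (g j) : MvPolynomial q O)) =
    ∑ c', MvPolynomial.C (s * (Pi.single c 1 : q → O) c' - (∑ a, u a * M a c' +
      ∑ j, v j * (Pi.single (g j) 1 : q → O) c')) * (MvPolynomial.X c' : MvPolynomial q O) +
    ∑ a, MvPolynomial.C (u a) *
      (MvPolynomial.C (w₀ a) + ∑ c, MvPolynomial.C (M a c) * MvPolynomial.X c) := by
  have hs1 : ∀ (c₁ : q) (u : O), ∑ c', MvPolynomial.C (u * (Pi.single c₁ 1 : q → O) c') *
      (MvPolynomial.X c' : MvPolynomial q O) = MvPolynomial.C u * MvPolynomial.X c₁ := by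
    intro c₁ u
    rw [Finset.sum_eq_single c₁]
    · simp
    · intro b _ hb
      simp [hb]
    · simp
  have e1 : ∑ c', (∑ j, MvPolynomial.C (v j * (Pi.single (g j) 1 : q → O) c')) *
      (MvPolynomial.X c' : MvPolynomial q O) = ∑ j, MvPolynomial.C (v j) * MvPolynomial.X (g j) := by
    simp only [Finset.sum_mul]
    rw [Finset.sum_comm]
    exact Finset.sum_congr rfl fun j _ => hs1 _ _
  have e2 : ∑ c', (∑ a, MvPolynomial.C (u a * M a c')) * (MvPolynomial.X c' : MvPolynomial q O) =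
      ∑ a, MvPolynomial.C (u a) * ∑ c, MvPolynomial.C (M a c) * MvPolynomial.X c := by
    simp only [Finset.sum_mul, Finset.mul_sum]
    rw [Finset.sum_comm]
    simp only [map_mul, mul_assoc]
  simp only [map_sub, map_add, map_sum, sub_mul, add_mul, Finset.sum_sub_distrib,
    Finset.sum_add_distrib, hs1, e1, e2, mul_add, MvPolynomial.smul_eq_C_mul,
    MvPolynomial.algebraMap_eq, map_neg]
  simp only [map_mul]
  ring

theorem gs_rel {O : Type} [CommRing O] {q ρ : Type} [Fintype q] [Fintype ρ] {r : ℕ}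
    (𝔭 : Ideal O) [𝔭.IsPrime] (M : Matrix ρ q O) (w₀ : ρ → O)
    (hr : r ≤ (M.map (algebraMap O 𝔭.ResidueField)).rank) :
    ∃ φ : ℕ, φ ≤ Fintype.card q - r ∧ ∃ g : Fin φ → q, ∀ c, ∃ s : O, s ∉ 𝔭 ∧
      ∃ (c₀ : O) (v : Fin φ → O), s • (MvPolynomial.X c : MvPolynomial q O) -
        (algebraMap O (MvPolynomial q O) c₀ + ∑ j, v j • (MvPolynomial.X (g j) : MvPolynomial q O)) ∈
        𝔭.map (algebraMap O (MvPolynomial q O)) ⊔ Ideal.span (Set.range fun a =>
          MvPolynomial.C (w₀ a) + ∑ c, MvPolynomial.C (M a c) * MvPolynomial.X c) := by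
  classical
  obtain ⟨φ, hφ, g, hg⟩ := gs_lin _ hr
  refine ⟨φ, hφ, g, fun c => ?_⟩
  obtain ⟨α, β, hαβ⟩ := hg c
  obtain ⟨s, hs, u, v, hd⟩ := gs_def 𝔭 M g c α β hαβ
  refine ⟨s, hs, -∑ a, u a * w₀ a, v, ?_⟩
  rw [gs_id M w₀ g c s u v]
  refine Submodule.add_mem_sup ?_ ?_
  · exact Ideal.sum_mem _ fun c' _ => Ideal.mul_mem_right _ _ (Ideal.mem_map_of_mem _ (hd c'))
  · exact Ideal.sum_mem _ fun a _ => Ideal.mul_mem_left _ _ (Ideal.subset_span ⟨a, rfl⟩)

theorem gs_inc {O : Type} [CommRing O] [IsNoetherianRing O] {q ρ : Type} [Fintype q] [Fintype ρ]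
    {δ r : ℕ} {Z : Set (PrimeSpectrum O)} (hZ : Small δ Z) (M : Matrix ρ q O) (w₀ : ρ → O)
    (hr : ∀ 𝔭 ∈ Z, r ≤ (M.map (algebraMap O 𝔭.asIdeal.ResidueField)).rank) :
    Small (δ + (Fintype.card q - r)) {𝔓 : PrimeSpectrum (MvPolynomial q O) |
      (∀ a, MvPolynomial.C (w₀ a) + ∑ c, MvPolynomial.C (M a c) * MvPolynomial.X c ∈ 𝔓.asIdeal) ∧
        PrimeSpectrum.comap (algebraMap O (MvPolynomial q O)) 𝔓 ∈ Z} := by
  refine hZ.fibre (Ideal.span (Set.range fun a =>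
    MvPolynomial.C (w₀ a) + ∑ c, MvPolynomial.C (M a c) * MvPolynomial.X c)) _ fun 𝔓 h𝔓 => ?_
  have hb : Ideal.span (Set.range fun a =>
      MvPolynomial.C (w₀ a) + ∑ c, MvPolynomial.C (M a c) * MvPolynomial.X c) ≤ 𝔓.asIdeal :=
    Ideal.span_le.2 (Set.range_subset_iff.2 h𝔓.1)
  refine ⟨hb, h𝔓.2, ?_⟩
  obtain ⟨φ, hφ, g, hg⟩ := gs_rel _ M w₀ (hr _ h𝔓.2)
  exact le_trans (fibre_height_le _ (MvPolynomial.X : q → MvPolynomial q O)
    (MvPolynomial.adjoin_range_X) 𝔓.asIdeal hb (fun j => MvPolynomial.X (g j)) hg)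
    (by exact_mod_cast hφ)

/-- cut `q` times with hyperplanes `X c - λ c`, `λ c` a constant: a prime contains `X c - λ` for at most
one constant `λ`; then pull back along the surjection `MvPolynomial.aeval λ` (`Small.fibre`, `φ = 0`). -/
theorem exists_consts (hC : Consts T) {τ : Type} [Finite τ] (O : τ → Type) [∀ t, CommRing (O t)]
    [∀ t, Algebra T (O t)] [∀ t, IsNoetherianRing (O t)] (q : Type) [Fintype q] (δ : τ → ℕ)
    (Wt : ∀ t, Set (PrimeSpectrum (MvPolynomial q (O t)))) (h : ∀ t, Small (δ t) (Wt t)) :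
    ∃ l : q → T, ∀ t, Small (δ t - Fintype.card q)
      {𝔭 : PrimeSpectrum (O t) | PrimeSpectrum.comap
        (MvPolynomial.aeval (R := O t) fun c => algebraMap T (O t) (l c)).toRingHom 𝔭 ∈ Wt t} := by
  obtain ⟨l, hl⟩ := gs_cut hC O q δ Wt h Finset.univ
  refine ⟨l, fun t => ?_⟩
  refine (gs_pull (MvPolynomial.aeval (R := O t) fun c => algebraMap T (O t) (l c)).toRingHom
    (fun x => ⟨MvPolynomial.C x, by simp⟩) (hl t)).mono (by simp) fun 𝔭 h𝔭 => ⟨h𝔭, fun c _ => ?_⟩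
  simp

/-- Generic sections.  The incidence set in `Spec O[X_c]` cut out by `w₀ a + ∑ c, M a c X_c` has fibres of
dimension `≤ #q - r` over `Z` (`Small.fibre`, `fibre_height_le`: the images of the variables satisfy `r`
independent affine relations); if `Z t` is empty there is nothing to prove, otherwise `r t ≤ #q`. -/
theorem exists_generic (hC : Consts T) {τ : Type} [Finite τ] (O : τ → Type) [∀ t, CommRing (O t)]
    [∀ t, Algebra T (O t)] [∀ t, IsNoetherianRing (O t)] (q : Type) [Fintype q]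
    (ρ : τ → Type) [∀ t, Fintype (ρ t)] (δ r : τ → ℕ) (Z : ∀ t, Set (PrimeSpectrum (O t)))
    (hZ : ∀ t, Small (δ t) (Z t)) (M : ∀ t, Matrix (ρ t) q (O t)) (w₀ : ∀ t, ρ t → O t)
    (hr : ∀ t, ∀ 𝔭 ∈ Z t, r t ≤ ((M t).map (algebraMap (O t) 𝔭.asIdeal.ResidueField)).rank) :
    ∃ l : q → T, ∀ t, Small (δ t - r t)
      {𝔭 ∈ Z t | ∀ a, w₀ t a + ∑ c, M t a c * algebraMap T (O t) (l c) ∈ 𝔭.asIdeal} := by
  obtain ⟨l, hl⟩ := exists_consts hC O q (fun t => δ t + (Fintype.card q - r t)) _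
    fun t => gs_inc (hZ t) (M t) (w₀ t) (hr t)
  refine ⟨l, fun t => ?_⟩
  rcases (Z t).eq_empty_or_nonempty with h0 | ⟨𝔭₀, h0⟩
  · refine (small_empty (δ := δ t - r t)).mono le_rfl fun 𝔭 h𝔭 => ?_
    rw [h0] at h𝔭
    exact h𝔭.1
  · have h1 := (hr t 𝔭₀ h0).trans (Matrix.rank_le_card_width _)
    refine (hl t).mono (by omega) fun 𝔭 h𝔭 => ⟨fun a => ?_, ?_⟩
    · simpa using h𝔭.2 a
    · convert h𝔭.1 using 1
      ext x
      simp

end Crest.Agent.R188
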