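import Crest.Agent.R188.TBalA

/-! Row 188, part IV: balancing of `Tor` through the double complex. -/

set_option autoImplicit false

namespace Crest.Agent.R188

open Crest.Agent.R183 IsLocalRing
open scoped ENNReal TensorProduct

variable {Λ : Type} [CommRing Λ]

/-- one half of the balancing: the total complex computes `H(Q ⊗ N)`. -/
theorem TBal_one (lam : LenFn Λ) {σ ι κ : Type} [Fintype σ] [Fintype ι] [Fintype κ]
    [DecidableEq ι] [DecidableEq κ] (e : σ ≃ ι × κ) {d d' : ℕ} {n : ℤ}
    {deg : ι → ℕ} {P : Matrix ι ι Λ} {deg' : κ → ℕ} {Q : Matrix κ κ Λ} {N : Type}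
    [AddCommGroup N] [Module Λ N] (hP : PRes d n deg P N) (hQ : GCx d' deg' Q)
    (s : κ → Λ) (t : ι → Λ) (hs : ∀ c, s c * s c = 1) (ht : ∀ b, deg b = 0 → t b = 1)
    (hst : ∀ b b' c c', deg b' = deg b + 1 → deg' c' = deg' c + 1 → s c * t b' + t b * s c' = 0)
    (P₁ P₂ : Matrix σ σ Λ)
    (h1 : ∀ x y, P₁ x y = if (e x).2 = (e y).2 then s (e x).2 * P (e x).1 (e y).1 else 0)
    (h2 : ∀ x y, P₂ x y = if (e x).1 = (e y).1 then t (e x).1 * Q (e x).2 (e y).2 else 0)
    {j : ℤ} (hj : j < n) :
    hl lam (fun x => deg (e x).1 + deg' (e x).2) (P₁ + P₂) Λ j = hl lam deg' Q N j := by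
  obtain ⟨hG, ε, hε⟩ := hP
  have A1 : ∀ (v : σ → Λ) (b : ι) (c : κ), mact P₁ Λ v (e.symm (b, c)) =
      s c * mact P Λ (fun b' => v (e.symm (b', c))) b := by
    intro v b c
    rw [mact_apply, mact_apply, ← e.symm.sum_comp, Fintype.sum_prod_type, Finset.mul_sum]
    refine Finset.sum_congr rfl fun b' _ => ?_
    rw [Finset.sum_eq_single c]
    · simp [h1, mul_assoc]
    · intro c' _ hc
      simp [h1, hc.symm]
    · simp
  have A2 : ∀ (v : σ → Λ) (b : ι) (c : κ), mact P₂ Λ v (e.symm (b, c)) =
      t b * mact Q Λ (fun c' => v (e.symm (b, c'))) c := by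
    intro v b c
    rw [mact_apply, mact_apply, ← e.symm.sum_comp, Fintype.sum_prod_type, Finset.mul_sum,
      Finset.sum_eq_single b]
    · refine Finset.sum_congr rfl fun c' _ => ?_
      simp [h2, mul_assoc]
    · intro b' _ hb
      simp [h2, hb.symm]
    · simp
  have ext : ∀ {v w : σ → Λ}, (∀ b c, v (e.symm (b, c)) = w (e.symm (b, c))) → v = w := by
    intro v w h
    funext x
    have := h (e x).1 (e x).2
    simpa using this
  have mem : ∀ {i k : ℤ} {v : σ → Λ},
      v ∈ bgr (Λ := Λ) (fun x => deg (e x).1) (fun x => deg' (e x).2) Λ i k ↔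
        ∀ b c, ((deg b : ℤ) ≠ i → v (e.symm (b, c)) = 0) ∧
          ((deg' c : ℤ) ≠ k → v (e.symm (b, c)) = 0) := by
    intro i k v
    simp only [bgr, Submodule.mem_inf, mem_gr, Submodule.mem_top, true_and]
    constructor
    · rintro ⟨ha, hb⟩ b c
      exact ⟨fun h => ha _ (by simpa using h), fun h => hb _ (by simpa using h)⟩
    · intro h
      refine ⟨fun x hx => ?_, fun x hx => ?_⟩
      · simpa using (h (e x).1 (e x).2).1 hx
      · simpa using (h (e x).1 (e x).2).2 hx
  have lift : ∀ (i k : ℤ) (v : σ → Λ),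
      v ∈ bgr (Λ := Λ) (fun x => deg (e x).1) (fun x => deg' (e x).2) Λ i k →
      (∀ c, (fun b => v (e.symm (b, c))) ∈ Bt deg P Λ i) →
      ∃ w ∈ bgr (Λ := Λ) (fun x => deg (e x).1) (fun x => deg' (e x).2) Λ (i + 1) k,
        mact P₁ Λ w = v := by
    intro i k v hv h
    choose w hw1 hw2 using fun c => mem_Bt.1 (h c)
    refine ⟨fun x => if (deg' (e x).2 : ℤ) = k then s (e x).2 * w (e x).2 (e x).1 else 0, ?_, ?_⟩
    · rw [mem]
      intro b c
      refine ⟨fun hb => ?_, fun hc => ?_⟩
      · simp [(mem_gr.1 (hw1 c) b).2 hb]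
      · simp [hc]
    · refine ext fun b c => ?_
      rw [A1]
      by_cases hc : (deg' c : ℤ) = k
      · have e1 : (fun b' => (fun x => if (deg' (e x).2 : ℤ) = k then s (e x).2 * w (e x).2 (e x).1 else 0)
            (e.symm (b', c))) = s c • w c := by
          funext b'
          simp [hc]
        rw [e1, map_smul, hw2 c, Pi.smul_apply, smul_eq_mul, ← mul_assoc, hs, one_mul]
      · have e1 : (fun b' => (fun x => if (deg' (e x).2 : ℤ) = k then s (e x).2 * w (e x).2 (e x).1 else 0)
            (e.symm (b', c))) = 0 := by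
          funext b'
          simp [hc]
        rw [e1, map_zero, (mem.1 hv b c).2 hc]
        simp
  let π : κ → (σ → Λ) →ₗ[Λ] (ι → Λ) := fun c =>
    { toFun := fun v b => if deg b = 0 then v (e.symm (b, c)) else 0
      map_add' := fun v w => by
        funext b
        by_cases hb : deg b = 0 <;> simp [hb]
      map_smul' := fun r v => by
        funext b
        by_cases hb : deg b = 0 <;> simp [hb] }
  have hπ : ∀ c v b, π c v b = if deg b = 0 then v (e.symm (b, c)) else 0 := fun _ _ _ => rfl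
  have hπ0 : ∀ (k : ℤ) (v : σ → Λ),
      v ∈ bgr (Λ := Λ) (fun x => deg (e x).1) (fun x => deg' (e x).2) Λ 0 k →
      ∀ c, π c v = fun b => v (e.symm (b, c)) := by
    intro k v hv c
    funext b
    rw [hπ]
    split_ifs with hb
    · rfl
    · exact ((mem.1 hv b c).1 (by exact_mod_cast hb)).symm
  let θ : (σ → Λ) →ₗ[Λ] (κ → N) := LinearMap.pi fun c => ε ∘ₗ π c
  have hθ : ∀ v c, θ v c = ε (π c v) := fun _ _ => rfl
  have mz : ∀ A : Matrix σ σ Λ, (∀ (v : σ → Λ) b c, mact A Λ v (e.symm (b, c)) = 0) → A = 0 := by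
    intro A h
    classical
    ext x y
    have := h (Pi.single y 1) (e x).1 (e x).2
    simpa [mact_apply, Pi.single_apply] using this
  have PP : ∀ v : ι → Λ, mact P Λ (mact P Λ v) = 0 := by
    intro v
    have := LinearMap.congr_fun (mact_mul (N := Λ) P P) v
    rw [LinearMap.comp_apply] at this
    rw [← this, hG.sq]
    funext b
    simp [mact_apply]
  have QQ : ∀ v : κ → Λ, mact Q Λ (mact Q Λ v) = 0 := by
    intro v
    have := LinearMap.congr_fun (mact_mul (N := Λ) Q Q) v
    rw [LinearMap.comp_apply] at this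
    rw [← this, hQ.sq]
    funext b
    simp [mact_apply]
  refine double_complex lam (fun x => deg (e x).1) (fun x => deg' (e x).2) P₁ P₂ Λ ?_ ?_ ?_ ?_ ?_
    (n := n) ?_ (mact Q N) (fun k => gr deg' k ⊤) θ ?_ ?_ ?_ ?_ hj
  · intro x y h
    rw [h1] at h
    split_ifs at h with hc
    · exact ⟨hG.P_deg _ _ (right_ne_zero_of_mul h), by rw [hc]⟩
    · exact absurd rfl h
  · intro x y h
    rw [h2] at h
    split_ifs at h with hc
    · exact ⟨by rw [hc], hQ.P_deg _ _ (right_ne_zero_of_mul h)⟩
    · exact absurd rfl h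
  · refine mz _ fun v b c => ?_
    rw [mact_mul, LinearMap.comp_apply, A1]
    have e1 : (fun b' => mact P₁ Λ v (e.symm (b', c))) =
        s c • mact P Λ (fun b' => v (e.symm (b', c))) := by
      funext b'
      rw [A1]
      rfl
    rw [e1, map_smul, PP]
    simp
  · refine mz _ fun v b c => ?_
    rw [mact_mul, LinearMap.comp_apply, A2]
    have e1 : (fun c' => mact P₂ Λ v (e.symm (b, c'))) =
        t b • mact Q Λ (fun c' => v (e.symm (b, c'))) := by
      funext c'
      rw [A2]
      rfl
    rw [e1, map_smul, QQ]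
    simp
  · refine mz _ fun v b c => ?_
    rw [mact_add, mact_mul, mact_mul, LinearMap.add_apply, Pi.add_apply, LinearMap.comp_apply,
      LinearMap.comp_apply, A1, A2]
    simp only [A1, A2]
    simp only [mact_apply, smul_eq_mul, Finset.mul_sum]
    rw [Finset.sum_comm (s := (Finset.univ : Finset κ)), ← Finset.sum_add_distrib]
    refine Finset.sum_eq_zero fun b' _ => ?_
    rw [← Finset.sum_add_distrib]
    refine Finset.sum_eq_zero fun c' _ => ?_
    by_cases hp : P b b' = 0
    · simp [hp]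
    by_cases hq : Q c c' = 0
    · simp [hq]
    have := hst b b' c c' (hG.P_deg _ _ hp) (hQ.P_deg _ _ hq)
    linear_combination (P b b' * Q c c' * v (e.symm (b', c'))) * this
  · intro i k hi hin v hv h0
    refine lift i k v hv fun c => hε.ex i hi hin (mem_Zt.2 ⟨?_, ?_⟩)
    · exact mem_gr.2 fun b => ⟨trivial, (mem.1 hv b c).1⟩
    · funext b
      have := A1 v b c
      rw [h0] at this
      have e2 : s c * (s c * mact P Λ (fun b' => v (e.symm (b', c))) b) = 0 := by
        rw [← this]; simp
      rwa [← mul_assoc, hs, one_mul] at e2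
  · intro i k hi v hv
    funext c
    have : π c v = 0 := by
      funext b
      rw [hπ]
      split_ifs with hb
      · exact (mem.1 hv b c).1 (by rw [hb]; exact_mod_cast hi.symm)
      · rfl
    rw [hθ, this, map_zero]
    rfl
  · intro k
    apply le_antisymm
    · rintro _ ⟨v, hv, rfl⟩
      refine mem_gr.2 fun c => ⟨trivial, fun hc => ?_⟩
      have : π c v = 0 := by
        rw [hπ0 k v hv]
        funext b
        exact (mem.1 hv b c).2 hc
      rw [hθ, this, map_zero]
    · intro u hu
      have hsur : ∀ c, ∃ w ∈ gr deg 0 (⊤ : Submodule Λ Λ), ε w = u c := fun c => by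
        have : u c ∈ (gr deg 0 (⊤ : Submodule Λ Λ)).map ε := by rw [hε.surj]; trivial
        exact this
      choose w hw1 hw2 using hsur
      have hv : (fun x => if (deg' (e x).2 : ℤ) = k then w (e x).2 (e x).1 else 0) ∈
          bgr (Λ := Λ) (fun x => deg (e x).1) (fun x => deg' (e x).2) Λ 0 k := by
        rw [mem]
        intro b c
        refine ⟨fun hb => ?_, fun hc => ?_⟩
        · simp [(mem_gr.1 (hw1 c) b).2 hb]
        · simp [hc]
      refine ⟨_, hv, ?_⟩
      funext c
      rw [hθ, hπ0 k _ hv]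
      by_cases hc : (deg' c : ℤ) = k
      · rw [← hw2 c]
        congr 1
        funext b
        simp [hc]
      · rw [(mem_gr.1 hu c).2 hc, ← map_zero ε]
        congr 1
        funext b
        simp [hc]
  · intro k v _
    funext c
    have : π c (mact P₂ Λ v) = ∑ c', Q c c' • π c' v := by
      funext b
      rw [hπ, Finset.sum_apply]
      split_ifs with hb
      · rw [A2, ht b hb, one_mul, mact_apply]
        refine Finset.sum_congr rfl fun c' _ => ?_
        rw [Pi.smul_apply, hπ, if_pos hb]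
      · symm
        refine Finset.sum_eq_zero fun c' _ => ?_
        rw [Pi.smul_apply, hπ, if_neg hb, smul_zero]
    rw [hθ, this, map_sum, mact_apply]
    refine Finset.sum_congr rfl fun c' _ => ?_
    rw [map_smul, hθ]
  · intro k
    apply le_antisymm
    · rintro v ⟨hv, h0⟩
      have := lift 0 k v hv fun c => by
        rw [← hε.ker]
        refine ⟨mem_gr.2 fun b => ⟨trivial, (mem.1 hv b c).1⟩, ?_⟩
        have h3 : θ v c = 0 := by rw [LinearMap.mem_ker.1 h0]; rfl
        rw [hθ, hπ0 k v hv] at h3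
        exact h3
      rw [zero_add] at this
      exact this
    · rintro _ ⟨w, hw, rfl⟩
      have hrow : ∀ c, (fun b => mact P₁ Λ w (e.symm (b, c))) ∈
          gr deg 0 (⊤ : Submodule Λ Λ) ⊓ LinearMap.ker ε := by
        intro c
        rw [hε.ker]
        have e1 : (fun b' => mact P₁ Λ w (e.symm (b', c))) =
            s c • mact P Λ (fun b' => w (e.symm (b', c))) := by
          funext b'
          rw [A1]
          rfl
        rw [e1]
        refine Submodule.smul_mem _ _ (mem_Bt.2 ⟨_, ?_, rfl⟩)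
        exact mem_gr.2 fun b => ⟨trivial, fun hb => (mem.1 hw b c).1 (by simpa using hb)⟩
      have hv : mact P₁ Λ w ∈
          bgr (Λ := Λ) (fun x => deg (e x).1) (fun x => deg' (e x).2) Λ 0 k := by
        rw [mem]
        intro b c
        refine ⟨fun hb => (mem_gr.1 (hrow c).1 b).2 hb, fun hc => ?_⟩
        have e1 : (fun b' => w (e.symm (b', c))) = 0 := by
          funext b'
          exact (mem.1 hw b' c).2 hc
        rw [A1, e1, map_zero]
        simp
      refine ⟨hv, LinearMap.mem_ker.2 ?_⟩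
      funext c
      rw [hθ, hπ0 k _ hv]
      exact (hrow c).2

/-- `H_j(P ⊗ M) = H_j(Q ⊗ N)` when `P` resolves `N` and `Q` resolves `M`. -/
theorem balance (lam : LenFn Λ) {ι κ : Type} [Fintype ι] [Fintype κ] {d d' : ℕ} {n n' : ℤ}
    {deg : ι → ℕ} {P : Matrix ι ι Λ} {deg' : κ → ℕ} {Q : Matrix κ κ Λ} {M N : Type}
    [AddCommGroup M] [Module Λ M] [AddCommGroup N] [Module Λ N] (hP : PRes d n deg P N)
    (hQ : PRes d' n' deg' Q M) {j : ℤ} (hj : j < n) (hj' : j < n') :
    hl lam deg P M j = hl lam deg' Q N j := by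
  classical
  obtain ⟨hG, hQ'⟩ := hQ
  have hGP := hP.1
  let P₁ : Matrix (ι × κ) (ι × κ) Λ := fun x y => if x.2 = y.2 then 1 * P x.1 y.1 else 0
  let P₂ : Matrix (ι × κ) (ι × κ) Λ := fun x y =>
    if x.1 = y.1 then (-1) ^ deg x.1 * Q x.2 y.2 else 0
  have e1 := TBal_one lam (Equiv.refl (ι × κ)) hP hG (fun _ => 1) (fun b => (-1) ^ deg b)
    (fun _ => one_mul _) (fun b hb => by simp [hb])
    (fun b b' c c' hb _ => by simp only [hb]; ring) P₁ P₂ (fun _ _ => rfl) (fun _ _ => rfl) hj
  have e2 := TBal_one lam (Equiv.prodComm ι κ) (N := M) ⟨hG, hQ'⟩ hGP (fun b => (-1) ^ deg b)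
    (fun _ => 1) (fun b => by rw [← mul_pow]; simp) (fun _ _ => rfl)
    (fun c c' b b' _ hb => by simp only [hb]; ring) P₂ P₁ (fun _ _ => rfl) (fun _ _ => rfl) hj'
  rw [← e1, ← e2, add_comm P₂ P₁]
  congr 1
  funext x
  exact add_comm _ _

end Crest.Agent.R188
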