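import Crest.Agent.R188.TBasic

/-! Row 188, part IV: finite free resolutions compute Mathlib's `Tor`. -/

set_option autoImplicit false

namespace Crest.Agent.R188

open Crest.Agent.R183 IsLocalRing
open scoped ENNReal TensorProduct

variable {Λ : Type} [CommRing Λ] {ι : Type} [Fintype ι] {d : ℕ} {deg : ι → ℕ} {P : Matrix ι ι Λ}
  {N : Type} [AddCommGroup N] [Module Λ N]

section TLinkAux
open CategoryTheory

private theorem tlink_homology (lam : LenFn Λ) (S : ShortComplex (ModuleCat.{0} Λ)) {V : Type}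
    [AddCommGroup V] [Module Λ V] (f : S.X₂ →ₗ[Λ] V) (hf : Function.Injective f)
    (Z B : Submodule Λ V) (hZ : (LinearMap.ker S.g.hom).map f = Z)
    (hB : (LinearMap.range S.f.hom).map f = B) : lam.toFun S.homology = lam.rel Z B := by
  subst hZ hB
  rw [lam.rel_map_of_injective f hf, lam.rel_eq_quot,
    lam.congr S.moduleCatHomologyIso.toLinearEquiv]
  refine lam.congr (Submodule.quotEquivOfEq _ _ ?_)
  exact LinearMap.range_codRestrict _ _ _

/-- the degree `j` part of the free complex -/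
private abbrev tlinkX (deg : ι → ℕ) (Λ : Type) [CommRing Λ] (j : ℕ) : Submodule Λ (ι → Λ) :=
  gr deg (j : ℤ) (⊤ : Submodule Λ Λ)

private theorem tlink_mem (h : GCx d deg P) {M : Type} [AddCommGroup M] [Module Λ M] (j : ℕ)
    {v : ι → M} (hv : v ∈ gr deg ((j + 1 : ℕ) : ℤ) (⊤ : Submodule Λ M)) :
    mact P M v ∈ gr deg (j : ℤ) (⊤ : Submodule Λ M) := by
  have := h.mact_mem hv
  rwa [show ((j + 1 : ℕ) : ℤ) - 1 = j by push_cast; ring] at this

/-- the differential -/
private def tlinkD (h : GCx d deg P) (j : ℕ) : tlinkX deg Λ (j + 1) →ₗ[Λ] tlinkX deg Λ j :=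
  (mact P Λ).restrict fun _ hx => tlink_mem h j hx

private theorem tlinkD_coe (h : GCx d deg P) (j : ℕ) (x : tlinkX deg Λ (j + 1)) :
    (tlinkD h j x : ι → Λ) = mact P Λ x := rfl

private theorem tlinkD_sq (h : GCx d deg P) (j : ℕ) (x : tlinkX deg Λ (j + 1 + 1)) :
    tlinkD h j (tlinkD h (j + 1) x) = 0 :=
  Subtype.ext (LinearMap.congr_fun (h.mact_sq (N := Λ)) (x : ι → Λ))

/-- projection to degree `j` -/
private def tlinkR (deg : ι → ℕ) (Λ : Type) [CommRing Λ] (j : ℕ) :
    (ι → Λ) →ₗ[Λ] tlinkX deg Λ j where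
  toFun v := ⟨fun b => if deg b = j then v b else 0, mem_gr.2 fun b =>
    ⟨trivial, fun hb => if_neg fun h => hb (by rw [h])⟩⟩
  map_add' v w := by
    ext b
    by_cases hb : deg b = j <;> simp [hb]
  map_smul' r v := by
    ext b
    by_cases hb : deg b = j <;> simp [hb]

omit [Fintype ι] in
private theorem tlinkR_comp (j : ℕ) :
    tlinkR deg Λ j ∘ₗ (tlinkX deg Λ j).subtype = LinearMap.id := by
  ext x b
  by_cases hb : deg b = j
  · simp [tlinkR, hb]
  · have := (mem_gr.1 x.2 b).2 fun h => hb (by exact_mod_cast h)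
    simp [tlinkR, hb, this]

private theorem tlink_proj (j : ℕ) : Module.Projective Λ (tlinkX deg Λ j) :=
  Module.Projective.of_split (tlinkX deg Λ j).subtype (tlinkR deg Λ j) (tlinkR_comp j)

/-- the comparison map -/
private noncomputable def tlinkPhi (deg : ι → ℕ) (Λ : Type) [CommRing Λ] (M : Type)
    [AddCommGroup M] [Module Λ M] (j : ℕ) : M ⊗[Λ] tlinkX deg Λ j →ₗ[Λ] (ι → M) :=
  TensorProduct.piScalarRightHom Λ Λ M ι ∘ₗ (tlinkX deg Λ j).subtype.lTensor M

variable {M : Type} [AddCommGroup M] [Module Λ M]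

omit [Fintype ι] in
private theorem tlinkPhi_tmul (j : ℕ) (m : M) (x : tlinkX deg Λ j) :
    tlinkPhi deg Λ M j (m ⊗ₜ x) = fun b => (x : ι → Λ) b • m := by
  simp [tlinkPhi]

private theorem tlinkPhi_inj (j : ℕ) : Function.Injective (tlinkPhi deg Λ M j) := by
  classical
  have h1 : Function.Injective ((tlinkX deg Λ j).subtype.lTensor M) := by
    refine LinearMap.injective_of_comp_eq_id _ ((tlinkR deg Λ j).lTensor M) ?_
    rw [← LinearMap.lTensor_comp, tlinkR_comp, LinearMap.lTensor_id]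
  exact (TensorProduct.piScalarRight Λ Λ M ι).injective.comp h1

private theorem tlinkPhi_range (j : ℕ) :
    LinearMap.range (tlinkPhi deg Λ M j) = gr deg (j : ℤ) (⊤ : Submodule Λ M) := by
  classical
  apply le_antisymm
  · rintro _ ⟨x, rfl⟩
    induction x using TensorProduct.induction_on with
    | zero => rw [map_zero]; exact zero_mem _
    | add x y hx hy => rw [map_add]; exact add_mem hx hy
    | tmul m x =>
      rw [tlinkPhi_tmul]
      refine mem_gr.2 fun b => ⟨trivial, fun hb => ?_⟩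
      rw [(mem_gr.1 x.2 b).2 hb, zero_smul]
  · refine gr_le_of_single fun b hb m _ => ?_
    refine ⟨m ⊗ₜ ⟨Pi.single b 1, single_mem_gr hb trivial⟩, ?_⟩
    rw [tlinkPhi_tmul]
    funext b'
    by_cases hbb : b' = b
    · subst hbb; simp
    · simp [hbb]

private theorem tlinkPhi_d (h : GCx d deg P) (j : ℕ) (x : M ⊗[Λ] tlinkX deg Λ (j + 1)) :
    tlinkPhi deg Λ M j ((tlinkD h j).lTensor M x) = mact P M (tlinkPhi deg Λ M (j + 1) x) := by
  induction x using TensorProduct.induction_on with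
  | zero => simp
  | add x y hx hy => simp only [map_add, hx, hy]
  | tmul m x =>
    rw [LinearMap.lTensor_tmul, tlinkPhi_tmul, tlinkPhi_tmul, tlinkD_coe]
    funext b
    simp only [mact_apply, Finset.sum_smul, smul_eq_mul, mul_smul]

private theorem tlink_B (h : GCx d deg P) (j : ℕ) :
    (LinearMap.range ((tlinkD h j).lTensor M)).map (tlinkPhi deg Λ M j) = Bt deg P M j := by
  ext v
  rw [mem_Bt, show (j : ℤ) + 1 = ((j + 1 : ℕ) : ℤ) by push_cast; ring, ← tlinkPhi_range]
  constructor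
  · rintro ⟨_, ⟨x, rfl⟩, rfl⟩
    exact ⟨_, ⟨x, rfl⟩, (tlinkPhi_d h j x).symm⟩
  · rintro ⟨_, ⟨x, rfl⟩, rfl⟩
    exact ⟨_, ⟨x, rfl⟩, tlinkPhi_d h j x⟩

private theorem tlink_Z (h : GCx d deg P) (j : ℕ) :
    (LinearMap.ker ((tlinkD h j).lTensor M)).map (tlinkPhi deg Λ M (j + 1)) =
      Zt deg P M ((j + 1 : ℕ) : ℤ) := by
  ext v
  rw [mem_Zt, ← tlinkPhi_range]
  constructor
  · rintro ⟨x, hx, rfl⟩
    refine ⟨⟨x, rfl⟩, ?_⟩
    rw [← tlinkPhi_d h, LinearMap.mem_ker.1 hx, map_zero]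
  · rintro ⟨⟨x, rfl⟩, hx⟩
    refine ⟨x, ?_, rfl⟩
    rw [← tlinkPhi_d h] at hx
    exact tlinkPhi_inj j (hx.trans (map_zero _).symm)

private theorem tlink_Z0 (h : GCx d deg P) :
    (⊤ : Submodule Λ (M ⊗[Λ] tlinkX deg Λ 0)).map (tlinkPhi deg Λ M 0) =
      Zt deg P M ((0 : ℕ) : ℤ) := by
  rw [Submodule.map_top, tlinkPhi_range]
  ext v
  rw [mem_Zt]
  refine ⟨fun hv => ⟨hv, ?_⟩, fun hv => hv.1⟩
  have := h.mact_mem hv
  rwa [h.gr_eq_bot (Or.inl (by simp)), Submodule.mem_bot] at this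

/-- the complex as a `ChainComplex` -/
private noncomputable def tlinkK (h : GCx d deg P) : ChainComplex (ModuleCat.{0} Λ) ℕ :=
  ChainComplex.of (fun j => ModuleCat.of Λ (tlinkX deg Λ j))
    (fun j => ModuleCat.ofHom (tlinkD h j)) fun j => by
      ext x : 2
      exact tlinkD_sq h j x

private theorem tlinkK_d (h : GCx d deg P) (j : ℕ) :
    (tlinkK h).d (j + 1) j = ModuleCat.ofHom (tlinkD h j) :=
  ChainComplex.of_d (fun j => ModuleCat.of Λ (tlinkX deg Λ j))
    (fun j => ModuleCat.ofHom (tlinkD h j)) j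

set_option backward.isDefEq.respectTransparency false in
private theorem tlink_res (h : Resol d deg P N) :
    ∃ R : ProjectiveResolution (ModuleCat.of Λ N), R.complex = tlinkK h.1 := by
  obtain ⟨ε, hε⟩ := h.2
  let e : (tlinkK h.1).X 0 ⟶ ModuleCat.of Λ N := ModuleCat.ofHom (ε ∘ₗ (tlinkX deg Λ 0).subtype)
  have hk : ∀ x : tlinkX deg Λ 0, ε x = 0 ↔ ∃ y, tlinkD h.1 0 y = x := by
    intro x
    constructor
    · intro hx
      have : (x : ι → Λ) ∈ Bt deg P Λ 0 := by
        rw [← hε.ker]; exact ⟨x.2, hx⟩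
      obtain ⟨w, hw, hw'⟩ := this
      exact ⟨⟨w, hw⟩, Subtype.ext hw'⟩
    · rintro ⟨y, rfl⟩
      have : (tlinkD h.1 0 y : ι → Λ) ∈ Bt deg P Λ 0 := ⟨y, y.2, rfl⟩
      rw [← hε.ker] at this
      exact this.2
  have he : (tlinkK h.1).d 1 0 ≫ e = 0 := by
    rw [show (tlinkK h.1).d 1 0 = _ from tlinkK_d h.1 0]
    ext x : 2
    exact (hk _).2 ⟨x, rfl⟩
  let π : tlinkK h.1 ⟶ (ChainComplex.single₀ (ModuleCat.{0} Λ)).obj (ModuleCat.of Λ N) :=
    ((tlinkK h.1).toSingle₀Equiv _).symm ⟨e, he⟩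
  have hπ : π.f 0 = e := ChainComplex.toSingle₀Equiv_symm_apply_f_zero _ _
  have hq : QuasiIso π := ⟨fun m => by
    cases m with
    | zero =>
      rw [ChainComplex.quasiIsoAt₀_iff, ShortComplex.quasiIso_iff_of_zeros' _ rfl rfl rfl]
      constructor
      · rw [ShortComplex.moduleCat_exact_iff]
        intro x hx
        change (π.f 0).hom x = 0 at hx
        change ∃ y, ((tlinkK h.1).d 1 0).hom y = x
        rw [hπ] at hx
        rw [show (tlinkK h.1).d 1 0 = _ from tlinkK_d h.1 0]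
        exact (hk x).1 hx
      · change Epi (π.f 0)
        rw [hπ, ModuleCat.epi_iff_surjective]
        intro y
        have : y ∈ (gr deg 0 (⊤ : Submodule Λ Λ)).map ε := by rw [hε.surj]; trivial
        obtain ⟨x, hx, rfl⟩ := this
        exact ⟨⟨x, hx⟩, rfl⟩
    | succ m =>
      rw [quasiIsoAt_iff_exactAt' (hL := ChainComplex.exactAt_succ_single_obj ..),
        HomologicalComplex.exactAt_iff' _ (m + 2) (m + 1) m (by simp) (by simp),
        ShortComplex.moduleCat_exact_iff]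
      intro x hx
      change ((tlinkK h.1).d (m + 1) m).hom x = 0 at hx
      change ∃ y, ((tlinkK h.1).d (m + 1 + 1) (m + 1)).hom y = x
      rw [tlinkK_d] at hx
      rw [tlinkK_d]
      change tlinkX deg Λ (m + 1) at x
      have hx' : mact P Λ (x : ι → Λ) = 0 := congrArg Subtype.val hx
      by_cases hm : ((m + 1 : ℕ) : ℤ) < d + 1
      · obtain ⟨w, hw, hw'⟩ := hε.ex ((m + 1 : ℕ) : ℤ) (by push_cast; omega) hm ⟨x.2, hx'⟩
        exact ⟨⟨w, hw⟩, Subtype.ext hw'⟩
      · have hx0 : (x : ι → Λ) = 0 := by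
          have : (x : ι → Λ) ∈ gr deg ((m + 1 : ℕ) : ℤ) (⊤ : Submodule Λ Λ) := x.2
          rwa [h.1.gr_eq_bot (i := ((m + 1 : ℕ) : ℤ)) (Or.inr (by omega)),
            Submodule.mem_bot] at this
        exact ⟨0, Subtype.ext (by rw [map_zero, hx0]; rfl)⟩⟩
  exact ⟨{ complex := tlinkK h.1
           projective := fun n => by
             have := tlink_proj (deg := deg) (Λ := Λ) n
             exact ModuleCat.projective_of_categoryTheory_projective
               (ModuleCat.of Λ (tlinkX deg Λ n))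
           π := π
           quasiIso := hq }, rfl⟩

end TLinkAux

set_option backward.isDefEq.respectTransparency false in
theorem Resol.hl_eq_tor (lam : LenFn Λ) (h : Resol d deg P N) (M : Type) [AddCommGroup M]
    [Module Λ M] (j : ℕ) : hl lam deg P M j = lam.toFun (torM Λ j M N) := by
  obtain ⟨R, hR⟩ := tlink_res h
  let F := (CategoryTheory.MonoidalCategory.tensoringLeft (ModuleCat.{0} Λ)).obj (ModuleCat.of Λ M)
  have e1 := R.isoLeftDerivedObj F j
  rw [hR] at e1
  let K := (F.mapHomologicalComplex (ComplexShape.down ℕ)).obj (tlinkK h.1)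
  have hK : ∀ i, (K.d (i + 1) i).hom = (tlinkD h.1 i).lTensor M := fun i => by
    change (F.map ((tlinkK h.1).d (i + 1) i)).hom = _
    rw [tlinkK_d]
    rfl
  rw [show lam.toFun (torM Λ j M N) = lam.toFun (K.homology j) from
    lam.congr e1.toLinearEquiv]
  cases j with
  | zero =>
    rw [lam.congr (K.homologyIsoSc' 1 0 0 (by simp) (by simp)).toLinearEquiv]
    refine (tlink_homology lam (K.sc' 1 0 0) (tlinkPhi deg Λ M 0) (tlinkPhi_inj 0) _ _ ?_ ?_).symm
    · rw [← tlink_Z0 h.1]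
      congr 1
      change LinearMap.ker (K.d 0 0).hom = ⊤
      rw [K.shape 0 0 (by simp)]
      exact LinearMap.ker_zero
    · rw [← tlink_B h.1 0, ← hK 0]
      rfl
  | succ j =>
    rw [lam.congr (K.homologyIsoSc' (j + 1 + 1) (j + 1) j (by simp) (by simp)).toLinearEquiv]
    refine (tlink_homology lam (K.sc' (j + 1 + 1) (j + 1) j) (tlinkPhi deg Λ M (j + 1))
      (tlinkPhi_inj (j + 1)) _ _ ?_ ?_).symm
    · rw [← tlink_Z h.1 j]
      congr 1
      exact congrArg LinearMap.ker (hK j)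
    · rw [← tlink_B h.1 (j + 1)]
      congr 1
      exact congrArg LinearMap.range (hK (j + 1))

theorem Resol.chiT_eq (h : Resol d deg P N) (M : Type) [AddCommGroup M] [Module Λ M] :
    (chiT Λ d M N : ℝ) = chiG (lenFn Λ) d deg P M := by
  unfold chiT chiG chi
  have hI : Finset.Icc (0 : ℤ) d = (Finset.range (d + 1)).map ⟨Nat.cast, Nat.cast_injective⟩ := by
    ext i
    simp only [Finset.mem_Icc, Finset.mem_map, Finset.mem_range, Function.Embedding.coeFn_mk]
    constructor
    · rintro ⟨h0, h1⟩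
      exact ⟨i.toNat, by omega, by omega⟩
    · rintro ⟨a, ha, rfl⟩
      omega
  rw [hI, Finset.sum_map]
  push_cast
  refine Finset.sum_congr rfl fun i _ => ?_
  simp only [Function.Embedding.coeFn_mk]
  rw [h.hl_eq_tor, zpow_natCast]
  congr 1
  change _ = ((Module.length Λ (torM Λ i M N) : ℕ∞) : ℝ≥0∞).toReal
  generalize Module.length Λ (torM Λ i M N) = x
  induction x using ENat.recTopCoe with
  | top => simp
  | coe a => simp

end Crest.Agent.R188
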