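import Crest.Agent.R188.TChange
import Crest.Agent.R188.THtpy
import Crest.Agent.R188.TBal
import Crest.Agent.R188.TLink

/-! Row 188, part IV: formal properties of the intersection multiplicity. -/

set_option autoImplicit false

namespace Crest.Agent.R188

open Crest.Agent.R183 IsLocalRing
open scoped ENNReal TensorProduct

variable {Λ : Type} [CommRing Λ] {d : ℕ} {M N : Type} [AddCommGroup M] [Module Λ M]
  [AddCommGroup N] [Module Λ N]

theorem Meet.symm [IsLocalRing Λ] (h : Meet Λ M N) : Meet Λ N M := by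
  obtain ⟨c, hc⟩ := h
  exact ⟨c, by rwa [sup_comm]⟩

theorem meet_quot_iff [IsLocalRing Λ] (I J : Ideal Λ) :
    Meet Λ (Λ ⧸ I) (Λ ⧸ J) ↔ ∃ c : ℕ, maximalIdeal Λ ^ c ≤ I ⊔ J := by
  simp only [Meet, Ideal.annihilator_quotient]

theorem Meet.of_injective [IsLocalRing Λ] (h : Meet Λ M N) {M' : Type} [AddCommGroup M']
    [Module Λ M'] (f : M' →ₗ[Λ] M) (hf : Function.Injective f) : Meet Λ M' N := by
  obtain ⟨c, hc⟩ := h
  exact ⟨c, hc.trans (sup_le_sup_right (LinearMap.annihilator_le_of_injective f hf) _)⟩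

theorem Meet.of_surjective [IsLocalRing Λ] (h : Meet Λ M N) {M' : Type} [AddCommGroup M']
    [Module Λ M'] (f : M →ₗ[Λ] M') (hf : Function.Surjective f) : Meet Λ M' N := by
  obtain ⟨c, hc⟩ := h
  exact ⟨c, hc.trans (sup_le_sup_right (LinearMap.annihilator_le_of_surjective f hf) _)⟩

theorem chiT_symm (hM : HasRes Λ d M) (hN : HasRes Λ d N) : chiT Λ d M N = chiT Λ d N M := by
  obtain ⟨ι, _, _, deg, P, hP⟩ := hN
  obtain ⟨κ, _, _, deg', Q, hQ⟩ := hM
  have h : (chiT Λ d M N : ℝ) = chiT Λ d N M := by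
    rw [hP.chiT_eq, hQ.chiT_eq]
    unfold chiG
    congr 1
    funext j
    exact balance _ (hP.pres (j + 1)) (hQ.pres (j + 1)) (by omega) (by omega)
  exact_mod_cast h

theorem chiT_congr (hN : HasRes Λ d N) {M' N' : Type} [AddCommGroup M'] [Module Λ M']
    [AddCommGroup N'] [Module Λ N'] (e : M ≃ₗ[Λ] M') (e' : N ≃ₗ[Λ] N') :
    chiT Λ d M N = chiT Λ d M' N' := by
  obtain ⟨ι, _, _, deg, P, hP⟩ := hN
  have h : (chiT Λ d M N : ℝ) = chiT Λ d M' N' := by
    rw [hP.chiT_eq, Resol.chiT_eq (PRes.congr hP e'), chiG_congr _ e]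
  exact_mod_cast h

theorem chiT_subsingleton (hN : HasRes Λ d N) [Subsingleton M] : chiT Λ d M N = 0 := by
  obtain ⟨ι, _, _, deg, P, hP⟩ := hN
  have h : (chiT Λ d M N : ℝ) = 0 := by
    rw [hP.chiT_eq]
    simp [chiG, chi, hl_subsingleton]
  exact_mod_cast h

theorem chiT_add [IsLocalRing Λ] [IsNoetherianRing Λ] (hN : HasRes Λ d N) {M₁ M₂ M₃ : Type}
    [AddCommGroup M₁] [Module Λ M₁] [AddCommGroup M₂] [Module Λ M₂] [AddCommGroup M₃]
    [Module Λ M₃] (f : M₁ →ₗ[Λ] M₂) (g : M₂ →ₗ[Λ] M₃) (hf : Function.Injective f)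
    (hg : Function.Surjective g) (hfg : Function.Exact f g) [Module.Finite Λ M₂]
    (h : Meet Λ M₂ N) : chiT Λ d M₂ N = chiT Λ d M₁ N + chiT Λ d M₃ N := by
  obtain ⟨ι, _, _, deg, P, hP⟩ := hN
  have : Module.Finite Λ M₁ := Module.Finite.of_injective f hf
  have : Module.Finite Λ M₃ := Module.Finite.of_surjective g hg
  have h' : (chiT Λ d M₂ N : ℝ) = chiT Λ d M₁ N + chiT Λ d M₃ N := by
    rw [hP.chiT_eq, hP.chiT_eq, hP.chiT_eq]
    exact chiG_add _ hP.1 f g hf hg hfg (hP.hl_ne_top (h.of_injective f hf))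
      (hP.hl_ne_top (h.of_surjective g hg))
  exact_mod_cast h'

/-- invariance under unramified flat local extensions. -/
theorem chiT_baseChange [IsLocalRing Λ] [IsNoetherianRing Λ] {Λ' : Type} [CommRing Λ']
    [IsLocalRing Λ'] [Algebra Λ Λ'] [Module.Flat Λ Λ']
    (hm : (maximalIdeal Λ).map (algebraMap Λ Λ') = maximalIdeal Λ') (hN : HasRes Λ d N)
    [Module.Finite Λ M] (h : Meet Λ M N) :
    chiT Λ' d (Λ' ⊗[Λ] M) (Λ' ⊗[Λ] N) = chiT Λ d M N := by
  obtain ⟨ι, _, _, deg, P, hP⟩ := hN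
  have h' : (chiT Λ' d (Λ' ⊗[Λ] M) (Λ' ⊗[Λ] N) : ℝ) = chiT Λ d M N := by
    rw [hP.chiT_eq, Resol.chiT_eq (PRes.baseChange (Λ' := Λ') hP)]
    unfold chiG
    congr 1
    funext j
    exact hl_baseChange_local hm M j (hP.hl_ne_top h j)
  exact_mod_cast h'

end Crest.Agent.R188
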