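import Crest.Agent.R188.GonA
import Crest.Agent.R188.TChi
import Crest.Agent.R188.Reg1

/-! Row 188, part IV: reduction to complete rings with algebraically closed residue field. -/

set_option autoImplicit false

namespace Crest.Agent.R188

open Crest.Agent.R183 IsLocalRing
open scoped ENNReal TensorProduct

section flat
variable {R T : Type} [CommRing R] [IsLocalRing R] [IsNoetherianRing R] [CommRing T]
  [IsLocalRing T] [IsNoetherianRing T] [Algebra R T] [Module.Flat R T]

/-- the dimension formula for flat local homomorphisms. -/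
theorem dim_flat (hm : (maximalIdeal R).map (algebraMap R T) ≤ maximalIdeal T) (I : Ideal R)
    {a j : ℕ} (ha : ringKrullDim (R ⧸ I) = a)
    (hj : ringKrullDim (T ⧸ (maximalIdeal R).map (algebraMap R T)) = j) :
    ringKrullDim (T ⧸ I.map (algebraMap R T)) = (a + j : ℕ) := by
  have hI : I ≠ ⊤ := by
    rintro rfl
    rw [ringKrullDim_eq_bot_of_subsingleton] at ha
    exact WithBot.bot_ne_coe ha
  have hI' : I ≤ maximalIdeal R := le_maximalIdeal hI
  have h1 : I.map (algebraMap R T) ≤ (maximalIdeal R).map (algebraMap R T) := Ideal.map_mono hI'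
  have : Nontrivial (R ⧸ I) := Ideal.Quotient.nontrivial_iff.2 hI
  have : Nontrivial (T ⧸ I.map (algebraMap R T)) := Ideal.Quotient.nontrivial_iff.2 fun h =>
    (maximalIdeal.isMaximal T).ne_top (top_le_iff.1 (h ▸ h1.trans hm))
  have : IsLocalRing (R ⧸ I) :=
    IsLocalRing.of_surjective' (Ideal.Quotient.mk I) Ideal.Quotient.mk_surjective
  have : IsLocalRing (T ⧸ I.map (algebraMap R T)) :=
    IsLocalRing.of_surjective' (Ideal.Quotient.mk _) Ideal.Quotient.mk_surjective
  have : Module.Flat (R ⧸ I) (T ⧸ I.map (algebraMap R T)) := Module.Flat.of_linearEquiv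
    (Algebra.TensorProduct.quotIdealMapEquivQuotTensor T I).toLinearEquiv
  have e1 : maximalIdeal (R ⧸ I) = (maximalIdeal R).map (Ideal.Quotient.mk I) :=
    (eq_maximalIdeal (Ideal.IsMaximal.map_of_surjective_of_ker_le Ideal.Quotient.mk_surjective
      (by simpa using hI'))).symm
  have e2 : maximalIdeal (T ⧸ I.map (algebraMap R T)) =
      (maximalIdeal T).map (Ideal.Quotient.mk _) :=
    (eq_maximalIdeal (Ideal.IsMaximal.map_of_surjective_of_ker_le Ideal.Quotient.mk_surjective
      (by simpa using h1.trans hm))).symm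
  have e3 : (maximalIdeal (R ⧸ I)).map (algebraMap (R ⧸ I) (T ⧸ I.map (algebraMap R T))) =
      ((maximalIdeal R).map (algebraMap R T)).map (Ideal.Quotient.mk _) := by
    rw [e1, Ideal.map_map, Ideal.map_map]
    rfl
  have h2 := (nag_fibre (R := R ⧸ I) (S := T ⧸ I.map (algebraMap R T))
    (by rw [e3, e2]; exact Ideal.map_mono hm) j).1 (by
      rw [e3, ringKrullDim_eq_of_ringEquiv (DoubleQuot.quotQuotEquivQuotOfLE h1), hj])
  rw [← maximalIdeal_height_eq_ringKrullDim] at ha ⊢
  rw [h2, WithBot.coe_add, ha]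
  norm_cast

theorem dim_unram (hm : (maximalIdeal R).map (algebraMap R T) = maximalIdeal T) (I : Ideal R)
    {a : ℕ} (ha : ringKrullDim (R ⧸ I) = a) : ringKrullDim (T ⧸ I.map (algebraMap R T)) = a := by
  have h := dim_flat hm.le I ha (j := 0) (by
    rw [hm]
    exact ringKrullDim_eq_zero_of_isField
      ((Ideal.Quotient.maximal_ideal_iff_isField_quotient _).1 inferInstance))
  simpa using h

theorem reg_of_unram (hm : (maximalIdeal R).map (algebraMap R T) = maximalIdeal T)
    (hR : IsRegularLocalRing R) {d : ℕ} (hd : ringKrullDim R = d) :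
    IsRegularLocalRing T ∧ ringKrullDim T = d := by
  have h1 : ringKrullDim T = d := by
    have h := dim_unram hm ⊥ (a := d)
      (by rw [ringKrullDim_eq_of_ringEquiv (RingEquiv.quotientBot R), hd])
    rwa [Ideal.map_bot, ringKrullDim_eq_of_ringEquiv (RingEquiv.quotientBot T)] at h
  refine ⟨IsRegularLocalRing.of_spanFinrank_maximalIdeal_le T ?_, h1⟩
  have h2 := hR.spanFinrank_maximalIdeal
  rw [h1, ← hd, ← h2, ← hm]
  exact_mod_cast Ideal.spanFinrank_map_le_of_fg _ (IsNoetherian.noetherian _)

theorem Gon_dim_eq (hm : (maximalIdeal R).map (algebraMap R T) = maximalIdeal T) (I : Ideal R) :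
    ringKrullDim (T ⧸ I.map (algebraMap R T)) = ringKrullDim (R ⧸ I) := by
  by_cases hI : I = ⊤
  · subst hI
    rw [Ideal.map_top, ringKrullDim_eq_bot_of_subsingleton, ringKrullDim_eq_bot_of_subsingleton]
  · have : Nontrivial (R ⧸ I) := Ideal.Quotient.nontrivial_iff.2 hI
    have : IsLocalRing (R ⧸ I) :=
      IsLocalRing.of_surjective' (Ideal.Quotient.mk I) Ideal.Quotient.mk_surjective
    obtain ⟨a, ha⟩ : ∃ a : ℕ, ringKrullDim (R ⧸ I) = a := by
      obtain ⟨a, ha⟩ := ENat.ne_top_iff_exists.1
        (Ideal.height_ne_top_of_isPrime (I := maximalIdeal (R ⧸ I)))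
      exact ⟨a, by rw [← maximalIdeal_height_eq_ringKrullDim, ← ha]; rfl⟩
    rw [dim_unram hm I ha, ha]

theorem Gon_meet_iff (hm : (maximalIdeal R).map (algebraMap R T) = maximalIdeal T)
    (I J : Ideal R) :
    (∃ c : ℕ, maximalIdeal T ^ c ≤ I.map (algebraMap R T) ⊔ J.map (algebraMap R T)) ↔
      ∃ c : ℕ, maximalIdeal R ^ c ≤ I ⊔ J := by
  have : IsLocalHom (algebraMap R T) := ((local_hom_TFAE (algebraMap R T)).out 0 2).2 hm.le
  have : Module.FaithfullyFlat R T := Module.FaithfullyFlat.of_flat_of_isLocalHom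
  refine exists_congr fun c => ?_
  rw [← hm, ← Ideal.map_pow, ← Ideal.map_sup, Ideal.map_le_iff_le_comap,
    Ideal.comap_map_eq_self_of_faithfullyFlat]

theorem pairCase_map_iff (hm : (maximalIdeal R).map (algebraMap R T) = maximalIdeal T) {d : ℕ}
    (hG : GlDim R d) (I J : Ideal R) :
    PairCase T d (I.map (algebraMap R T)) (J.map (algebraMap R T)) ↔ PairCase R d I J := by
  have key : (∃ c : ℕ, maximalIdeal R ^ c ≤ I ⊔ J) →
      chiT T d (T ⧸ I.map (algebraMap R T)) (T ⧸ J.map (algebraMap R T)) =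
        chiT R d (R ⧸ I) (R ⧸ J) := fun h => by
    have h1 := hG (R ⧸ J) inferInstance
    rw [← chiT_baseChange hm h1 ((meet_quot_iff I J).2 h)]
    obtain ⟨ι, _, _, deg, P, hP⟩ := h1
    exact chiT_congr ⟨ι, inferInstance, inferInstance, deg, _, PRes.baseChange_quot hP⟩
      (Algebra.TensorProduct.quotIdealMapEquivTensorQuot T I).toLinearEquiv
      (Algebra.TensorProduct.quotIdealMapEquivTensorQuot T J).toLinearEquiv
  rw [PairCase, PairCase, Gon_meet_iff hm, Gon_dim_eq hm, Gon_dim_eq hm]
  refine forall_congr' fun h => ?_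
  rw [key h]

end flat

theorem primeCase_of_bijective {S T : Type} [CommRing S] [IsLocalRing S] [IsNoetherianRing S]
    [CommRing T] [IsLocalRing T] (π : S →+* T) (hπ : Function.Bijective π) {d : ℕ}
    (hG : GlDim S d) (h : PrimeCase S d) : PrimeCase T d := by
  let _ : Algebra S T := π.toAlgebra
  have : IsNoetherianRing T := isNoetherianRing_of_surjective _ _ π hπ.2
  have : Module.Flat S T :=
    Module.Flat.of_linearEquiv (LinearEquiv.ofBijective (Algebra.linearMap S T) hπ).symm
  have hm : (maximalIdeal S).map (algebraMap S T) = maximalIdeal T := by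
    rw [← eq_maximalIdeal (Ideal.comap_isMaximal_of_surjective π hπ.2 (K := maximalIdeal T))]
    exact Ideal.map_comap_of_surjective π hπ.2 _
  intro 𝔭 𝔮 _ _
  have h1 := (pairCase_map_iff hm hG (𝔭.comap π) (𝔮.comap π)).2
    (h _ _ inferInstance inferInstance)
  rwa [RingHom.algebraMap_toAlgebra, Ideal.map_comap_of_surjective π hπ.2,
    Ideal.map_comap_of_surjective π hπ.2] at h1

end Crest.Agent.R188
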