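import Crest.Agent.R183.Nagata
import Crest.Agent.R183.Gonfl
import Crest.Agent.R183.Trunc
import Crest.Agent.R183.Coef

/-! Row 188, part IV: reduction to complete rings with algebraically closed residue field. -/

set_option autoImplicit false

namespace Crest.Agent.R188

open Crest.Agent.R183 IsLocalRing
open scoped ENNReal TensorProduct

theorem GonA_comb {R F : Type} [CommRing R] [AddCommGroup F] [Module R F] {s : ℕ} (g : Fin s → R)
    {w : F} (hw : w ∈ (Ideal.span (Set.range g) • ⊤ : Submodule R F)) :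
    ∃ u : Fin s → F, ∑ l, g l • u l = w := by
  refine Submodule.smul_induction_on hw (fun r hr m _ => ?_) ?_
  · obtain ⟨c, rfl⟩ := Ideal.mem_span_range_iff_exists_fun.1 hr
    exact ⟨fun l => c l • m, by simp [Finset.sum_smul, smul_smul, mul_comm]⟩
  · rintro _ _ ⟨u, rfl⟩ ⟨v, rfl⟩
    exact ⟨u + v, by simp [Finset.sum_add_distrib]⟩

theorem GonA_pi {T : Type} [CommRing T] {l : ℕ} (J : Ideal T) {z : Fin l → T} (hz : ∀ i, z i ∈ J) :
    z ∈ (J • ⊤ : Submodule T (Fin l → T)) := by
  rw [pi_eq_sum_univ z]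
  exact Submodule.sum_mem _ fun i _ => Submodule.smul_mem_smul (hz i) Submodule.mem_top

/-- a local criterion of flatness. -/
theorem flat_of_trunc {R T F : Type} [CommRing R] [IsNoetherianRing R] [CommRing T]
    [IsLocalRing T] [IsNoetherianRing T] [Algebra R T] (I : Ideal R)
    (hI : I.map (algebraMap R T) ≤ maximalIdeal T) [AddCommGroup F] [Module R F] [Module.Flat R F]
    (ψ : F →ₗ[R] T) (hs : ∀ (n : ℕ) (t : T), ∃ x, t - ψ x ∈ (I ^ n).map (algebraMap R T))
    (hi : ∀ (n : ℕ) (x : F), ψ x ∈ (I ^ n).map (algebraMap R T) →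
      x ∈ (I ^ n • ⊤ : Submodule R F)) : Module.Flat R T := by
  refine Module.Flat.of_forall_isTrivialRelation fun {l f x} hx => ?_
  let a : (Fin l → R) →ₗ[R] R := Fintype.linearCombination R f
  have ha : ∀ v, a v = ∑ i, f i * v i := fun v => by
    simp [a, Fintype.linearCombination_apply, mul_comm]
  obtain ⟨m, k, hk⟩ := Submodule.fg_iff_exists_fin_generating_family.1
    (IsNoetherian.noetherian (LinearMap.ker a))
  let φ : (Fin l → R) →ₗ[R] (Fin l → T) := (Algebra.linearMap R T).compLeft (Fin l)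
  have hφ : ∀ v i, φ v i = algebraMap R T (v i) := fun _ _ => rfl
  let N : Submodule T (Fin l → T) := Submodule.span T (Set.range fun j => φ (k j))
  obtain ⟨c, hc⟩ := I.exists_pow_inf_eq_pow_smul (M := R) (LinearMap.range a)
  have hIn : ∀ n, (I ^ n).map (algebraMap R T) ≤ maximalIdeal T ^ n := fun n => by
    rw [Ideal.map_pow]
    exact Ideal.pow_right_mono hI n
  have hAR : ∀ n v, a v ∈ I ^ (n + c) →
      φ v ∈ N ⊔ (maximalIdeal T ^ n • ⊤ : Submodule T (Fin l → T)) := by
    intro n v hv
    have h1 : a v ∈ (I ^ (n + c) • ⊤ ⊓ LinearMap.range a : Submodule R R) :=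
      ⟨by simpa using hv, v, rfl⟩
    rw [hc _ (Nat.le_add_left _ _), Nat.add_sub_cancel] at h1
    have h2 : a v ∈ (I ^ n • ⊤ : Submodule R (Fin l → R)).map a := by
      rw [Submodule.map_smul'', Submodule.map_top]
      exact Submodule.smul_mono le_rfl inf_le_right h1
    obtain ⟨v', hv', h3⟩ := h2
    have h4 : v - v' ∈ Submodule.span R (Set.range k) := by
      rw [hk, LinearMap.mem_ker, map_sub, h3, sub_self]
    have h5 : φ (v - v') ∈ N := by
      obtain ⟨b, hb⟩ := (Submodule.mem_span_range_iff_exists_fun R).1 h4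
      rw [← hb, map_sum]
      refine Submodule.sum_mem _ fun j _ => ?_
      rw [map_smul, ← algebraMap_smul T]
      exact Submodule.smul_mem _ _ (Submodule.subset_span ⟨j, rfl⟩)
    have h6 : φ v' ∈ (maximalIdeal T ^ n • ⊤ : Submodule T (Fin l → T)) := by
      refine Submodule.smul_induction_on hv' (fun r hr w _ => ?_) fun w w' hw hw' => ?_
      · rw [map_smul, ← algebraMap_smul T r]
        exact Submodule.smul_mem_smul (hIn n (Ideal.mem_map_of_mem _ hr)) Submodule.mem_top
      · rw [map_add]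
        exact Submodule.add_mem _ hw hw'
    rw [← sub_add_cancel v v', map_add]
    exact Submodule.add_mem_sup h5 h6
  have key : ∀ n, x ∈ N ⊔ (maximalIdeal T ^ n • ⊤ : Submodule T (Fin l → T)) := by
    intro n
    choose u hu using fun i => hs (n + c) (x i)
    have h1 : ∑ i, f i • u i ∈ (I ^ (n + c) • ⊤ : Submodule R F) := by
      refine hi _ _ ?_
      have e : ψ (∑ i, f i • u i) = -∑ i, algebraMap R T (f i) * (x i - ψ (u i)) := by
        simp only [map_sum, map_smul, ← Algebra.smul_def, smul_sub, Finset.sum_sub_distrib, hx]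
        simp
      rw [e]
      exact neg_mem (Ideal.sum_mem _ fun i _ => Ideal.mul_mem_left _ _ (hu i))
    obtain ⟨s, g, hg⟩ := Submodule.fg_iff_exists_fin_generating_family.1
      (IsNoetherian.noetherian (I ^ (n + c)))
    have hg' : Ideal.span (Set.range g) = I ^ (n + c) := hg
    rw [← hg'] at h1
    obtain ⟨u', hu'⟩ := GonA_comb g h1
    obtain ⟨r, b, y, hy, hb⟩ := Module.Flat.isTrivialRelation_of_sum_smul_eq_zero (R := R) (M := F)
      (f := Sum.elim f (-g)) (x := Sum.elim u u') (by simp [hu'])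
    have e : x = (fun i => x i - ψ (u i)) + ∑ j, ψ (y j) • φ fun i => b (Sum.inl i) j := by
      funext i
      have h2 : u i = ∑ j, b (Sum.inl i) j • y j := hy (Sum.inl i)
      simp only [Pi.add_apply, Finset.sum_apply, Pi.smul_apply, hφ, smul_eq_mul]
      rw [eq_comm, ← eq_sub_iff_add_eq', sub_sub_cancel, h2, map_sum]
      exact Finset.sum_congr rfl fun j _ => by rw [map_smul, Algebra.smul_def, mul_comm]
    rw [e]
    refine Submodule.add_mem _ (Submodule.mem_sup_right (GonA_pi _ fun i =>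
      Ideal.pow_le_pow_right (Nat.le_add_right n c) (hIn _ (hu i))))
      (Submodule.sum_mem _ fun j _ => Submodule.smul_mem _ _ (hAR n _ ?_))
    have h3 := hb j
    simp only [Fintype.sum_sum_type, Sum.elim_inl, Sum.elim_inr, Pi.neg_apply, neg_mul,
      Finset.sum_neg_distrib, add_neg_eq_zero] at h3
    rw [ha, h3, ← hg']
    exact Ideal.sum_mem _ fun j _ => Ideal.mul_mem_right _ _ (Ideal.subset_span ⟨j, rfl⟩)
  have hxN : x ∈ N := by
    have h1 := (maximalIdeal T).iInf_pow_smul_eq_bot_of_isLocalRing (M := (Fin l → T) ⧸ N)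
      (maximalIdeal.isMaximal T).ne_top
    rw [← Submodule.Quotient.mk_eq_zero, ← Submodule.mem_bot T, ← h1, Submodule.mem_iInf]
    intro n
    obtain ⟨p, hp, q, hq, rfl⟩ := Submodule.mem_sup.1 (key n)
    have h2 : N.mkQ q ∈ (maximalIdeal T ^ n • ⊤ : Submodule T (Fin l → T)).map N.mkQ :=
      Submodule.mem_map_of_mem hq
    rw [Submodule.map_smul''] at h2
    rw [Submodule.Quotient.mk_add, (Submodule.Quotient.mk_eq_zero N).2 hp, zero_add]
    exact Submodule.smul_mono le_rfl le_top h2
  obtain ⟨y, hy⟩ := (Submodule.mem_span_range_iff_exists_fun T).1 hxN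
  refine ⟨m, fun i j => k j i, y, fun i => ?_, fun j => ?_⟩
  · rw [← hy]
    simp only [Finset.sum_apply, Algebra.smul_def, mul_comm]
    rfl
  · rw [← ha, ← LinearMap.mem_ker, ← hk]
    exact Submodule.subset_span ⟨j, rfl⟩

/-- presentation of a complete local ring over a coefficient ring. -/
theorem cohen_surj {O T : Type} [CommRing O] [CommRing T] [IsLocalRing T]
    [IsAdicComplete (maximalIdeal T) T] (s : O →+* T)
    (hs : ∀ t : T, ∃ c : O, t - s c ∈ maximalIdeal T) {n : ℕ} (x : Fin n → T)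
    (hx : sp x = maximalIdeal T) :
    ∃ π : MvPowerSeries (Fin n) O →+* T, Function.Surjective π ∧
      (∀ c, π (MvPowerSeries.C c) = s c) ∧ ∀ i, π (MvPowerSeries.X i) = x i := by
  obtain ⟨f, hC, hX⟩ := exists_ps_hom (maximalIdeal T) s x
    fun i => hx ▸ Ideal.subset_span ⟨i, rfl⟩
  have e : (Ideal.span (Set.range MvPowerSeries.X) : Ideal (MvPowerSeries (Fin n) O)).map f =
      maximalIdeal T := by
    rw [← hx, Ideal.map_span, ← Set.range_comp]
    congr 2
    funext i
    exact hX i
  refine ⟨f, surjective_of_mk_map_comp_surjective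
    (I := Ideal.span (Set.range MvPowerSeries.X)) f (haus := by rw [e]; infer_instance) fun y => ?_,
    hC, hX⟩
  obtain ⟨y, rfl⟩ := Ideal.Quotient.mk_surjective y
  obtain ⟨c, hc⟩ := hs y
  refine ⟨MvPowerSeries.C c, ?_⟩
  rw [RingHom.comp_apply, hC, eq_comm, Ideal.Quotient.eq, e]
  exact hc

theorem GonA_noeth {T k : Type} [CommRing T] [IsLocalRing T] [IsAdicComplete (maximalIdeal T) T]
    [Field k] [IsAlgClosed k] (ρ : T →+* k) (hρ : Function.Surjective ρ)
    (hfg : (maximalIdeal T).FG) : IsNoetherianRing T := by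
  obtain ⟨n, x, hx⟩ := Submodule.fg_iff_exists_fin_generating_family.1 hfg
  have hker : RingHom.ker ρ = maximalIdeal T :=
    eq_maximalIdeal (RingHom.ker_isMaximal_of_surjective ρ hρ)
  obtain ⟨p, hp⟩ := CharP.exists k
  rcases CharP.char_is_prime_or_zero k p with h | rfl
  · have : Fact p.Prime := ⟨h⟩
    have : IsAdicComplete (RingHom.ker ρ) T := by rw [hker]; infer_instance
    obtain ⟨s, hs⟩ := exists_witt_section p ρ hρ
    obtain ⟨π, hπ, -⟩ := cohen_surj s (fun t => ⟨WittVector.teichmuller p (ρ t), by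
      rw [← hker, RingHom.mem_ker, map_sub, hs, WittVector.teichmuller_coeff_zero, sub_self]⟩) x hx
    exact isNoetherianRing_of_surjective _ _ π hπ
  · have : CharZero k := CharP.charP_to_charZero k
    have : CharZero (ResidueField T) := RingHom.charZero
      (Ideal.Quotient.lift (maximalIdeal T) ρ (fun a ha => by rwa [← hker] at ha) :
        ResidueField T →+* k)
    obtain ⟨s, hs⟩ := exists_coef_field' (R := T)
    obtain ⟨π, hπ, -⟩ := cohen_surj s (fun t => ⟨residue T t, by
      rw [← residue_eq_zero_iff, map_sub, hs, sub_self]⟩) x hx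
    exact isNoetherianRing_of_surjective _ _ π hπ

/-- gonflement and completion. -/
theorem exists_gon (R : Type) [CommRing R] [IsLocalRing R] [IsNoetherianRing R] :
    ∃ (T : Type) (_ : CommRing T) (_ : IsLocalRing T) (_ : IsNoetherianRing T) (_ : Algebra R T),
      Module.Flat R T ∧ (maximalIdeal R).map (algebraMap R T) = maximalIdeal T ∧
      IsAdicComplete (maximalIdeal T) T ∧
      ∃ (k : Type) (_ : Field k) (_ : IsAlgClosed k) (ρ : T →+* k), Function.Surjective ρ := by
  obtain ⟨R'', _, _, π, hπ, hker, ⟨G⟩⟩ := exists_gonfl R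
  have hfg : ((maximalIdeal R).map (algebraMap R R'')).FG :=
    Ideal.FG.map (IsNoetherian.noetherian _) _
  have hmax : ((maximalIdeal R).map (algebraMap R R'')).IsMaximal :=
    hker ▸ RingHom.ker_isMaximal_of_surjective π hπ
  have htr := trBij_completion _ hfg
  set 𝔪 := (maximalIdeal R).map (algebraMap R R'') with h𝔪
  have h1 := AdicCompletion.isMaximal_map_of_le 𝔪 𝔪 le_rfl hfg
  have h2 := AdicCompletion.isAdicComplete_self 𝔪 hfg
  have h3 : IsLocalRing (AdicCompletion 𝔪 R'') :=
    isLocalRing_of_isAdicComplete_maximal (𝔪.map (algebraMap R'' (AdicCompletion 𝔪 R'')))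
  have h4 := eq_maximalIdeal h1
  have h5 : IsAdicComplete (maximalIdeal (AdicCompletion 𝔪 R'')) (AdicCompletion 𝔪 R'') := h4 ▸ h2
  let e := RingEquiv.ofBijective _ (htr.bijective (pow_one 𝔪).le)
  let ρ : R'' ⧸ 𝔪 →+* AlgebraicClosure (ResidueField R) :=
    Ideal.Quotient.lift 𝔪 π fun a ha => by rwa [← hker] at ha
  have hρ : Function.Surjective ρ := Ideal.Quotient.lift_surjective_of_surjective _ _ hπ
  have hρ' : Function.Surjective (ρ.comp (e.symm.toRingHom.comp (Ideal.Quotient.mk _))) :=
    hρ.comp (e.symm.surjective.comp Ideal.Quotient.mk_surjective)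
  have hm : (maximalIdeal R).map (algebraMap R (AdicCompletion 𝔪 R'')) =
      maximalIdeal (AdicCompletion 𝔪 R'') := by
    rw [← h4, IsScalarTower.algebraMap_eq R R'' (AdicCompletion 𝔪 R''), ← Ideal.map_map]
  have h6 : IsNoetherianRing (AdicCompletion 𝔪 R'') := GonA_noeth _ hρ' (h4 ▸ hfg.map _)
  have : Module.Free R R'' := Module.Free.of_basis G.b
  have h7 : ∀ n, (maximalIdeal R ^ n).map (algebraMap R (AdicCompletion 𝔪 R'')) =
      (𝔪 ^ n).map (algebraMap R'' (AdicCompletion 𝔪 R'')) := fun n => by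
    rw [IsScalarTower.algebraMap_eq R R'' (AdicCompletion 𝔪 R''), ← Ideal.map_map, h𝔪,
      ← Ideal.map_pow]
  refine ⟨AdicCompletion 𝔪 R'', inferInstance, h3, h6, inferInstance,
    flat_of_trunc (F := R'') (maximalIdeal R) hm.le
      (IsScalarTower.toAlgHom R R'' (AdicCompletion 𝔪 R'')).toLinearMap
      (fun n t => ?_) fun n x hx => ?_, hm, h5, _, inferInstance, inferInstance, _, hρ'⟩
  · rw [h7]
    exact trunc_surj (htr n) t
  · rw [h7] at hx
    rw [Ideal.smul_top_eq_map, Submodule.restrictScalars_mem, Ideal.map_pow, ← h𝔪,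
      ← Ideal.Quotient.eq_zero_iff_mem]
    refine (htr n).1 ?_
    rw [map_zero, Ideal.quotientMap_mk, Ideal.Quotient.eq_zero_iff_mem]
    exact hx

end Crest.Agent.R188
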