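import Crest.Agent.R188.Prod

/-!
# R188 / Indep

The Euler characteristic of an admissible system only depends on the types.
-/

set_option autoImplicit false
set_option linter.unusedSectionVars false
set_option linter.unusedVariables false

noncomputable section

namespace Crest.Agent.R188

open Filter
open Crest.Agent.R183 (Zc Bd mact gr Htpy)
open scoped TensorProduct

variable {T : Type} [CommRing T] {K σ : Type} [Field K] [Algebra T K] [Fintype σ] [DecidableEq σ]
  {S : Sys K σ} {𝔶 : Ideal T} {ν : AddFn T} {n : ℕ}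

section Generic
variable {C : FCx T K σ}

theorem indep_iso1 (L : List (K × (σ → ℤ))) (x : K) (δ : σ → ℤ) :
    FCx.Iso ((C.kos L).cone x δ) ((C.cone x δ).kos L) := by
  have h := FCx.iso_perm (C := C) (List.perm_append_singleton (x, δ) L).symm
  rw [FCx.kos_append] at h
  exact h

theorem indep_iso2 (L : List (K × (σ → ℤ))) (x : K) (δ : σ → ℤ) :
    FCx.Iso ((C.cone x δ).kos L) ((C.kos L).cone x δ) := by
  have h := FCx.iso_perm (C := C) (List.perm_append_singleton (x, δ) L)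
  rw [FCx.kos_append] at h
  exact h

theorem indep_gnh_kos {w : K} {δ : σ → ℤ} (h : C.GNH w δ) (L : List (K × (σ → ℤ))) :
    (C.kos L).GNH w δ := by
  induction L with
  | nil => exact h
  | cons p L ih => exact ih.cone p.1 p.2

theorem indep_sec_cons {p : K × (σ → ℤ)} {L : List (K × (σ → ℤ))} :
    S.Sec T (p :: L) ↔ (0 ≤ p.2 ∧ p.1 ∈ S.L T p.2) ∧ S.Sec T L := List.forall_mem_cons

theorem indep_mul_mem {x y : K} {δ ε : σ → ℤ} (hδ : 0 ≤ δ) (hx : x ∈ S.L T δ) (hε : 0 ≤ ε)
    (hy : y ∈ S.L T ε) : x * y ∈ S.L T (δ + ε) := by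
  rw [S.L_add hδ hε]
  exact Submodule.mul_mem_mul hx hy

/-- adding multiples of a null-homotopic section does not change the Koszul complex. -/
theorem indep_iso_add {α : Type} (hC : C.WF S) {v : K} {ε : σ → ℤ} (hv : C.GNH v ε)
    (x c : α → K) (δ : α → σ → ℤ) (Q : List α)
    (h1 : S.Sec T (Q.map fun p => (x p, ε + δ p))) (h2 : S.Sec T (Q.map fun p => (c p, δ p))) :
    FCx.Iso (C.kos (Q.map fun p => (x p + c p * v, ε + δ p)))
      (C.kos (Q.map fun p => (x p, ε + δ p))) := by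
  induction Q with
  | nil => exact FCx.Iso.refl C
  | cons p Q ih =>
    rw [List.map_cons, indep_sec_cons] at h1 h2
    have h3 := (ih h1.2 h2.2).cone (x p + c p * v) (ε + δ p)
    have h4 := FCx.GNH.mul S (hC.kos S h1.2) (indep_gnh_kos hv _) h2.1.1 h2.1.2
    exact h3.trans (h4.iso_cone (x p))

theorem indep_sec_mul {v : K} {ε : σ → ℤ} (hε : 0 ≤ ε) (hv : v ∈ S.L T ε)
    {Z : List (K × (σ → ℤ))} (hZ : S.Sec T Z) :
    S.Sec T (Z.map fun p => (p.1 * v, p.2 + ε)) := by
  intro q hq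
  obtain ⟨p, hp, rfl⟩ := List.mem_map.1 hq
  exact ⟨add_nonneg (hZ p hp).1 hε, indep_mul_mem (hZ p hp).1 (hZ p hp).2 hε hv⟩

/-- removing a factor which does not vanish on the support. -/
theorem indep_remove [IsNoetherianRing T] {v : K} {ε : σ → ℤ} (hε : 0 ≤ ε) (hv : v ∈ S.L T ε)
    (Z : List (K × (σ → ℤ))) : ∀ C : FCx T K σ, C.WF S →
      (∀ χ, C.NH S χ 1 ∨ v / S.a χ ε = 1) → S.Sec T Z → (C.kos Z).Gd ν →
      (C.kos (Z.map fun p => (p.1 * v, p.2 + ε))).Gd ν ∧
        (C.kos (Z.map fun p => (p.1 * v, p.2 + ε))).P ν =ᶠ[atTop] (C.kos Z).P ν := by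
  induction Z with
  | nil => exact fun C _ _ _ g => ⟨g, EventuallyEq.rfl⟩
  | cons z Z ih =>
    intro C hC hn hZ g
    rw [indep_sec_cons] at hZ
    obtain ⟨⟨hz0, hz⟩, hZ⟩ := hZ
    have hZ' := indep_sec_mul hε hv hZ
    have wC := hC.cone S hz0 hz
    have i1 := (indep_iso1 (C := C) Z z.1 z.2).P (ν := ν) S ((hC.kos S hZ).cone S hz0 hz)
      (wC.kos S hZ)
    have h1 := ih (C.cone z.1 z.2) wC (fun χ => (hn χ).imp_left fun h => h.cone S z.1 z.2) hZ
      (i1.1.1 g)
    have wD := hC.kos S hZ'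
    have i2 := (indep_iso2 (C := C) (Z.map fun p => (p.1 * v, p.2 + ε)) z.1 z.2).P (ν := ν) S
      (wC.kos S hZ') (wD.cone S hz0 hz)
    have h0 := FCx.P_zero (ν := ν) S (wD.cone S hε hv) fun χ => by
      rcases hn χ with h | h
      · exact (FCx.nh_kos S _ (Or.inl h)).cone S v ε
      · have := (FCx.gnh_cone_self (C := C.kos (Z.map fun p => (p.1 * v, p.2 + ε))) v ε).nh S χ
        rwa [h] at this
    have h2 := FCx.P_cone_mul S wD hz0 hz hε hv (i2.1.1 h1.1) h0.1
    refine ⟨h2.1, h2.2.trans ?_⟩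
    have h3 : act (TT (-z.2)) (((C.kos (Z.map fun p => (p.1 * v, p.2 + ε))).cone v ε).P ν)
        =ᶠ[atTop] 0 := by
      refine (act_congr _ h0.2).trans (Eventually.of_forall fun k => ?_)
      rw [act_TT]
      rfl
    have h4 := i2.2.symm.trans (h1.2.trans i1.2.symm)
    filter_upwards [h3, h4] with k e3 e4
    rw [Pi.add_apply, e3, e4]
    simp only [Pi.zero_apply, add_zero]
    rfl

end Generic

section Line
variable {K' : Type} [Field K'] [Algebra K K'] [Algebra T K'] [IsScalarTower T K K']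
  {u : Fin 1 → K'} (hu : AlgebraicIndependent K u)

theorem indep_ee_nonneg {τ : Type} [DecidableEq τ] (j : τ) : (0 : τ → ℤ) ≤ ee j := by
  intro i
  by_cases h : i = j
  · subst h; simp
  · simp [h]

theorem indep_ext_add (δ : σ → ℤ) : ext δ 0 + ee (none : Option σ) = ext δ 1 := by
  funext o
  cases o <;> simp [ext]

theorem indep_gens {v : K'} : v ∈ (S.prod u hu).gens none ↔ v = 1 ∨ v = u 0 := by
  simp only [Sys.prod, Option.elim, Finset.mem_insert, Finset.mem_image, Finset.mem_univ, true_and]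
  refine or_congr Iff.rfl ⟨?_, fun h => ⟨0, h.symm⟩⟩
  rintro ⟨i, hi⟩
  rw [Subsingleton.elim i 0] at hi
  exact hi.symm

theorem indep_one_mem : (1 : K') ∈ (S.prod u hu).gens none := (indep_gens hu).2 (Or.inl rfl)

theorem indep_u_mem : u 0 ∈ (S.prod u hu).gens none := (indep_gens hu).2 (Or.inr rfl)

theorem indep_chart (χ : (S.prod u hu).Chart) : (χ none : K') = 1 ∨ (χ none : K') = u 0 :=
  (indep_gens hu).1 (χ none).2

theorem indep_mem_L {v : K'} (hv : v ∈ (S.prod u hu).gens none) :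
    v ∈ (S.prod u hu).L T (ee none) := by
  rw [Sys.L_ee]
  exact Submodule.subset_span hv

/-- the cone of `v`, `{v, v'} = {1, u}`, on the Koszul complex of `v' z_i`. -/
theorem indep_side (h : Ctx T S 𝔶 ν n) {v v' : K'} (hv : v ∈ (S.prod u hu).gens none)
    (hv' : v' ∈ (S.prod u hu).gens none)
    (hvv : ∀ χ : (S.prod u hu).Chart, (χ none : K') = v ∨ (χ none : K') = v')
    {L : List (K × (σ → ℤ))} (s : S.Sec T L) (a : S.AdmL T 𝔶 L) :
    ((((S.prod u hu).line T 0).cone v (ee none)).kos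
      ((pullL K' L).map fun p => (p.1 * v', p.2 + ee none))).P ν =ᶠ[atTop]
      pullF 0 (((S.line T 0).kos L).P ν) := by
  haveI := h.noeth
  have e0 := indep_ee_nonneg (none : Option σ)
  have w0 := FCx.wf_line (T := T) (S.prod u hu) 0
  have s' := s.pull hu
  have wL := w0.kos _ s'
  have g : ((S.line T 0).kos L).Gd ν :=
    (FCx.adm_kos S a).gd S h.good ((FCx.wf_line S 0).kos S s)
  have g' : (((S.prod u hu).line T 0).kos (pullL K' L)).Gd ν :=
    (FCx.adm_kos _ (a.pull hu s)).gd _ h.good wL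
  have h1 := FCx.P_cone _ wL g' e0 (indep_mem_L hu hv)
  have wv := w0.cone _ e0 (indep_mem_L hu hv)
  have i1 := (indep_iso1 (C := (S.prod u hu).line T 0) (pullL K' L) v (ee none)).P (ν := ν) _
    (wL.cone _ e0 (indep_mem_L hu hv)) (wv.kos _ s')
  have h2 := indep_remove (ν := ν) e0 (indep_mem_L hu hv') (pullL K' L) _ wv (fun χ => by
    have hne : (χ none : K') ≠ 0 := fun h0 => (S.prod u hu).nz none (h0 ▸ (χ none).2)
    rcases hvv χ with e | e
    · left
      have := (FCx.gnh_cone_self (C := (S.prod u hu).line T 0) v (ee none)).nh _ χ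
      have e1 : v / (χ none : K') = 1 := by rw [← e, div_self hne]
      rwa [Sys.a_ee, e1] at this
    · right
      rw [Sys.a_ee, ← e, div_self hne]) s' (i1.1.1 h1.1)
  refine h2.2.trans (i1.2.symm.trans (h1.2.trans ?_))
  refine (act_congr _ (P_pull hu L s g)).trans ?_
  have := act_pow_pullF (r := 1) (((S.line T 0).kos L).P ν)
  rwa [pow_one] at this

/-- the part of `P_eq_of_line` that does not use the admissibility of the second list. -/
theorem indep_core (h : Ctx T S 𝔶 ν n) {α : Type} (x y : α → K) (δ : α → σ → ℤ) (Q : List α)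
    (s1 : S.Sec T (Q.map fun p => (x p, δ p))) (s2 : S.Sec T (Q.map fun p => (y p, δ p)))
    (a1 : S.AdmL T 𝔶 (Q.map fun p => (x p, δ p)))
    (a3 : (S.prod u hu).AdmL T 𝔶 (Q.map fun p =>
      (algebraMap K K' (x p) + u 0 * algebraMap K K' (y p), ext (δ p) 1))) :
    pullF 0 (((S.line T 0).kos (Q.map fun p => (x p, δ p))).P ν) =ᶠ[atTop]
      ((((S.prod u hu).line T 0).cone 1 (ee none)).kos
        ((pullL K' (Q.map fun p => (y p, δ p))).map fun p => (p.1 * u 0, p.2 + ee none))).P ν := by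
  haveI := h.noeth
  have e0 := indep_ee_nonneg (none : Option σ)
  have w0 := FCx.wf_line (T := T) (S.prod u hu) 0
  have m1 := indep_mem_L (T := T) hu (indep_one_mem (S := S) hu)
  have mu := indep_mem_L (T := T) hu (indep_u_mem (S := S) hu)
  have s1' := s1.pull hu
  have s2' := s2.pull hu
  have t1 := indep_sec_mul e0 m1 s1'
  have t2 := indep_sec_mul e0 mu s2'
  have e1 : ((pullL K' (Q.map fun p => (x p, δ p))).map fun p => (p.1 * 1, p.2 + ee none)) =
      Q.map fun p => (algebraMap K K' (x p), ee none + ext (δ p) 0) := by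
    simp only [pullL, List.map_map, Function.comp_def, mul_one, add_comm]
  have e2 : ((pullL K' (Q.map fun p => (y p, δ p))).map fun p => (p.1 * u 0, p.2 + ee none)) =
      Q.map fun p => (algebraMap K K' (y p) * u 0, ee none + ext (δ p) 0) := by
    simp only [pullL, List.map_map, Function.comp_def, add_comm]
  have e3 : pullL K' (Q.map fun p => (x p, δ p)) =
      Q.map fun p => (algebraMap K K' (x p), ext (δ p) 0) := by
    simp only [pullL, List.map_map, Function.comp_def]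
  have e4 : pullL K' (Q.map fun p => (y p, δ p)) =
      Q.map fun p => (algebraMap K K' (y p), ext (δ p) 0) := by
    simp only [pullL, List.map_map, Function.comp_def]
  set W := Q.map fun p => (algebraMap K K' (x p) + u 0 * algebraMap K K' (y p), ext (δ p) 1)
    with hW
  have eW1 : W = Q.map fun p =>
      (algebraMap K K' (x p) + algebraMap K K' (y p) * u 0, ee none + ext (δ p) 0) := by
    refine List.map_congr_left fun p _ => ?_
    rw [add_comm (ee none), indep_ext_add, mul_comm]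
  have eW2 : W = Q.map fun p =>
      (algebraMap K K' (y p) * u 0 + algebraMap K K' (x p) * 1, ee none + ext (δ p) 0) := by
    refine List.map_congr_left fun p _ => ?_
    rw [add_comm (ee none), indep_ext_add, mul_comm, mul_one, add_comm]
  have sW : (S.prod u hu).Sec T W := by
    rw [e1] at t1
    rw [e2] at t2
    rw [eW1]
    intro q hq
    obtain ⟨p, hp, rfl⟩ := List.mem_map.1 hq
    have b1 := t1 _ (List.mem_map_of_mem hp)
    have b2 := t2 _ (List.mem_map_of_mem hp)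
    exact ⟨b1.1, add_mem b1.2 b2.2⟩
  have wW := w0.kos _ sW
  have gW : (((S.prod u hu).line T 0).kos W).Gd ν := (FCx.adm_kos _ a3).gd _ h.good wW
  have c1 := FCx.P_cone _ wW gW e0 m1
  have cu := FCx.P_cone _ wW gW e0 mu
  have w1 := w0.cone _ e0 m1
  have wu := w0.cone _ e0 mu
  have i1 := (indep_iso1 (C := (S.prod u hu).line T 0) W 1 (ee none)).P (ν := ν) _
    (wW.cone _ e0 m1) (w1.kos _ sW)
  have iu := (indep_iso1 (C := (S.prod u hu).line T 0) W (u 0) (ee none)).P (ν := ν) _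
    (wW.cone _ e0 mu) (wu.kos _ sW)
  have j1 := indep_iso_add w1 (FCx.gnh_cone_self 1 (ee none))
    (fun p => algebraMap K K' (y p) * u 0) (fun p => algebraMap K K' (x p))
    (fun p => ext (δ p) 0) Q (e2 ▸ t2) (e3 ▸ s1')
  have ju := indep_iso_add wu (FCx.gnh_cone_self (u 0) (ee none))
    (fun p => algebraMap K K' (x p)) (fun p => algebraMap K K' (y p))
    (fun p => ext (δ p) 0) Q (e1 ▸ t1) (e4 ▸ s2')
  rw [← eW2, ← e2] at j1
  rw [← eW1, ← e1] at ju
  have k1 := j1.P (ν := ν) _ (w1.kos _ sW) (w1.kos _ t2)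
  have ku := ju.P (ν := ν) _ (wu.kos _ sW) (wu.kos _ t1)
  have hs := indep_side hu h (indep_u_mem hu) (indep_one_mem hu)
    (fun χ => (indep_chart hu χ).symm) s1 a1
  exact hs.symm.trans (ku.2.symm.trans (iu.2.symm.trans (cu.2.trans
    (c1.2.symm.trans (i1.2.trans k1.2)))))

theorem indep_pullF_inj {f g : (σ → ℤ) → ℝ} (h : pullF 0 f =ᶠ[atTop] pullF 0 g) :
    f =ᶠ[atTop] g := by
  have h1 : pullF 0 (f - g) =ᶠ[atTop] 0 := by
    filter_upwards [h] with k hk
    simp only [pullF, Pi.sub_apply, Pi.zero_apply] at hk ⊢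
    rw [mul_sub, hk, sub_self]
  filter_upwards [pullF_zero_eq h1] with k hk
  exact sub_eq_zero.1 hk

end Line

/-- On `S × ℙ¹` (`K' = RatFunc K` or `FractionRing (MvPolynomial (Fin 1) K)`, `u` the variable, `e₀ = ee none`).
If `W = (x_i + u y_i, δ_i + e₀)_i` is admissible then `cone u` and `cone 1` of `kos W` have the same `P`
(`P_cone`).  By `iso_perm`, `GNH.iso_cone` these are `kos (x_i, δ_i + e₀) (cone u)` and
`kos (u y_i, δ_i + e₀) (cone 1)`.  Remove the factors `1`, `u` of type `e₀` one at a time (`P_cone_mul`; the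
error term contains both `(1, e₀)` and `(u, e₀)`, so `P_zero` applies); finish with `P_pull`,
`act_pow_pullF`. -/
theorem P_eq_of_line (h : Ctx T S 𝔶 ν n) {K' : Type} [Field K'] [Algebra K K'] [Algebra T K']
    [IsScalarTower T K K'] {u : Fin 1 → K'} (hu : AlgebraicIndependent K u)
    (Q : List (K × K × (σ → ℤ)))
    (s1 : S.Sec T (Q.map fun p => (p.1, p.2.2))) (s2 : S.Sec T (Q.map fun p => (p.2.1, p.2.2)))
    (a1 : S.AdmL T 𝔶 (Q.map fun p => (p.1, p.2.2))) (a2 : S.AdmL T 𝔶 (Q.map fun p => (p.2.1, p.2.2)))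
    (a3 : (S.prod u hu).AdmL T 𝔶 (Q.map fun p =>
      (algebraMap K K' p.1 + u 0 * algebraMap K K' p.2.1, ext p.2.2 1))) :
    ((S.line T 0).kos (Q.map fun p => (p.1, p.2.2))).P ν =ᶠ[atTop]
      ((S.line T 0).kos (Q.map fun p => (p.2.1, p.2.2))).P ν := by
  refine indep_pullF_inj ?_
  exact (indep_core hu h (fun p : K × K × (σ → ℤ) => p.1) (fun p => p.2.1) (fun p => p.2.2) Q
    s1 s2 a1 a3).trans (indep_side hu h (indep_one_mem hu) (indep_u_mem hu) (indep_chart hu) s2 a2)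

section Choose
variable {K' : Type} [Field K'] [Algebra K K'] [Algebra T K'] [IsScalarTower T K K']
  {u : Fin 1 → K'} (hu : AlgebraicIndependent K u)

theorem indep_div_mem {T : Type} [CommRing T] [Algebra T K'] (χ : (S.prod u hu).Chart) {v : K'} (hv : v ∈ (S.prod u hu).gens none) :
    v / (χ none : K') ∈ (S.prod u hu).O T χ :=
  Algebra.subset_adjoin ⟨none, v, hv, rfl⟩

/-- the function `u / χ none` on a chart. -/
def indepE (T : Type) [CommRing T] [Algebra T K'] (χ : (S.prod u hu).Chart) :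
    (S.prod u hu).O T χ := ⟨u 0 / (χ none : K'), indep_div_mem hu χ (indep_u_mem hu)⟩

/-- the function `1 / χ none` on a chart. -/
def indepF (T : Type) [CommRing T] [Algebra T K'] (χ : (S.prod u hu).Chart) :
    (S.prod u hu).O T χ := ⟨1 / (χ none : K'), indep_div_mem hu χ (indep_one_mem hu)⟩

theorem indep_step (h : Ctx T S 𝔶 ν n) (m : ℕ)
    (Z : ∀ t : (S.prod u hu).Chart × Bool, Set (PrimeSpectrum ((S.prod u hu).O T t.1)))
    (hZ : ∀ t, Small m (Z t)) (he : ∀ t, ∀ 𝔭 ∈ Z t, indepE hu T t.1 ∉ 𝔭.asIdeal)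
    (x : Bool → K) {δ : σ → ℤ} (hδ : 0 ≤ δ) (hx : ∀ b, x b ∈ S.L T δ) :
    ∃ y ∈ S.L T δ, ∀ t, Small (m - 1) {𝔭 ∈ Z t | ¬ (S.prod u hu).Nv t.1 𝔭
      ((algebraMap K K' (x t.2) + u 0 * algebraMap K K' y) / (S.prod u hu).a t.1 (ext δ 1))} := by
  haveI := h.noeth
  choose χ hχ1 hχ2 φ hφ1 hφ2 using fun χ' : (S.prod u hu).Chart =>
    Sys.exists_res (T := T) (𝔶 := 𝔶) hu χ'
  haveI : ∀ t : (S.prod u hu).Chart × Bool, IsNoetherianRing ((S.prod u hu).O T t.1) :=
    fun t => Sys.O_noeth _ t.1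
  obtain ⟨y, hy, hs⟩ := exists_section (S := S) h.consts hδ
    (fun t : (S.prod u hu).Chart × Bool => (S.prod u hu).O T t.1) (fun t => χ t.1)
    (fun t => φ t.1) (fun _ => m) Z hZ (fun t => indepE hu T t.1)
    (fun t => indepF hu T t.1 * φ t.1 ⟨x t.2 / S.a (χ t.1) δ, S.div_mem_O _ hδ (hx t.2)⟩) he
  refine ⟨y, hy, fun t => (hs t).mono le_rfl fun 𝔭 hp => ⟨hp.1, ?_⟩⟩
  by_contra hn
  refine hp.2 ?_
  have key : ((indepF hu T t.1 * φ t.1 ⟨x t.2 / S.a (χ t.1) δ, S.div_mem_O _ hδ (hx t.2)⟩ +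
      indepE hu T t.1 * φ t.1 ⟨y / S.a (χ t.1) δ, S.div_mem_O _ hδ hy⟩ :
        (S.prod u hu).O T t.1) : K') =
      (algebraMap K K' (x t.2) + u 0 * algebraMap K K' y) / (S.prod u hu).a t.1 (ext δ 1) := by
    rw [hχ2, zpow_one, Subalgebra.coe_add, Subalgebra.coe_mul, Subalgebra.coe_mul, hφ1, hφ1]
    simp only [indepE, indepF, map_div₀]
    ring
  rw [← key]
  exact ⟨Subtype.property _, hn⟩

theorem indep_generic (h : Ctx T S 𝔶 ν n) (m : ℕ)
    (Z : ∀ t : (S.prod u hu).Chart × Bool, Set (PrimeSpectrum ((S.prod u hu).O T t.1)))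
    (hZ : ∀ t, Small m (Z t)) (he : ∀ t, ∀ 𝔭 ∈ Z t, indepE hu T t.1 ∉ 𝔭.asIdeal)
    (R : List ((Bool → K) × (σ → ℤ))) (hR : ∀ p ∈ R, 0 ≤ p.2 ∧ ∀ b, p.1 b ∈ S.L T p.2) :
    ∃ R' : List (((Bool → K) × (σ → ℤ)) × K), R'.map Prod.fst = R ∧
      S.Sec T (R'.map fun p => (p.2, p.1.2)) ∧
      ∀ t : (S.prod u hu).Chart × Bool, Small (m - R.length)
        ((S.prod u hu).zer t.1 (Z t) (R'.map fun p =>
          (algebraMap K K' (p.1.1 t.2) + u 0 * algebraMap K K' p.2, ext p.1.2 1))) := by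
  induction R with
  | nil =>
    refine ⟨[], rfl, fun p hp => by simp at hp, fun t => (hZ t).mono (by simp) fun 𝔭 hp => hp.1⟩
  | cons r R ih =>
    obtain ⟨R', h1, h2, h3⟩ := ih fun p hp => hR p (List.mem_cons_of_mem _ hp)
    obtain ⟨hr0, hr⟩ := hR r List.mem_cons_self
    obtain ⟨y, hy, hs⟩ := indep_step hu h (m - R.length) _ h3 (fun t 𝔭 hp => he t 𝔭 hp.1) r.1 hr0 hr
    refine ⟨(r, y) :: R', by rw [List.map_cons, h1], ?_, fun t => ?_⟩
    · rw [List.map_cons, indep_sec_cons]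
      exact ⟨⟨hr0, hy⟩, h2⟩
    · refine (hs t).mono (by simp only [List.length_cons]; omega) fun 𝔭 hp => ?_
      obtain ⟨hp1, hp2⟩ := hp
      rw [List.map_cons, List.forall_mem_cons] at hp2
      exact ⟨⟨hp1, hp2.2⟩, hp2.1⟩

theorem indep_adm (h : Ctx T S 𝔶 ν n) {α : Type} (x y : α → K) (δ : α → σ → ℤ) (Q : List α)
    (s1 : S.Sec T (Q.map fun p => (x p, δ p))) (s2 : S.Sec T (Q.map fun p => (y p, δ p)))
    (a1 : S.AdmL T 𝔶 (Q.map fun p => (x p, δ p)))
    (hz : ∀ χ : (S.prod u hu).Chart, Small 0 ((S.prod u hu).zer χ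
      {𝔭 ∈ (S.prod u hu).U 𝔶 χ | indepE hu T χ ∉ 𝔭.asIdeal}
      (Q.map fun p => (algebraMap K K' (x p) + u 0 * algebraMap K K' (y p), ext (δ p) 1)))) :
    (S.prod u hu).AdmL T 𝔶 (Q.map fun p =>
      (algebraMap K K' (x p) + u 0 * algebraMap K K' (y p), ext (δ p) 1)) := by
  intro χ' 𝔓 hP
  by_cases he : indepE hu T χ' ∈ 𝔓.asIdeal
  · have h1 : (χ' none : K') = 1 := by
      refine (indep_chart hu χ').resolve_right fun e => 𝔓.2.ne_top ?_
      rw [Ideal.eq_top_iff_one]
      convert he using 1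
      refine Subtype.ext ?_
      simp only [OneMemClass.coe_one, indepE]
      rw [e, div_self (hu.ne_zero 0)]
    obtain ⟨χ, -, hχ2, φ, hφ1, hφ2⟩ := Sys.exists_res (T := T) (𝔶 := 𝔶) hu χ'
    obtain ⟨q, hq, hO, hnv⟩ := a1 χ _ ((hφ2 𝔓).1 hP)
    obtain ⟨p, hp, rfl⟩ := List.mem_map.1 hq
    refine ⟨_, List.mem_map_of_mem hp, ?_⟩
    have b2 := s2 _ (List.mem_map_of_mem hp)
    have key : ((φ ⟨x p / S.a χ (δ p), hO⟩ + indepE hu T χ' *
        φ ⟨y p / S.a χ (δ p), S.div_mem_O _ b2.1 b2.2⟩ : (S.prod u hu).O T χ') : K') =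
        (algebraMap K K' (x p) + u 0 * algebraMap K K' (y p)) /
          (S.prod u hu).a χ' (ext (δ p) 1) := by
      rw [hχ2, zpow_one, Subalgebra.coe_add, Subalgebra.coe_mul, hφ1, hφ1]
      simp only [indepE, map_div₀, h1]
      ring
    simp only
    rw [← key]
    refine ⟨Subtype.property _, fun hm => hnv ?_⟩
    exact (Ideal.add_mem_iff_left _ (Ideal.mul_mem_right _ _ he)).1 hm
  · by_contra hn
    have h0 := small_zero_iff.1 (hz χ')
    refine Set.eq_empty_iff_forall_notMem.1 h0 𝔓 ⟨⟨hP, he⟩, fun p hp hnv => hn ⟨p, hp, hnv⟩⟩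

end Choose

theorem indep_zip {α β : Type} (L₁ : List (α × β)) : ∀ L₂ : List (α × β),
    L₁.map Prod.snd = L₂.map Prod.snd → ∃ R : List ((Bool → α) × β),
      R.map (fun r => (r.1 true, r.2)) = L₁ ∧ R.map (fun r => (r.1 false, r.2)) = L₂ := by
  induction L₁ with
  | nil =>
    intro L₂ h
    refine ⟨[], rfl, ?_⟩
    simpa using h
  | cons p L₁ ih =>
    intro L₂ h
    cases L₂ with
    | nil => simp at h
    | cons q L₂ =>
      rw [List.map_cons, List.map_cons, List.cons.injEq] at h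
      obtain ⟨R, h1, h2⟩ := ih L₂ h.2
      refine ⟨(fun b => if b then p.1 else q.1, p.2) :: R, ?_, ?_⟩
      · rw [List.map_cons, h1]
        simp
      · rw [List.map_cons, h2, h.1]
        simp

/-- choose one generic list `y` for both lists (`exists_section`, one element at a time: on the chart
`χ' none = u` all of `U`, on the chart `χ' none = 1` the points of `U` where `u` does not vanish; these sets
are `Small (n + 1)`), then `P_eq_of_line`. -/
theorem P_indep (h : Ctx T S 𝔶 ν n) {L₁ L₂ : List (K × (σ → ℤ))}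
    (ht : L₁.map Prod.snd = L₂.map Prod.snd) (hl : n + 1 ≤ L₁.length) (s1 : S.Sec T L₁)
    (s2 : S.Sec T L₂) (a1 : S.AdmL T 𝔶 L₁) (a2 : S.AdmL T 𝔶 L₂) :
    ((S.line T 0).kos L₁).P ν =ᶠ[atTop] ((S.line T 0).kos L₂).P ν := by
  obtain ⟨R, rfl, rfl⟩ := indep_zip L₁ L₂ ht
  let K' := FractionRing (MvPolynomial (Fin 1) K)
  let u : Fin 1 → K' := fun i => algebraMap (MvPolynomial (Fin 1) K) K' (MvPolynomial.X i)
  have hu : AlgebraicIndependent K u :=
    (MvPolynomial.algebraicIndependent_X (Fin 1) K).map'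
      (f := IsScalarTower.toAlgHom K (MvPolynomial (Fin 1) K) K')
      (IsFractionRing.injective (MvPolynomial (Fin 1) K) K')
  have h' := h.prod hu
  obtain ⟨R', rfl, s, hs⟩ := indep_generic hu h (n + 1)
    (fun t => {𝔭 ∈ (S.prod u hu).U 𝔶 t.1 | indepE hu T t.1 ∉ 𝔭.asIdeal})
    (fun t => (h'.small t.1).mono le_rfl fun _ hp => hp.1) (fun t 𝔭 hp => hp.2) R (fun p hp => by
      have b1 := s1 _ (List.mem_map_of_mem hp)
      have b2 := s2 _ (List.mem_map_of_mem hp)
      refine ⟨b1.1, fun b => ?_⟩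
      cases b
      · exact b2.2
      · exact b1.2)
  have hl' : n + 1 - (R'.map Prod.fst).length = 0 := by
    rw [List.length_map] at hl
    omega
  rw [hl'] at hs
  simp only [List.map_map, Function.comp_def] at s1 s2 a1 a2 ⊢
  refine indep_pullF_inj ?_
  have c1 := indep_core hu h (fun p : ((Bool → K) × (σ → ℤ)) × K => p.1.1 true) (fun p => p.2)
    (fun p => p.1.2) R' s1 s a1 (indep_adm hu h _ _ _ R' s1 s a1 fun χ => hs (χ, true))
  have c2 := indep_core hu h (fun p : ((Bool → K) × (σ → ℤ)) × K => p.1.1 false) (fun p => p.2)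
    (fun p => p.1.2) R' s2 s a2 (indep_adm hu h _ _ _ R' s2 s a2 fun χ => hs (χ, false))
  exact c1.trans c2.symm

end Crest.Agent.R188
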