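import Crest.Agent.R188.Cone
import Crest.Agent.R188.Dev

/-! Row 188, part IV: Koszul complexes as iterated cones; positivity of Koszul multiplicities. -/

set_option autoImplicit false

namespace Crest.Agent.R188

open Crest.Agent.R183 IsLocalRing
open scoped ENNReal TensorProduct Pointwise

/-- the index type of the Koszul complex on `n` elements. -/
def Kι : ℕ → Type
  | 0 => Unit
  | n + 1 => Kι n ⊕ Kι n

instance Kι.fin : ∀ n, Fintype (Kι n)
  | 0 => inferInstanceAs (Fintype Unit)
  | n + 1 => letI := Kι.fin n; inferInstanceAs (Fintype (Kι n ⊕ Kι n))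

instance Kι.dec : ∀ n, DecidableEq (Kι n)
  | 0 => inferInstanceAs (DecidableEq Unit)
  | n + 1 => letI := Kι.dec n; inferInstanceAs (DecidableEq (Kι n ⊕ Kι n))

/-- degrees in the Koszul complex. -/
def Kdeg : ∀ n, Kι n → ℕ
  | 0 => fun _ => 0
  | n + 1 => cdg (Kdeg n)

variable {Λ : Type} [CommRing Λ]

/-- the Koszul differential. -/
def Kmat : ∀ xs : List Λ, Matrix (Kι xs.length) (Kι xs.length) Λ
  | [] => 0
  | x :: xs => cone x (Kmat xs)

/-- `xs` read from right to left is a weakly regular sequence on `Λ`. -/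
def RegL : List Λ → Prop
  | [] => True
  | x :: xs => RegL xs ∧ ∀ y, x * y ∈ Ideal.ofList xs → y ∈ Ideal.ofList xs

theorem koz_htpy_zero {ι : Type} [Fintype ι] [DecidableEq ι] (deg : ι → ℕ) (P : Matrix ι ι Λ) :
    Htpy deg P 0 := ⟨0, fun _ _ h => absurd rfl h, by simp⟩

theorem koz_htpy_add {ι : Type} [Fintype ι] [DecidableEq ι] {deg : ι → ℕ} {P : Matrix ι ι Λ}
    {a b : Λ} (ha : Htpy deg P a) (hb : Htpy deg P b) : Htpy deg P (a + b) := by
  obtain ⟨H, h1, h2⟩ := ha
  obtain ⟨H', h1', h2'⟩ := hb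
  refine ⟨H + H', fun i j h => ?_, ?_⟩
  · by_cases h0 : H i j = 0
    · apply h1' i j
      intro h3
      exact h (by simp [h0, h3])
    · exact h1 i j h0
  · rw [add_smul, ← h2, ← h2', Matrix.mul_add, Matrix.add_mul]
    abel

theorem koz_htpy_mul {ι : Type} [Fintype ι] [DecidableEq ι] {deg : ι → ℕ} {P : Matrix ι ι Λ}
    {a : Λ} (c : Λ) (ha : Htpy deg P a) : Htpy deg P (c * a) := by
  obtain ⟨H, h1, h2⟩ := ha
  refine ⟨c • H, fun i j h => ?_, ?_⟩
  · apply h1 i j
    intro h3
    exact h (by simp [h3])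
  · rw [mul_smul, ← h2, Matrix.mul_smul, Matrix.smul_mul, smul_add]

theorem koz_reg_iff (I : Ideal Λ) (x : Λ) :
    IsSMulRegular (Λ ⧸ I) x ↔ ∀ y, x * y ∈ I → y ∈ I := by
  rw [isSMulRegular_quotient_iff_mem_of_smul_mem]
  simp only [smul_eq_mul]

/-- `(Λ / I) / x = Λ / (x, I)`. -/
noncomputable def koz_equiv (I : Ideal Λ) (x : Λ) :
    QuotSMulTop x (Λ ⧸ I) ≃ₗ[Λ] Λ ⧸ (Ideal.span {x} ⊔ I) :=
  (Submodule.quotEquivOfEq _ _ (by
      rw [← Submodule.ideal_span_singleton_smul]
      rw [show (⊤ : Submodule Λ (Λ ⧸ I)) = (⊤ : Submodule Λ Λ).map I.mkQ by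
        rw [Submodule.map_top, Submodule.range_mkQ]]
      rw [← Submodule.map_smul'', smul_eq_mul, Ideal.mul_top])) ≪≫ₗ
    (Submodule.quotientQuotientEquivQuotientSup I (Ideal.span {x})) ≪≫ₗ
      Submodule.quotEquivOfEq _ _ (sup_comm _ _)

theorem Kmat_gcx (xs : List Λ) : GCx xs.length (Kdeg xs.length) (Kmat xs) := by
  induction xs with
  | nil => exact ⟨fun _ => le_rfl, fun _ _ h => absurd rfl h, Matrix.zero_mul _⟩
  | cons x xs ih => exact GCx_cone ih x

theorem Kmat_htpy (xs : List Λ) {y : Λ} (hy : y ∈ Ideal.ofList xs) :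
    Htpy (Kdeg xs.length) (Kmat xs) y := by
  induction xs generalizing y with
  | nil =>
    rw [Ideal.ofList_nil, Ideal.mem_bot] at hy
    subst hy
    exact koz_htpy_zero _ _
  | cons x xs ih =>
    rw [Ideal.ofList_cons] at hy
    obtain ⟨a, z, hz, rfl⟩ := Ideal.mem_span_singleton_sup.1 hy
    exact koz_htpy_add (koz_htpy_mul a (htpy_cone_self x)) (Htpy.cone (ih hz) x)

theorem Kmat_resol (xs : List Λ) (h : RegL xs) :
    Resol xs.length (Kdeg xs.length) (Kmat xs) (Λ ⧸ Ideal.ofList xs) := by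
  induction xs with
  | nil =>
    refine ⟨Kmat_gcx [], (Ideal.ofList ([] : List Λ)).mkQ ∘ₗ LinearMap.proj (() : Unit), ?_, ?_, ?_⟩
    · rw [eq_top_iff]
      intro q _
      obtain ⟨a, rfl⟩ := Submodule.mkQ_surjective _ q
      exact ⟨fun _ => a, mem_gr.2 fun b => ⟨trivial, fun h => absurd rfl h⟩, rfl⟩
    · apply le_antisymm
      · rintro v ⟨-, hv⟩
        have hv' : v (() : Unit) ∈ Ideal.ofList ([] : List Λ) :=
          (Submodule.Quotient.mk_eq_zero _).1 hv
        rw [Ideal.ofList_nil, Ideal.mem_bot] at hv'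
        have : v = 0 := funext fun _ => hv'
        rw [this]
        exact zero_mem _
      · rintro v ⟨w, -, rfl⟩
        have : mact (Kmat ([] : List Λ)) Λ w = 0 := by
          funext b
          rw [mact_apply]
          exact Finset.sum_eq_zero fun _ _ => zero_smul _ _
        rw [this]
        exact zero_mem _
    · intro j h1 h2
      simp only [List.length_nil, Nat.cast_zero, zero_add] at h2
      omega
  | cons x xs ih =>
    have h1 := Resol.cone (ih h.1) ((koz_reg_iff _ x).2 h.2)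
    exact PRes.congr h1 ((koz_equiv _ x) ≪≫ₗ
      Submodule.quotEquivOfEq _ _ (Ideal.ofList_cons x xs).symm)

theorem RegL.map_equiv {Λ' : Type} [CommRing Λ'] (e : Λ ≃+* Λ') {xs : List Λ} (h : RegL xs) :
    RegL (xs.map e) := by
  induction xs with
  | nil => trivial
  | cons x xs ih =>
    refine ⟨ih h.1, fun y hy => ?_⟩
    obtain ⟨y, rfl⟩ := e.surjective y
    have h1 : Ideal.ofList (xs.map e) = (Ideal.ofList xs).map (e : Λ →+* Λ') :=
      (Ideal.map_ofList (e : Λ →+* Λ') xs).symm
    have h2 : ∀ z : Λ, e z ∈ (Ideal.ofList xs).map (e : Λ →+* Λ') ↔ z ∈ Ideal.ofList xs := by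
      intro z
      exact Ideal.apply_mem_of_equiv_iff
    rw [h1, ← map_mul, h2] at hy
    rw [h1, h2]
    exact h.2 y hy

theorem regL_iff_isWeaklyRegular (xs : List Λ) :
    RegL xs ↔ RingTheory.Sequence.IsWeaklyRegular Λ xs.reverse := by
  induction xs with
  | nil => exact ⟨fun _ => .nil _ _, fun _ => trivial⟩
  | cons x xs ih =>
    rw [List.reverse_cons, RingTheory.Sequence.isWeaklyRegular_append_iff,
      RingTheory.Sequence.isWeaklyRegular_singleton_iff, ← ih]
    have h1 : (Ideal.ofList xs.reverse • ⊤ : Submodule Λ Λ) = Ideal.ofList xs := by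
      rw [smul_eq_mul, Ideal.mul_top]
      exact congrArg Ideal.span (Set.ext fun _ => List.mem_reverse)
    rw [(Submodule.quotEquivOfEq _ _ h1).isSMulRegular_congr x, koz_reg_iff]
    rfl

variable [IsLocalRing Λ] [IsNoetherianRing Λ]

theorem Kmat_ne_top (xs : List Λ) (M : Type) [AddCommGroup M] [Module Λ M]
    (hM : Phi (Ideal.ofList xs) M) (j : ℤ) : hl (lenFn Λ) (Kdeg xs.length) (Kmat xs) M j ≠ ⊤ := by
  obtain ⟨hf, c, hc⟩ := hM
  exact hl_ne_top_of_kill (I := Ideal.ofList xs)
    (fun a ha v hv => Htpy.smul_mem_Bt (Kmat_htpy xs ha) hv) (c := c) (by rwa [sup_comm])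

omit [IsNoetherianRing Λ] in
theorem koz_phi_surj {I : Ideal Λ} {M N : Type} [AddCommGroup M] [Module Λ M] [AddCommGroup N]
    [Module Λ N] (g : M →ₗ[Λ] N) (hg : Function.Surjective g) (h : Phi I M) : Phi I N := by
  obtain ⟨hf, c, hc⟩ := h
  exact ⟨Module.Finite.of_surjective g hg, c,
    hc.trans (sup_le_sup_left (LinearMap.annihilator_le_of_surjective g hg) _)⟩

theorem koz_phi_inj {I : Ideal Λ} {M N : Type} [AddCommGroup M] [Module Λ M] [AddCommGroup N]
    [Module Λ N] (g : N →ₗ[Λ] M) (hg : Function.Injective g) (h : Phi I M) : Phi I N := by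
  obtain ⟨hf, c, hc⟩ := h
  exact ⟨Module.Finite.of_injective g hg, c,
    hc.trans (sup_le_sup_left (LinearMap.annihilator_le_of_injective g hg) _)⟩

theorem koz_addOn (xs : List Λ) : AddOn (Ideal.ofList xs)
    fun M _ _ => chiG (lenFn Λ) xs.length (Kdeg xs.length) (Kmat xs) M := by
  intro M₁ M₂ M₃ _ _ _ _ _ _ f g hf hg hfg h
  exact chiG_add _ (Kmat_gcx xs) f g hf hg hfg (Kmat_ne_top xs M₁ (koz_phi_inj f hf h))
    (Kmat_ne_top xs M₃ (koz_phi_surj g hg h))

omit [IsLocalRing Λ] [IsNoetherianRing Λ] in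
theorem koz_sp (xs : List Λ) : sp (fun i : Fin xs.length => xs.get i) = Ideal.ofList xs := by
  refine congrArg Ideal.span (Set.ext fun a => ?_)
  simp [List.mem_iff_get]

omit [IsLocalRing Λ] [IsNoetherianRing Λ] in
theorem koz_dim {s : WithBot ℕ∞} {b : ℕ} (h : s + 1 = b) : ∃ a : ℕ, s = a ∧ a + 1 = b := by
  induction s using WithBot.recBotCoe with
  | bot => exact absurd h.symm (by simp)
  | coe s =>
    induction s using ENat.recTopCoe with
    | top =>
      exfalso
      have h1 : ((⊤ + 1 : ℕ∞) : WithBot ℕ∞) = ((b : ℕ∞) : WithBot ℕ∞) := h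
      have h2 := WithBot.coe_injective h1
      simp at h2
    | coe a =>
      refine ⟨a, rfl, ?_⟩
      have h1 : (((a : ℕ∞) + 1 : ℕ∞) : WithBot ℕ∞) = ((b : ℕ∞) : WithBot ℕ∞) := h
      have h2 := WithBot.coe_injective h1
      exact_mod_cast h2

/-- Koszul multiplicities vanish below, and are positive in, the expected dimension. -/
theorem kos_pos (xs : List Λ) (hxs : ∀ x ∈ xs, x ∈ maximalIdeal Λ) (M : Type) [AddCommGroup M]
    [Module Λ M] (hM : Phi (Ideal.ofList xs) M) :
    (Module.supportDim Λ M < xs.length →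
      chiG (lenFn Λ) xs.length (Kdeg xs.length) (Kmat xs) M = 0) ∧
    (Module.supportDim Λ M = xs.length →
      0 < chiG (lenFn Λ) xs.length (Kdeg xs.length) (Kmat xs) M) := by
  induction xs generalizing M with
  | nil =>
    have h0 : chiG (lenFn Λ) ([] : List Λ).length (Kdeg ([] : List Λ).length) (Kmat []) M =
        (hl (lenFn Λ) (Kdeg ([] : List Λ).length) (Kmat []) M 0).toReal := by
      simp [chiG, chi]
    constructor
    · intro hd
      have : Subsingleton M := by
        rw [← Module.supportDim_eq_bot_iff_subsingleton Λ M]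
        by_contra hne
        induction hs : Module.supportDim Λ M using WithBot.recBotCoe with
        | bot => exact hne hs
        | coe s =>
          rw [hs] at hd
          have h1 : ((s : ℕ∞) : WithBot ℕ∞) < ((0 : ℕ∞) : WithBot ℕ∞) := hd
          exact not_lt_bot (WithBot.coe_lt_coe.1 h1)
      rw [h0, hl_subsingleton, ENNReal.toReal_zero]
    · intro hd
      have : Nontrivial M := by
        rw [← Module.supportDim_ne_bot_iff_nontrivial Λ M, hd]
        exact WithBot.coe_ne_bot
      rw [h0]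
      refine ENNReal.toReal_pos ?_ (Kmat_ne_top [] M hM 0)
      rw [PRes.hl_zero_quot _ (Kmat_resol [] trivial), Ideal.ofList_nil, Submodule.bot_smul]
      intro h
      have h1 : Module.length Λ ↥((⊤ : Submodule Λ M).map (⊥ : Submodule Λ M).mkQ) = 0 := by
        simpa [LenFn.rel, lenFn] using h
      rw [Module.length_eq_zero_iff, Submodule.map_top, Submodule.range_mkQ] at h1
      have h2 : Subsingleton M :=
        ((Submodule.topEquiv ≪≫ₗ Submodule.quotEquivOfEqBot (⊥ : Submodule Λ M) rfl).symm.toEquiv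
          ).subsingleton
      exact not_subsingleton M h2
  | cons x xs ih =>
    have hxs' : ∀ y ∈ xs, y ∈ maximalIdeal Λ := fun y hy => hxs y (List.mem_cons_of_mem _ hy)
    have hx : x ∈ maximalIdeal Λ := hxs x List.mem_cons_self
    have key : ∀ 𝔮 : Ideal Λ, 𝔮.IsPrime →
        (∃ c : ℕ, maximalIdeal Λ ^ c ≤ Ideal.ofList (x :: xs) ⊔ 𝔮) → ∀ b : ℕ,
        ringKrullDim (Λ ⧸ 𝔮) = b →
        (b < (x :: xs).length →
          chiG (lenFn Λ) (x :: xs).length (Kdeg (x :: xs).length) (Kmat (x :: xs)) (Λ ⧸ 𝔮) = 0) ∧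
        (b = (x :: xs).length →
          0 < chiG (lenFn Λ) (x :: xs).length (Kdeg (x :: xs).length) (Kmat (x :: xs))
            (Λ ⧸ 𝔮)) := by
      rintro 𝔮 hq ⟨c, hc⟩ b hb
      rw [Ideal.ofList_cons] at hc
      by_cases hxq : x ∈ 𝔮
      · have hc' : maximalIdeal Λ ^ c ≤ Ideal.ofList xs ⊔ 𝔮 := by
          refine hc.trans (sup_le (sup_le ?_ le_sup_left) le_sup_right)
          exact le_sup_of_le_right ((Ideal.span_singleton_le_iff_mem _).2 hxq)
        have hphi : Phi (Ideal.ofList xs) (Λ ⧸ 𝔮) :=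
          ⟨inferInstance, c, by rwa [Ideal.annihilator_quotient]⟩
        have h0 := chiG_cone_eq_zero (lenFn Λ) (Kmat_gcx xs) x (Kmat_ne_top xs _ hphi)
        refine ⟨fun _ => h0, fun hbn => ?_⟩
        exfalso
        have h1 := dim_le_of_gen (fun i : Fin xs.length => xs.get i)
          (fun i => hxs' _ (List.get_mem xs i)) 𝔮 (c := c) (by rwa [koz_sp, sup_comm])
        rw [hb, hbn, List.length_cons] at h1
        have h2 : xs.length + 1 ≤ xs.length := by exact_mod_cast h1
        omega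
      · have hreg : IsSMulRegular (Λ ⧸ 𝔮) x :=
          (koz_reg_iff 𝔮 x).2 fun y hy => (hq.mem_or_mem hy).resolve_left hxq
        have h0 : chiG (lenFn Λ) (x :: xs).length (Kdeg (x :: xs).length) (Kmat (x :: xs))
            (Λ ⧸ 𝔮) = chiG (lenFn Λ) xs.length (Kdeg xs.length) (Kmat xs)
              (QuotSMulTop x (Λ ⧸ 𝔮)) := by
          rw [← chiG_of_le (lenFn Λ) (Kmat_gcx xs) (Nat.le_succ xs.length)]
          exact congrArg (chi 0 _)
            (funext fun j => hl_cone_of_regular (lenFn Λ) (Kmat_gcx xs) hreg j)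
        have hphi : Phi (Ideal.ofList xs) (QuotSMulTop x (Λ ⧸ 𝔮)) := by
          refine ⟨inferInstance, c, ?_⟩
          rw [(koz_equiv 𝔮 x).annihilator_eq, Ideal.annihilator_quotient]
          refine hc.trans (sup_le (sup_le ?_ le_sup_left) ?_)
          · exact le_sup_of_le_right le_sup_left
          · exact le_sup_of_le_right le_sup_right
        have hd := Module.supportDim_quotSMulTop_succ_eq_supportDim hreg hx
        rw [Module.supportDim_quotient_eq_ringKrullDim, hb] at hd
        obtain ⟨a, ha, hab⟩ := koz_dim hd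
        obtain ⟨i1, i2⟩ := ih hxs' _ hphi
        rw [h0, List.length_cons]
        rw [ha] at i1 i2
        refine ⟨fun h => i1 ?_, fun h => i2 ?_⟩
        · have : a < xs.length := by omega
          exact_mod_cast this
        · have : a = xs.length := by omega
          exact_mod_cast this
    exact ⟨devissage (koz_addOn (x :: xs)) _ (fun 𝔮 hq hc b hb => (key 𝔮 hq hc b hb).1) M hM,
      devissage_pos (koz_addOn (x :: xs)) _ key M hM⟩

end Crest.Agent.R188
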