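import Crest.Agent.R188.Ser2A
import Crest.Agent.R188.Ser1
import Crest.Agent.R188.Gon
import Crest.Agent.R188.Reg2

/-! Row 188, part IV: Serre's theorem for power series rings over a field. -/

set_option autoImplicit false

namespace Crest.Agent.R188

open Crest.Agent.R183 IsLocalRing
open scoped TensorProduct

/-- reduction to the diagonal, abstractly: `S → Λ` flat, `ev : Λ → S / 𝔭` a retraction up to
`S → S / 𝔭` whose kernel is generated by a regular sequence. -/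
theorem chiT_eq_kos {S Λ : Type} [CommRing S] [CommRing Λ] [Algebra S Λ] [Module.Flat S Λ] {d : ℕ}
    (𝔭 𝔮 : Ideal S) (h𝔮 : HasRes S d (S ⧸ 𝔮)) (ev : Λ →+* S ⧸ 𝔭)
    (hev : ∀ s, ev (algebraMap S Λ s) = Ideal.Quotient.mk 𝔭 s) (xs : List Λ) (hxs : RegL xs)
    (hlen : xs.length = d) (hker : RingHom.ker ev = Ideal.ofList xs) :
    (chiT S d (S ⧸ 𝔭) (S ⧸ 𝔮) : ℝ) =
      chiG (lenFn Λ) xs.length (Kdeg xs.length) (Kmat xs) (Λ ⧸ 𝔮.map (algebraMap S Λ)) := by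
  obtain ⟨ι, _, _, deg, P, hP⟩ := h𝔮
  subst hlen
  let _ : Algebra Λ (S ⧸ 𝔭) := ev.toAlgebra
  have : IsScalarTower S Λ (S ⧸ 𝔭) := IsScalarTower.of_algebraMap_eq fun s => (hev s).symm
  have hsurj : Function.Surjective (Algebra.linearMap Λ (S ⧸ 𝔭)) := fun y => by
    obtain ⟨s, rfl⟩ := Ideal.Quotient.mk_surjective y
    exact ⟨algebraMap S Λ s, hev s⟩
  have hk : Ideal.ofList xs = LinearMap.ker (Algebra.linearMap Λ (S ⧸ 𝔭)) := by
    rw [← hker]; rfl
  let e : (Λ ⧸ Ideal.ofList xs) ≃ₗ[Λ] S ⧸ 𝔭 :=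
    (Submodule.quotEquivOfEq _ _ hk).trans (LinearMap.quotKerEquivOfSurjective _ hsurj)
  have hsm : ∀ r : Λ, ∃ s : S, ∀ m : S ⧸ 𝔭, r • m = s • m := fun r => by
    obtain ⟨s, hs⟩ := Ideal.Quotient.mk_surjective (ev r)
    refine ⟨s, fun m => ?_⟩
    rw [Algebra.smul_def, Algebra.smul_def]
    exact congrArg (· * m) hs.symm
  rw [hP.chiT_eq (S ⧸ 𝔭), chiG, chiG]
  congr 1
  funext j
  rw [← hl_lenFn_map (Λ' := Λ) hsm j]
  exact balance (lenFn Λ) (hP.pres (j + 1)).baseChange_quot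
    (((Kmat_resol xs hxs).pres (j + 1)).congr e) (lt_add_one j) (lt_add_one j)

/-- the abstract form of the reduction to the diagonal. -/
theorem ser2_main {S Λ : Type} [CommRing S] [IsLocalRing S] [IsNoetherianRing S] [CommRing Λ]
    [IsLocalRing Λ] [IsNoetherianRing Λ] (φ : S →+* Λ) (hφ : φ.Flat) {d : ℕ} (𝔭 𝔮 : Ideal S)
    [Nontrivial (S ⧸ 𝔭)] (h𝔮 : HasRes S d (S ⧸ 𝔮)) (ev : Λ →+* S ⧸ 𝔭)
    (hev : ∀ s, ev (φ s) = Ideal.Quotient.mk 𝔭 s) (xs : List Λ) (hxs : RegL xs)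
    (hlen : xs.length = d) (hker : RingHom.ker ev = Ideal.ofList xs)
    (hm : (maximalIdeal S).map φ ≤ maximalIdeal Λ) {c : ℕ} (hc : maximalIdeal S ^ c ≤ 𝔭 ⊔ 𝔮)
    {a b : ℕ} (ha : ringKrullDim (Λ ⧸ (maximalIdeal S).map φ) = a)
    (hb : ringKrullDim (S ⧸ 𝔮) = b) :
    (a + b < d → chiT S d (S ⧸ 𝔭) (S ⧸ 𝔮) = 0) ∧ (a + b = d → 0 < chiT S d (S ⧸ 𝔭) (S ⧸ 𝔮)) := by
  let _ : Algebra S Λ := φ.toAlgebra
  have : Module.Flat S Λ := hφ
  have hchi := chiT_eq_kos 𝔭 𝔮 h𝔮 ev hev xs hxs hlen hker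
  have hsurj : Function.Surjective ev := fun y => by
    obtain ⟨s, rfl⟩ := Ideal.Quotient.mk_surjective y
    exact ⟨φ s, hev s⟩
  have hkm : RingHom.ker ev ≤ maximalIdeal Λ := le_maximalIdeal (RingHom.ker_ne_top ev)
  have hmem : ∀ x ∈ xs, x ∈ maximalIdeal Λ := fun x hx =>
    hkm (hker ▸ Ideal.subset_span hx)
  have hmax : (maximalIdeal Λ).map ev ≤ (maximalIdeal S).map (Ideal.Quotient.mk 𝔭) := by
    rw [Ideal.map_le_iff_le_comap]
    intro y hy
    obtain ⟨s, hs⟩ := Ideal.Quotient.mk_surjective (ev y)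
    rw [Ideal.mem_comap, ← hs]
    refine Ideal.mem_map_of_mem _ ?_
    by_contra hs'
    have h1 : y - φ s ∈ maximalIdeal Λ := hkm (by rw [RingHom.mem_ker, map_sub, hev, hs, sub_self])
    have h2 : φ s ∈ maximalIdeal Λ := by simpa using sub_mem hy h1
    exact (mem_maximalIdeal _).1 h2 ((notMem_maximalIdeal.1 hs').map φ)
  have hcomp : ev.comp φ = Ideal.Quotient.mk 𝔭 := RingHom.ext hev
  have hPhi : Phi (Ideal.ofList xs) (Λ ⧸ 𝔮.map (algebraMap S Λ)) := by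
    refine ⟨inferInstance, c, ?_⟩
    rw [Ideal.annihilator_quotient, ← hker, sup_comm, RingHom.ker_eq_comap_bot,
      ← Ideal.comap_map_of_surjective ev hsurj, ← Ideal.map_le_iff_le_comap, Ideal.map_pow]
    refine (Ideal.pow_right_mono hmax c).trans ?_
    rw [← Ideal.map_pow]
    refine (Ideal.map_mono hc).trans ?_
    rw [Ideal.map_sup, Ideal.map_quotient_self, bot_sup_eq, ← hcomp, ← Ideal.map_map]
    exact le_rfl
  have hdim : Module.supportDim Λ (Λ ⧸ 𝔮.map (algebraMap S Λ)) = (b + a : ℕ) := by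
    rw [Module.supportDim_quotient_eq_ringKrullDim]
    exact dim_flat hm 𝔮 hb ha
  obtain ⟨h0, h1⟩ := kos_pos xs hmem _ hPhi
  rw [hdim, ← hchi, hlen] at h0 h1
  refine ⟨fun h => ?_, fun h => ?_⟩
  · exact_mod_cast h0 (by exact_mod_cast (by omega : b + a < d))
  · exact_mod_cast h1 (by exact_mod_cast (by omega : b + a = d))

/-- Serre's vanishing and positivity theorems for `k⟦z₁, …, z_d⟧`. -/
theorem serre_ps (k : Type) [Field k] (d : ℕ) (𝔭 𝔮 : Ideal (MvPowerSeries (Fin d) k)) :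
    PairCase (MvPowerSeries (Fin d) k) d 𝔭 𝔮 := by
  rintro ⟨c, hc⟩ a b ha hb
  have : Nontrivial (MvPowerSeries (Fin d) k ⧸ 𝔭) := by
    by_contra hn
    rw [not_nontrivial_iff_subsingleton] at hn
    rw [ringKrullDim_eq_bot_of_subsingleton] at ha
    exact absurd ha (by simp)
  have : IsLocalRing (MvPowerSeries (Fin d) k ⧸ 𝔭) :=
    IsLocalRing.of_surjective' (Ideal.Quotient.mk 𝔭) Ideal.Quotient.mk_surjective
  have := isAdicComplete_ps (D := k) (σ := Fin d)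
  have := isAdicComplete_quot 𝔭
  obtain ⟨hreg, hdim⟩ := reg_ps k d
  have hmS : maximalIdeal (MvPowerSeries (Fin d) k) = sp MvPowerSeries.X := by
    rw [maximalIdeal_ps, maximalIdeal_eq_bot, Ideal.map_bot, bot_sup_eq]
  have hz : ∀ i, Ideal.Quotient.mk 𝔭 (MvPowerSeries.X i) ∈
      maximalIdeal (MvPowerSeries (Fin d) k ⧸ 𝔭) := fun i => by
    rw [← map_maximalIdeal_of_surjective (Ideal.Quotient.mk 𝔭) Ideal.Quotient.mk_surjective, hmS]
    exact Ideal.mem_map_of_mem _ (Ideal.subset_span ⟨i, rfl⟩)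
  obtain ⟨hxs, ev, hC, hX, hker⟩ := exists_diagonal _ hz
  have hmap : (maximalIdeal (MvPowerSeries (Fin d) k)).map
      (MvPowerSeries.map (σ := Fin d) (algebraMap k (MvPowerSeries (Fin d) k ⧸ 𝔭))) =
      sp MvPowerSeries.X := by
    rw [hmS, Ideal.map_span, ← Set.range_comp]
    congr 2
    funext i
    exact MvPowerSeries.map_X _ i
  refine ser2_main (MvPowerSeries.map (algebraMap k (MvPowerSeries (Fin d) k ⧸ 𝔭))) flat_ps_map
    𝔭 𝔮 (reg_glDim hdim _ inferInstance) ev ?_ _ hxs List.length_ofFn hker ?_ hc ?_ hb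
  · refine RingHom.congr_fun (ps_hom_ext (maximalIdeal _) (ev.comp (MvPowerSeries.map
      (algebraMap k (MvPowerSeries (Fin d) k ⧸ 𝔭)))) (Ideal.Quotient.mk 𝔭) (fun x => ?_)
      (fun i => ?_) fun i => ?_)
    · rw [RingHom.comp_apply, MvPowerSeries.map_C, hC]
      rfl
    · rw [RingHom.comp_apply, MvPowerSeries.map_X, hX]
    · rw [RingHom.comp_apply, MvPowerSeries.map_X, hX]
      exact hz i
  · rw [hmap, maximalIdeal_ps]
    exact le_sup_right
  · rw [hmap, ← ker_constantCoeff, ← ha]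
    exact ringKrullDim_eq_of_ringEquiv (RingHom.quotientKerEquivOfSurjective fun x =>
      ⟨MvPowerSeries.C x, MvPowerSeries.constantCoeff_C x⟩)

end Crest.Agent.R188
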