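import Crest.Agent.R188.Theta
import Crest.Agent.R188.Ser2
import Crest.Agent.R188.Coh
import Crest.Agent.R188.Dev

/-! Row 188, part IV: assembling the reductions. -/

set_option autoImplicit false

namespace Crest.Agent.R188

open Crest.Agent.R183 IsLocalRing
open scoped ENNReal TensorProduct

theorem pairCase_mixed (hE : CoreE) (hP : CorePos) {p : ℕ} [Fact p.Prime] {k : Type} [Field k]
    [IsAlgClosed k] [CharP k p] {d : ℕ} {G : MvPowerSeries (Fin d) (WittVector p k)} {T : Type}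
    [CommRing T] [IsLocalRing T] {π : MvPowerSeries (Fin d) (WittVector p k) →+* T}
    (h : Mixed p k d G T π) {𝔭 𝔮 : Ideal T} (h𝔭 : 𝔭.IsPrime) (h𝔮 : 𝔮.IsPrime) (hp : (p : T) ∉ 𝔭) :
    PairCase T d 𝔭 𝔮 := by
  have := h.reg
  have hG : GlDim T d := reg_glDim h.dim
  have hEs : Estar T d := estar_of_estarP (hE p k d G T π h)
  intro hc a b ha hb
  refine ⟨vanish_of_estar hG hEs hc ha hb, fun hab => ?_⟩
  obtain ⟨ι, _, _, deg, P, hres⟩ := hG (T ⧸ 𝔮) inferInstance
  have h1 := hP p k d G T π h hEs 𝔭 𝔮 h𝔭 h𝔮 hp hc a b ha hb hab ι deg P hres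
  rw [← hres.chiT_eq] at h1
  exact_mod_cast h1

theorem primeCase_mixed (hE : CoreE) (hP : CorePos) {p : ℕ} [Fact p.Prime] {k : Type} [Field k]
    [IsAlgClosed k] [CharP k p] {d : ℕ} {G : MvPowerSeries (Fin d) (WittVector p k)} {T : Type}
    [CommRing T] [IsLocalRing T] {π : MvPowerSeries (Fin d) (WittVector p k) →+* T}
    (h : Mixed p k d G T π) : PrimeCase T d := by
  have := h.reg
  have hG : GlDim T d := reg_glDim h.dim
  intro 𝔭 𝔮 h𝔭 h𝔮
  by_cases hp : (p : T) ∈ 𝔭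
  · by_cases hq : (p : T) ∈ 𝔮
    · obtain ⟨g, π₂, hg, hs, hk⟩ := h.exists_hyp
      have := reg_domain T
      obtain ⟨hS, hdS⟩ := reg_ps k d
      have e : ∀ I : Ideal T, (p : T) ∈ I →
          (I.map (Ideal.Quotient.mk (Ideal.span {(p : T)}))).comap
            (Ideal.Quotient.mk (Ideal.span {(p : T)})) = I := fun I hI =>
        Ideal.comap_map_mk ((Ideal.span_singleton_le_iff_mem _).2 hI)
      rw [← e 𝔭 hp, ← e 𝔮 hq]
      exact pairCase_of_hyp hG (reg_glDim hdS) _ π₂ Ideal.Quotient.mk_surjective hs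
        (mem_nonZeroDivisors_of_ne_zero h.p_ne) (mem_nonZeroDivisors_of_ne_zero hg)
        Ideal.mk_ker hk _ _ (serre_ps k d _ _)
    · exact (pairCase_mixed hE hP h h𝔮 h𝔭 hq).symm hG
  · exact pairCase_mixed hE hP h h𝔭 h𝔮 hp

theorem primeCase_complete (hE : CoreE) (hP : CorePos) {T k : Type} [CommRing T]
    [IsRegularLocalRing T] [IsAdicComplete (maximalIdeal T) T] [Field k] [IsAlgClosed k] {d : ℕ}
    (hd : ringKrullDim T = d) (ρ : T →+* k) (hρ : Function.Surjective ρ) : PrimeCase T d := by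
  rcases cohen_cases hd ρ hρ with ⟨K, _, π, hπ⟩ | ⟨p, _, _, G, π, h⟩
  · obtain ⟨hS, hdS⟩ := reg_ps K d
    exact primeCase_of_bijective π hπ (reg_glDim hdS) fun 𝔭 𝔮 _ _ => serre_ps K d 𝔭 𝔮
  · exact primeCase_mixed hE hP h

theorem genCase_reg (hE : CoreE) (hP : CorePos) (R : Type) [CommRing R] [IsRegularLocalRing R]
    {d : ℕ} (hd : ringKrullDim R = d) : GenCase R d := by
  obtain ⟨T, _, _, _, _, hfl, hm, hc, k, _, _, ρ, hρ⟩ := exists_gon R
  obtain ⟨hT, hdT⟩ := reg_of_unram hm inferInstance hd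
  have hG : GlDim R d := reg_glDim hd
  have h1 : GenCase T d := genCase_of_primeCase (reg_glDim hdT) (primeCase_complete hE hP hdT ρ hρ)
  exact genCase_of_primeCase hG fun 𝔭 𝔮 _ _ =>
    (pairCase_map_iff hm hG 𝔭 𝔮).1 (pairCase_of_genCase h1 _ _)

theorem main4 (hE : CoreE) (hP : CorePos) (R : Type) [CommRing R]
    [IsRegularLocalRing R] (d : ℕ) (hd : ringKrullDim R = d) (M N : ModuleCat.{0} R)
    [Module.Finite R M] [Module.Finite R N] [Nontrivial M] [Nontrivial N]
    (hlen : IsFiniteLength R (TensorProduct R M N))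
    (hdim : Module.supportDim R M + Module.supportDim R N = d) :
    0 < ∑ i ∈ Finset.range (d + 1), (-1 : ℤ) ^ i *
      ((Module.length R (((CategoryTheory.Tor (ModuleCat.{0} R) i).obj M).obj N)).toNat : ℤ) :=
  (genCase_reg hE hP R hd M N inferInstance inferInstance (meet_of_finiteLength hlen)).2 hdim

end Crest.Agent.R188
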