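import Crest.Agent.R188.Defs

/-!
# R188 / Newton

Newton identities modulo a filtration.
-/

set_option autoImplicit false
set_option linter.unusedSectionVars false
set_option linter.unusedVariables false

noncomputable section

namespace Crest.Agent.R188

open Filter
open Crest.Agent.R183 (Zc Bd mact gr Htpy)
open scoped TensorProduct

variable {A : Type} [CommRing A] [Algebra ℝ A]

/-- the filtration -/
def Newton_J (𝔪 N : Ideal A) (n i : ℕ) : Ideal A where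
  carrier := {ξ | ξ ∈ 𝔪 ^ i ∧ ∀ μ ∈ 𝔪 ^ (n + 1 - i), μ * ξ ∈ N}
  zero_mem' := ⟨zero_mem _, fun μ _ => by rw [mul_zero]; exact zero_mem _⟩
  add_mem' := fun {a b} ha hb => ⟨add_mem ha.1 hb.1, fun μ hμ => by
    rw [mul_add]; exact add_mem (ha.2 μ hμ) (hb.2 μ hμ)⟩
  smul_mem' := fun c a ha => ⟨Ideal.mul_mem_left _ c ha.1, fun μ hμ => by
    rw [smul_eq_mul, mul_left_comm]; exact Ideal.mul_mem_left _ c (ha.2 μ hμ)⟩

theorem Newton_J_mul {𝔪 N : Ideal A} {n a b : ℕ} {ξ η : A} (hξ : ξ ∈ Newton_J 𝔪 N n a)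
    (hη : η ∈ 𝔪 ^ b) : ξ * η ∈ Newton_J 𝔪 N n (a + b) := by
  refine ⟨by rw [pow_add]; exact Ideal.mul_mem_mul hξ.1 hη, fun μ hμ => ?_⟩
  have h1 : μ * η ∈ 𝔪 ^ (n + 1 - (a + b) + b) := by
    rw [pow_add]; exact Ideal.mul_mem_mul hμ hη
  have h2 := hξ.2 _ (Ideal.pow_le_pow_right (by omega) h1)
  rwa [mul_assoc, mul_comm η] at h2

theorem Newton_esymm_mem {𝔪 : Ideal A} {M : Type} [Fintype M] [DecidableEq M] {y : M → A}
    (hy : ∀ m, y m ∈ 𝔪) (i : ℕ) : ∑ s ∈ Finset.univ.powersetCard i, ∏ m ∈ s, y m ∈ 𝔪 ^ i := by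
  refine Ideal.sum_mem _ fun s hs => ?_
  rw [← (Finset.mem_powersetCard.1 hs).2, ← Finset.prod_const]
  exact Ideal.prod_mem_prod fun m _ => hy m

theorem Newton_eval {M : Type} [Fintype M] [DecidableEq M] (y : M → A) {k : ℕ} (hk : 0 < k) :
    ∑ m, y m ^ k = (-1) ^ (k + 1) * k * (∑ s ∈ Finset.univ.powersetCard k, ∏ m ∈ s, y m) -
      ∑ a ∈ Finset.HasAntidiagonal.antidiagonal k with a.1 ∈ Set.Ioo 0 k,
        (-1) ^ a.1 * (∑ s ∈ Finset.univ.powersetCard a.1, ∏ m ∈ s, y m) * ∑ m, y m ^ a.2 := by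
  have := congrArg (MvPolynomial.eval y) (MvPolynomial.psum_eq_mul_esymm_sub_sum M A k hk)
  simpa only [MvPolynomial.psum, MvPolynomial.esymm, map_sum, map_pow, map_sub, map_mul, map_neg,
    map_one, map_natCast, map_prod, MvPolynomial.eval_X] using this

theorem Newton_psum {𝔪 N : Ideal A} {n : ℕ} {M : Type} [Fintype M] [DecidableEq M] {y z : M → A}
    (hy : ∀ m, y m ∈ 𝔪) (hz : ∀ m, z m ∈ 𝔪)
    (h : ∀ i, (∑ s ∈ Finset.univ.powersetCard i, ∏ m ∈ s, y m) -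
      ∑ s ∈ Finset.univ.powersetCard i, ∏ m ∈ s, z m ∈ Newton_J 𝔪 N n i) (k : ℕ) :
    ∑ m, y m ^ k - ∑ m, z m ^ k ∈ Newton_J 𝔪 N n k := by
  induction k using Nat.strong_induction_on with
  | _ k ih =>
    rcases Nat.eq_zero_or_pos k with rfl | hk
    · simp
    rw [Newton_eval y hk, Newton_eval z hk, sub_sub_sub_comm, ← mul_sub]
    refine sub_mem (Ideal.mul_mem_left _ _ (h k)) ?_
    rw [← Finset.sum_sub_distrib]
    refine Ideal.sum_mem _ fun a ha => ?_
    obtain ⟨h1, h2⟩ := Finset.mem_filter.1 ha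
    have h3 : a.1 + a.2 = k := Finset.HasAntidiagonal.mem_antidiagonal.1 h1
    have h4 : a.2 < k := by have := h2.1; omega
    have h5 : ∑ m, y m ^ a.2 ∈ 𝔪 ^ a.2 :=
      Ideal.sum_mem _ fun m _ => Ideal.pow_mem_pow (hy m) _
    have h6 := Newton_J_mul (h a.1) h5
    have h7 := Newton_J_mul (ih a.2 h4) (Newton_esymm_mem hz a.1)
    rw [h3] at h6
    rw [add_comm a.2, h3] at h7
    have h8 := Ideal.mul_mem_left _ ((-1) ^ a.1) (add_mem h6 h7)
    convert h8 using 1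
    ring

theorem Newton_rec (x y : A) (e k : ℕ) :
    (fwdDiff 1)^[e + 1] (fun k : ℕ => ∑ i ∈ Finset.range k, x ^ i * y ^ (k - 1 - i)) k =
      x ^ k * (x - 1) ^ e +
        (y - 1) * (fwdDiff 1)^[e] (fun k : ℕ => ∑ i ∈ Finset.range k, x ^ i * y ^ (k - 1 - i)) k := by
  induction e generalizing k with
  | zero =>
    simp only [zero_add, Function.iterate_one, fwdDiff, Function.iterate_zero, id, pow_zero, mul_one]
    have : ∑ i ∈ Finset.range k, x ^ i * y ^ (k + 1 - 1 - i) =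
        y * ∑ i ∈ Finset.range k, x ^ i * y ^ (k - 1 - i) := by
      rw [Finset.mul_sum]
      refine Finset.sum_congr rfl fun i hi => ?_
      have hi' := Finset.mem_range.1 hi
      rw [show k + 1 - 1 - i = (k - 1 - i) + 1 by omega, pow_succ]
      ring
    rw [Finset.sum_range_succ, this, show k + 1 - 1 - k = 0 by omega]
    ring
  | succ e ih =>
    rw [Function.iterate_succ_apply', fwdDiff, ih (k + 1), Function.iterate_succ_apply' _ e, fwdDiff]
    have := ih k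
    rw [Function.iterate_succ_apply' _ e, fwdDiff] at this
    linear_combination (-1 : A) * this

/-- Let `J i` be the ideal of the `ξ ∈ 𝔪 ^ i` with `𝔪 ^ (n + 1 - i) ξ ≤ N`; `J (i + 1) ≤ J i`,
`J a * 𝔪 ^ b ≤ J (a + b)`.  With `y m = (C m)⁻¹ - 1`: `∑ i, U e_i(y) = 1`, so `U - U₀ ∈ J 1`,
`e_i(y) - e_i(y₀) ∈ J i`, Newton (`MvPolynomial.psum_eq_mul_esymm_sub_sum`) gives `p_e(y) - N y₀ ^ e ∈ J e`
(`e ≥ 1`); expand `A m = C₀ (1 + y m)`, `A m - 1 = C₀ (y m - y₀)` in powers of `y m`: the coefficient of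
`y m ^ e` lies in `𝔪 ^ (n + 1 - e)`. -/
theorem newton_sum (𝔪 N : Ideal A) (n : ℕ) {M : Type} [Fintype M] [DecidableEq M] (C : M → Aˣ)
    (C₀ : Aˣ) (hC : ∀ m, (C m : A) - 1 ∈ 𝔪) (hC₀ : (C₀ : A) - 1 ∈ 𝔪)
    (h : ∀ i : ℕ, ∀ μ ∈ 𝔪 ^ (n + 1 - i), μ *
      ((∏ m, (C m : A)) * ∑ s ∈ Finset.univ.powersetCard i, ∏ m ∈ s, (((C m)⁻¹ : Aˣ) - 1 : A) -
        (C₀ : A) ^ Fintype.card M * ((Fintype.card M).choose i * ((C₀⁻¹ : Aˣ) - 1 : A) ^ i)) ∈ N)
    (k : ℕ) :
    ∑ m, (((C m)⁻¹ * C₀ : Aˣ) : A) ^ k * ((((C m)⁻¹ * C₀ : Aˣ) : A) - 1) ^ (n + 1) ∈ N := by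
  obtain ⟨y, hy⟩ : ∃ y : M → A, ∀ m, y m = ((C m)⁻¹ : Aˣ) - 1 := ⟨_, fun _ => rfl⟩
  obtain ⟨y₀, hy₀⟩ : ∃ y₀ : A, y₀ = (C₀⁻¹ : Aˣ) - 1 := ⟨_, rfl⟩
  have hu : ∀ u : Aˣ, (u : A) - 1 ∈ 𝔪 → ((u⁻¹ : Aˣ) : A) - 1 ∈ 𝔪 := fun u hu => by
    have := Ideal.mul_mem_left _ (-((u⁻¹ : Aˣ) : A)) hu
    rwa [mul_sub, neg_mul, Units.inv_mul, mul_one, neg_sub_neg] at this
  have hym : ∀ m, y m ∈ 𝔪 := fun m => hy m ▸ hu _ (hC m)
  have hy0 : y₀ ∈ 𝔪 := hy₀ ▸ hu _ hC₀
  simp only [← hy, ← hy₀] at h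
  have e0 : ∀ i, ∑ s ∈ (Finset.univ : Finset M).powersetCard i, ∏ _m ∈ s, y₀ =
      (Fintype.card M).choose i * y₀ ^ i := fun i => by
    rw [Finset.sum_congr rfl (g := fun _ => y₀ ^ i) fun s hs => by
      rw [Finset.prod_const, (Finset.mem_powersetCard.1 hs).2]]
    rw [Finset.sum_const, Finset.card_powersetCard, Finset.card_univ, nsmul_eq_mul]
  have hJ : ∀ i, (∏ m, (C m : A)) * (∑ s ∈ Finset.univ.powersetCard i, ∏ m ∈ s, y m) -
      (C₀ : A) ^ Fintype.card M * (∑ s ∈ (Finset.univ : Finset M).powersetCard i, ∏ _m ∈ s, y₀) ∈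
        Newton_J 𝔪 N n i := fun i =>
    ⟨sub_mem (Ideal.mul_mem_left _ _ (Newton_esymm_mem hym i))
      (Ideal.mul_mem_left _ _ (Newton_esymm_mem (fun _ => hy0) i)), by rw [e0]; exact h i⟩
  have hE : ∀ i, (∑ s ∈ Finset.univ.powersetCard i, ∏ m ∈ s, y m) -
      (∑ s ∈ (Finset.univ : Finset M).powersetCard i, ∏ _m ∈ s, y₀) ∈ Newton_J 𝔪 N n i := by
    intro i
    have h0 := hJ 0
    simp only [Finset.powersetCard_zero, Finset.sum_singleton, Finset.prod_empty, mul_one] at h0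
    have h1 := Newton_J_mul h0 (Newton_esymm_mem (M := M) (fun _ => hy0) i)
    rw [zero_add] at h1
    have h2 := Ideal.mul_mem_left _ (((∏ m, C m)⁻¹ : Aˣ) : A) (sub_mem (hJ i) h1)
    have h3 : (((∏ m, C m)⁻¹ : Aˣ) : A) * ∏ m, (C m : A) = 1 := by
      rw [← Units.coe_prod, Units.inv_mul]
    convert h2 using 1
    linear_combination (-((∑ s ∈ Finset.univ.powersetCard i, ∏ m ∈ s, y m) -
      (∑ s ∈ (Finset.univ : Finset M).powersetCard i, ∏ _m ∈ s, y₀))) * h3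
  have hP := Newton_psum hym (fun _ => hy0) hE
  have hT : ∀ e j : ℕ, ∑ m, y m ^ j * (y m - y₀) ^ e - ∑ _m : M, y₀ ^ j * (y₀ - y₀) ^ e ∈
      Newton_J 𝔪 N n (j + e) := by
    intro e
    induction e with
    | zero => intro j; simpa only [pow_zero, mul_one, add_zero] using hP j
    | succ e ih =>
      intro j
      have h1 := ih (j + 1)
      have h2 := Newton_J_mul (ih j) (show y₀ ∈ 𝔪 ^ 1 by rwa [pow_one])
      rw [show j + 1 + e = j + (e + 1) by omega] at h1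
      rw [add_assoc] at h2
      convert sub_mem h1 h2 using 1
      rw [sub_mul, sub_sub_sub_comm, Finset.sum_mul, Finset.sum_mul, ← Finset.sum_sub_distrib,
        ← Finset.sum_sub_distrib, ← Finset.sum_sub_distrib, ← Finset.sum_sub_distrib]
      exact Finset.sum_congr rfl fun m _ => by ring
  have hS : ∀ k j : ℕ, ∑ m, (1 + y m) ^ k * (y m ^ j * (y m - y₀) ^ (n + 1)) ∈ N := by
    intro k
    induction k with
    | zero =>
      intro j
      have h1 := (hT (n + 1) j).2 1 (by rw [show n + 1 - (j + (n + 1)) = 0 by omega]; simp)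
      simpa using h1
    | succ k ih =>
      intro j
      convert add_mem (ih j) (ih (j + 1)) using 1
      rw [← Finset.sum_add_distrib]
      exact Finset.sum_congr rfl fun m _ => by ring
  have h1 := Ideal.mul_mem_left _ ((C₀ : A) ^ k * (C₀ : A) ^ (n + 1)) (hS k 0)
  convert h1 using 1
  rw [Finset.mul_sum]
  refine Finset.sum_congr rfl fun m _ => ?_
  have e1 : (((C m)⁻¹ * C₀ : Aˣ) : A) = C₀ * (1 + y m) := by
    rw [hy, Units.val_mul]; ring
  have e2 : (((C m)⁻¹ * C₀ : Aˣ) : A) - 1 = C₀ * (y m - y₀) := by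
    rw [hy, hy₀, Units.val_mul]
    linear_combination Units.mul_inv C₀
  rw [e2, e1, mul_pow, mul_pow]
  ring

/-- expansion of the Euler class in powers of `h`. -/
theorem prod_one_sub_expand {M : Type} [Fintype M] [DecidableEq M] (C : M → Aˣ) (h : A) :
    ∏ m, (1 - (1 - h) * (C m : A)) = ∑ i ∈ Finset.range (Fintype.card M + 1),
      h ^ (Fintype.card M - i) * ((∏ m, (C m : A)) *
        ∑ s ∈ Finset.univ.powersetCard i, ∏ m ∈ s, (((C m)⁻¹ : Aˣ) - 1 : A)) := by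
  have e1 : ∀ m, 1 - (1 - h) * (C m : A) = (C m : A) * (((((C m)⁻¹ : Aˣ) : A) - 1) + h) := fun m => by
    linear_combination (-1 : A) * Units.mul_inv (C m)
  simp only [e1]
  rw [Finset.prod_mul_distrib, Finset.prod_add, Finset.sum_powerset, Finset.card_univ,
    Finset.mul_sum]
  refine Finset.sum_congr rfl fun i _ => ?_
  rw [mul_left_comm, Finset.mul_sum (a := h ^ _)]
  congr 1
  refine Finset.sum_congr rfl fun s hs => ?_
  rw [Finset.prod_const, Finset.card_univ_sdiff, (Finset.mem_powersetCard.1 hs).2, mul_comm]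

/-- `s k = (x ^ k - y ^ k) / (x - y)`. -/
theorem fwdDiff_geom_mem (𝔪 : Ideal A) {x y : A} (hx : x - 1 ∈ 𝔪) (hy : y - 1 ∈ 𝔪) (e k : ℕ) :
    (fwdDiff 1)^[e + 1] (fun k : ℕ => ∑ i ∈ Finset.range k, x ^ i * y ^ (k - 1 - i)) k ∈ 𝔪 ^ e ∧
    (fwdDiff 1)^[e + 1] (fun k : ℕ => ∑ i ∈ Finset.range k, x ^ i * y ^ (k - 1 - i)) k * (x - y) =
      x ^ k * (x - 1) ^ (e + 1) - y ^ k * (y - 1) ^ (e + 1) := by
  constructor
  · induction e with
    | zero => simp
    | succ e ih =>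
      rw [Newton_rec]
      refine add_mem (Ideal.mul_mem_left _ _ (Ideal.pow_mem_pow hx _)) ?_
      rw [pow_succ']
      exact Ideal.mul_mem_mul hy ih
  · generalize e + 1 = e
    induction e with
    | zero => simpa using geom_sum₂_mul x y k
    | succ e ih =>
      rw [Newton_rec, add_mul, mul_assoc (y - 1), ih]
      ring

/-- a sequence whose `(n + 1)`-st differences vanish on `[0, L]` and which equals `a k ^ c`, `c > n`, at more
than `c` points `k ≤ L` has `a = 0`. -/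
theorem eq_zero_of_fwdDiff (f : ℕ → ℝ) (n c L : ℕ) (hc : n < c) (a : ℝ)
    (h : ∀ k ≤ L, (fwdDiff 1)^[n + 1] f k = 0) (s : Finset ℕ) (hs : c < s.card)
    (hL : ∀ k ∈ s, k ≤ L) (hf : ∀ k ∈ s, f k = (k : ℝ) ^ c * a) : a = 0 := by
  have h1 : ∀ j, n + 1 ≤ j → j ≤ L → (fwdDiff 1)^[j] f 0 = 0 := fun j hj hjL => by
    obtain ⟨d, rfl⟩ := Nat.exists_eq_add_of_le' hj
    rw [Function.iterate_add_apply, fwdDiff_iter_eq_sum_shift]
    refine Finset.sum_eq_zero fun i hi => ?_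
    have := Finset.mem_range.1 hi
    rw [h _ (by simp only [smul_eq_mul]; omega), smul_zero]
  set P : Polynomial ℝ := ∑ j ∈ Finset.range (n + 1),
    Polynomial.C ((fwdDiff 1)^[j] f 0 / j.factorial) * descPochhammer ℝ j with hP
  have h2 : P.natDegree ≤ n := by
    refine Polynomial.natDegree_sum_le_of_forall_le _ _ fun j hj => ?_
    refine (Polynomial.natDegree_C_mul_le _ _).trans ?_
    rw [descPochhammer_natDegree]
    exact Nat.lt_succ_iff.1 (Finset.mem_range.1 hj)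
  have h3 : ∀ k ≤ L, f k = P.eval (k : ℝ) := fun k hk => by
    have e1 := shift_eq_sum_fwdDiff_iter 1 f k 0
    rw [zero_add, smul_eq_mul, mul_one] at e1
    have e2 : ∑ j ∈ Finset.range (k + 1), k.choose j • (fwdDiff 1)^[j] f 0 =
        ∑ j ∈ Finset.range (k + 1 + (n + 1)), k.choose j • (fwdDiff 1)^[j] f 0 := by
      refine Finset.sum_subset (Finset.range_subset_range.2 (by omega)) fun j _ hj => ?_
      rw [Nat.choose_eq_zero_of_lt (by simpa using hj), zero_smul]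
    have e3 : ∑ j ∈ Finset.range (n + 1), k.choose j • (fwdDiff 1)^[j] f 0 =
        ∑ j ∈ Finset.range (k + 1 + (n + 1)), k.choose j • (fwdDiff 1)^[j] f 0 := by
      refine Finset.sum_subset (Finset.range_subset_range.2 (by omega)) fun j _ hj => ?_
      have hj' : n + 1 ≤ j := by simpa using hj
      rcases le_or_gt j k with hjk | hjk
      · rw [h1 j hj' (hjk.trans hk), smul_zero]
      · rw [Nat.choose_eq_zero_of_lt hjk, zero_smul]
    rw [e1, e2, ← e3, hP, Polynomial.eval_finsetSum]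
    refine Finset.sum_congr rfl fun j _ => ?_
    rw [nsmul_eq_mul, Nat.cast_choose_eq_descPochhammer_div, Polynomial.eval_mul, Polynomial.eval_C]
    ring
  have h4 : Polynomial.C a * Polynomial.X ^ c - P = 0 := by
    refine Polynomial.eq_zero_of_natDegree_lt_card_of_eval_eq_zero' _
      (s.image (fun k : ℕ => (k : ℝ))) (fun x hx => ?_) ?_
    · obtain ⟨k, hk, rfl⟩ := Finset.mem_image.1 hx
      rw [Polynomial.eval_sub, ← h3 k (hL k hk), hf k hk, Polynomial.eval_mul, Polynomial.eval_C,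
        Polynomial.eval_pow, Polynomial.eval_X, mul_comm, sub_self]
    · rw [Finset.card_image_of_injective _ Nat.cast_injective]
      refine lt_of_le_of_lt ((Polynomial.natDegree_sub_le _ _).trans (max_le ?_ (by omega))) hs
      exact Polynomial.natDegree_C_mul_X_pow_le a c
  have h5 := congrArg (fun q => Polynomial.coeff q c) h4
  simpa [Polynomial.coeff_eq_zero_of_natDegree_lt (h2.trans_lt hc)] using h5

end Crest.Agent.R188
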