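/-!
# Row 188 (Serre's positivity conjecture): plan

Part I (`estar`, file `EStar`): `T` regular local, `Y = V(𝔶)` of dimension `≤ n`, `ν` ANY additive function on
the finite modules whose support meets `Y` only in the closed point.  Then `ν (T / 𝔮) = 0` if `ht 𝔮 > n`.
* `Add, Chi, Tau, Free, Res`: additive functions `AddFn`, Euler characteristics of subquotient complexes
  `W / U` inside an ambient module, the functional `τ = ℓ χ(X^{C_ℓ}) - χ(X)`, finite free complexes as matrices.
* `Pow, PowE, PowK, Adams`: `τ(F^{⊗ℓ} ⊗ N) = rank N (ℓ - 1) ℓ^c ν(T/𝔮)` (cyclic Adams operation).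
* `Small, GS`: a notion of dimension of sets of primes, generic sections.
* `Sys1-3, FC1-2, Prod, Indep, Gam`: blow-ups as multi-Rees systems of fractional ideals, "sheaves" as stable
  families `k ↦ M k`, everything is checked on charts; Koszul complexes of sections, the functional `Λ` on the
  `(n+1)`-st power of the augmentation ideal of `ℝ[ℤ^σ]` (its graph is `Gam`).
* `Flag1-2, FlagT`: on a blow-up `F` is filtered by two term complexes of line bundles, so
  `τ(F^{⊗ℓ}) = (ℓ-1) f(ℓ)` with `f(m) = ∑ ± ν(I^{k+mγ'} / I^{k+mγ})`.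
* `Euler1-2, Newton, Whit`: Whitney formula, hence `f` is a polynomial of degree `≤ n`; but `f(ℓ) = ℓ^c ν(T/𝔮)`.

Parts II-IV: see the files `B*`, `D*`, `Red*`.
-/
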