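import Crest.Agent.R188.PosF

/-! Row 188, part III-b: the abstract positivity theorem. -/

set_option autoImplicit false
set_option linter.unusedVariables false

namespace Crest.Agent.R188

open Crest.Agent.R183 IsLocalRing RingTheory.Sequence
open scoped ENNReal TensorProduct

theorem PosA_h_zero {Λ : Type} [CommRing Λ] (lam : LenFn Λ) (xs : List Λ) :
    (kz xs).h lam Λ 0 = lam.q (Ideal.ofList xs) := by
  rw [kz_h_zero, Ideal.smul_eq_mul, Ideal.mul_top, LenFn.q_eq_rel]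

theorem PosA_chi_ge (d : ℕ) (f : ℤ → ℝ≥0∞) {S : ℝ≥0∞} (hS : S ≠ ⊤)
    (h : ∀ j : ℤ, 1 ≤ j → f j ≤ S) : (f 0).toReal ≤ chi 0 d f + d * S.toReal := by
  induction d with
  | zero => simp [chi]
  | succ d ih =>
    have e : Finset.Icc (0 : ℤ) ((d + 1 : ℕ) : ℤ) = insert ((d : ℤ) + 1) (Finset.Icc 0 (d : ℤ)) := by
      ext i
      simp only [Finset.mem_Icc, Finset.mem_insert]
      omega
    have h1 : (f (d + 1)).toReal ≤ S.toReal := ENNReal.toReal_mono hS (h _ (by omega))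
    have h2 : -(f (d + 1)).toReal ≤ (-1 : ℝ) ^ ((d : ℤ) + 1) * (f (d + 1)).toReal := by
      have h3 : (0 : ℝ) ≤ (f (d + 1)).toReal := ENNReal.toReal_nonneg
      rcases Int.even_or_odd ((d : ℤ) + 1) with h4 | h4
      · rw [h4.neg_one_zpow]
        linarith
      · rw [h4.neg_one_zpow]
        linarith
    unfold chi at ih ⊢
    rw [e, Finset.sum_insert (by simp)]
    push_cast
    linarith

/-- Higher Koszul homology of `Δ ^ k` grows at most like `k ^ (d - 1)`: with `u`, `C` from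
`PosRing.par` and `t = s d k`, the elements `u_i ^ t` lie in `(Δ ^ k)` (`ofList_pow_le`); use
`kz_h_le_of_mem`, `kz_map`, `FC.h_map_le`. -/
theorem pos_upper {R Ω : Type} [CommRing R] [IsLocalRing R] [CommRing Ω] [Algebra R Ω]
    [Module.Flat R Ω] {d : ℕ} (hd : 1 ≤ d) (hR : PosRing R d) (lam : LenFn Ω) {Δ : List Ω}
    (hl : Δ.length = d) {s : ℕ} (hs : 1 ≤ s)
    (h₁ : (maximalIdeal R ^ s).map (algebraMap R Ω) ≤ Ideal.ofList Δ) :
    ∃ C : ℕ, ∀ k : ℕ, 1 ≤ k → ∀ j : ℤ, 1 ≤ j → (kz (Δ.map (· ^ k))).h lam Ω j ≤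
      (C : ℝ≥0∞) * (k : ℝ≥0∞) ^ (d - 1) * lam.q ((maximalIdeal R).map (algebraMap R Ω)) := by
  obtain ⟨u, C, hu, hum, hC⟩ := hR.par
  refine ⟨2 ^ d * C * (s * d) ^ (d - 1), fun k hk j hj => ?_⟩
  have ht : 1 ≤ s * (d * k) := Nat.mul_pos hs (Nat.mul_pos hd hk)
  have hx : ∀ y ∈ (u.map (· ^ (s * (d * k)))).map (algebraMap R Ω),
      y ∈ Ideal.ofList (Δ.map (· ^ k)) := by
    intro y hy
    obtain ⟨y', hy', rfl⟩ := List.mem_map.1 hy
    obtain ⟨z, hz, rfl⟩ := List.mem_map.1 hy'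
    refine ofList_pow_le Δ (t := k) (n := d * k) (by rw [hl]) (Nat.mul_pos hd hk) ?_
    rw [pow_mul z, map_pow]
    exact Ideal.pow_mem_pow (h₁ (Ideal.mem_map_of_mem _ (Ideal.pow_mem_pow (hum z hz) s))) _
  have key := kz_h_le_of_mem lam Ω (Δ.map (· ^ k))
    ((u.map (· ^ (s * (d * k)))).map (algebraMap R Ω)) hx (j := j)
    (S := (C : ℝ≥0∞) * ((s * (d * k) : ℕ) : ℝ≥0∞) ^ (d - 1) *
      lam.q ((maximalIdeal R).map (algebraMap R Ω))) fun i hi => by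
      simp only [List.length_map, hu, hl] at hi
      have h1 := hC _ ht i (by omega)
      rw [← kz_map]
      refine (FC.h_map_le _ lam (ne_top_of_le_ne_top ?_ h1)).trans ?_
      · exact ENNReal.mul_ne_top (ENNReal.natCast_ne_top _)
          (ENNReal.pow_ne_top (ENNReal.natCast_ne_top _))
      · gcongr
  refine key.trans (le_of_eq ?_)
  rw [List.length_map, hl]
  push_cast
  rw [← mul_assoc (s : ℝ≥0∞), mul_pow ((s : ℝ≥0∞) * d)]
  ring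

/-- `H_0`: for `k = s (s' n + s')` one has `(Δ ^ k) ≤ 𝔪 ^ (s' n + s') Ω`; `kz_h_zero`, `q_map_eq`. -/
theorem pos_lower {R Ω : Type} [CommRing R] [IsLocalRing R] [CommRing Ω] [Algebra R Ω]
    [Module.Flat R Ω] {d : ℕ} (hR : PosRing R d) (lam : LenFn Ω) {Δ : List Ω} {s : ℕ} (hs : 1 ≤ s)
    (h₂ : ∀ x ∈ Δ, x ^ s ∈ (maximalIdeal R).map (algebraMap R Ω)) :
    ∃ s' : ℕ, 1 ≤ s' ∧ ∀ n : ℕ,
      (n : ℝ≥0∞) ^ d * lam.q ((maximalIdeal R).map (algebraMap R Ω)) ≤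
        s' * (kz (Δ.map (· ^ (s' * (n + 1))))).h lam Ω 0 := by
  obtain ⟨s₀, hs₀, hg⟩ := hR.growth
  have := hR.noeth
  refine ⟨s * s₀, Nat.mul_pos hs hs₀, fun n => ?_⟩
  have hle : Ideal.ofList (Δ.map (· ^ (s * s₀ * (n + 1)))) ≤
      (maximalIdeal R ^ (s₀ * n + s₀)).map (algebraMap R Ω) := by
    rw [Ideal.ofList, Ideal.span_le]
    intro y hy
    obtain ⟨z, hz, rfl⟩ := List.mem_map.1 hy
    rw [Ideal.map_pow, mul_assoc, pow_mul, mul_add, mul_one]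
    exact Ideal.pow_mem_pow (h₂ z hz) _
  have h1 := lam.q_anti hle
  rw [q_map_eq lam _ (hs_ne_top R (IsNoetherian.noetherian _) _)] at h1
  rw [PosA_h_zero]
  calc (n : ℝ≥0∞) ^ d * lam.q ((maximalIdeal R).map (algebraMap R Ω))
      ≤ (s₀ * R183.hs R (s₀ * n + s₀)) * lam.q ((maximalIdeal R).map (algebraMap R Ω)) := by
        gcongr
        exact hg n
    _ = s₀ * (R183.hs R (s₀ * n + s₀) * lam.q ((maximalIdeal R).map (algebraMap R Ω))) :=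
        mul_assoc _ _ _
    _ ≤ ((s * s₀ : ℕ) : ℝ≥0∞) * lam.q (Ideal.ofList (Δ.map (· ^ (s * s₀ * (n + 1))))) := by
        gcongr
        · exact Nat.le_mul_of_pos_left _ hs
        · exact h1

/-- the numerical argument. -/
theorem pos_num {d : ℕ} (hd : 1 ≤ d) {χ l : ℝ} (hl : 0 < l) {s C : ℕ} (hs : 1 ≤ s)
    (h : ∀ n : ℕ, (n : ℝ) ^ d * l ≤ s * (((s * (n + 1) : ℕ) : ℝ) ^ d * χ +
      C * ((s * (n + 1) : ℕ) : ℝ) ^ (d - 1) * l)) : 0 < χ := by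
  by_contra hχ
  rw [not_lt] at hχ
  obtain ⟨e, rfl⟩ : ∃ e, d = e + 1 := ⟨d - 1, by omega⟩
  obtain ⟨n, hn⟩ : ∃ n : ℕ, n = s * C * (s * 2) ^ e + 1 := ⟨_, rfl⟩
  have h1 := h n
  rw [Nat.add_sub_cancel] at h1
  have hn1 : 1 ≤ n := by omega
  have h2 : ((s * (n + 1) : ℕ) : ℝ) ^ (e + 1) * χ ≤ 0 :=
    mul_nonpos_of_nonneg_of_nonpos (by positivity) hχ
  have h3 : (n : ℝ) ^ (e + 1) * l ≤ s * (C * ((s * (n + 1) : ℕ) : ℝ) ^ e) * l := by
    refine h1.trans ?_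
    rw [mul_assoc (s : ℝ)]
    gcongr
    linarith
  have h4 : n ^ (e + 1) ≤ s * (C * (s * (n + 1)) ^ e) := by
    have := le_of_mul_le_mul_right h3 hl
    exact_mod_cast this
  have h5 : (s * (n + 1)) ^ e ≤ (s * 2 * n) ^ e := by
    refine Nat.pow_le_pow_left ?_ _
    rw [mul_assoc]
    exact Nat.mul_le_mul_left _ (by omega)
  have h6 : n * n ^ e ≤ (s * C * (s * 2) ^ e) * n ^ e := by
    calc n * n ^ e = n ^ (e + 1) := by ring
      _ ≤ s * (C * (s * 2 * n) ^ e) := h4.trans (by gcongr)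
      _ = _ := by rw [mul_pow (s * 2)]; ring
  have h7 := Nat.le_of_mul_le_mul_right h6 (by positivity)
  omega

/-- **Positivity**, abstract form (`chi_kos_pow` with `F = FC.unit`, `ys = []`). -/
theorem pos_abs {R Ω : Type} [CommRing R] [IsLocalRing R] [CommRing Ω] [Algebra R Ω]
    [Module.Flat R Ω] {d : ℕ} (hd : 1 ≤ d) (hR : PosRing R d) (lam : LenFn Ω)
    (h₀ : lam.q ((maximalIdeal R).map (algebraMap R Ω)) ≠ 0)
    (h₀' : lam.q ((maximalIdeal R).map (algebraMap R Ω)) ≠ ⊤) {Δ : List Ω} (hl : Δ.length = d)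
    {s : ℕ} (hs : 1 ≤ s) (h₁ : (maximalIdeal R ^ s).map (algebraMap R Ω) ≤ Ideal.ofList Δ)
    (h₂ : ∀ x ∈ Δ, x ^ s ∈ (maximalIdeal R).map (algebraMap R Ω)) :
    (∀ j, (kz Δ).h lam Ω j ≠ ⊤) ∧ 0 < chi 0 d ((kz Δ).h lam Ω) := by
  have := hR.noeth
  obtain ⟨C, hC⟩ := pos_upper hd hR lam hl hs h₁
  obtain ⟨s', hs', hlow⟩ := pos_lower hR lam hs h₂
  have hfin : ∀ j, (kz Δ).h lam Ω j ≠ ⊤ := by
    intro j
    rcases lt_trichotomy j 0 with hj | rfl | hj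
    · rw [FC.h_neg lam Ω _ hj]
      exact ENNReal.zero_ne_top
    · rw [PosA_h_zero]
      refine ne_top_of_le_ne_top ?_ (lam.q_anti h₁)
      rw [q_map_eq lam _ (hs_ne_top R (IsNoetherian.noetherian _) _)]
      exact ENNReal.mul_ne_top (hs_ne_top R (IsNoetherian.noetherian _) _) h₀'
    · have h1 := hC 1 le_rfl j hj
      simp only [pow_one, List.map_id'] at h1
      refine ne_top_of_le_ne_top ?_ h1
      exact ENNReal.mul_ne_top (ENNReal.mul_ne_top (ENNReal.natCast_ne_top _)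
        (ENNReal.pow_ne_top (ENNReal.natCast_ne_top _))) h₀'
  refine ⟨hfin, pos_num hd (ENNReal.toReal_pos h₀ h₀') (C := d * C) hs' fun n => ?_⟩
  obtain ⟨k, hk⟩ : ∃ k, k = s' * (n + 1) := ⟨_, rfl⟩
  have hk1 : 1 ≤ k := hk ▸ Nat.mul_pos hs' n.succ_pos
  have h1 := hlow n
  rw [← hk] at h1 ⊢
  have hb : (FC.unit Ω).Bdd 0 := fun _ => le_rfl
  have h2 := FC.chi_kos_pow lam Ω (FC.unit Ω) hb Δ [] (n := d) (by simp [hl])
    (by rw [List.append_nil]; exact hfin) hk1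
  have h3 := FC.h_kos_pow_le lam Ω (FC.unit Ω) Δ [] hk1 0
  simp only [List.append_nil, hl] at h2 h3
  have h4 : (kz (Δ.map (· ^ k))).h lam Ω 0 ≠ ⊤ :=
    ne_top_of_le_ne_top (ENNReal.mul_ne_top (ENNReal.pow_ne_top (ENNReal.natCast_ne_top _))
      (hfin 0)) h3
  have h5 := PosA_chi_ge d ((kz (Δ.map (· ^ k))).h lam Ω)
    (ENNReal.mul_ne_top (ENNReal.mul_ne_top (ENNReal.natCast_ne_top C)
      (ENNReal.pow_ne_top (ENNReal.natCast_ne_top k))) h₀') (hC k hk1)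
  have h6 := ENNReal.toReal_mono (ENNReal.mul_ne_top (ENNReal.natCast_ne_top _) h4) h1
  simp only [ENNReal.toReal_mul, ENNReal.toReal_pow, ENNReal.toReal_natCast] at h5 h6
  refine h6.trans (mul_le_mul_of_nonneg_left ?_ (Nat.cast_nonneg _))
  change chi 0 d ((kz (Δ.map (· ^ k))).h lam Ω) = _ * chi 0 d ((kz Δ).h lam Ω) at h2
  rw [← h2]
  push_cast
  linarith

/-- **Positivity after balancing.**  Put `Ω = Γ / 𝔮 Γ`, flat over `R / 𝔮` (`flat_quot`);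
`F ⊗ Γ` resolves `Ω` (`FC.Res.baseChange`, `quotIdealMapEquivTensorQuot`); `bal_kos`, `FC.h_comap`,
`kz_map`, `pos_abs` for `lam.comap (Ideal.Quotient.mk _)`. -/
theorem pos_bal {R Γ : Type} [CommRing R] [IsLocalRing R] [CommRing Γ] [Algebra R Γ]
    [Module.Flat R Γ] (𝔮 : Ideal R) [IsLocalRing (R ⧸ 𝔮)] {d : ℕ} (hd : 1 ≤ d)
    (hR : PosRing (R ⧸ 𝔮) d) {F : FC R} (hF : F.Res (R ⧸ 𝔮)) (lam : LenFn Γ)
    (h₀ : lam.q ((maximalIdeal R).map (algebraMap R Γ)) ≠ 0)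
    (h₀' : lam.q ((maximalIdeal R).map (algebraMap R Γ)) ≠ ⊤) {Δ : List Γ} (hl : Δ.length = d)
    (hreg : IsWeaklyRegular Γ Δ) {s : ℕ} (hs : 1 ≤ s)
    (h₁ : (maximalIdeal R ^ s).map (algebraMap R Γ) ≤ Ideal.ofList Δ ⊔ 𝔮.map (algebraMap R Γ))
    (h₂ : ∀ x ∈ Δ, x ^ s ∈ (maximalIdeal R).map (algebraMap R Γ)) :
    (∀ j, (F.map (algebraMap R Γ)).h lam (Γ ⧸ Ideal.ofList Δ) j ≠ ⊤) ∧
      0 < chi 0 d ((F.map (algebraMap R Γ)).h lam (Γ ⧸ Ideal.ofList Δ)) := by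
  have hq : 𝔮 ≤ maximalIdeal R :=
    le_maximalIdeal (Ideal.Quotient.nontrivial_iff.1 inferInstance)
  have := flat_quot (S := Γ) 𝔮
  have hres : (F.map (algebraMap R Γ)).Res (Γ ⧸ 𝔮.map (algebraMap R Γ)) :=
    (hF.baseChange Γ).equiv
      (Algebra.TensorProduct.quotIdealMapEquivTensorQuot Γ 𝔮).toLinearEquiv.symm
  have hmap : ∀ I : Ideal R, (I.map (Ideal.Quotient.mk 𝔮)).map
      (algebraMap (R ⧸ 𝔮) (Γ ⧸ 𝔮.map (algebraMap R Γ))) =
        (I.map (algebraMap R Γ)).map (Ideal.Quotient.mk (𝔮.map (algebraMap R Γ))) := by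
    intro I
    rw [Ideal.map_map, Ideal.map_map]
    rfl
  have hm : maximalIdeal (R ⧸ 𝔮) = (maximalIdeal R).map (Ideal.Quotient.mk 𝔮) :=
    (map_maximalIdeal_of_surjective _ Ideal.Quotient.mk_surjective).symm
  have hq' : (lam.comap (Ideal.Quotient.mk (𝔮.map (algebraMap R Γ)))).q
      ((maximalIdeal (R ⧸ 𝔮)).map (algebraMap (R ⧸ 𝔮) (Γ ⧸ 𝔮.map (algebraMap R Γ)))) =
        lam.q ((maximalIdeal R).map (algebraMap R Γ)) := by
    rw [hm, hmap, LenFn.comap_mk_q, sup_eq_right.2 (Ideal.map_mono hq)]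
  have key := pos_abs (R := R ⧸ 𝔮) (Ω := Γ ⧸ 𝔮.map (algebraMap R Γ)) hd hR
    (lam.comap (Ideal.Quotient.mk (𝔮.map (algebraMap R Γ)))) (hq' ▸ h₀) (hq' ▸ h₀')
    (Δ := Δ.map (Ideal.Quotient.mk (𝔮.map (algebraMap R Γ)))) (by rw [List.length_map, hl]) hs
    (by
      rw [hm, ← Ideal.map_pow, hmap]
      refine (Ideal.map_mono h₁).trans ?_
      rw [Ideal.map_sup, Ideal.map_quotient_self, sup_bot_eq, Ideal.map_ofList])
    (by
      intro x hx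
      obtain ⟨y, hy, rfl⟩ := List.mem_map.1 hx
      rw [hm, hmap, ← map_pow]
      exact Ideal.mem_map_of_mem _ (h₂ y hy))
  have e : (F.map (algebraMap R Γ)).h lam (Γ ⧸ Ideal.ofList Δ) =
      (kz (Δ.map (Ideal.Quotient.mk (𝔮.map (algebraMap R Γ))))).h
        (lam.comap (Ideal.Quotient.mk (𝔮.map (algebraMap R Γ)))) (Γ ⧸ 𝔮.map (algebraMap R Γ)) := by
    funext j
    rw [bal_kos hres hreg, ← kz_map]
    exact (FC.h_comap (S := Γ ⧸ 𝔮.map (algebraMap R Γ)) (kz Δ) lam j).symm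
  rw [e]
  exact key

end Crest.Agent.R188
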