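import Crest.Agent.R188.PosC1

/-! Row 188, part III-b: homology lengths of mapping cones. -/

set_option autoImplicit false
set_option linter.unusedVariables false

namespace Crest.Agent.R188

open Crest.Agent.R183 IsLocalRing RingTheory.Sequence
open scoped ENNReal TensorProduct

variable {Λ : Type} [CommRing Λ] (lam : LenFn Λ) (M : Type) [AddCommGroup M] [Module Λ M]
  (F : FC Λ)

theorem PosC_ext {S : Type} [CommRing S] {F : FC S} {d : Matrix F.ι F.ι S}
    {h1 : ∀ b b', d b b' ≠ 0 → F.deg b' = F.deg b + 1} (h2 : d * d = 0) (e : d = F.d) :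
    (⟨F.ι, F.deg, d, h1, h2⟩ : FC S) = F := by
  subst e
  rfl

theorem PosC_Z0 {v : F.ι → M} : v ∈ F.Z M 0 ↔ v ∈ F.G M 0 :=
  ⟨fun h => h.1, fun h => ⟨h, F.fr_act_zero h⟩⟩

theorem PosC_BZ : F.B M 0 ≤ F.Z M 0 := by
  rintro _ ⟨w, hw, rfl⟩
  refine (PosC_Z0 M F).2 ?_
  have := F.fr_act_mem (i := 0 + 1) hw
  rwa [add_sub_cancel_right] at this

theorem PosC_rel {V N : Type} [AddCommGroup V] [Module Λ V] [AddCommGroup N] [Module Λ N]
    (ε : V →ₗ[Λ] N) {Z W B : Submodule Λ V} (h : Z ⊓ LinearMap.ker ε = ⊥) (hW : W ≤ Z)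
    (hB : B ≤ Z) : lam.rel W B = lam.rel (W.map ε) (B.map ε) := by
  rw [lam.rel_map_comap, ← lam.rel_inf_right W, ← lam.rel_inf_right W (Submodule.comap _ _)]
  congr 1
  refine le_antisymm (inf_le_inf_left _ (Submodule.le_comap_map _ _)) ?_
  rintro w ⟨hw, b, hb, e⟩
  have h0 : w - b ∈ Z ⊓ LinearMap.ker ε :=
    ⟨sub_mem (hW hw) (hB hb), LinearMap.mem_ker.2 (by rw [map_sub, e, sub_self])⟩
  rw [h, Submodule.mem_bot, sub_eq_zero] at h0
  exact ⟨hw, h0 ▸ hb⟩

theorem PosC_step (G : FC Λ) (x : Λ) (I : Ideal Λ) (ε : (G.ι → M) →ₗ[Λ] M)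
    (h1 : (G.Z M 0).map ε = ⊤) (h2 : G.Z M 0 ⊓ LinearMap.ker ε = ⊥)
    (h3 : (G.B M 0).map ε = I • ⊤) : ∃ ε' : ((G.cone x).ι → M) →ₗ[Λ] M,
    ((G.cone x).Z M 0).map ε' = ⊤ ∧ (G.cone x).Z M 0 ⊓ LinearMap.ker ε' = ⊥ ∧
      ((G.cone x).B M 0).map ε' = (Ideal.span {x} ⊔ I) • ⊤ := by
  refine ⟨ε ∘ₗ LinearMap.funLeft Λ M Sum.inl, ?_, ?_, ?_⟩
  · refine top_unique fun m _ => ?_
    obtain ⟨u, hu, rfl⟩ := (h1.ge Submodule.mem_top : m ∈ _)
    refine ⟨Sum.elim u 0, (PosC_Z0 M (G.cone x)).2 (fr_mem_top.2 ?_), rfl⟩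
    rintro (b | b) hb
    · exact fr_mem_top.1 ((PosC_Z0 M G).1 hu) b hb
    · rfl
  · refine bot_unique fun v hv => ?_
    have hv0 := fr_mem_top.1 ((PosC_Z0 M (G.cone x)).1 hv.1)
    have hl : (v ∘ Sum.inl : G.ι → M) ∈ G.Z M 0 ⊓ LinearMap.ker ε :=
      ⟨(PosC_Z0 M G).2 (fr_mem_top.2 fun b hb => hv0 (Sum.inl b) hb), hv.2⟩
    rw [h2] at hl
    refine funext ?_
    rintro (b | b)
    · exact congrFun hl b
    · refine hv0 (Sum.inr b) ?_
      change ((G.deg b + 1 : ℕ) : ℤ) ≠ 0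
      omega
  · rw [Submodule.sup_smul, ← h3, Submodule.ideal_span_singleton_smul]
    refine le_antisymm ?_ (sup_le ?_ ?_)
    · rintro _ ⟨_, ⟨w, hw, rfl⟩, rfl⟩
      have hw0 := fr_mem_top.1 hw
      have e : (ε ∘ₗ LinearMap.funLeft Λ M Sum.inl) ((G.cone x).act M w) =
          x • ε (w ∘ Sum.inr) + ε (G.act M (w ∘ Sum.inl)) := by
        rw [← map_smul, ← map_add, add_comm]
        exact congrArg ε (G.fr_cone_inl x w)
      refine e ▸ Submodule.add_mem_sup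
        (Submodule.smul_mem_pointwise_smul _ _ _ Submodule.mem_top) ?_
      exact ⟨_, ⟨_, fr_mem_top.2 fun b hb => hw0 (Sum.inl b) hb, rfl⟩, rfl⟩
    · intro m hm
      obtain ⟨m', -, rfl⟩ := (Submodule.mem_smul_pointwise_iff_exists _ _ _).1 hm
      obtain ⟨u, hu, rfl⟩ := (h1.ge Submodule.mem_top : m' ∈ _)
      refine ⟨_, ⟨Sum.elim 0 u, fr_mem_top.2 ?_, rfl⟩, ?_⟩
      · rintro (b | b) hb
        · rfl
        · refine fr_mem_top.1 ((PosC_Z0 M G).1 hu) b fun e => hb ?_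
          change ((G.deg b + 1 : ℕ) : ℤ) = 0 + 1
          omega
      · refine (congrArg ε (G.fr_cone_inl x (Sum.elim 0 u))).trans ?_
        change ε (G.act M 0 + x • u) = _
        rw [map_zero, zero_add, map_smul]
    · rintro _ ⟨_, ⟨w, hw, rfl⟩, rfl⟩
      refine ⟨_, ⟨Sum.elim w 0, fr_mem_top.2 ?_, rfl⟩, ?_⟩
      · rintro (b | b) hb
        · exact fr_mem_top.1 hw b hb
        · rfl
      · refine (congrArg ε (G.fr_cone_inl x (Sum.elim w 0))).trans ?_
        change ε (G.act M w + x • (0 : G.ι → M)) = _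
        rw [smul_zero, add_zero]

theorem FC.bdd_kos {n : ℕ} (hF : F.Bdd n) (xs : List Λ) : (F.kos xs).Bdd (n + xs.length) := by
  induction xs with
  | nil => exact fun b => hF b
  | cons x xs ih =>
    rintro (b | b)
    · exact (ih b).trans (by simp)
    · exact Nat.succ_le_succ (ih b)

theorem FC.kos_append (xs ys : List Λ) : F.kos (xs ++ ys) = (F.kos ys).kos xs := by
  induction xs with
  | nil => rfl
  | cons x xs ih => exact congrArg (fun G : FC Λ => G.cone x) ih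

theorem FC.cone_map {S : Type} [CommRing S] (f : Λ →+* S) (x : Λ) :
    (F.cone x).map f = (F.map f).cone (f x) := by
  have e : ((F.cone x).map f).d = ((F.map f).cone (f x)).d := by
    ext (b | b) (b' | b')
    · rfl
    · change f (x • (1 : Matrix F.ι F.ι Λ) b b') = f x • (1 : Matrix F.ι F.ι S) b b'
      by_cases h : b = b' <;> simp [Matrix.one_apply, h]
    · exact map_zero f
    · exact map_neg f _
  exact PosC_ext (F := (F.map f).cone (f x)) _ e

theorem FC.kos_map {S : Type} [CommRing S] (f : Λ →+* S) (xs : List Λ) :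
    (F.kos xs).map f = (F.map f).kos (xs.map f) := by
  induction xs with
  | nil => rfl
  | cons x xs ih =>
    exact (FC.cone_map (F.kos xs) f x).trans (congrArg (fun G : FC S => G.cone (f x)) ih)

theorem kz_map {S : Type} [CommRing S] (f : Λ →+* S) (xs : List Λ) :
    (kz xs).map f = kz (xs.map f) := by
  have e : (FC.unit Λ).map f = FC.unit S :=
    PosC_ext (F := FC.unit S) _ (by ext b b'; exact map_zero f)
  rw [kz, FC.kos_map, e, kz]

theorem kz_cons (x : Λ) (xs : List Λ) : kz (x :: xs) = (kz xs).cone x := rfl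

theorem kz_bdd (xs : List Λ) : (kz xs).Bdd xs.length := by
  have := FC.bdd_kos (FC.unit Λ) (n := 0) (fun _ => le_rfl) xs
  rwa [zero_add] at this

/-- the augmentation of the Koszul complex (induction on `xs`, `ε' v = ε (v ∘ inl)`). -/
theorem kz_aug (xs : List Λ) : ∃ ε : ((kz xs).ι → M) →ₗ[Λ] M,
    ((kz xs).Z M 0).map ε = ⊤ ∧ (kz xs).Z M 0 ⊓ LinearMap.ker ε = ⊥ ∧
      ((kz xs).B M 0).map ε = Ideal.ofList xs • ⊤ := by
  induction xs with
  | nil =>
    refine ⟨LinearMap.proj (), ?_, ?_, ?_⟩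
    · refine top_unique fun m _ => ⟨fun _ => m, ?_, rfl⟩
      exact (PosC_Z0 M _).2 (fr_mem_top.2 fun b hb => absurd rfl hb)
    · refine bot_unique fun v hv => ?_
      exact funext fun _ => hv.2
    · rw [Ideal.ofList_nil, Submodule.bot_smul]
      refine bot_unique ?_
      rintro _ ⟨_, ⟨w, -, rfl⟩, rfl⟩
      exact congrFun (fr_mact_zero (R := Λ) (ι := Unit) w) ()
  | cons x xs ih =>
    obtain ⟨ε, h1, h2, h3⟩ := ih
    rw [Ideal.ofList_cons]
    exact PosC_step M (kz xs) x _ ε h1 h2 h3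

theorem kz_h_zero (xs : List Λ) :
    (kz xs).h lam M 0 = lam.rel ⊤ (Ideal.ofList xs • (⊤ : Submodule Λ M)) := by
  obtain ⟨ε, h1, h2, h3⟩ := kz_aug M xs
  rw [← h3, ← h1]
  exact PosC_rel lam ε h2 le_rfl (PosC_BZ M _)

theorem kz_kap_zero (xs : List Λ) (r : Λ) :
    (kz xs).kap lam M r 0 =
      lam.rel ((Ideal.ofList xs • (⊤ : Submodule Λ M)).comap (LinearMap.lsmul Λ M r))
        (Ideal.ofList xs • (⊤ : Submodule Λ M)) := by
  obtain ⟨ε, h1, h2, h3⟩ := kz_aug M xs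
  have hB := PosC_BZ M (kz xs)
  have e : ((kz xs).Z M 0 ⊓ ((kz xs).B M 0).comap (LinearMap.lsmul Λ _ r)).map ε =
      (((kz xs).B M 0).map ε).comap (LinearMap.lsmul Λ M r) := by
    refine le_antisymm ?_ fun m hm => ?_
    · rintro _ ⟨w, hw, rfl⟩
      exact ⟨_, hw.2, map_smul ε r w⟩
    · obtain ⟨b, hb, hm⟩ := hm
      obtain ⟨z, hz, rfl⟩ := (h1.ge Submodule.mem_top : m ∈ _)
      refine ⟨z, ⟨hz, ?_⟩, rfl⟩
      have h0 : r • z - b ∈ (kz xs).Z M 0 ⊓ LinearMap.ker ε :=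
        ⟨sub_mem (Submodule.smul_mem _ _ hz) (hB hb), LinearMap.mem_ker.2 (by
          rw [map_sub, map_smul, hm]
          exact sub_self _)⟩
      rw [h2, Submodule.mem_bot, sub_eq_zero] at h0
      change r • z ∈ (kz xs).B M 0
      rwa [h0]
  rw [← h3, ← e]
  exact PosC_rel lam ε h2 inf_le_left hB

end Crest.Agent.R188
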