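import Crest.Agent.R188.PosQ

/-! Row 188, part III-b: homology lengths of mapping cones. -/

set_option autoImplicit false
set_option linter.unusedVariables false

namespace Crest.Agent.R188

open Crest.Agent.R183 IsLocalRing RingTheory.Sequence
open scoped ENNReal TensorProduct

variable {Λ : Type} [CommRing Λ] (lam : LenFn Λ) (M : Type) [AddCommGroup M] [Module Λ M]
  (F : FC Λ)


theorem zeroLen_rel {V : Type} [AddCommGroup V] [Module Λ V] (W U : Submodule Λ V) :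
    (zeroLen Λ).rel W U = 0 ↔ W ≤ U := by
  refine ⟨fun h w hw => ?_, (zeroLen Λ).rel_of_le⟩
  have hs : Subsingleton ↥(W.map U.mkQ) := by
    by_contra hn
    simp only [LenFn.rel, zeroLen, if_neg hn] at h
    exact ENNReal.top_ne_zero h
  have := congrArg Subtype.val
    (hs.elim (⟨U.mkQ w, Submodule.mem_map_of_mem hw⟩ : ↥(W.map U.mkQ)) 0)
  exact (Submodule.Quotient.mk_eq_zero U).1 this

theorem FC.ex_iff (j : ℤ) : F.Ex M j ↔ F.h (zeroLen Λ) M j = 0 :=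
  (zeroLen_rel _ _).symm

theorem FC.h_neg {j : ℤ} (hj : j < 0) : F.h lam M j = 0 := by
  exact hl_neg lam hj

theorem FC.h_gt {n : ℕ} (hF : F.Bdd n) {j : ℤ} (hj : (n : ℤ) < j) : F.h lam M j = 0 := by
  exact hl_high lam (F.gcx hF) hj

theorem FC.gam_le (r : Λ) (j : ℤ) : F.gam lam M r j ≤ F.h lam M j := by
  exact lam.rel_anti_right _ le_sup_left

theorem FC.kap_le (r : Λ) (j : ℤ) : F.kap lam M r j ≤ F.h lam M j := by
  exact lam.rel_mono_left inf_le_left _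

theorem FC.gam_of_kl {r : Λ} {j : ℤ} (h : F.Kl M r j) : F.gam lam M r j = F.h lam M j := by
  unfold FC.gam FC.h
  rw [sup_eq_left.2]
  rintro _ ⟨z, hz, rfl⟩
  exact h z hz

theorem FC.kap_of_kl {r : Λ} {j : ℤ} (h : F.Kl M r j) : F.kap lam M r j = F.h lam M j := by
  unfold FC.kap FC.h
  rw [inf_eq_left.2]
  exact fun z hz => h z hz

/-- `FC.htpy_smul_mem`. -/
theorem FC.kl_of_htpy {r : Λ} (h : Htpy F.deg F.d r) (j : ℤ) : F.Kl M r j := by
  exact fun z hz => Htpy.smul_mem_Bt h hz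

theorem PosC1_memG (x : Λ) (i : ℤ) (w : F.ι ⊕ F.ι → M) :
    w ∈ (F.cone x).G M i ↔ w ∘ Sum.inl ∈ F.G M i ∧ w ∘ Sum.inr ∈ F.G M (i - 1) := by
  refine fr_mem_top.trans ⟨fun h => ⟨fr_mem_top.2 fun b hb => h (Sum.inl b) hb,
    fr_mem_top.2 fun b hb => h (Sum.inr b) ?_⟩, ?_⟩
  · change ((F.deg b + 1 : ℕ) : ℤ) ≠ i
    omega
  · rintro ⟨h1, h2⟩ (b | b) hb
    · exact fr_mem_top.1 h1 b hb
    · refine fr_mem_top.1 h2 b ?_
      change ((F.deg b + 1 : ℕ) : ℤ) ≠ i at hb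
      omega

omit [AddCommGroup M] [Module Λ M] in
theorem PosC1_ext {w w' : F.ι ⊕ F.ι → M} :
    w = w' ↔ w ∘ Sum.inl = w' ∘ Sum.inl ∧ w ∘ Sum.inr = w' ∘ Sum.inr := by
  refine ⟨fun h => by rw [h]; exact ⟨rfl, rfl⟩, fun ⟨h1, h2⟩ => ?_⟩
  funext b
  rcases b with b | b
  · exact congrFun h1 b
  · exact congrFun h2 b

theorem PosC1_memZ (x : Λ) (j : ℤ) (w : F.ι ⊕ F.ι → M) :
    w ∈ (F.cone x).Z M j ↔ w ∘ Sum.inl ∈ F.G M j ∧ w ∘ Sum.inr ∈ F.G M (j - 1) ∧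
      F.act M (w ∘ Sum.inl) + x • (w ∘ Sum.inr) = 0 ∧ F.act M (w ∘ Sum.inr) = 0 := by
  refine mem_Zt.trans ?_
  rw [← and_assoc, ← PosC1_memG M F x j w]
  refine and_congr Iff.rfl ((PosC1_ext M F (w := (F.cone x).act M w) (w' := 0)).trans ?_)
  exact and_congr (Eq.congr_left (F.fr_cone_inl x w))
    ((Eq.congr_left (F.fr_cone_inr x w)).trans neg_eq_zero)

theorem PosC1_memB (x : Λ) (j : ℤ) (w : F.ι ⊕ F.ι → M) :
    w ∈ (F.cone x).B M j ↔ ∃ a ∈ F.G M (j + 1), ∃ b ∈ F.G M j,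
      F.act M a + x • b = w ∘ Sum.inl ∧ -F.act M b = w ∘ Sum.inr := by
  refine mem_Bt.trans ⟨?_, ?_⟩
  · rintro ⟨u, hu, rfl⟩
    obtain ⟨h1, h2⟩ := (PosC1_memG M F x (j + 1) u).1 hu
    rw [add_sub_cancel_right] at h2
    exact ⟨_, h1, _, h2, (F.fr_cone_inl x u).symm, (F.fr_cone_inr x u).symm⟩
  · rintro ⟨a, ha, b, hb, h1, h2⟩
    refine ⟨Sum.elim a b, (PosC1_memG M F x (j + 1) _).2 ⟨ha, ?_⟩, (PosC1_ext M F).2 ⟨?_, ?_⟩⟩
    · rw [add_sub_cancel_right]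
      exact hb
    · exact (F.fr_cone_inl x (Sum.elim a b)).trans h1
    · exact (F.fr_cone_inr x (Sum.elim a b)).trans h2

/-- The long exact sequence of the cone.  Let `inl : (ι → M) → (ι ⊕ ι → M)`, `v ↦ Sum.elim v 0`,
`pr : w ↦ w ∘ inr`, and `V = (Z j).map inl ⊔ B' j` (`Z'`, `B'` for the cone).  Then `B' ≤ V ≤ Z'`,
`B'.comap inl ⊓ Z j = B j ⊔ x Z j`, `Z'.map pr = Z (j-1) ⊓ (B (j-1)).comap x`, and
`Z' ⊓ (B (j-1)).comap pr = V`. -/
theorem FC.h_cone (x : Λ) (j : ℤ) :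
    (F.cone x).h lam M j = F.gam lam M x j + F.kap lam M x (j - 1) := by
  set pr : ((F.cone x).ι → M) →ₗ[Λ] (F.ι → M) := LinearMap.funLeft Λ M Sum.inr with hpr
  set il : (F.ι → M) →ₗ[Λ] ((F.cone x).ι → M) :=
    { toFun := fun v => Sum.elim v 0
      map_add' := fun v w => by
        funext b
        rcases b with b | b
        exacts [rfl, (add_zero (0 : M)).symm]
      map_smul' := fun c v => by
        funext b
        rcases b with b | b
        exacts [rfl, (smul_zero c).symm] } with hil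
  have e0 : ∀ w : F.ι ⊕ F.ι → M, pr w = w ∘ Sum.inr := fun _ => rfl
  have h1 : (F.cone x).B M j ≤ (F.B M (j - 1)).comap pr := by
    intro w hw
    obtain ⟨a, -, b, hb, -, h2⟩ := (PosC1_memB M F x j w).1 hw
    refine mem_Bt.2 ⟨-b, ?_, ?_⟩
    · rw [sub_add_cancel]
      exact neg_mem hb
    · rw [map_neg, e0]
      exact h2
  have h2 : ((F.cone x).Z M j).map pr =
      F.Z M (j - 1) ⊓ (F.B M (j - 1)).comap (LinearMap.lsmul Λ (F.ι → M) x) := by
    apply le_antisymm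
    · rintro _ ⟨w, hw, rfl⟩
      obtain ⟨ha, hb, h3, h4⟩ := (PosC1_memZ M F x j w).1 hw
      refine ⟨mem_Zt.2 ⟨hb, h4⟩, mem_Bt.2 ⟨-(w ∘ Sum.inl), ?_, ?_⟩⟩
      · rw [sub_add_cancel]
        exact neg_mem ha
      · rw [map_neg]
        exact (eq_neg_of_add_eq_zero_right h3).symm
    · rintro b ⟨hb, hx⟩
      obtain ⟨a, ha, h3⟩ := mem_Bt.1 hx
      rw [sub_add_cancel] at ha
      refine ⟨Sum.elim (-a) b, (PosC1_memZ M F x j _).2 ⟨neg_mem ha, (mem_Zt.1 hb).1, ?_,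
        (mem_Zt.1 hb).2⟩, rfl⟩
      change F.act M (-a) + x • b = 0
      rw [map_neg, h3]
      exact neg_add_cancel _
  have h3 : (F.cone x).Z M j ⊓ (F.B M (j - 1)).comap pr = (F.Z M j).map il ⊔ (F.cone x).B M j := by
    apply le_antisymm
    · rintro w ⟨hw, hb⟩
      obtain ⟨ha, -, h3, -⟩ := (PosC1_memZ M F x j w).1 hw
      obtain ⟨c, hc, h4⟩ := mem_Bt.1 hb
      rw [sub_add_cancel] at hc
      rw [e0] at h4
      refine Submodule.mem_sup.2 ⟨il (w ∘ Sum.inl + x • c), ⟨_, mem_Zt.2 ⟨add_mem ha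
        (Submodule.smul_mem _ _ hc), ?_⟩, rfl⟩, Sum.elim (-(x • c)) (w ∘ Sum.inr),
        (PosC1_memB M F x j _).2 ⟨0, zero_mem _, -c, neg_mem hc, ?_, ?_⟩, ?_⟩
      · rw [map_add, map_smul, h4]
        exact h3
      · rw [map_zero, zero_add, smul_neg]
        rfl
      · rw [map_neg, neg_neg]
        exact h4
      · funext b
        rcases b with b | b
        · change (w ∘ Sum.inl + x • c) b + (-(x • c)) b = w (Sum.inl b)
          simp
        · change (0 : M) + w (Sum.inr b) = w (Sum.inr b)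
          rw [zero_add]
    · refine sup_le ?_ (le_inf ((F.cone x).B_le_Z M j) h1)
      rintro _ ⟨v, hv, rfl⟩
      refine ⟨(PosC1_memZ M F x j _).2 ⟨(mem_Zt.1 hv).1, zero_mem _, ?_, map_zero _⟩,
        show (0 : F.ι → M) ∈ F.B M (j - 1) from zero_mem _⟩
      change F.act M v + x • (0 : F.ι → M) = 0
      rw [smul_zero, add_zero]
      exact (mem_Zt.1 hv).2
  have h4 : F.Z M j ⊓ ((F.cone x).B M j).comap il =
      F.B M j ⊔ (F.Z M j).map (LinearMap.lsmul Λ (F.ι → M) x) := by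
    apply le_antisymm
    · rintro v ⟨-, hv⟩
      obtain ⟨a, ha, b, hb, h5, h6⟩ := (PosC1_memB M F x j _).1 hv
      change F.act M a + x • b = v at h5
      change -F.act M b = 0 at h6
      rw [neg_eq_zero] at h6
      exact Submodule.mem_sup.2 ⟨_, mem_Bt.2 ⟨a, ha, rfl⟩, _, ⟨b, mem_Zt.2 ⟨hb, h6⟩, rfl⟩, h5⟩
    · refine sup_le (le_inf (F.B_le_Z M j) fun v hv => ?_) ?_
      · obtain ⟨a, ha, h5⟩ := mem_Bt.1 hv
        refine (PosC1_memB M F x j _).2 ⟨a, ha, 0, zero_mem _, ?_, ?_⟩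
        · rw [smul_zero, add_zero]
          exact h5
        · rw [map_zero, neg_zero]
          rfl
      · rintro _ ⟨b, hb, rfl⟩
        refine ⟨Submodule.smul_mem _ _ hb,
          (PosC1_memB M F x j _).2 ⟨0, zero_mem _, b, (mem_Zt.1 hb).1, ?_, ?_⟩⟩
        · rw [map_zero, zero_add]
          rfl
        · exact neg_eq_zero.2 (mem_Zt.1 hb).2
  unfold FC.h FC.gam FC.kap
  rw [lam.rel_add' _ h1, ← lam.rel_map_comap, h2, h3, lam.rel_sup_right, lam.rel_map_comap,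
    ← lam.rel_inf_right (F.Z M j), h4, add_comm]

/-- The six term kernel-cokernel sequence.  With `K r = Z ⊓ B.comap r`, take
`δ = rel (K r) (B ⊔ r' Z)` and `ε = rel (K r ⊓ (B ⊔ r' Z)) B`.  Then
`rel (B ⊔ r Z) (B ⊔ r r' Z) = rel Z (K r ⊔ r' Z)` (`rel_map_comap` for `r`),
`gam r' = rel Z (K r ⊔ r' Z) + δ`, `kap r = δ + ε`, `rel (K (r r')) (K r') = ε` (`rel_map_comap` for
`r'`). -/
theorem six_term {V : Type} [AddCommGroup V] [Module Λ V] {Z B : Submodule Λ V} (hBZ : B ≤ Z)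
    (r r' : Λ) : ∃ δ : ℝ≥0∞,
      lam.rel Z (B ⊔ Z.map (LinearMap.lsmul Λ V (r * r'))) + δ =
        lam.rel Z (B ⊔ Z.map (LinearMap.lsmul Λ V r)) +
          lam.rel Z (B ⊔ Z.map (LinearMap.lsmul Λ V r')) ∧
      lam.rel (Z ⊓ B.comap (LinearMap.lsmul Λ V (r * r'))) B + δ =
        lam.rel (Z ⊓ B.comap (LinearMap.lsmul Λ V r)) B +
          lam.rel (Z ⊓ B.comap (LinearMap.lsmul Λ V r')) B := by
  set K : Λ → Submodule Λ V := fun s => Z ⊓ B.comap (LinearMap.lsmul Λ V s) with hK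
  set X : Λ → Submodule Λ V := fun s => Z.map (LinearMap.lsmul Λ V s) with hX
  have hXZ : ∀ s, X s ≤ Z := by
    rintro s _ ⟨z, hz, rfl⟩
    exact Submodule.smul_mem _ _ hz
  have hBK : ∀ s, B ≤ K s := fun s b hb => ⟨hBZ hb, Submodule.smul_mem _ _ hb⟩
  have hXX : X (r * r') ≤ X r := by
    rintro _ ⟨z, hz, rfl⟩
    exact ⟨r' • z, Submodule.smul_mem _ _ hz, (mul_smul r r' z).symm⟩
  have hKK : K r' ≤ K (r * r') := by
    rintro z ⟨hz, h⟩
    refine ⟨hz, ?_⟩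
    change (r * r') • z ∈ B
    rw [mul_smul]
    exact Submodule.smul_mem _ _ h
  have e1 : B ⊔ X r = X r ⊔ (B ⊔ X (r * r')) :=
    le_antisymm (sup_le (le_sup_of_le_right le_sup_left) le_sup_left)
      (sup_le le_sup_right (sup_le_sup_left hXX B))
  have e2 : Z ⊓ (B ⊔ X (r * r')).comap (LinearMap.lsmul Λ V r) = K r ⊔ X r' := by
    apply le_antisymm
    · rintro z ⟨hz, h⟩
      obtain ⟨b, hb, _, ⟨y, hy, rfl⟩, h⟩ := Submodule.mem_sup.1 h
      refine Submodule.mem_sup.2 ⟨z - r' • y, ⟨sub_mem hz (Submodule.smul_mem _ _ hy), ?_⟩,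
        r' • y, ⟨y, hy, rfl⟩, sub_add_cancel _ _⟩
      change r • (z - r' • y) ∈ B
      have h' : b + (r * r') • y = r • z := h
      rw [smul_sub, ← mul_smul, ← h', add_sub_cancel_right]
      exact hb
    · refine sup_le (fun z hz => ⟨hz.1, Submodule.mem_sup_left hz.2⟩) ?_
      rintro _ ⟨y, hy, rfl⟩
      exact ⟨Submodule.smul_mem _ _ hy, Submodule.mem_sup_right ⟨y, hy, mul_smul r r' y⟩⟩
  have e3 : K r ⊔ X r' = K r ⊔ (B ⊔ X r') := by
    rw [← sup_assoc, sup_eq_left.2 (hBK r)]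
  have e4 : K (r * r') ⊓ B.comap (LinearMap.lsmul Λ V r') = K r' :=
    le_antisymm (fun z hz => ⟨hz.1.1, hz.2⟩) (le_inf hKK inf_le_right)
  have e5 : (K (r * r')).map (LinearMap.lsmul Λ V r') ⊔ B = K r ⊓ (B ⊔ X r') := by
    apply le_antisymm
    · refine sup_le ?_ (le_inf (hBK r) le_sup_left)
      rintro _ ⟨z, ⟨hz, h⟩, rfl⟩
      refine ⟨⟨Submodule.smul_mem _ _ hz, ?_⟩, Submodule.mem_sup_right ⟨z, hz, rfl⟩⟩
      change r • r' • z ∈ B
      rw [← mul_smul]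
      exact h
    · rintro z ⟨⟨-, h1⟩, h⟩
      obtain ⟨b, hb, _, ⟨y, hy, rfl⟩, rfl⟩ := Submodule.mem_sup.1 h
      refine Submodule.mem_sup.2 ⟨r' • y, ⟨y, ⟨hy, ?_⟩, rfl⟩, b, hb, add_comm _ _⟩
      change (r * r') • y ∈ B
      have h1' : r • (b + r' • y) ∈ B := h1
      rw [smul_add, ← mul_smul] at h1'
      exact (add_mem_cancel_left (Submodule.smul_mem _ _ hb)).1 h1'
  have a1 : lam.rel (B ⊔ X r) (B ⊔ X (r * r')) = lam.rel Z (K r ⊔ X r') := by
    rw [e1, lam.rel_sup_right, lam.rel_map_comap, ← lam.rel_inf_right Z, e2]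
  have a2 : lam.rel Z (B ⊔ X r') = lam.rel Z (K r ⊔ X r') + lam.rel (K r) (B ⊔ X r') := by
    rw [lam.rel_add (sup_le_sup_right (hBK r) (X r')) (sup_le inf_le_left (hXZ r'))]
    congr 1
    rw [e3, lam.rel_sup_right]
  have a3 : lam.rel (K (r * r')) (K r') = lam.rel (K r ⊓ (B ⊔ X r')) B := by
    rw [← e4, lam.rel_inf_right, ← lam.rel_map_comap, ← e5, lam.rel_sup_right]
  refine ⟨lam.rel (K r) (B ⊔ X r'), ?_, ?_⟩
  · change lam.rel Z (B ⊔ X (r * r')) + _ = lam.rel Z (B ⊔ X r) + lam.rel Z (B ⊔ X r')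
    rw [lam.rel_add (sup_le_sup_left hXX B) (sup_le hBZ (hXZ r)), a1, a2, add_assoc]
  · change lam.rel (K (r * r')) B + _ = lam.rel (K r) B + lam.rel (K r') B
    rw [lam.rel_add (hBK r') hKK, a3, lam.rel_add' (K r) (le_sup_left : B ≤ B ⊔ X r')]
    ring

theorem PosC1_delta (r r' : Λ) : ∃ δ : ℤ → ℝ≥0∞, (∀ j, δ j ≤ F.h lam M j + F.h lam M j) ∧
    ∀ j, (F.cone (r * r')).h lam M j + (δ j + δ (j - 1)) =
      (F.cone r).h lam M j + (F.cone r').h lam M j := by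
  choose δ h1 h2 using fun j => six_term lam (F.B_le_Z M j) r r'
  refine ⟨δ, fun j => ?_, fun j => ?_⟩
  · refine le_trans le_add_self ((h1 j).le.trans ?_)
    exact add_le_add (F.gam_le lam M r j) (F.gam_le lam M r' j)
  · have a1 : F.gam lam M (r * r') j + δ j = F.gam lam M r j + F.gam lam M r' j := h1 j
    have a2 : F.kap lam M (r * r') (j - 1) + δ (j - 1) =
      F.kap lam M r (j - 1) + F.kap lam M r' (j - 1) := h2 (j - 1)
    rw [FC.h_cone, FC.h_cone, FC.h_cone, add_add_add_comm, a1, a2, add_add_add_comm]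

theorem FC.h_cone_mul_le (r r' : Λ) (j : ℤ) :
    (F.cone (r * r')).h lam M j ≤ (F.cone r).h lam M j + (F.cone r').h lam M j := by
  obtain ⟨δ, -, h⟩ := PosC1_delta lam M F r r'
  rw [← h j]
  exact le_self_add

/-- by `h_cone` and `six_term`, `h(r r') j + (δ j + δ (j-1)) = h(r) j + h(r') j`, with
`δ (-1) = 0 = δ n`; telescope (`cxa_tel` or `chi_add_of_les`). -/
theorem FC.chi_cone_mul {n : ℕ} (hF : ∀ b, F.deg b < n) (r r' : Λ)
    (hr : ∀ j, (F.cone r).h lam M j ≠ ⊤) (hr' : ∀ j, (F.cone r').h lam M j ≠ ⊤) :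
    chi 0 n ((F.cone (r * r')).h lam M) =
      chi 0 n ((F.cone r).h lam M) + chi 0 n ((F.cone r').h lam M) := by
  obtain ⟨δ, h0, h⟩ := PosC1_delta lam M F r r'
  have hz : ∀ j : ℤ, (∀ b, (F.deg b : ℤ) ≠ j) → δ j = 0 := fun j hj => by
    have : F.h lam M j = 0 := lam.rel_of_le fun v hv => by
      rw [show v = 0 from funext fun b => fr_mem_top.1 (mem_Zt.1 hv).1 b (hj b)]
      exact zero_mem _
    simpa [this] using h0 j
  have ht := cxa_tel (lo := 0) (hi := n) (fun i => (δ (i - 1)).toReal)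
    (by rw [hz _ fun b => by omega]; rfl)
    (by rw [hz _ fun b => by have := hF b; omega]; rfl)
  rw [← add_zero (chi 0 n ((F.cone (r * r')).h lam M)), ← ht]
  simp only [chi, ← Finset.sum_add_distrib]
  refine Finset.sum_congr rfl fun i _ => ?_
  have hi := h i
  have hfin : (F.cone (r * r')).h lam M i + (δ i + δ (i - 1)) ≠ ⊤ := by
    rw [hi]
    exact ENNReal.add_ne_top.2 ⟨hr i, hr' i⟩
  obtain ⟨f1, f2⟩ := ENNReal.add_ne_top.1 hfin
  obtain ⟨f2, f3⟩ := ENNReal.add_ne_top.1 f2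
  have := congrArg ENNReal.toReal hi
  rw [ENNReal.toReal_add f1 (ENNReal.add_ne_top.2 ⟨f2, f3⟩), ENNReal.toReal_add f2 f3,
    ENNReal.toReal_add (hr i) (hr' i)] at this
  rw [add_sub_cancel_right, ← mul_add, ← mul_add, this]

end Crest.Agent.R188
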