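import Crest.Agent.R188.TBal
import Crest.Agent.R188.TChange
import Crest.Agent.R188.THtpy
import Crest.Agent.R188.Free
import Crest.Agent.R183.Norm
import Crest.Agent.R183.UlenA

/-! Row 188, part III-b (positivity of the lifted diagonal): definitions. -/

set_option autoImplicit false

namespace Crest.Agent.R188

open Crest.Agent.R183 IsLocalRing
open scoped ENNReal TensorProduct

section
variable {Λ : Type} [CommRing Λ]

namespace FC

/-- cycles of `F ⊗ M`. -/
abbrev Z (F : FC Λ) (M : Type) [AddCommGroup M] [Module Λ M] (j : ℤ) : Submodule Λ (F.ι → M) :=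
  Zt F.deg F.d M j

/-- boundaries of `F ⊗ M`. -/
abbrev B (F : FC Λ) (M : Type) [AddCommGroup M] [Module Λ M] (j : ℤ) : Submodule Λ (F.ι → M) :=
  Bt F.deg F.d M j

/-- the length of `H_j(F ⊗ M)`. -/
noncomputable def h (F : FC Λ) (lam : LenFn Λ) (M : Type) [AddCommGroup M] [Module Λ M] (j : ℤ) :
    ℝ≥0∞ :=
  lam.rel (F.Z M j) (F.B M j)

theorem h_eq (F : FC Λ) (lam : LenFn Λ) (M : Type) [AddCommGroup M] [Module Λ M] (j : ℤ) :
    F.h lam M j = hl lam F.deg F.d M j := rfl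

/-- the length of the cokernel of `r` on `H_j(F ⊗ M)`. -/
noncomputable def gam (F : FC Λ) (lam : LenFn Λ) (M : Type) [AddCommGroup M] [Module Λ M] (r : Λ)
    (j : ℤ) : ℝ≥0∞ :=
  lam.rel (F.Z M j) (F.B M j ⊔ (F.Z M j).map (LinearMap.lsmul Λ (F.ι → M) r))

/-- the length of the kernel of `r` on `H_j(F ⊗ M)`. -/
noncomputable def kap (F : FC Λ) (lam : LenFn Λ) (M : Type) [AddCommGroup M] [Module Λ M] (r : Λ)
    (j : ℤ) : ℝ≥0∞ :=
  lam.rel (F.Z M j ⊓ (F.B M j).comap (LinearMap.lsmul Λ (F.ι → M) r)) (F.B M j)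

/-- `F ⊗ M` is exact in degree `j`. -/
def Ex (F : FC Λ) (M : Type) [AddCommGroup M] [Module Λ M] (j : ℤ) : Prop := F.Z M j ≤ F.B M j

/-- `r` kills `H_j(F ⊗ M)`. -/
def Kl (F : FC Λ) (M : Type) [AddCommGroup M] [Module Λ M] (r : Λ) (j : ℤ) : Prop :=
  ∀ z ∈ F.Z M j, r • z ∈ F.B M j

/-- `F` lives in the degrees `≤ n`. -/
def Bdd (F : FC Λ) (n : ℕ) : Prop := ∀ b, F.deg b ≤ n

/-- the bundled complex attached to a `GCx`. -/
def ofG {ι : Type} [Fintype ι] [DecidableEq ι] {d : ℕ} {deg : ι → ℕ} {P : Matrix ι ι Λ}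
    (h : GCx d deg P) : FC Λ where
  ι := ι
  deg := deg
  d := P
  d_deg := h.P_deg
  dd := h.sq

end FC

/-- the Koszul complex (the head of the list is the outermost cone). -/
def kz (xs : List Λ) : FC Λ := (FC.unit Λ).kos xs

/-- the Koszul complex of `xs` on `M` is exact in positive degrees. -/
def KEx (xs : List Λ) (M : Type) [AddCommGroup M] [Module Λ M] : Prop :=
  ∀ j : ℤ, 1 ≤ j → (kz xs).Ex M j

/-- `φ : F ⊗ M → F' ⊗ M'` is a quasi-isomorphism. -/
structure QIso (F F' : FC Λ) {M M' : Type} [AddCommGroup M] [Module Λ M] [AddCommGroup M']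
    [Module Λ M'] (φ : (F.ι → M) →ₗ[Λ] (F'.ι → M')) : Prop where
  deg : ∀ i, (F.G M i).map φ ≤ F'.G M' i
  comm : ∀ v, φ (F.act M v) = F'.act M' (φ v)
  surj : ∀ i, F'.Z M' i ≤ (F.Z M i).map φ ⊔ F'.B M' i
  inj : ∀ i, F.Z M i ⊓ (F'.B M' i).comap φ ≤ F.B M i

/-- there is a quasi-isomorphism `F ⊗ M → F' ⊗ M'`. -/
def QE (F : FC Λ) (M : Type) [AddCommGroup M] [Module Λ M] (F' : FC Λ) (M' : Type)
    [AddCommGroup M'] [Module Λ M'] : Prop :=
  ∃ φ : (F.ι → M) →ₗ[Λ] (F'.ι → M'), QIso F F' φ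

open Classical in
/-- the length function which only detects the zero module. -/
noncomputable def zeroLen (Λ : Type) [CommRing Λ] : LenFn Λ where
  toFun M _ _ := if Subsingleton M then 0 else ⊤
  zero M _ _ h := if_pos h
  add M₁ M₂ M₃ _ _ _ _ _ _ f g hf hg hfg := by
    by_cases h₂ : Subsingleton M₂
    · rw [if_pos h₂, if_pos hf.subsingleton, if_pos hg.subsingleton, add_zero]
    · rw [if_neg h₂]
      by_cases h₁ : Subsingleton M₁
      · by_cases h₃ : Subsingleton M₃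
        · refine (h₂ (subsingleton_of_forall_eq 0 fun y => ?_)).elim
          obtain ⟨x, rfl⟩ := (hfg y).1 (Subsingleton.elim _ _)
          rw [Subsingleton.elim x 0, map_zero]
        · rw [if_neg h₃, add_top]
      · rw [if_neg h₁, top_add]

end

/-- `xs` is a regular system of parameters of the Noetherian local domain `A`. -/
structure RegSys (A : Type) [CommRing A] [IsLocalRing A] (xs : List A) : Prop where
  noeth : IsNoetherianRing A
  dom : IsDomain A
  max : maximalIdeal A = Ideal.ofList xs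
  reg : RingTheory.Sequence.IsWeaklyRegular A xs

/-- the properties of a `d`-dimensional complete local domain which are used for positivity. -/
structure PosRing (R : Type) [CommRing R] [IsLocalRing R] (d : ℕ) : Prop where
  noeth : IsNoetherianRing R
  par : ∃ (u : List R) (C : ℕ), u.length = d ∧ (∀ x ∈ u, x ∈ maximalIdeal R) ∧
    ∀ t : ℕ, 1 ≤ t → ∀ j : ℤ, 1 ≤ j →
      (kz (u.map (· ^ t))).h (lenFn R) R j ≤ (C : ℝ≥0∞) * (t : ℝ≥0∞) ^ (d - 1)
  growth : ∃ s : ℕ, 1 ≤ s ∧ ∀ n : ℕ, (n : ℝ≥0∞) ^ d ≤ s * hs R (s * n + s)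

/-- the setting of the lifting argument: `T = O⟦z⟧ / (f)` is regular with regular system of
parameters `z`, and `O⟦y₁, …, y_a⟧` is complete. -/
structure LSet {O T : Type} [CommRing O] [IsLocalRing O] [CommRing T] [IsLocalRing T] [Algebra O T]
    {d : ℕ} (ϖ : O) (f : MvPowerSeries (Fin d) O) (π : MvPowerSeries (Fin d) O →+* T) (a : ℕ) :
    Prop where
  noethO : IsNoetherianRing O
  noethT : IsNoetherianRing T
  maxO : maximalIdeal O = Ideal.span {ϖ}
  compl : IsAdicComplete (maximalIdeal (MvPowerSeries (Fin a) O)) (MvPowerSeries (Fin a) O)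
  πC : ∀ w, π (MvPowerSeries.C w) = algebraMap O T w
  surj : Function.Surjective π
  ker : RingHom.ker π = Ideal.span {f}
  maxT : maximalIdeal T = sp fun i => π (MvPowerSeries.X i)
  reg : RingTheory.Sequence.IsWeaklyRegular T (List.ofFn fun i => π (MvPowerSeries.X i))

/-- one level of a lifted system: `Θ : O⟦z⟧ → B`, `B` finite free over `O⟦y⟧`. -/
structure LLev {O : Type} [CommRing O] [IsLocalRing O] {d a : ℕ} (ϖ : O)
    (f : MvPowerSeries (Fin d) O) (B : FFAlg (MvPowerSeries (Fin a) O))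
    (Θ : MvPowerSeries (Fin d) O →+* B.carrier) (s : ℕ) : Prop where
  const : ∀ w, Θ (MvPowerSeries.C w) =
    algebraMap (MvPowerSeries (Fin a) O) B.carrier (MvPowerSeries.C w)
  nil : ∀ i, Θ (MvPowerSeries.X i) ^ s ∈
    (maximalIdeal (MvPowerSeries (Fin a) O)).map (algebraMap (MvPowerSeries (Fin a) O) B.carrier)
  par : algebraMap (MvPowerSeries (Fin a) O) B.carrier (MvPowerSeries.C ϖ) ^ s ∈
    Ideal.span {Θ f} ⊔
      sp fun i => algebraMap (MvPowerSeries (Fin a) O) B.carrier (MvPowerSeries.X i)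

/-- the ring `T⟦y⟧ ⊗_{O⟦y⟧} B`. -/
abbrev GamL (T : Type) [CommRing T] {O : Type} [CommRing O] [Algebra O T] {a : ℕ}
    (B : FFAlg (MvPowerSeries (Fin a) O)) : Type :=
  MvPowerSeries (Fin a) T ⊗[MvPowerSeries (Fin a) O] B.carrier

/-- the lifted diagonal `z_i ⊗ 1 - 1 ⊗ Θ(z_i)`. -/
noncomputable def DelL {O T : Type} [CommRing O] [CommRing T] [Algebra O T] {d a : ℕ}
    (π : MvPowerSeries (Fin d) O →+* T) (B : FFAlg (MvPowerSeries (Fin a) O))
    (Θ : MvPowerSeries (Fin d) O →+* B.carrier) (i : Fin d) : GamL T B :=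
  (MvPowerSeries.C (π (MvPowerSeries.X i)) : MvPowerSeries (Fin a) T) ⊗ₜ (1 : B.carrier) -
    (1 : MvPowerSeries (Fin a) T) ⊗ₜ Θ (MvPowerSeries.X i)

end Crest.Agent.R188
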