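import Crest.Agent.R188.PosK

/-! Row 188, part III-b: flat base change, products, change of rings. -/

set_option autoImplicit false
set_option linter.unusedVariables false

namespace Crest.Agent.R188

open Crest.Agent.R183 IsLocalRing RingTheory.Sequence
open scoped ENNReal TensorProduct

/-- products of flat modules over a Noetherian ring are flat (equational criterion
`Module.Flat.iff_forall_isTrivialRelation`; the module of relations among `f₁, …, f_n ∈ R` is
finitely generated by `s₁, …, s_m`, and in a flat module every relation is a combination of the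
`s_l`). -/
theorem flat_pi {R : Type} [CommRing R] [IsNoetherianRing R] {J : Type} (M : J → Type)
    [∀ j, AddCommGroup (M j)] [∀ j, Module R (M j)] [∀ j, Module.Flat R (M j)] :
    Module.Flat R (∀ j, M j) := by
  classical
  refine Module.Flat.of_forall_isTrivialRelation fun {l f x} hfx => ?_
  let φ : (Fin l → R) →ₗ[R] R := Fintype.linearCombination R f
  obtain ⟨m, s, hs⟩ := Submodule.fg_iff_exists_fin_generating_family.1
    (IsNoetherian.noetherian (LinearMap.ker φ))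
  have key : ∀ j, ∃ y : Fin m → M j, ∀ i, x i j = ∑ k, s k i • y k := by
    intro j
    have h0 : ∑ i, f i • x i j = 0 := by
      have := congrFun hfx j
      simpa [Finset.sum_apply] using this
    obtain ⟨k, a, y, ha, hb⟩ := Module.Flat.isTrivialRelation_of_sum_smul_eq_zero h0
    have hc : ∀ t, ∃ c : Fin m → R, ∑ q, c q • s q = fun i => a i t := by
      intro t
      have : (fun i => a i t) ∈ Submodule.span R (Set.range s) := by
        rw [hs, LinearMap.mem_ker]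
        simp only [φ, Fintype.linearCombination_apply, smul_eq_mul]
        rw [← hb t]
        exact Finset.sum_congr rfl fun i _ => mul_comm _ _
      exact (Submodule.mem_span_range_iff_exists_fun R).1 this
    choose c hc using hc
    refine ⟨fun q => ∑ t, c t q • y t, fun i => ?_⟩
    refine (ha i).trans ?_
    simp only [Finset.smul_sum]
    rw [Finset.sum_comm]
    refine Finset.sum_congr rfl fun t _ => ?_
    have := congrFun (hc t) i
    simp only [Finset.sum_apply, Pi.smul_apply, smul_eq_mul] at this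
    rw [← this, Finset.sum_smul]
    refine Finset.sum_congr rfl fun q _ => ?_
    rw [smul_smul, mul_comm]
  choose y hy using key
  refine ⟨m, fun i k => s k i, fun k j => y j k, fun i => funext fun j => ?_, fun k => ?_⟩
  · rw [hy j i]
    simp [Finset.sum_apply]
  · have : s k ∈ LinearMap.ker φ := hs ▸ Submodule.subset_span ⟨k, rfl⟩
    rw [LinearMap.mem_ker] at this
    simp only [φ, Fintype.linearCombination_apply, smul_eq_mul] at this
    rw [← this]
    exact Finset.sum_congr rfl fun i _ => mul_comm _ _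

theorem flat_ps (R : Type) [CommRing R] [IsNoetherianRing R] (σ : Type) :
    Module.Flat R (MvPowerSeries σ R) := by
  exact flat_pi (R := R) (fun _ : σ →₀ ℕ => R)

theorem flat_quot {R S : Type} [CommRing R] [CommRing S] [Algebra R S] [Module.Flat R S]
    (I : Ideal R) : Module.Flat (R ⧸ I) (S ⧸ I.map (algebraMap R S)) := by
  exact Module.Flat.of_linearEquiv
    (Algebra.TensorProduct.quotIdealMapEquivQuotTensor S I).toLinearEquiv

section Prod
variable {J : Type} {C : J → Type} [∀ j, CommRing (C j)]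

theorem mem_ofList_pi (xs : List (∀ j, C j)) (b : ∀ j, C j) :
    b ∈ Ideal.ofList xs ↔ ∀ j, b j ∈ Ideal.ofList (xs.map (Pi.evalRingHom C j)) := by
  have h : ∀ {A : Type} [CommRing A] (ys : List A) (n : ℕ) (hn : ys.length = n),
      Ideal.ofList ys = sp fun i : Fin n => ys[(i : ℕ)]'(hn ▸ i.2) := by
    intro A _ ys n hn
    subst hn
    unfold Ideal.ofList sp
    congr 1
    ext r
    simp only [Set.mem_setOf_eq, Set.mem_range, List.mem_iff_getElem]
    exact ⟨fun ⟨i, hi, e⟩ => ⟨⟨i, hi⟩, e⟩, fun ⟨i, e⟩ => ⟨i.1, i.2, e⟩⟩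
  rw [h xs xs.length rfl, mem_sp_pi]
  refine forall_congr' fun j => ?_
  rw [h (xs.map (Pi.evalRingHom C j)) xs.length (List.length_map _)]
  simp only [List.getElem_map, Pi.evalRingHom_apply]

theorem wreg_pi {xs : List (∀ j, C j)}
    (h : ∀ j, IsWeaklyRegular (C j) (xs.map (Pi.evalRingHom C j))) :
    IsWeaklyRegular (∀ j, C j) xs := by
  refine ⟨fun i hi => ?_⟩
  rw [isSMulRegular_quotient_iff_mem_of_smul_mem]
  intro b hb
  simp only [smul_eq_mul, Ideal.mul_top] at hb ⊢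
  rw [mem_ofList_pi] at hb ⊢
  intro j
  have h1 := (h j).regular_mod_prev i (by rwa [List.length_map])
  rw [isSMulRegular_quotient_iff_mem_of_smul_mem] at h1
  have h2 := h1 (b j)
  simp only [smul_eq_mul, Ideal.mul_top, List.getElem_map, Pi.evalRingHom_apply,
    ← List.map_take] at h2
  exact h2 (hb j)

/-- extension of a finitely generated ideal to a product (`mem_sp_pi`). -/
theorem mem_map_pi {R : Type} [CommRing R] {I : Ideal R} (hI : I.FG) (f : R →+* ∀ j, C j)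
    (b : ∀ j, C j) : b ∈ I.map f ↔ ∀ j, b j ∈ I.map ((Pi.evalRingHom C j).comp f) := by
  obtain ⟨n, s, rfl⟩ := Submodule.fg_iff_exists_fin_generating_family.1 hI
  have h : ∀ {A : Type} [CommRing A] (g : R →+* A),
      Ideal.map g (Submodule.span R (Set.range s)) = sp fun i => g (s i) := by
    intro A _ g
    change Ideal.map g (Ideal.span (Set.range s)) = _
    rw [Ideal.map_span, ← Set.range_comp]
    rfl
  rw [h, mem_sp_pi]
  refine forall_congr' fun j => ?_
  rw [h]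
  rfl

end Prod

private theorem PosF1_rel {Λ₀ Λ₁ Λ₂ : Type} [CommRing Λ₀] [CommRing Λ₁] [CommRing Λ₂]
    (lam : LenFn Λ₀) (g₁ : Λ₀ →+* Λ₁) (g₂ : Λ₀ →+* Λ₂) {M₁ M₂ : Type} [AddCommGroup M₁]
    [Module Λ₁ M₁] [AddCommGroup M₂] [Module Λ₂ M₂] (e : M₁ ≃+ M₂)
    (he : ∀ r m, e (g₁ r • m) = g₂ r • e m) (V₁ U₁ : Submodule Λ₁ M₁) (V₂ U₂ : Submodule Λ₂ M₂)
    (hV : ∀ m, m ∈ V₁ ↔ e m ∈ V₂) (hU : ∀ m, m ∈ U₁ ↔ e m ∈ U₂) :
    (lam.comap g₁).rel V₁ U₁ = (lam.comap g₂).rel V₂ U₂ := by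
  letI := g₁.toAlgebra
  letI := g₂.toAlgebra
  letI : Module Λ₀ M₁ := Module.compHom M₁ g₁
  letI : Module Λ₀ M₂ := Module.compHom M₂ g₂
  haveI : IsScalarTower Λ₀ Λ₁ M₁ := ⟨fun r s m => mul_smul (g₁ r) s m⟩
  haveI : IsScalarTower Λ₀ Λ₂ M₂ := ⟨fun r s m => mul_smul (g₂ r) s m⟩
  have h1 := lam.comap_rel (Λ' := Λ₁) V₁ U₁
  have h2 := lam.comap_rel (Λ' := Λ₂) V₂ U₂
  change (lam.comap g₁).rel V₁ U₁ = _ at h1
  change (lam.comap g₂).rel V₂ U₂ = _ at h2
  rw [h1, h2]
  let φ : M₁ →ₗ[Λ₀] M₂ := { toFun := e, map_add' := e.map_add, map_smul' := fun r m => he r m }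
  have hφ : Function.Surjective φ := e.surjective
  rw [← lam.rel_comap_of_surjective φ hφ]
  congr 1
  · ext m
    exact hV m
  · ext m
    exact hU m

/-- transport of homology lengths along an isomorphism which is linear over a common base ring
(use `Module.compHom`, `LenFn.comap_rel` with `RingHom.toAlgebra`, `rel_map_of_injective`). -/
theorem hl_transfer {Λ₀ Λ₁ Λ₂ : Type} [CommRing Λ₀] [CommRing Λ₁] [CommRing Λ₂] (lam : LenFn Λ₀)
    (g₁ : Λ₀ →+* Λ₁) (g₂ : Λ₀ →+* Λ₂) {M₁ M₂ : Type} [AddCommGroup M₁] [Module Λ₁ M₁]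
    [AddCommGroup M₂] [Module Λ₂ M₂] (e : M₁ ≃+ M₂) (he : ∀ r m, e (g₁ r • m) = g₂ r • e m)
    {ι : Type} [Fintype ι] (deg : ι → ℕ) (P₁ : Matrix ι ι Λ₁) (P₂ : Matrix ι ι Λ₂)
    (hP : ∀ b b' m, e (P₁ b b' • m) = P₂ b b' • e m) (j : ℤ) :
    hl (lam.comap g₁) deg P₁ M₁ j = hl (lam.comap g₂) deg P₂ M₂ j := by
  let E : (ι → M₁) ≃+ (ι → M₂) := AddEquiv.piCongrRight fun _ => e
  have hE : ∀ v b, E v b = e (v b) := fun _ _ => rfl
  have hm : ∀ v, E (mact P₁ M₁ v) = mact P₂ M₂ (E v) := by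
    intro v
    funext b
    rw [hE]
    change e (∑ b', P₁ b b' • v b') = ∑ b', P₂ b b' • e (v b')
    rw [map_sum]
    exact Finset.sum_congr rfl fun b' _ => hP _ _ _
  have hg : ∀ i v, v ∈ gr deg i (⊤ : Submodule Λ₁ M₁) ↔ E v ∈ gr deg i (⊤ : Submodule Λ₂ M₂) := by
    intro i v
    simp only [mem_gr, Submodule.mem_top, true_and, hE, EmbeddingLike.map_eq_zero_iff]
  unfold hl
  refine PosF1_rel lam g₁ g₂ E (fun r v => funext fun b => he r (v b)) _ _ _ _ ?_ ?_
  · intro v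
    rw [mem_Zt, mem_Zt, hg, ← hm, E.map_eq_zero_iff]
  · intro v
    rw [mem_Bt, mem_Bt]
    constructor
    · rintro ⟨w, hw, rfl⟩
      exact ⟨E w, (hg _ _).1 hw, (hm w).symm⟩
    · rintro ⟨w, hw, h⟩
      obtain ⟨w, rfl⟩ := E.surjective w
      exact ⟨w, (hg _ _).2 hw, E.injective ((hm w).trans h)⟩

/-- a surjection `Λ₁ / J₁ → Λ₂ / J₂` which is linear over `Λ₀`. -/
theorem q_comap_le {Λ₀ Λ₁ Λ₂ : Type} [CommRing Λ₀] [CommRing Λ₁] [CommRing Λ₂] (lam : LenFn Λ₀)
    (g₁ : Λ₀ →+* Λ₁) (g₂ : Λ₀ →+* Λ₂) (J₁ : Ideal Λ₁) (J₂ : Ideal Λ₂) (θ : Λ₁ →+* Λ₂ ⧸ J₂)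
    (hθ : Function.Surjective θ) (hJ : ∀ x ∈ J₁, θ x = 0)
    (hg : ∀ r, θ (g₁ r) = Ideal.Quotient.mk J₂ (g₂ r)) :
    (lam.comap g₂).q J₂ ≤ (lam.comap g₁).q J₁ := by
  let ψ : Λ₁ ⧸ J₁ →+* Λ₂ ⧸ J₂ := Ideal.Quotient.lift J₁ θ hJ
  have hψ : Function.Surjective ψ := fun y => by
    obtain ⟨x, rfl⟩ := hθ y
    exact ⟨Ideal.Quotient.mk J₁ x, rfl⟩
  letI : Module Λ₀ (Λ₁ ⧸ J₁) := Module.compHom _ g₁
  letI : Module Λ₀ (Λ₂ ⧸ J₂) := Module.compHom _ g₂
  let φ : (Λ₁ ⧸ J₁) →ₗ[Λ₀] (Λ₂ ⧸ J₂) :=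
    { toFun := ψ
      map_add' := ψ.map_add
      map_smul' := fun r m => by
        obtain ⟨x, rfl⟩ := Ideal.Quotient.mk_surjective m
        change θ (g₁ r * x) = Ideal.Quotient.mk J₂ (g₂ r) * θ x
        rw [map_mul, hg] }
  exact lam.le_of_surjective φ hψ

end Crest.Agent.R188
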