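import Crest.Agent.R188.PosK1

/-! Row 188, part III-b: Koszul calculus for lengths. -/

set_option autoImplicit false
set_option linter.unusedVariables false

namespace Crest.Agent.R188

open Crest.Agent.R183 IsLocalRing RingTheory.Sequence
open scoped ENNReal TensorProduct

variable {Λ : Type} [CommRing Λ] (lam : LenFn Λ) (M : Type) [AddCommGroup M] [Module Λ M]
  (F : FC Λ)

theorem PosK_smul_top (I : Ideal Λ) : I • (⊤ : Submodule Λ Λ) = I := by
  rw [Ideal.smul_eq_mul, Ideal.mul_top]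

theorem PosK_h_zero (xs : List Λ) : (kz xs).h lam Λ 0 = lam.q (Ideal.ofList xs) := by
  rw [kz_h_zero, PosK_smul_top, LenFn.q_eq_rel]

theorem PosK_chi {xs : List Λ} (h : KEx xs Λ) (n : ℕ) :
    chi 0 n ((kz xs).h lam Λ) = (lam.q (Ideal.ofList xs)).toReal := by
  unfold chi
  rw [Finset.sum_eq_single 0]
  · rw [PosK_h_zero]; simp
  · intro j hj hj0
    have hj1 : 1 ≤ j := by
      have := (Finset.mem_Icc.1 hj).1
      omega
    have : (kz xs).h lam Λ j = 0 := lam.rel_of_le (h j hj1)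
    rw [this]; simp
  · intro h0
    exact (h0 (Finset.mem_Icc.2 ⟨le_rfl, by positivity⟩)).elim

theorem PosK_smul_mem {R : Type} [CommRing R] [Algebra R Λ] {V : Type} [AddCommGroup V]
    [Module Λ V] [Module R V] [IsScalarTower R Λ V] (I : Ideal R) (Z : Submodule Λ V) {a : Λ}
    (ha : a ∈ I.map (algebraMap R Λ)) {z : V} (hz : z ∈ Z) :
    a • z ∈ I • Z.restrictScalars R := by
  induction ha using Submodule.span_induction generalizing z with
  | mem a ha =>
    obtain ⟨r, hr, rfl⟩ := ha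
    rw [algebraMap_smul]
    exact Submodule.smul_mem_smul hr hz
  | zero => rw [zero_smul]; exact zero_mem _
  | add a b _ _ iha ihb => rw [add_smul]; exact add_mem (iha hz) (ihb hz)
  | smul c a _ ih =>
    rw [smul_eq_mul, mul_comm, mul_smul]
    exact ih (Z.smul_mem c hz)

theorem KEx.perm {xs ys : List Λ} (h : KEx xs M) (hp : xs.Perm ys) : KEx ys M := by
  intro j hj
  rw [FC.ex_iff]
  have h1 := (FC.ex_iff M (kz xs) j).1 (h j hj)
  rw [← h1]
  exact (FC.h_kos_perm (zeroLen Λ) M (FC.unit Λ) hp j).symm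

theorem KEx.pow {xs : List Λ} (h : KEx xs M) {t : ℕ} (ht : 1 ≤ t) : KEx (xs.map (· ^ t)) M := by
  intro j hj
  rw [FC.ex_iff]
  have h1 := (FC.ex_iff M (kz xs) j).1 (h j hj)
  have h2 := FC.h_kos_pow_le (zeroLen Λ) M (FC.unit Λ) xs [] ht j
  rw [List.append_nil, List.append_nil] at h2
  have h3 : ((FC.unit Λ).kos xs).h (zeroLen Λ) M j = 0 := h1
  rw [h3, mul_zero] at h2
  exact le_antisymm h2 zero_le

theorem KEx.of_mem {w x : List Λ} (h : KEx x M) (hx : ∀ y ∈ x, y ∈ Ideal.ofList w)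
    (hl : w.length ≤ x.length) : KEx w M := by
  intro j hj
  rw [FC.ex_iff]
  have h2 := kz_h_le_of_mem (zeroLen Λ) M w x hx (S := 0) (j := j) (fun i hi => by
    have hi1 : 1 ≤ i := by
      have : (w.length : ℤ) ≤ x.length := by exact_mod_cast hl
      omega
    exact ((FC.ex_iff M (kz x) i).1 (h i hi1)).le)
  rw [mul_zero] at h2
  exact le_antisymm h2 zero_le

/-- `FC.kos_res`. -/
theorem kex_of_reg {xs : List Λ} (h : IsWeaklyRegular Λ xs) : KEx xs Λ := by
  intro j hj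
  exact (FC.kos_res xs h).ex (by omega)

/-- `chi_kos_pow` (with `ys = []`), exactness in positive degrees and `kz_h_zero`. -/
theorem q_pow_of_kex {xs : List Λ} (h : KEx xs Λ) (hf : lam.q (Ideal.ofList xs) ≠ ⊤) {t : ℕ}
    (ht : 1 ≤ t) :
    lam.q (Ideal.ofList (xs.map (· ^ t))) = (t : ℝ≥0∞) ^ xs.length * lam.q (Ideal.ofList xs) := by
  have h' := KEx.pow Λ h ht
  have hb : (FC.unit Λ).Bdd 0 := fun _ => le_rfl
  have hfin : ∀ j, ((FC.unit Λ).kos (xs ++ [])).h lam Λ j ≠ ⊤ := by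
    intro j
    rw [List.append_nil]
    rcases lt_trichotomy j 0 with hj | rfl | hj
    · rw [FC.h_neg lam Λ _ hj]; exact ENNReal.zero_ne_top
    · exact (PosK_h_zero lam xs).trans_ne hf
    · have : (kz xs).h lam Λ j = 0 := lam.rel_of_le (h j hj)
      exact this.trans_ne ENNReal.zero_ne_top
  have h1 := FC.chi_kos_pow lam Λ (FC.unit Λ) (n := xs.length) hb xs [] (by simp) hfin ht
  have h2 := FC.h_kos_pow_le lam Λ (FC.unit Λ) xs [] ht 0
  rw [List.append_nil, List.append_nil] at h1 h2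
  have e1 := PosK_chi lam h xs.length
  have e2 := PosK_chi lam h' xs.length
  have e3 := PosK_h_zero lam xs
  have e4 := PosK_h_zero lam (xs.map (· ^ t))
  unfold kz at e1 e2 e3 e4
  rw [e1, e2] at h1
  rw [e3, e4] at h2
  have hfin2 : (t : ℝ≥0∞) ^ xs.length * lam.q (Ideal.ofList xs) ≠ ⊤ :=
    ENNReal.mul_ne_top (ENNReal.pow_ne_top (ENNReal.natCast_ne_top t)) hf
  rw [← ENNReal.toReal_eq_toReal_iff' (ne_top_of_le_ne_top hfin2 h2) hfin2, h1]
  simp

/-- `(xs) ^ (|xs| t) ≤ (xs ^ t)` (`sp_pow_le_Ie` or a direct induction). -/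
theorem ofList_pow_le (xs : List Λ) {t n : ℕ} (hn : xs.length * t ≤ n) (hn' : 1 ≤ n) :
    Ideal.ofList xs ^ n ≤ Ideal.ofList (xs.map (· ^ t)) := by
  rcases Nat.eq_zero_or_pos xs.length with h0 | h0
  · rw [List.length_eq_zero_iff.1 h0, Ideal.ofList_nil, Ideal.bot_pow (by omega)]
    exact bot_le
  · have h1 := sp_pow_le_Ie h0 xs.get (fun _ => t) t n (fun _ => le_rfl) hn
    have e1 : sp xs.get = Ideal.ofList xs := by
      unfold sp Ideal.ofList
      rw [Set.range_list_get]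
    rw [e1] at h1
    refine h1.trans ?_
    unfold Ie
    rw [Ideal.span_le]
    rintro _ ⟨k, rfl⟩
    exact Ideal.subset_span (List.mem_map.2 ⟨xs.get k, List.get_mem _ _, rfl⟩)

/-- elementwise form of weak regularity. -/
theorem wreg_iff (xs : List Λ) : IsWeaklyRegular Λ xs ↔
    ∀ (i : ℕ) (hi : i < xs.length) (γ : Λ), xs[i] * γ ∈ Ideal.ofList (xs.take i) →
      γ ∈ Ideal.ofList (xs.take i) := by
  rw [isWeaklyRegular_iff]
  refine forall_congr' fun i => forall_congr' fun hi => ?_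
  rw [isSMulRegular_quotient_iff_mem_of_smul_mem, PosK_smul_top]
  rfl

/-- Nakayama: `gam = 0` gives `Z ≤ B ⊔ x Z`, hence `Z ≤ B ⊔ x ^ s Z ≤ B ⊔ 𝔪 Z`; `Z` is a finite
`R`-module. -/
theorem FC.ex_of_cone {R : Type} [CommRing R] [IsLocalRing R] [IsNoetherianRing R] [Algebra R Λ]
    [Module.Finite R Λ] {x : Λ} {s : ℕ} (hx : x ^ s ∈ (maximalIdeal R).map (algebraMap R Λ))
    {j : ℤ} (h : (F.cone x).Ex Λ j) : F.Ex Λ j := by
  have h0 := (FC.ex_iff Λ (F.cone x) j).1 h
  rw [FC.h_cone] at h0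
  have h1 : F.Z Λ j ≤ F.B Λ j ⊔ (F.Z Λ j).map (LinearMap.lsmul Λ (F.ι → Λ) x) :=
    (zeroLen_rel _ _).1 (add_eq_zero.1 h0).1
  have h2 : ∀ k : ℕ, ∀ z ∈ F.Z Λ j, ∃ b ∈ F.B Λ j, ∃ z' ∈ F.Z Λ j, z = b + x ^ k • z' := by
    intro k
    induction k with
    | zero => exact fun z hz => ⟨0, zero_mem _, z, hz, by simp⟩
    | succ k ih =>
      intro z hz
      obtain ⟨b, hb, z', hz', rfl⟩ := ih z hz
      obtain ⟨b', hb', _, ⟨z'', hz'', rfl⟩, e⟩ := Submodule.mem_sup.1 (h1 hz')
      refine ⟨b + x ^ k • b', add_mem hb (Submodule.smul_mem _ _ hb'), z'', hz'', ?_⟩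
      rw [← e, LinearMap.lsmul_apply, smul_add, smul_smul, pow_succ, add_assoc]
  have h3 : (F.Z Λ j).restrictScalars R ≤ (F.B Λ j).restrictScalars R := by
    refine Submodule.le_of_le_smul_of_le_jacobson_bot (I := maximalIdeal R)
      (IsNoetherian.noetherian _) (IsLocalRing.maximalIdeal_le_jacobson _) ?_
    intro z hz
    obtain ⟨b, hb, z', hz', rfl⟩ := h2 s z hz
    exact Submodule.add_mem_sup hb (PosK_smul_mem _ _ hx hz')
  exact fun z hz => h3 hz

/-- Koszul-regular sequences in the radical are regular: by induction on `xs` show that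
`xs.reverse` is weakly regular (`ex_of_cone`, `h_cone` in degree `1` and `kz_kap_zero` for
`zeroLen`, `isWeaklyRegular_append_iff` or `wreg_iff`), and apply this to `xs.reverse` (`KEx.perm`). -/
theorem wreg_of_kex {R : Type} [CommRing R] [IsLocalRing R] [IsNoetherianRing R] [Algebra R Λ]
    [Module.Finite R Λ] {xs : List Λ}
    (hx : ∀ x ∈ xs, ∃ s : ℕ, x ^ s ∈ (maximalIdeal R).map (algebraMap R Λ)) (h : KEx xs Λ) :
    IsWeaklyRegular Λ xs := by
  have key : ∀ ys : List Λ,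
      (∀ x ∈ ys, ∃ s : ℕ, x ^ s ∈ (maximalIdeal R).map (algebraMap R Λ)) → KEx ys Λ →
        IsWeaklyRegular Λ ys.reverse := by
    intro ys
    induction ys with
    | nil => exact fun _ _ => IsWeaklyRegular.nil Λ Λ
    | cons y ys ih =>
      intro hy hk
      obtain ⟨s, hs⟩ := hy y List.mem_cons_self
      have hk' : KEx ys Λ := fun j hj => FC.ex_of_cone (kz ys) hs (hk j hj)
      have h0 := (FC.ex_iff Λ _ 1).1 (hk 1 le_rfl)
      rw [kz_cons, FC.h_cone, sub_self, kz_kap_zero] at h0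
      have h1 := (zeroLen_rel _ _).1 (add_eq_zero.1 h0).2
      rw [List.reverse_cons, isWeaklyRegular_append_iff, isWeaklyRegular_singleton_iff,
        isSMulRegular_on_quot_iff_lsmul_comap_le]
      refine ⟨ih (fun x hx => hy x (List.mem_cons_of_mem _ hx)) hk', ?_⟩
      have e : Ideal.ofList ys.reverse = Ideal.ofList ys := by simp [Ideal.ofList]
      rw [e]
      exact h1
  have := key xs.reverse (fun x hx' => hx x (List.mem_reverse.1 hx'))
    (KEx.perm Λ h (List.reverse_perm xs).symm)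
  rwa [List.reverse_reverse] at this

end Crest.Agent.R188
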