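import Crest.Agent.R188.PosC

/-! Row 188, part III-b: Koszul calculus for lengths. -/

set_option autoImplicit false
set_option linter.unusedVariables false

namespace Crest.Agent.R188

open Crest.Agent.R183 IsLocalRing RingTheory.Sequence
open scoped ENNReal TensorProduct

variable {Λ : Type} [CommRing Λ] (lam : LenFn Λ) (M : Type) [AddCommGroup M] [Module Λ M]
  (F : FC Λ)


theorem FC.h_kos_perm {xs ys : List Λ} (h : xs.Perm ys) (j : ℤ) :
    (F.kos xs).h lam M j = (F.kos ys).h lam M j :=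
  (qe_kos_perm F M h).h_eq lam j

theorem PosK1_cone_pow_le (x : Λ) {t : ℕ} (ht : 1 ≤ t) (j : ℤ) :
    (F.cone (x ^ t)).h lam M j ≤ (t : ℝ≥0∞) * (F.cone x).h lam M j := by
  induction t, ht using Nat.le_induction with
  | base => simp
  | succ t ht ih =>
    rw [pow_succ, Nat.cast_succ, add_mul, one_mul]
    exact (F.h_cone_mul_le lam M _ _ j).trans (add_le_add ih le_rfl)

theorem PosK1_chi_cone_pow {n : ℕ} (hF : ∀ b, F.deg b < n) (x : Λ)
    (hx : ∀ j, (F.cone x).h lam M j ≠ ⊤) {t : ℕ} (ht : 1 ≤ t) :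
    chi 0 n ((F.cone (x ^ t)).h lam M) = (t : ℝ) * chi 0 n ((F.cone x).h lam M) := by
  induction t, ht using Nat.le_induction with
  | base => simp
  | succ t ht ih =>
    rw [pow_succ, Nat.cast_succ, add_mul, one_mul, ← ih]
    exact F.chi_cone_mul lam M hF _ _ (fun j => ne_top_of_le_ne_top
      (ENNReal.mul_ne_top (ENNReal.natCast_ne_top t) (hx j)) (PosK1_cone_pow_le lam M F x ht j)) hx

/-- induction on `xs` for all `ys`: `h_cone_mul_le` in the outermost variable, then move `x` inside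
by `h_kos_perm`. -/
theorem FC.h_kos_pow_le (xs ys : List Λ) {t : ℕ} (ht : 1 ≤ t) (j : ℤ) :
    (F.kos (xs.map (· ^ t) ++ ys)).h lam M j ≤
      (t : ℝ≥0∞) ^ xs.length * (F.kos (xs ++ ys)).h lam M j := by
  induction xs generalizing ys with
  | nil => simp
  | cons x xs ih =>
    refine (PosK1_cone_pow_le lam M (F.kos (xs.map (· ^ t) ++ ys)) x ht j).trans ?_
    rw [List.length_cons, pow_succ', mul_assoc]
    refine mul_le_mul_right ?_ _
    refine (F.h_kos_perm lam M (xs := x :: (xs.map (· ^ t) ++ ys)) List.perm_middle.symm j).trans_le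
      ((ih (x :: ys)).trans_eq ?_)
    rw [F.h_kos_perm lam M List.perm_middle j, List.cons_append]

/-- multiplicativity of Koszul Euler characteristics (same induction, `chi_cone_mul`). -/
theorem FC.chi_kos_pow {n₀ n : ℕ} (hF : F.Bdd n₀) (xs ys : List Λ)
    (hn : n₀ + xs.length + ys.length ≤ n) (hfin : ∀ j, (F.kos (xs ++ ys)).h lam M j ≠ ⊤) {t : ℕ}
    (ht : 1 ≤ t) :
    chi 0 n ((F.kos (xs.map (· ^ t) ++ ys)).h lam M) =
      (t : ℝ) ^ xs.length * chi 0 n ((F.kos (xs ++ ys)).h lam M) := by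
  induction xs generalizing ys with
  | nil => simp
  | cons x xs ih =>
    rw [List.length_cons] at hn
    have e1 : ((F.kos (xs.map (· ^ t) ++ ys)).cone x).h lam M =
        (F.kos (xs.map (· ^ t) ++ x :: ys)).h lam M := funext fun j =>
      F.h_kos_perm lam M (xs := x :: (xs.map (· ^ t) ++ ys)) List.perm_middle.symm j
    have e2 : (F.kos (xs ++ x :: ys)).h lam M = (F.kos (x :: xs ++ ys)).h lam M := funext fun j =>
      F.h_kos_perm lam M List.perm_middle j
    have h1 := PosK1_chi_cone_pow lam M (F.kos (xs.map (· ^ t) ++ ys)) (n := n) (fun b => by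
      have := F.bdd_kos hF (xs.map (· ^ t) ++ ys) b
      rw [List.length_append, List.length_map] at this
      omega) x (fun j => by
      rw [e1]
      refine ne_top_of_le_ne_top (ENNReal.mul_ne_top (ENNReal.pow_ne_top
        (ENNReal.natCast_ne_top t)) ?_) (F.h_kos_pow_le lam M xs (x :: ys) ht j)
      rw [e2]
      exact hfin j) ht
    refine h1.trans ?_
    rw [e1, ih (x :: ys) (by rw [List.length_cons]; omega) (e2 ▸ hfin), e2, List.length_cons]
    ring

theorem FC.h_le_cone {r : Λ} {j : ℤ} (h : F.Kl M r j) :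
    F.h lam M j ≤ (F.cone r).h lam M (j + 1) := by
  rw [F.h_cone lam M, add_sub_cancel_right, F.kap_of_kl lam M h]
  exact le_add_self

/-- `FC.htpy_kos`, `kl_of_htpy`, `h_le_cone`. -/
theorem FC.h_le_kos (xs : List Λ) (h : ∀ x ∈ xs, Htpy F.deg F.d x) (j : ℤ) :
    F.h lam M j ≤ (F.kos xs).h lam M (j + xs.length) := by
  induction xs with
  | nil => simp [FC.kos]
  | cons x xs ih =>
    refine (ih fun y hy => h y (List.mem_cons_of_mem _ hy)).trans ?_
    rw [List.length_cons, Nat.cast_succ, ← add_assoc]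
    exact (F.kos xs).h_le_cone lam M ((F.kos xs).kl_of_htpy M
      (F.htpy_kos xs (Or.inr (h x List.mem_cons_self))) _)

theorem FC.h_kos_le (xs : List Λ) {S : ℝ≥0∞} {i₀ : ℤ} (h : ∀ i, i₀ ≤ i → F.h lam M i ≤ S)
    (i : ℤ) (hi : i₀ + xs.length ≤ i) : (F.kos xs).h lam M i ≤ 2 ^ xs.length * S := by
  induction xs generalizing i with
  | nil => simpa [FC.kos] using h i (by simpa using hi)
  | cons x xs ih =>
    rw [List.length_cons, Nat.cast_succ] at hi
    rw [FC.kos, FC.h_cone, List.length_cons, pow_succ', mul_assoc, two_mul]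
    exact add_le_add (((F.kos xs).gam_le lam M x i).trans (ih i (by omega)))
      (((F.kos xs).kap_le lam M x _).trans (ih _ (by omega)))

/-- depth sensitivity: `K(w) ⊗ K(x) = K(x) ⊗ K(w)` (`kos_append`, `h_kos_perm`). -/
theorem kz_h_le_of_mem (w x : List Λ) (hx : ∀ y ∈ x, y ∈ Ideal.ofList w) {S : ℝ≥0∞} {j : ℤ}
    (h : ∀ i, j + x.length - w.length ≤ i → (kz x).h lam M i ≤ S) :
    (kz w).h lam M j ≤ 2 ^ w.length * S := by
  refine ((kz w).h_le_kos lam M x (fun y hy => (FC.unit Λ).htpy_kos w (Or.inl (hx y hy))) j).trans ?_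
  rw [kz, ← FC.kos_append, FC.h_kos_perm lam M _ List.perm_append_comm, FC.kos_append]
  exact (kz x).h_kos_le lam M w h _ (by omega)

end Crest.Agent.R188
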