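import Crest.Agent.R188.PosP
import Crest.Agent.R188.PosF

/-! Row 188, part III-b: one level of the lifted system. -/

set_option autoImplicit false
set_option linter.unusedVariables false

namespace Crest.Agent.R188

open Crest.Agent.R183 IsLocalRing RingTheory.Sequence MvPowerSeries
open scoped ENNReal TensorProduct

variable {O T : Type} [CommRing O] [IsLocalRing O] [CommRing T] [IsLocalRing T] [Algebra O T]
  {d a : ℕ} {ϖ : O} {f : MvPowerSeries (Fin d) O} {π : MvPowerSeries (Fin d) O →+* T}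

/-- `π` is a surjection of local rings. -/
theorem LSet.alg_mem (h : LSet ϖ f π a) : algebraMap O T ϖ ∈ maximalIdeal T := by
  have : IsLocalHom π := IsLocalHom.of_surjective π h.surj
  rw [← h.πC]
  refine map_nonunit π _ ?_
  rw [ser1_mem_max, constantCoeff_C, h.maxO]
  exact Ideal.mem_span_singleton_self _

theorem LSet.max_le (h : LSet ϖ f π a) :
    (maximalIdeal (MvPowerSeries (Fin a) O)).map
      (algebraMap (MvPowerSeries (Fin a) O) (MvPowerSeries (Fin a) T)) ≤
      maximalIdeal (MvPowerSeries (Fin a) T) := by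
  rw [Ideal.map_le_iff_le_comap]
  intro g hg
  rw [ser1_mem_max, h.maxO, Ideal.mem_span_singleton'] at hg
  obtain ⟨c, hc⟩ := hg
  rw [Ideal.mem_comap, ser1_mem_max, algebraMap_apply'', constantCoeff_map, ← hc, map_mul]
  exact Ideal.mul_mem_left _ _ h.alg_mem

/-- the residue fields agree (`ker_constantCoeff`, `maximalIdeal_ps`). -/
theorem LSet.res (h : LSet ϖ f π a) (g : MvPowerSeries (Fin a) T) :
    ∃ w : O, g - C (algebraMap O T w) ∈ maximalIdeal (MvPowerSeries (Fin a) T) := by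
  obtain ⟨F, hF⟩ := h.surj (constantCoeff g)
  refine ⟨constantCoeff F, ?_⟩
  have h1 : F - C (constantCoeff F) ∈ sp (X : Fin d → MvPowerSeries (Fin d) O) := by
    rw [← ker_constantCoeff, RingHom.mem_ker]
    simp
  have h2 := Ideal.mem_map_of_mem π h1
  rw [Ideal.map_span, ← Set.range_comp, map_sub, hF, h.πC] at h2
  rw [ser1_mem_max, map_sub, constantCoeff_C, h.maxT]
  exact h2

theorem LSet.max_eq (h : LSet ϖ f π a) : maximalIdeal (MvPowerSeries (Fin a) T) =
    Ideal.ofList ((List.ofFn fun i => π (X i)).map (C : T →+* MvPowerSeries (Fin a) T) ++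
      List.ofFn X) := by
  rw [maximalIdeal_ps, h.maxT, Ideal.ofList_append, ← Ideal.map_ofList]
  congr 1
  · congr 1
    exact congrArg Ideal.span (by ext x; simp [List.mem_ofFn])
  · exact congrArg Ideal.span (by ext x; simp [List.mem_ofFn])

variable {B : FFAlg (MvPowerSeries (Fin a) O)} {Θ : MvPowerSeries (Fin d) O →+* B.carrier} {s : ℕ}

theorem PosL1_one_tmul (h : LSet ϖ f π a) {b : B.carrier}
    (hb : b ∈ (maximalIdeal (MvPowerSeries (Fin a) O)).map
      (algebraMap (MvPowerSeries (Fin a) O) B.carrier)) :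
    ((1 : MvPowerSeries (Fin a) T) ⊗ₜ b : GamL T B) ∈ (maximalIdeal (MvPowerSeries (Fin a) T)).map
      (algebraMap (MvPowerSeries (Fin a) T) (GamL T B)) := by
  have h1 := Ideal.mem_map_of_mem
    (Algebra.TensorProduct.includeRight (R := MvPowerSeries (Fin a) O)
      (A := MvPowerSeries (Fin a) T) (B := B.carrier)).toRingHom hb
  rw [Ideal.map_map] at h1
  refine (Ideal.map_le_iff_le_comap.2 fun r hr => ?_ : _ ≤ _) h1
  have h2 := Ideal.mem_map_of_mem (algebraMap (MvPowerSeries (Fin a) T) (GamL T B))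
    (h.max_le (Ideal.mem_map_of_mem _ hr))
  rw [← IsScalarTower.algebraMap_apply] at h2
  rw [Ideal.mem_comap]
  convert h2 using 1
  exact (Algebra.TensorProduct.includeRight (R := MvPowerSeries (Fin a) O)
      (A := MvPowerSeries (Fin a) T) (B := B.carrier)).commutes r

theorem PosL1_tmul {g : MvPowerSeries (Fin a) T} (hg : g ∈ maximalIdeal (MvPowerSeries (Fin a) T))
    (b : B.carrier) :
    (g ⊗ₜ b : GamL T B) ∈ (maximalIdeal (MvPowerSeries (Fin a) T)).map
      (algebraMap (MvPowerSeries (Fin a) T) (GamL T B)) := by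
  have h1 := Ideal.mul_mem_right ((1 : MvPowerSeries (Fin a) T) ⊗ₜ b : GamL T B) _
    (Ideal.mem_map_of_mem (algebraMap (MvPowerSeries (Fin a) T) (GamL T B)) hg)
  rwa [Algebra.TensorProduct.algebraMap_apply, Algebra.algebraMap_self, RingHom.id_apply,
    Algebra.TensorProduct.tmul_mul_tmul, mul_one, one_mul] at h1

theorem PosL1_pow {A : Type} [CommRing A] {J : Ideal A} {x y : A} {s : ℕ} (hx : x ∈ J)
    (hy : y ^ s ∈ J) : (x - y) ^ s ∈ J := by
  rw [← Ideal.Quotient.eq_zero_iff_mem] at hx hy ⊢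
  rw [map_pow] at hy
  rw [map_pow, map_sub, hx, zero_sub, neg_pow, hy, mul_zero]

theorem LLev.del_pow (h : LSet ϖ f π a) (hL : LLev ϖ f B Θ s) (i : Fin d) :
    DelL π B Θ i ^ s ∈ (maximalIdeal (MvPowerSeries (Fin a) T)).map
      (algebraMap (MvPowerSeries (Fin a) T) (GamL T B)) := by
  have h1 : (C (π (X i)) : MvPowerSeries (Fin a) T) ∈ maximalIdeal (MvPowerSeries (Fin a) T) := by
    rw [ser1_mem_max, constantCoeff_C, h.maxT]
    exact Ideal.subset_span ⟨i, rfl⟩
  have h2 := PosL1_one_tmul h (hL.nil i)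
  rw [← one_pow s, ← Algebra.TensorProduct.tmul_pow] at h2
  have h3 := PosL1_tmul h1 (1 : B.carrier)
  unfold DelL
  generalize (maximalIdeal (MvPowerSeries (Fin a) T)).map
      (algebraMap (MvPowerSeries (Fin a) T) (GamL T B)) = J at h2 h3 ⊢
  exact PosL1_pow h3 h2

/-- the closed fibre: `T⟦y⟧ → T⟦y⟧ / 𝔪 ≅ O⟦y⟧ / 𝔫 → B / 𝔫 B`. -/
theorem LSet.exists_fibre (h : LSet ϖ f π a) (B : FFAlg (MvPowerSeries (Fin a) O)) :
    ∃ θ : GamL T B →+* B.carrier ⧸ (maximalIdeal (MvPowerSeries (Fin a) O)).map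
        (algebraMap (MvPowerSeries (Fin a) O) B.carrier),
      (∀ b : B.carrier, θ ((1 : MvPowerSeries (Fin a) T) ⊗ₜ b) = Ideal.Quotient.mk _ b) ∧
      RingHom.ker θ = (maximalIdeal (MvPowerSeries (Fin a) T)).map
        (algebraMap (MvPowerSeries (Fin a) T) (GamL T B)) := by
  set R := MvPowerSeries (Fin a) O
  set S := MvPowerSeries (Fin a) T
  have hC : ∀ w : O, (C (algebraMap O T w) : S) = algebraMap R S (C w) := fun w => by
    rw [algebraMap_apply'', map_C]
  have hle : maximalIdeal R ≤ (maximalIdeal S).comap (algebraMap R S) :=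
    Ideal.map_le_iff_le_comap.1 h.max_le
  let φ : (R ⧸ maximalIdeal R) →ₐ[R] (S ⧸ maximalIdeal S) :=
    Ideal.quotientMapₐ (maximalIdeal S) (Algebra.ofId R S) hle
  have hφ : Function.Bijective φ := by
    constructor
    · let := Ideal.Quotient.field (maximalIdeal R)
      exact φ.toRingHom.injective
    · intro y
      obtain ⟨g, rfl⟩ := Ideal.Quotient.mk_surjective y
      obtain ⟨w, hw⟩ := h.res g
      refine ⟨Ideal.Quotient.mk _ (C w), ?_⟩
      rw [Ideal.Quotient.eq.2 hw, hC]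
      rfl
  let e := AlgEquiv.ofBijective φ hφ
  let χ : (R ⧸ maximalIdeal R) →ₐ[R] B.carrier ⧸ (maximalIdeal R).map (algebraMap R B.carrier) :=
    Ideal.quotientMapₐ _ (Algebra.ofId R B.carrier) Ideal.le_comap_map
  let ψ : S →ₐ[R] B.carrier ⧸ (maximalIdeal R).map (algebraMap R B.carrier) :=
    (χ.comp e.symm.toAlgHom).comp (Ideal.Quotient.mkₐ R (maximalIdeal S))
  let θ := Algebra.TensorProduct.lift ψ (Ideal.Quotient.mkₐ R _) fun _ _ => Commute.all _ _
  have hθ : ∀ b : B.carrier, θ ((1 : S) ⊗ₜ b) = Ideal.Quotient.mk _ b := fun b => by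
    simp [θ]
  have hJ : (maximalIdeal S).map (algebraMap S (GamL T B)) ≤ RingHom.ker θ.toRingHom := by
    rw [Ideal.map_le_iff_le_comap]
    intro g hg
    have : ψ g = 0 := by
      simp only [ψ, AlgHom.comp_apply, Ideal.Quotient.mkₐ_eq_mk,
        Ideal.Quotient.eq_zero_iff_mem.2 hg, map_zero]
    rw [Ideal.mem_comap, RingHom.mem_ker, Algebra.TensorProduct.algebraMap_apply]
    change θ (g ⊗ₜ 1) = 0
    rw [Algebra.TensorProduct.lift_tmul, this, zero_mul]
  refine ⟨θ.toRingHom, hθ, le_antisymm (fun x hx => ?_) hJ⟩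
  have key : ∀ x : GamL T B, ∃ b : B.carrier,
      x - (1 : S) ⊗ₜ b ∈ (maximalIdeal S).map (algebraMap S (GamL T B)) := by
    intro x
    induction x using TensorProduct.induction_on with
    | zero => exact ⟨0, by simp⟩
    | tmul g b =>
      obtain ⟨w, hw⟩ := h.res g
      refine ⟨(C w : R) • b, ?_⟩
      have := PosL1_tmul hw b
      rwa [TensorProduct.sub_tmul, hC, Algebra.algebraMap_eq_smul_one, TensorProduct.smul_tmul] at this
    | add x y hx hy =>
      obtain ⟨b, hb⟩ := hx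
      obtain ⟨c, hc⟩ := hy
      refine ⟨b + c, ?_⟩
      rw [TensorProduct.tmul_add, add_sub_add_comm]
      exact add_mem hb hc
  obtain ⟨b, hb⟩ := key x
  have h1 : (1 : S) ⊗ₜ b ∈ RingHom.ker θ.toRingHom := by
    simpa using sub_mem hx (hJ hb)
  have h2 : Ideal.Quotient.mk _ b = 0 := (hθ b).symm.trans h1
  simpa using add_mem hb (PosL1_one_tmul h (Ideal.Quotient.eq_zero_iff_mem.1 h2))

end Crest.Agent.R188
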