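import Crest.Agent.R188.PosL1

/-! Row 188, part III-b: one level of the lifted system. -/

set_option autoImplicit false
set_option linter.unusedVariables false

namespace Crest.Agent.R188

open Crest.Agent.R183 IsLocalRing RingTheory.Sequence MvPowerSeries
open scoped ENNReal TensorProduct

variable {O T : Type} [CommRing O] [IsLocalRing O] [CommRing T] [IsLocalRing T] [Algebra O T]
  {d a : ℕ} {ϖ : O} {f : MvPowerSeries (Fin d) O} {π : MvPowerSeries (Fin d) O →+* T}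

variable {B : FFAlg (MvPowerSeries (Fin a) O)} {Θ : MvPowerSeries (Fin d) O →+* B.carrier} {s : ℕ}

/-- `Γ / (Δ) ≅ B / (Θ f)`.  Construct `τ : T → B / (Θ f)` from `Θ`, extend it to `T⟦y⟧` by
`exists_ps_hom` (`complete_of_finite` over `O⟦y⟧`), check compatibility over `O⟦y⟧` by `ps_hom_ext`, and
use `Algebra.TensorProduct.lift`.  For the kernel, let `Q = Γ / (Δ)` (separated: `haus_of_finite` over
`T⟦y⟧`).  The two maps `O⟦z⟧ → Q`, `g ↦ π g ⊗ 1` and `g ↦ 1 ⊗ Θ g` agree (`ps_hom_ext`), so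
`B → Q` factors through `η : B / (Θ f) → Q`, and `η ∘ ω = mk` (`ps_hom_ext` on `T⟦y⟧`). -/
theorem LLev.exists_omega (h : LSet ϖ f π a) (hL : LLev ϖ f B Θ s) :
    ∃ ω : GamL T B →+* B.carrier ⧸ Ideal.span {Θ f},
      RingHom.ker ω = Ideal.ofList (List.ofFn (DelL π B Θ)) ∧
      (∀ b : B.carrier, ω ((1 : MvPowerSeries (Fin a) T) ⊗ₜ b) = Ideal.Quotient.mk _ b) ∧
      ∀ g, ω ((C (π g) : MvPowerSeries (Fin a) T) ⊗ₜ (1 : B.carrier)) =
        Ideal.Quotient.mk _ (Θ g) := by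
  have := h.noethO
  have := h.noethT
  have := h.compl
  have hf0 : π f = 0 := by
    rw [← RingHom.mem_ker, h.ker]
    exact Ideal.mem_span_singleton_self f
  have hAR : ∀ w : O, algebraMap (MvPowerSeries (Fin a) O) (MvPowerSeries (Fin a) T) (C w) =
      C (π (C w)) := fun w => by
    rw [h.πC]
    exact MvPowerSeries.map_C _ _
  have hARX : ∀ i, algebraMap (MvPowerSeries (Fin a) O) (MvPowerSeries (Fin a) T) (X i) = X i :=
    fun i => MvPowerSeries.map_X _ _
  have hsw : ∀ x : MvPowerSeries (Fin a) O,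
      ((algebraMap (MvPowerSeries (Fin a) O) (MvPowerSeries (Fin a) T) x) ⊗ₜ (1 : B.carrier) :
        GamL T B) = 1 ⊗ₜ algebraMap (MvPowerSeries (Fin a) O) B.carrier x := fun x => by
    rw [Algebra.algebraMap_eq_smul_one, Algebra.algebraMap_eq_smul_one, TensorProduct.smul_tmul]
  -- the map `τ`
  obtain ⟨τ, hτ⟩ : ∃ τ : T →+* B.carrier ⧸ Ideal.span {Θ f},
      ∀ g, τ (π g) = Ideal.Quotient.mk _ (Θ g) := by
    refine ⟨π.liftOfSurjective h.surj ⟨(Ideal.Quotient.mk _).comp Θ, fun g hg => ?_⟩,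
      fun g => RingHom.liftOfRightInverse_comp_apply _ _ _ _ g⟩
    rw [h.ker, Ideal.mem_span_singleton] at hg
    obtain ⟨c, rfl⟩ := hg
    rw [RingHom.mem_ker, RingHom.comp_apply, Ideal.Quotient.eq_zero_iff_mem, map_mul]
    exact Ideal.mul_mem_right _ _ (Ideal.mem_span_singleton_self _)
  have hc : IsAdicComplete ((maximalIdeal (MvPowerSeries (Fin a) O)).map
      (algebraMap (MvPowerSeries (Fin a) O) (B.carrier ⧸ Ideal.span {Θ f})))
      (B.carrier ⧸ Ideal.span {Θ f}) := complete_of_finite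
  have hXm : ∀ i, algebraMap (MvPowerSeries (Fin a) O) (B.carrier ⧸ Ideal.span {Θ f}) (X i) ∈
      (maximalIdeal (MvPowerSeries (Fin a) O)).map
        (algebraMap (MvPowerSeries (Fin a) O) (B.carrier ⧸ Ideal.span {Θ f})) := fun i =>
    Ideal.mem_map_of_mem _ (by rw [ser1_mem_max]; simp)
  obtain ⟨Φ, hΦC, hΦX⟩ := exists_ps_hom _ τ _ hXm
  have hΦ : Φ.comp (algebraMap (MvPowerSeries (Fin a) O) (MvPowerSeries (Fin a) T)) =
      algebraMap (MvPowerSeries (Fin a) O) (B.carrier ⧸ Ideal.span {Θ f}) := by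
    refine (ps_hom_ext _ _ _ (fun w => ?_) (fun i => ?_) hXm).symm
    · rw [RingHom.comp_apply, hAR, hΦC, hτ, hL.const]
      rfl
    · rw [RingHom.comp_apply, hARX, hΦX]
  let Φ' : MvPowerSeries (Fin a) T →ₐ[MvPowerSeries (Fin a) O] B.carrier ⧸ Ideal.span {Θ f} :=
    { Φ with commutes' := fun x => RingHom.congr_fun hΦ x }
  let ω := Algebra.TensorProduct.productMap Φ'
    (Ideal.Quotient.mkₐ (MvPowerSeries (Fin a) O) (Ideal.span {Θ f}))
  have hω : ∀ r b, ω (r ⊗ₜ b) = Φ r * Ideal.Quotient.mk _ b := fun r b =>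
    Algebra.TensorProduct.productMap_apply_tmul _ _ r b
  refine ⟨ω.toRingHom, ?_, fun b => ?_, fun g => ?_⟩
  rotate_left
  · show ω _ = _
    rw [hω, map_one, one_mul]
  · show ω _ = _
    rw [hω, map_one, mul_one, hΦC, hτ]
  rw [ser1_ofList_ofFn]
  refine le_antisymm (fun x hx => ?_) ?_
  swap
  · rw [Ideal.span_le]
    rintro _ ⟨i, rfl⟩
    show ω _ = 0
    rw [DelL, map_sub, hω, hω, map_one, map_one, mul_one, one_mul, hΦC, hτ, sub_self]
  have hH := haus_of_finite (MvPowerSeries (Fin a) T) (GamL T B ⧸ sp (DelL π B Θ))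
  have hal : ∀ r, algebraMap (MvPowerSeries (Fin a) T) (GamL T B ⧸ sp (DelL π B Θ)) r =
      Ideal.Quotient.mk _ (r ⊗ₜ 1) := fun r => rfl
  let ι₂ : B.carrier →+* GamL T B ⧸ sp (DelL π B Θ) :=
    (Ideal.Quotient.mk _).comp (Algebra.TensorProduct.includeRight (R := MvPowerSeries (Fin a) O)
      (A := MvPowerSeries (Fin a) T) (B := B.carrier)).toRingHom
  have hι₂ : ∀ b, ι₂ b = Ideal.Quotient.mk _ (1 ⊗ₜ b) := fun b => rfl
  have hag : ((algebraMap (MvPowerSeries (Fin a) T) (GamL T B ⧸ sp (DelL π B Θ))).comp C).comp π =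
      ι₂.comp Θ := by
    refine @ps_hom_ext _ _ _ _ _ _ _ hH _ _ (fun w => ?_) (fun i => ?_) (fun i => ?_)
    · simp only [RingHom.comp_apply]
      rw [hal, hι₂, ← hAR, hsw, hL.const]
    · simp only [RingHom.comp_apply]
      rw [hal, hι₂, Ideal.Quotient.eq]
      exact Ideal.subset_span ⟨i, rfl⟩
    · refine Ideal.mem_map_of_mem _ ?_
      rw [ser1_mem_max, constantCoeff_C, h.maxT]
      exact Ideal.subset_span ⟨i, rfl⟩
  have hag' : ∀ g, ι₂ (Θ g) =
      algebraMap (MvPowerSeries (Fin a) T) (GamL T B ⧸ sp (DelL π B Θ)) (C (π g)) := fun g =>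
    (RingHom.congr_fun hag g).symm
  let η : B.carrier ⧸ Ideal.span {Θ f} →+* GamL T B ⧸ sp (DelL π B Θ) :=
    Ideal.Quotient.lift _ ι₂ fun b hb => by
      obtain ⟨c, rfl⟩ := Ideal.mem_span_singleton.1 hb
      rw [map_mul, hag', hf0, map_zero, map_zero, zero_mul]
  have hη : ∀ b, η (Ideal.Quotient.mk _ b) = ι₂ b := fun b => rfl
  have hηΦ : algebraMap (MvPowerSeries (Fin a) T) (GamL T B ⧸ sp (DelL π B Θ)) = η.comp Φ := by
    refine @ps_hom_ext _ _ _ _ _ _ _ hH _ _ (fun t => ?_) (fun i => ?_) (fun i => ?_)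
    · obtain ⟨g, rfl⟩ := h.surj t
      rw [RingHom.comp_apply, hΦC, hτ, hη, hag']
    · rw [RingHom.comp_apply, hΦX, hal, ← hARX, hsw, ← hι₂, ← hη]
      rfl
    · exact Ideal.mem_map_of_mem _ (by rw [ser1_mem_max]; simp)
  have key : ∀ y, η (ω y) = Ideal.Quotient.mk _ y := by
    intro y
    induction y using TensorProduct.induction_on with
    | zero => simp
    | tmul r b =>
      rw [hω, map_mul, hη, ← RingHom.comp_apply, ← hηΦ, hal, hι₂, ← map_mul,
        Algebra.TensorProduct.tmul_mul_tmul, mul_one, one_mul]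
    | add x y hx hy => rw [map_add, map_add, hx, hy, map_add]
  rw [← Ideal.Quotient.eq_zero_iff_mem, ← key, show ω x = 0 from hx, map_zero]

end Crest.Agent.R188
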