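import Crest.Agent.R188.PosF

/-! Row 188, part III-b: finite extensions of regular local rings satisfy `PosRing`. -/

set_option autoImplicit false
set_option linter.unusedVariables false

namespace Crest.Agent.R188

open Crest.Agent.R183 IsLocalRing RingTheory.Sequence
open scoped ENNReal TensorProduct

/-- generic freeness (`exists_maximal_linearIndepOn` for a finite generating family; `φ m` = the
coordinates of `c • m`). -/
theorem exists_factor {A M : Type} [CommRing A] [IsDomain A] [AddCommGroup M] [Module A M]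
    [Module.Finite A M] (htf : ∀ (a : A) (m : M), a • m = 0 → a = 0 ∨ m = 0) :
    ∃ (r : ℕ) (c : A) (φ : M →ₗ[A] (Fin r → A)) (ψ : (Fin r → A) →ₗ[A] M), c ≠ 0 ∧
      ∀ m, ψ (φ m) = c • m := by
  classical
  obtain ⟨n, s, hs⟩ := Module.Finite.exists_fin (R := A) (M := M)
  obtain ⟨I, hI, hmax⟩ := exists_maximal_linearIndepOn A s
  have hall : ∀ i, ∃ a : A, a ≠ 0 ∧ a • s i ∈ Submodule.span A (s '' I) := by
    intro i
    by_cases hi : i ∈ I
    · exact ⟨1, one_ne_zero, by rw [one_smul]; exact Submodule.subset_span ⟨i, hi, rfl⟩⟩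
    · exact hmax i hi
  choose a ha0 ha using hall
  let e : Fin (Fintype.card I) ≃ I := (Fintype.equivFin I).symm
  let v : Fin (Fintype.card I) → M := fun j => s (e j)
  have hv : LinearIndependent A v := LinearIndependent.comp hI e e.injective
  let ψ : (Fin (Fintype.card I) → A) →ₗ[A] M := Fintype.linearCombination A v
  have hψ : Function.Injective ψ := by
    rw [← LinearMap.ker_eq_bot, LinearMap.ker_eq_bot']
    intro g hg
    funext j
    exact Fintype.linearIndependent_iff.1 hv g (by simpa [ψ, Fintype.linearCombination_apply] using hg) j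
  have hr : LinearMap.range ψ = Submodule.span A (s '' I) := by
    rw [Fintype.range_linearCombination]
    congr 1
    ext x
    constructor
    · rintro ⟨j, rfl⟩
      exact ⟨e j, (e j).2, rfl⟩
    · rintro ⟨i, hi, rfl⟩
      exact ⟨e.symm ⟨i, hi⟩, by simp [v]⟩
  have hc : ∀ m : M, (∏ i, a i) • m ∈ LinearMap.range ψ := by
    intro m
    have hm : m ∈ Submodule.span A (Set.range s) := by rw [hs]; trivial
    rw [hr]
    induction hm using Submodule.span_induction with
    | mem x hx =>
      obtain ⟨i, rfl⟩ := hx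
      rw [← Finset.prod_erase_mul _ _ (Finset.mem_univ i), mul_smul]
      exact Submodule.smul_mem _ _ (ha i)
    | zero => simp
    | add x y _ _ hx hy => rw [smul_add]; exact Submodule.add_mem _ hx hy
    | smul r x _ hx => rw [smul_comm]; exact Submodule.smul_mem _ _ hx
  refine ⟨Fintype.card I, ∏ i, a i,
    (LinearEquiv.ofInjective ψ hψ).symm.toLinearMap ∘ₗ
      LinearMap.codRestrict (LinearMap.range ψ) (LinearMap.lsmul A M (∏ i, a i)) hc, ψ,
    Finset.prod_ne_zero_iff.2 fun i _ => ha0 i, fun m => ?_⟩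
  rw [LinearMap.comp_apply, LinearEquiv.coe_toLinearMap, LinearEquiv.ofInjective_symm_apply]
  rfl

/-- `dim R ≤ d` by Krull's height theorem, `dim R / c < dim R`
(`ringKrullDim_quotient_succ_le_of_nonZeroDivisor`), and parameters of `R / c`
(`Ideal.exists_finset_card_eq_height_of_isNoetherianRing`; pad the list with zeros; if `c` is a unit
everything is trivial). -/
theorem exists_params {R : Type} [CommRing R] [IsLocalRing R] [IsNoetherianRing R] {d : ℕ}
    {u : List R} (hu : u.length = d + 1) (hum : ∀ x ∈ u, x ∈ maximalIdeal R) {e : ℕ}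
    (he : maximalIdeal R ^ e ≤ Ideal.ofList u) {c : R} (hc : c ∈ nonZeroDivisors R) :
    ∃ (u' : List R) (e' : ℕ), u'.length = d ∧ (∀ x ∈ u', x ∈ maximalIdeal R) ∧
      maximalIdeal R ^ e' ≤ Ideal.ofList (u' ++ [c]) := by
  classical
  by_cases hcu : IsUnit c
  · refine ⟨List.replicate d 0, 0, List.length_replicate, fun x hx => ?_, ?_⟩
    · rw [List.eq_of_mem_replicate hx]; exact Submodule.zero_mem _
    · rw [Ideal.eq_top_of_isUnit_mem (Ideal.ofList (List.replicate d 0 ++ [c]))
        (Ideal.subset_span (by simp)) hcu]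
      exact le_top
  have hcm : c ∈ maximalIdeal R := (IsLocalRing.mem_maximalIdeal c).2 hcu
  have hmin : maximalIdeal R ∈ (Ideal.span (u.toFinset : Set R)).minimalPrimes := by
    have e1 : Ideal.span (u.toFinset : Set R) = Ideal.ofList u := by
      congr 1
      ext x
      simp
    rw [e1]
    refine ⟨⟨inferInstance, Ideal.span_le.2 fun x hx => hum x hx⟩, fun P hP _ => ?_⟩
    have := hP.1
    exact Ideal.IsPrime.le_of_pow_le (he.trans hP.2)
  have h1 : (maximalIdeal R).height ≤ (d + 1 : ℕ) :=
    (Ideal.height_le_card_of_mem_minimalPrimes_span_finset hmin).trans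
      (by exact_mod_cast hu ▸ List.toFinset_card_le u)
  have h2 : ringKrullDim R ≤ (d + 1 : ℕ) := by
    rw [← IsLocalRing.maximalIdeal_height_eq_ringKrullDim]
    exact_mod_cast h1
  have hker : RingHom.ker (Ideal.Quotient.mk (Ideal.span {c})) ≤ maximalIdeal R := by
    rw [Ideal.mk_ker, Ideal.span_singleton_le_iff_mem]; exact hcm
  have hp' : ((maximalIdeal R).map (Ideal.Quotient.mk (Ideal.span {c}))).IsPrime :=
    Ideal.map_isPrime_of_surjective Ideal.Quotient.mk_surjective hker
  obtain ⟨s, hs, hcard⟩ := Ideal.exists_finset_card_eq_height_of_isNoetherianRing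
    ((maximalIdeal R).map (Ideal.Quotient.mk (Ideal.span {c})))
  have h3 : s.card ≤ d := by
    have a1 := Ideal.height_le_ringKrullDim_of_ne_top hp'.ne_top
    rw [← hcard] at a1
    have a2 := (ringKrullDim_quotient_succ_le_of_nonZeroDivisor hc).trans h2
    have a3 : ((s.card : ℕ∞) : WithBot ℕ∞) + 1 ≤ ((d + 1 : ℕ) : WithBot ℕ∞) :=
      (add_le_add_left a1 1).trans a2
    have a4 : s.card + 1 ≤ d + 1 := by exact_mod_cast a3
    omega
  have hl : ∀ y : R ⧸ Ideal.span {c}, y ∈ s → ∃ x ∈ maximalIdeal R, Ideal.Quotient.mk _ x = y := by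
    intro y hy
    exact (Ideal.mem_map_iff_of_surjective _ Ideal.Quotient.mk_surjective).1
      (hs.1.2 (Ideal.subset_span hy))
  choose! g hg1 hg2 using hl
  have hrad : maximalIdeal R ≤
      (Ideal.ofList ((s.toList.map g ++ List.replicate (d - s.card) 0) ++ [c])).radical := by
    rw [Ideal.radical_eq_sInf]
    refine le_sInf fun P hP => ?_
    have hPp := hP.2
    have hkP : RingHom.ker (Ideal.Quotient.mk (Ideal.span {c})) ≤ P := by
      rw [Ideal.mk_ker, Ideal.span_singleton_le_iff_mem]
      exact hP.1 (Ideal.subset_span (by simp))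
    have hP' : (P.map (Ideal.Quotient.mk (Ideal.span {c}))).IsPrime :=
      Ideal.map_isPrime_of_surjective Ideal.Quotient.mk_surjective hkP
    have a1 : Ideal.span (s : Set (R ⧸ Ideal.span {c})) ≤ P.map (Ideal.Quotient.mk (Ideal.span {c})) := by
      refine Ideal.span_le.2 fun y hy => ?_
      rw [← hg2 y hy]
      refine Ideal.mem_map_of_mem _ (hP.1 (Ideal.subset_span ?_))
      simp only [Set.mem_ofPred_eq, List.mem_append, List.mem_map, Finset.mem_toList]
      exact Or.inl (Or.inl ⟨y, hy, rfl⟩)
    have a2 := hs.2 ⟨hP', a1⟩ (Ideal.map_mono (IsLocalRing.le_maximalIdeal hPp.ne_top))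
    have a3 := Ideal.comap_mono (f := Ideal.Quotient.mk (Ideal.span {c})) a2
    rw [Ideal.comap_map_of_surjective _ Ideal.Quotient.mk_surjective P, ← RingHom.ker_eq_comap_bot,
      sup_eq_left.2 hkP] at a3
    exact Ideal.le_comap_map.trans a3
  obtain ⟨n, hn⟩ := Ideal.exists_pow_le_of_le_radical_of_fg hrad (IsNoetherian.noetherian _)
  refine ⟨s.toList.map g ++ List.replicate (d - s.card) 0, n, ?_, fun x hx => ?_, hn⟩
  · simp only [List.length_append, List.length_map, Finset.length_toList, List.length_replicate]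
    omega
  · rcases List.mem_append.1 hx with hx | hx
    · obtain ⟨y, hy, rfl⟩ := List.mem_map.1 hx
      exact hg1 y (Finset.mem_toList.1 hy)
    · rw [List.eq_of_mem_replicate hx]; exact Submodule.zero_mem _

/-- `R / 𝔪_A R` is a finite `A / 𝔪_A`-algebra, hence Artinian local. -/
theorem pow_le_map_of_finite {A R : Type} [CommRing A] [IsLocalRing A] [CommRing R] [IsLocalRing R]
    [IsNoetherianRing R] [Algebra A R] [Module.Finite A R] :
    (maximalIdeal A).map (algebraMap A R) ≤ maximalIdeal R ∧
      ∃ e : ℕ, 1 ≤ e ∧ maximalIdeal R ^ e ≤ (maximalIdeal A).map (algebraMap A R) := by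
  have h1 : (maximalIdeal R).comap (algebraMap A R) = maximalIdeal A :=
    IsLocalRing.eq_maximalIdeal (Ideal.isMaximal_comap_of_isIntegral_of_isMaximal _)
  refine ⟨Ideal.map_le_iff_le_comap.2 h1.ge, ?_⟩
  have hrad : maximalIdeal R ≤ ((maximalIdeal A).map (algebraMap A R)).radical := by
    rw [Ideal.radical_eq_sInf]
    refine le_sInf fun P hP => ?_
    have hPp := hP.2
    have a1 : maximalIdeal A = P.comap (algebraMap A R) :=
      (IsLocalRing.maximalIdeal.isMaximal A).eq_of_le (Ideal.comap_isPrime _ P).ne_top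
        (Ideal.map_le_iff_le_comap.1 hP.1)
    have a2 : P.IsMaximal := Ideal.isMaximal_of_isIntegral_of_isMaximal_comap (R := A) P
      (a1 ▸ IsLocalRing.maximalIdeal.isMaximal A)
    exact (IsLocalRing.eq_maximalIdeal a2).ge
  obtain ⟨n, hn⟩ := Ideal.exists_pow_le_of_le_radical_of_fg hrad (IsNoetherian.noetherian _)
  exact ⟨n + 1, by omega, (Ideal.pow_le_pow_right (Nat.le_succ n)).trans hn⟩

end Crest.Agent.R188
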