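import Crest.Agent.R188.PosP
import Crest.Agent.R188.PosR1

/-! Row 188, part III-b: Noether normalisation of `T / 𝔮`, and `PosRing (T⟦y⟧ / 𝔮)`. -/

set_option autoImplicit false
set_option linter.unusedVariables false

namespace Crest.Agent.R188

open Crest.Agent.R183 IsLocalRing RingTheory.Sequence MvPowerSeries
open scoped ENNReal TensorProduct

/-- if `A → E` is finite, `dim E = |xs|` and `A` is a domain whose maximal ideal is generated by `xs`
then `A → E` is injective: otherwise `dim E ≤ dim A / g < dim A ≤ |xs|` (incomparability,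
`ringKrullDim_quotient_succ_le_of_nonZeroDivisor`, Krull's height theorem / `dim_le_of_gen`). -/
theorem inj_of_dim {A E : Type} [CommRing A] [IsLocalRing A] [CommRing E] [Algebra A E]
    [Module.Finite A E] {xs : List A} (hA : RegSys A xs) (hE : ringKrullDim E = xs.length) :
    Function.Injective (algebraMap A E) := by
  classical
  have := hA.noeth
  have := hA.dom
  rw [injective_iff_map_eq_zero]
  intro g hg
  by_contra hg0
  have h1 : ringKrullDim E ≤ ringKrullDim (A ⧸ Ideal.span {g}) := by
    rw [ringKrullDim_quotient]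
    refine Order.krullDim_le_of_strictMono
      (fun P : PrimeSpectrum E => (⟨PrimeSpectrum.comap (algebraMap A E) P, ?_⟩ :
        PrimeSpectrum.zeroLocus (R := A) (Ideal.span {g}))) fun P Q hPQ => ?_
    · rw [PrimeSpectrum.zeroLocus_span, PrimeSpectrum.mem_zeroLocus, Set.singleton_subset_iff]
      show algebraMap A E g ∈ P.asIdeal
      rw [hg]
      exact P.asIdeal.zero_mem
    · exact Ideal.IsIntegral.comap_lt_comap (R := A) (I := P.asIdeal) (J := Q.asIdeal) hPQ
  have h2 := ringKrullDim_quotient_succ_le_of_nonZeroDivisor (mem_nonZeroDivisors_of_ne_zero hg0)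
  have h3 : maximalIdeal A ∈ (Ideal.span (xs.toFinset : Set A)).minimalPrimes := by
    have h4 : Ideal.span (xs.toFinset : Set A) = maximalIdeal A := by
      rw [hA.max, List.coe_toFinset]
    rw [h4, Ideal.minimalPrimes_eq_subsingleton_self]
    rfl
  have h5 : (maximalIdeal A).height ≤ xs.length :=
    (Ideal.height_le_card_of_mem_minimalPrimes_span_finset h3).trans
      (Nat.cast_le.2 xs.toFinset_card_le)
  have h6 : ringKrullDim A ≤ xs.length := by
    rw [← maximalIdeal_height_eq_ringKrullDim]
    exact_mod_cast h5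
  have h7 : (xs.length : WithBot ℕ∞) + 1 ≤ xs.length := by
    refine le_trans ?_ (h2.trans h6)
    rw [← hE]
    gcongr
  have h8 : xs.length + 1 ≤ xs.length := by exact_mod_cast h7
  omega

/-- a system of parameters, which may be chosen to start with a given non-zero-divisor. -/
theorem exists_sop {E : Type} [CommRing E] [IsLocalRing E] [IsNoetherianRing E] {b : ℕ}
    (hE : ringKrullDim E = b) : ∃ (x : Fin b → E) (e : ℕ), (∀ i, x i ∈ maximalIdeal E) ∧
      maximalIdeal E ^ e ≤ sp x := by
  obtain ⟨s, hs, hcard⟩ := (maximalIdeal E).exists_finset_card_eq_height_of_isNoetherianRing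
  have hb : s.card = b := by
    rw [← maximalIdeal_height_eq_ringKrullDim, ← hcard] at hE
    exact_mod_cast hE
  subst hb
  have hr : Set.range (fun i => (s.equivFin.symm i : E)) = s := by
    ext y
    constructor
    · rintro ⟨i, rfl⟩
      exact (s.equivFin.symm i).2
    · intro hy
      exact ⟨s.equivFin ⟨y, hy⟩, by simp⟩
  have hrad : maximalIdeal E ≤ (Ideal.span (s : Set E)).radical := by
    rw [← Ideal.sInf_minimalPrimes]
    exact le_sInf fun P hP => hs.2 hP.1 (le_maximalIdeal hP.1.1.ne_top)
  obtain ⟨e, he⟩ := Ideal.exists_pow_le_of_le_radical_of_fg hrad (IsNoetherian.noetherian _)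
  refine ⟨fun i => (s.equivFin.symm i : E), e, fun i => hs.1.2 (Ideal.subset_span
    (s.equivFin.symm i).2), ?_⟩
  unfold sp
  rwa [hr]

theorem exists_sop' {E : Type} [CommRing E] [IsLocalRing E] [IsNoetherianRing E] {b : ℕ}
    (hE : ringKrullDim E = b) {c : E} (hc : c ∈ nonZeroDivisors E) (hcm : c ∈ maximalIdeal E) :
    ∃ (m : ℕ) (x : Fin m → E) (e : ℕ), m + 1 = b ∧ (∀ i, x i ∈ maximalIdeal E) ∧
      maximalIdeal E ^ e ≤ Ideal.span {c} ⊔ sp x := by
  have hnt : Nontrivial (E ⧸ Ideal.span {c}) := Ideal.Quotient.nontrivial_iff.2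
    (ne_top_of_le_ne_top (maximalIdeal.isMaximal E).ne_top
      ((Ideal.span_singleton_le_iff_mem _).2 hcm))
  have hloc : IsLocalRing (E ⧸ Ideal.span {c}) :=
    IsLocalRing.of_surjective' (Ideal.Quotient.mk _) Ideal.Quotient.mk_surjective
  have h1 := ringKrullDim_quotient_span_singleton_succ_eq_ringKrullDim_of_mem_nonZeroDivisors hc hcm
  obtain ⟨s, -, hcard⟩ :=
    (maximalIdeal (E ⧸ Ideal.span {c})).exists_finset_card_eq_height_of_isNoetherianRing
  have h2 : ringKrullDim (E ⧸ Ideal.span {c}) = s.card := by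
    rw [← maximalIdeal_height_eq_ringKrullDim, ← hcard]
    rfl
  have hb : s.card + 1 = b := by
    rw [h2, hE] at h1
    exact_mod_cast h1
  obtain ⟨y, e, hy, he⟩ := exists_sop h2
  choose x hx using fun i => Ideal.Quotient.mk_surjective (y i)
  have hmap := map_maximalIdeal_of_surjective (Ideal.Quotient.mk (Ideal.span {c}))
    Ideal.Quotient.mk_surjective
  refine ⟨s.card, x, e, hb, fun i => ?_, fun z hz => ?_⟩
  · by_contra hu
    rw [notMem_maximalIdeal] at hu
    exact notMem_maximalIdeal.2 (hx i ▸ hu.map (Ideal.Quotient.mk (Ideal.span {c}))) (hy i)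
  · have h3 : sp y = (sp x).map (Ideal.Quotient.mk (Ideal.span {c})) := by
      unfold sp
      rw [Ideal.map_span, ← Set.range_comp]
      exact congrArg (fun f => Ideal.span (Set.range f)) (funext fun i => (hx i).symm)
    rw [← hmap, ← Ideal.map_pow, h3, Ideal.map_le_iff_le_comap,
      Ideal.comap_map_of_surjective _ Ideal.Quotient.mk_surjective, ← RingHom.ker_eq_comap_bot,
      Ideal.mk_ker, sup_comm] at he
    exact he hz

end Crest.Agent.R188
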