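import Crest.Agent.R188.PosK
import Crest.Agent.R188.Ser1

/-! Row 188, part III-b: power series rings. -/

set_option autoImplicit false
set_option linter.unusedVariables false

namespace Crest.Agent.R188

open Crest.Agent.R183 IsLocalRing RingTheory.Sequence MvPowerSeries
open scoped ENNReal TensorProduct

/-- membership in the extension of a finitely generated ideal is checked on coefficients. -/
theorem ps_mem_map {T σ : Type} [CommRing T] {I : Ideal T} (hI : I.FG) (g : MvPowerSeries σ T) :
    g ∈ I.map (C : T →+* MvPowerSeries σ T) ↔ ∀ α, coeff α g ∈ I := by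
  classical
  constructor
  · intro hg
    induction hg using Submodule.span_induction with
    | mem x hx =>
      obtain ⟨y, hy, rfl⟩ := hx
      intro α
      rw [coeff_C]
      split_ifs
      · exact hy
      · exact I.zero_mem
    | zero => intro α; simp
    | add x y _ _ hx hy => intro α; rw [map_add]; exact I.add_mem (hx α) (hy α)
    | smul c x _ hx =>
      intro α
      rw [smul_eq_mul, coeff_mul]
      exact I.sum_mem fun q _ => I.mul_mem_left _ (hx q.2)
  · intro hg
    obtain ⟨n, v, hv⟩ := Submodule.fg_iff_exists_fin_generating_family.1 hI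
    have hc : ∀ α, ∃ c : Fin n → T, ∑ i, c i • v i = coeff α g := fun α =>
      (Submodule.mem_span_range_iff_exists_fun _).1 (by rw [hv]; exact hg α)
    choose c hc using hc
    let u : Fin n → MvPowerSeries σ T := fun i α => c α i
    have hu : ∀ i α, coeff α (u i) = c α i := fun _ _ => rfl
    have : g = ∑ i, u i * C (v i) := by
      ext α
      rw [map_sum, ← hc α]
      exact Finset.sum_congr rfl fun i _ => by rw [coeff_mul_C, hu, smul_eq_mul]
    rw [this]
    refine Ideal.sum_mem _ fun i _ => Ideal.mul_mem_left _ _ (Ideal.mem_map_of_mem _ ?_)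
    rw [← hv]
    exact Submodule.subset_span ⟨i, rfl⟩

/-- (`RegPSA_mem_of_coeff` with `e = 1`.) -/
theorem ps_mem_map_sup {T : Type} [CommRing T] {a : ℕ} {I : Ideal T} (hI : I.FG)
    (s : Finset (Fin a)) (g : MvPowerSeries (Fin a) T) :
    g ∈ I.map (C : T →+* MvPowerSeries (Fin a) T) ⊔ Ideal.span (X '' (s : Set (Fin a))) ↔
      ∀ α : Fin a →₀ ℕ, (∀ i ∈ s, α i = 0) → coeff α g ∈ I := by
  classical
  constructor
  · intro hg α hα
    obtain ⟨g₁, h₁, g₂, h₂, rfl⟩ := Submodule.mem_sup.1 hg
    have h3 : ∀ β : Fin a →₀ ℕ, (∀ i ∈ s, β i = 0) → coeff β g₂ = 0 := by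
      clear hg
      induction h₂ using Submodule.span_induction with
      | mem x hx =>
        obtain ⟨j, hj, rfl⟩ := hx
        intro β hβ
        rw [coeff_X, if_neg]
        rintro rfl
        simpa using hβ j hj
      | zero => intro β _; simp
      | add x y _ _ hx hy => intro β hβ; rw [map_add, hx β hβ, hy β hβ, add_zero]
      | smul c x _ hx =>
        intro β hβ
        rw [smul_eq_mul, coeff_mul]
        refine Finset.sum_eq_zero fun q hq => ?_
        have h : q.1 + q.2 = β := by simpa using hq
        rw [hx q.2 fun j hj => ?_, mul_zero]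
        have h2 : q.1 j + q.2 j = β j := by rw [← h]; rfl
        have := hβ j hj
        omega
    rw [map_add, h3 α hα, add_zero]
    exact (ps_mem_map hI g₁).1 h₁ α
  · intro hg
    let u : MvPowerSeries (Fin a) T := fun α => if ∀ i ∈ s, α i = 0 then coeff α g else 0
    have hu : ∀ α, coeff α u = if ∀ i ∈ s, α i = 0 then coeff α g else 0 := fun _ => rfl
    have h1 : u ∈ I.map (C : T →+* MvPowerSeries (Fin a) T) := by
      rw [ps_mem_map hI]
      intro α
      rw [hu]
      split_ifs with h
      · exact hg α h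
      · exact I.zero_mem
    have h2 : g - u ∈ Ideal.span (X '' (s : Set (Fin a)) : Set (MvPowerSeries (Fin a) T)) := by
      refine RegPSA_mem_of_coeff (fun _ => 1) _ s (fun j hj => ?_) _ fun α hα => ?_
      · rw [pow_one]
        exact Ideal.subset_span ⟨j, hj, rfl⟩
      · rw [map_sub, hu, if_pos, sub_self]
        intro i hi
        have := hα i hi
        omega
    have : g = u + (g - u) := by ring
    rw [this]
    exact Submodule.add_mem_sup h1 h2

theorem PosP_fg {T : Type} [CommRing T] (zs : List T) : (Ideal.ofList zs).FG :=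
  Submodule.fg_span (List.finite_toSet zs)

theorem PosP_regL_C {T σ : Type} [CommRing T] {ws : List T} (h : RegL ws) :
    RegL (ws.map (C : T →+* MvPowerSeries σ T)) := by
  induction ws with
  | nil => trivial
  | cons w ws ih =>
    refine ⟨ih h.1, fun y hy => ?_⟩
    rw [← Ideal.map_ofList, ps_mem_map (PosP_fg ws)] at hy ⊢
    intro α
    apply h.2
    have := hy α
    rwa [coeff_C_mul] at this

theorem PosP_regL {T : Type} [CommRing T] {a : ℕ} {ws : List T} (h : RegL ws) (l : List (Fin a))
    (hl : l.Nodup) : RegL (l.map (X : Fin a → MvPowerSeries (Fin a) T) ++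
      ws.map (C : T →+* MvPowerSeries (Fin a) T)) := by
  classical
  induction l with
  | nil => exact PosP_regL_C h
  | cons i l ih =>
    rw [List.nodup_cons] at hl
    refine ⟨ih hl.2, fun y hy => ?_⟩
    have h1 : Ideal.ofList (l.map (X : Fin a → MvPowerSeries (Fin a) T) ++
        ws.map (C : T →+* MvPowerSeries (Fin a) T)) =
        (Ideal.ofList ws).map (C : T →+* MvPowerSeries (Fin a) T) ⊔
          Ideal.span (X '' (l.toFinset : Set (Fin a))) := by
      rw [Ideal.ofList_append, sup_comm, Ideal.map_ofList]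
      congr 1
      refine congrArg Ideal.span (Set.ext fun z => ?_)
      simp
    change _ ∈ Ideal.ofList (l.map (X : Fin a → MvPowerSeries (Fin a) T) ++
        ws.map (C : T →+* MvPowerSeries (Fin a) T)) at hy ⊢
    rw [h1, ps_mem_map_sup (PosP_fg ws)] at hy ⊢
    intro α hα
    have h2 := hy (Finsupp.single i 1 + α) fun j hj => by
      have hij : i ≠ j := fun h => hl.1 (h ▸ List.mem_toFinset.1 hj)
      simp [hij, hα j hj]
    rwa [X_def, coeff_add_monomial_mul, one_mul] at h2

/-- `wreg_iff`, `ps_mem_map`, `ps_mem_map_sup`. -/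
theorem ps_wreg {T : Type} [CommRing T] {zs : List T} (h : IsWeaklyRegular T zs) (a : ℕ) :
    IsWeaklyRegular (MvPowerSeries (Fin a) T)
      (zs.map (C : T →+* MvPowerSeries (Fin a) T) ++ List.ofFn X) := by
  have h1 : RegL zs.reverse := by rwa [regL_iff_isWeaklyRegular, List.reverse_reverse]
  have h2 := PosP_regL h1 (List.finRange a).reverse (List.nodup_reverse.2 (List.nodup_finRange a))
  rw [regL_iff_isWeaklyRegular, List.reverse_append, ← List.map_reverse, ← List.map_reverse,
    List.reverse_reverse, List.reverse_reverse, ← List.ofFn_eq_map] at h2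
  exact h2

/-- `maximalIdeal_ps`, `ps_wreg`. -/
theorem RegSys.ps {A : Type} [CommRing A] [IsLocalRing A] {xs : List A} (h : RegSys A xs) (a : ℕ) :
    RegSys (MvPowerSeries (Fin a) A) (xs.map (C : A →+* MvPowerSeries (Fin a) A) ++ List.ofFn X) := by
  have := h.noeth
  have := h.dom
  refine ⟨inferInstance, NoZeroDivisors.to_isDomain _, ?_, ps_wreg h.reg a⟩
  rw [maximalIdeal_ps, h.max, Ideal.map_ofList, Ideal.ofList_append, ser1_ofList_ofFn]

theorem PosP_krull {A : Type} [CommRing A] [IsLocalRing A] [IsNoetherianRing A] (J : Ideal A)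
    {γ : A} (h : ∀ M : ℕ, γ ∈ J ⊔ maximalIdeal A ^ M) : γ ∈ J := by
  rw [← Ideal.Quotient.eq_zero_iff_mem]
  refine IsHausdorff.haus (inferInstance : IsHausdorff (maximalIdeal A) (A ⧸ J)) _ fun n => ?_
  rw [SModEq.zero]
  obtain ⟨y, hy, z, hz, rfl⟩ := Submodule.mem_sup.1 (h n)
  rw [map_add, Ideal.Quotient.eq_zero_iff_mem.2 hy, zero_add]
  have : Ideal.Quotient.mk J z = z • (1 : A ⧸ J) := by
    rw [Algebra.smul_def, mul_one]; rfl
  rw [this]
  exact Submodule.smul_mem_smul hz trivial

/-- truncated colon property by Krull's intersection theorem: take the exponents `1` for `j < i`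
and `M` for `j ≥ i` in `RegBase.colon`, with `c = 1`. -/
theorem regSys_of_regBase {A : Type} [CommRing A] [IsLocalRing A] {d : ℕ} {x : Fin d → A}
    (h : RegBase x) : RegSys A (List.ofFn x) := by
  classical
  have := h.noeth
  have hm : sp x = maximalIdeal A := eq_maximalIdeal h.max
  refine ⟨h.noeth, h.dom, by rw [ser1_ofList_ofFn, hm], ?_⟩
  rw [wreg_iff]
  intro i hi γ hγ
  have hid : i < d := by simpa using hi
  have hmem : ∀ y, y ∈ (List.ofFn x).take i ↔ ∃ j : Fin d, (j : ℕ) < i ∧ x j = y := by
    intro y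
    rw [List.mem_take_iff_getElem]
    constructor
    · rintro ⟨j, hj, rfl⟩
      have hj' : j < i ∧ j < d := by simpa using hj
      exact ⟨⟨j, hj'.2⟩, hj'.1, by simp⟩
    · rintro ⟨j, hj, rfl⟩
      exact ⟨j, by simp [hj], by simp⟩
  refine PosP_krull _ fun M => ?_
  let e : Fin d → ℕ := fun j => if (j : ℕ) < i then 1 else M + 1
  have h1 : Ideal.ofList ((List.ofFn x).take i) ≤ Ie x e := by
    rw [Ideal.ofList, Ideal.span_le]
    intro y hy
    obtain ⟨j, hj, rfl⟩ := (hmem y).1 hy
    exact Ideal.subset_span ⟨j, by simp [e, hj]⟩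
  have h2 := h.colon e ⟨i, hid⟩ 1 γ (by simp [e]) (by
    rw [pow_one]
    apply h1
    simpa using hγ)
  refine (show Ie x _ ≤ _ from ?_) h2
  rw [Ie, Ideal.span_le]
  rintro _ ⟨j, rfl⟩
  have hx : x j ∈ maximalIdeal A := hm ▸ Ideal.subset_span ⟨j, rfl⟩
  by_cases hj : (j : ℕ) < i
  · have hne : j ≠ ⟨i, hid⟩ := fun h => by simp [h] at hj
    apply Ideal.mem_sup_left
    simp only [Function.update_of_ne hne, e, if_pos hj, pow_one]
    exact Ideal.subset_span ((hmem _).2 ⟨j, hj, rfl⟩)
  · apply Ideal.mem_sup_right
    refine Ideal.pow_le_pow_right (n := Function.update e ⟨i, hid⟩ (e ⟨i, hid⟩ - 1) j) ?_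
      (Ideal.pow_mem_pow hx _)
    by_cases hji : j = ⟨i, hid⟩
    · subst hji
      simp [e]
    · simp [Function.update_of_ne hji, e, hj]

theorem ps_finite {A E : Type} [CommRing A] [CommRing E] [Algebra A E] [Module.Finite A E]
    (σ : Type) : Module.Finite (MvPowerSeries σ A) (MvPowerSeries σ E) := by
  obtain ⟨n, v, hv⟩ := Module.Finite.exists_fin (R := A) (M := E)
  refine ⟨Submodule.fg_iff_exists_fin_generating_family.2 ⟨n, fun i => C (v i), ?_⟩⟩
  rw [eq_top_iff]
  intro g _
  have hc : ∀ α, ∃ c : Fin n → A, ∑ i, c i • v i = coeff α g := fun α =>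
    (Submodule.mem_span_range_iff_exists_fun _).1 (by rw [hv]; trivial)
  choose c hc using hc
  let u : Fin n → MvPowerSeries σ A := fun i α => c α i
  have hu : ∀ i α, coeff α (u i) = c α i := fun _ _ => rfl
  refine (Submodule.mem_span_range_iff_exists_fun _).2 ⟨u, ?_⟩
  ext α
  rw [map_sum, ← hc α]
  refine Finset.sum_congr rfl fun i _ => ?_
  rw [Algebra.smul_def, coeff_mul_C, algebraMap_apply'', coeff_map, hu, Algebra.smul_def]

theorem ps_map_injective {A E σ : Type} [CommRing A] [CommRing E] {f : A →+* E}
    (hf : Function.Injective f) : Function.Injective (MvPowerSeries.map (σ := σ) f) := by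
  intro g g' h
  ext α
  apply hf
  rw [← coeff_map, ← coeff_map, h]

theorem ps_map_surjective {A E σ : Type} [CommRing A] [CommRing E] {f : A →+* E}
    (hf : Function.Surjective f) : Function.Surjective (MvPowerSeries.map (σ := σ) f) := by
  intro g
  choose c hc using fun α => hf (coeff α g)
  refine ⟨c, ?_⟩
  ext α
  rw [coeff_map]
  exact hc α

theorem ps_ker_map {T σ : Type} [CommRing T] {I : Ideal T} (hI : I.FG) :
    RingHom.ker (MvPowerSeries.map (σ := σ) (Ideal.Quotient.mk I)) =
      I.map (C : T →+* MvPowerSeries σ T) := by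
  ext g
  rw [RingHom.mem_ker, ps_mem_map hI, MvPowerSeries.ext_iff]
  refine forall_congr' fun α => ?_
  rw [coeff_map, map_zero, Ideal.Quotient.eq_zero_iff_mem]

/-- Krull's intersection theorem for finite algebras over a Noetherian local ring. -/
theorem haus_of_finite (R S : Type) [CommRing R] [IsLocalRing R] [IsNoetherianRing R] [CommRing S]
    [Algebra R S] [Module.Finite R S] : IsHausdorff ((maximalIdeal R).map (algebraMap R S)) S :=
  IsHausdorff.map_algebraMap_iff.2 inferInstance

/-- finite algebras over a complete Noetherian local ring are complete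
(`norm_precomplete_of_finite`, `IsAdicComplete.map_algebraMap_iff` or a direct argument). -/
theorem complete_of_finite {R S : Type} [CommRing R] [IsLocalRing R] [IsNoetherianRing R]
    [IsAdicComplete (maximalIdeal R) R] [CommRing S] [Algebra R S] [Module.Finite R S] :
    IsAdicComplete ((maximalIdeal R).map (algebraMap R S)) S := by
  have := norm_precomplete_of_finite (M := S) (maximalIdeal R)
  exact (IsAdicComplete.map_algebraMap_iff _ _).2 {}

end Crest.Agent.R188
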