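import Crest.Agent.R188.PosDefs

/-! Row 188, part III-b: quasi-isomorphisms of `F ⊗ M`, permutation invariance of Koszul complexes,
balancing. -/

set_option autoImplicit false
set_option linter.unusedVariables false
set_option linter.unusedSectionVars false

namespace Crest.Agent.R188

open Crest.Agent.R183 IsLocalRing RingTheory.Sequence
open scoped ENNReal TensorProduct

variable {Λ : Type} [CommRing Λ] {M M' M'' : Type} [AddCommGroup M] [Module Λ M] [AddCommGroup M']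
  [Module Λ M'] [AddCommGroup M''] [Module Λ M''] {F F' F'' : FC Λ}

theorem FC.B_le_Z (F : FC Λ) (M : Type) [AddCommGroup M] [Module Λ M] (j : ℤ) :
    F.B M j ≤ F.Z M j := by
  rintro _ ⟨w, hw, rfl⟩
  refine ⟨?_, F.fr_act_act w⟩
  have := F.fr_act_mem hw
  rwa [add_sub_cancel_right] at this

theorem PosQ_deg {φ : (F.ι → M) →ₗ[Λ] (F'.ι → M')} (h : QIso F F' φ) {i : ℤ} {z : F.ι → M}
    (hz : z ∈ F.G M i) : φ z ∈ F'.G M' i :=
  h.deg i ⟨z, hz, rfl⟩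

theorem PosQ_surj {φ : (F.ι → M) →ₗ[Λ] (F'.ι → M')} (h : QIso F F' φ) {i j : ℤ} (hij : i + 1 = j)
    {z' : F'.ι → M'} (hz : z' ∈ F'.G M' i) (h0 : F'.act M' z' = 0) :
    ∃ z ∈ F.G M i, F.act M z = 0 ∧ ∃ w ∈ F'.G M' j, φ z + F'.act M' w = z' := by
  subst hij
  obtain ⟨_, ⟨z, hz1, rfl⟩, _, ⟨w, hw, rfl⟩, e⟩ := Submodule.mem_sup.1 (h.surj i ⟨hz, h0⟩)
  exact ⟨z, hz1.1, hz1.2, w, hw, e⟩

theorem PosQ_inj {φ : (F.ι → M) →ₗ[Λ] (F'.ι → M')} (h : QIso F F' φ) {i j : ℤ} (hij : i + 1 = j)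
    {z : F.ι → M} (hz : z ∈ F.G M i) (h0 : F.act M z = 0) {w : F'.ι → M'} (hw : w ∈ F'.G M' j)
    (e : F'.act M' w = φ z) : ∃ u ∈ F.G M j, F.act M u = z := by
  subst hij
  exact h.inj i ⟨⟨hz, h0⟩, w, hw, e⟩

theorem PosQ_mk {φ : (F.ι → M) →ₗ[Λ] (F'.ι → M')} (h1 : ∀ i, ∀ z ∈ F.G M i, φ z ∈ F'.G M' i)
    (h2 : ∀ v, φ (F.act M v) = F'.act M' (φ v))
    (h3 : ∀ i, ∀ z' ∈ F'.G M' i, F'.act M' z' = 0 →
      ∃ z ∈ F.G M i, F.act M z = 0 ∧ ∃ w ∈ F'.G M' (i + 1), φ z + F'.act M' w = z')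
    (h4 : ∀ i, ∀ z ∈ F.G M i, F.act M z = 0 → ∀ w ∈ F'.G M' (i + 1), F'.act M' w = φ z →
      ∃ u ∈ F.G M (i + 1), F.act M u = z) : QIso F F' φ := by
  refine ⟨fun i => ?_, h2, fun i z' hz => ?_, fun i z hz => ?_⟩
  · rintro _ ⟨z, hz, rfl⟩
    exact h1 i z hz
  · obtain ⟨z, a1, a2, w, a3, e⟩ := h3 i z' hz.1 hz.2
    exact Submodule.mem_sup.2 ⟨_, ⟨z, ⟨a1, a2⟩, rfl⟩, _, ⟨w, a3, rfl⟩, e⟩
  · obtain ⟨⟨a1, a2⟩, w, a3, e⟩ := hz
    exact h4 i z a1 a2 w a3 e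

theorem QE.refl (F : FC Λ) (M : Type) [AddCommGroup M] [Module Λ M] : QE F M F M := by
  refine ⟨LinearMap.id, fun i => by rw [Submodule.map_id], fun v => rfl, fun i => ?_, fun i => ?_⟩
  · rw [Submodule.map_id]
    exact le_sup_left
  · rw [Submodule.comap_id]
    exact inf_le_right

theorem QE.trans (h₁ : QE F M F' M') (h₂ : QE F' M' F'' M'') : QE F M F'' M'' := by
  obtain ⟨φ, h₁⟩ := h₁
  obtain ⟨ψ, h₂⟩ := h₂
  refine ⟨ψ ∘ₗ φ, PosQ_mk (fun i z hz => PosQ_deg h₂ (PosQ_deg h₁ hz)) (fun v => ?_)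
    (fun i z'' hz h0 => ?_) fun i z hz h0 w hw e => ?_⟩
  · rw [LinearMap.comp_apply, LinearMap.comp_apply, h₁.comm, h₂.comm]
  · obtain ⟨z', a1, a2, w', a3, rfl⟩ := PosQ_surj h₂ rfl hz h0
    obtain ⟨z, b1, b2, w, b3, rfl⟩ := PosQ_surj h₁ rfl a1 a2
    refine ⟨z, b1, b2, ψ w + w', add_mem (PosQ_deg h₂ b3) a3, ?_⟩
    rw [LinearMap.comp_apply, map_add, map_add, h₂.comm, add_assoc]
  · obtain ⟨u, a1, a2⟩ := PosQ_inj h₂ rfl (PosQ_deg h₁ hz) (by rw [← h₁.comm, h0, map_zero]) hw e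
    exact PosQ_inj h₁ rfl hz h0 a1 a2

/-- `rel_map_comap`, `rel_sup_right`, `rel_inf_right`. -/
theorem QE.h_eq (h : QE F M F' M') (lam : LenFn Λ) (j : ℤ) : F.h lam M j = F'.h lam M' j := by
  obtain ⟨φ, h⟩ := h
  have e1 : F'.Z M' j ⊔ F'.B M' j = (F.Z M j).map φ ⊔ F'.B M' j := by
    refine le_antisymm (sup_le (h.surj j) le_sup_right) (sup_le_sup_right ?_ _)
    rintro _ ⟨z, hz, rfl⟩
    refine ⟨PosQ_deg h hz.1, ?_⟩
    have h0 : F.act M z = 0 := hz.2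
    show F'.act M' (φ z) = 0
    rw [← h.comm, h0, map_zero]
  have e2 : F.Z M j ⊓ (F'.B M' j).comap φ = F.Z M j ⊓ F.B M j := by
    refine le_antisymm (le_inf inf_le_left (h.inj j)) (inf_le_inf_left _ ?_)
    rintro _ ⟨w, hw, rfl⟩
    exact ⟨φ w, PosQ_deg h hw, (h.comm w).symm⟩
  unfold FC.h
  rw [← lam.rel_sup_right (F'.Z M' j), e1, lam.rel_sup_right, lam.rel_map_comap,
    ← lam.rel_inf_right _ ((F'.B M' j).comap φ), e2, lam.rel_inf_right]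

/-- a vector of the cone. -/
def PosQ_pr (F : FC Λ) (x : Λ) (a b : F.ι → M) : (F.cone x).ι → M := Sum.elim a b

theorem PosQ_ex (F : FC Λ) (x : Λ) (v : (F.cone x).ι → M) : ∃ a b, v = PosQ_pr F x a b :=
  ⟨v ∘ Sum.inl, v ∘ Sum.inr, funext fun s => by rcases s with s | s <;> rfl⟩

theorem PosQ_pr_inj {x : Λ} {a b a' b' : F.ι → M} :
    PosQ_pr F x a b = PosQ_pr F x a' b' ↔ a = a' ∧ b = b' :=
  ⟨fun h => ⟨funext fun s => congrFun h (Sum.inl s), funext fun s => congrFun h (Sum.inr s)⟩,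
    fun h => by rw [h.1, h.2]⟩

theorem PosQ_add {x : Λ} (a b a' b' : F.ι → M) :
    PosQ_pr F x a b + PosQ_pr F x a' b' = PosQ_pr F x (a + a') (b + b') :=
  funext fun s => by rcases s with s | s <;> rfl

theorem PosQ_smul {x : Λ} (r : Λ) (a b : F.ι → M) :
    r • PosQ_pr F x a b = PosQ_pr F x (r • a) (r • b) :=
  funext fun s => by rcases s with s | s <;> rfl

theorem PosQ_neg {x : Λ} (a b : F.ι → M) : -PosQ_pr F x a b = PosQ_pr F x (-a) (-b) :=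
  funext fun s => by rcases s with s | s <;> rfl

theorem PosQ_zero {x : Λ} {a b : F.ι → M} : PosQ_pr F x a b = 0 ↔ a = 0 ∧ b = 0 := by
  rw [← PosQ_pr_inj (x := x)]
  refine Eq.congr_right (funext fun s => ?_)
  rcases s with s | s <;> rfl

theorem PosQ_act {x : Λ} (a b : F.ι → M) :
    (F.cone x).act M (PosQ_pr F x a b) = PosQ_pr F x (F.act M a + x • b) (-F.act M b) := by
  funext s
  rcases s with s | s
  · exact congrFun (F.fr_cone_inl x (Sum.elim a b)) s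
  · exact congrFun (F.fr_cone_inr x (Sum.elim a b)) s

theorem PosQ_mem {x : Λ} {i : ℤ} {a b : F.ι → M} :
    PosQ_pr F x a b ∈ (F.cone x).G M i ↔ a ∈ F.G M i ∧ b ∈ F.G M (i - 1) := by
  simp only [fr_mem_top]
  refine ⟨fun h => ⟨fun s hs => h (Sum.inl s) hs, fun s hs => h (Sum.inr s) ?_⟩, fun h s hs => ?_⟩
  · show ((F.deg s + 1 : ℕ) : ℤ) ≠ i
    omega
  · rcases s with s | s
    · exact h.1 s hs
    · refine h.2 s ?_
      change ((F.deg s + 1 : ℕ) : ℤ) ≠ i at hs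
      omega

/-- the map induced on cones. -/
def PosQ_map (x : Λ) (φ : (F.ι → M) →ₗ[Λ] (F'.ι → M')) :
    ((F.cone x).ι → M) →ₗ[Λ] ((F'.cone x).ι → M') where
  toFun v := PosQ_pr F' x (φ (v ∘ Sum.inl)) (φ (v ∘ Sum.inr))
  map_add' v w := by
    rw [PosQ_add, ← map_add, ← map_add]
    rfl
  map_smul' r v := by
    rw [RingHom.id_apply, PosQ_smul, ← map_smul, ← map_smul]
    rfl

theorem PosQ_map_pr (x : Λ) (φ : (F.ι → M) →ₗ[Λ] (F'.ι → M')) (a b : F.ι → M) :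
    PosQ_map x φ (PosQ_pr F x a b) = PosQ_pr F' x (φ a) (φ b) := rfl

/-- five lemma; the map is `v ↦ Sum.elim (φ (v ∘ inl)) (φ (v ∘ inr))`.  The differential of the cone is
`(a, b) ↦ (d a + x b, - d b)` with `a` of degree `i`, `b` of degree `i - 1`. -/
theorem QE.cone (h : QE F M F' M') (x : Λ) : QE (F.cone x) M (F'.cone x) M' := by
  obtain ⟨φ, h⟩ := h
  refine ⟨PosQ_map x φ, PosQ_mk (fun i z hz => ?_) (fun v => ?_) (fun i z' hz h0 => ?_)
    fun i z hz h0 w hw e => ?_⟩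
  · obtain ⟨a, b, rfl⟩ := PosQ_ex F x z
    rw [PosQ_mem] at hz
    rw [PosQ_map_pr, PosQ_mem]
    exact ⟨PosQ_deg h hz.1, PosQ_deg h hz.2⟩
  · obtain ⟨a, b, rfl⟩ := PosQ_ex F x v
    rw [PosQ_act, PosQ_map_pr, PosQ_map_pr, PosQ_act, map_add, map_neg, map_smul, h.comm, h.comm]
  · obtain ⟨a', b', rfl⟩ := PosQ_ex F' x z'
    rw [PosQ_mem] at hz
    rw [PosQ_act, PosQ_zero, neg_eq_zero] at h0
    obtain ⟨b, b1, b2, c', c1, rfl⟩ := PosQ_surj h (sub_add_cancel i 1) hz.2 h0.2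
    have h1 := h0.1
    obtain ⟨e, e1, e2⟩ := PosQ_inj h (sub_add_cancel i 1) (Submodule.smul_mem _ x b1)
      (by rw [map_smul, b2, smul_zero]) (neg_mem (add_mem hz.1 (Submodule.smul_mem _ x c1)))
      (by
        rw [map_neg, map_add, map_smul, map_smul, neg_eq_iff_add_eq_zero, ← h1, smul_add]
        abel)
    obtain ⟨z, z1, z2, w', w1, w2⟩ := PosQ_surj h rfl
      (add_mem (add_mem hz.1 (Submodule.smul_mem _ x c1)) (PosQ_deg h e1))
      (by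
        rw [map_add, map_add, map_smul, ← h.comm, e2, map_smul, ← h1, smul_add]
        abel)
    refine ⟨PosQ_pr F x (z - e) b, PosQ_mem.2 ⟨sub_mem z1 e1, b1⟩, ?_,
      PosQ_pr F' x w' (-c'), PosQ_mem.2 ⟨w1, by rw [add_sub_cancel_right]; exact neg_mem c1⟩, ?_⟩
    · rw [PosQ_act, PosQ_zero, map_sub, z2, e2, b2]
      exact ⟨by abel, neg_zero⟩
    · rw [PosQ_map_pr, PosQ_act, PosQ_add, map_neg, neg_neg, map_sub]
      congr 1
      rw [smul_neg, ← sub_eq_zero]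
      have := sub_eq_zero.2 w2
      rw [← this]
      abel
  · obtain ⟨a, b, rfl⟩ := PosQ_ex F x z
    obtain ⟨c', e', rfl⟩ := PosQ_ex F' x w
    rw [PosQ_mem] at hz hw
    rw [add_sub_cancel_right] at hw
    rw [PosQ_act, PosQ_zero, neg_eq_zero] at h0
    rw [PosQ_act, PosQ_map_pr, PosQ_pr_inj] at e
    obtain ⟨f, f1, f2⟩ := PosQ_inj h (sub_add_cancel i 1) hz.2 h0.2 (neg_mem hw.2)
      (by rw [map_neg, e.2])
    obtain ⟨g, g1, g2, k', k1, k2⟩ := PosQ_surj h rfl (add_mem hw.2 (PosQ_deg h f1))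
      (by rw [map_add, ← h.comm, f2, ← e.2, add_neg_cancel])
    obtain ⟨k, k3, k4⟩ := PosQ_inj h rfl
      (sub_mem (add_mem hz.1 (Submodule.smul_mem _ x f1)) (Submodule.smul_mem _ x g1))
      (by rw [map_sub, map_add, map_smul, map_smul, f2, g2, h0.1, smul_zero, sub_zero])
      (add_mem hw.1 (Submodule.smul_mem _ x k1))
      (by
        rw [map_add, map_sub, map_add, map_smul, map_smul, map_smul, ← e.1,
          eq_sub_of_add_eq' k2, smul_sub, smul_add]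
        abel)
    refine ⟨PosQ_pr F x k (g - f), PosQ_mem.2 ⟨k3, by
      rw [add_sub_cancel_right]; exact sub_mem g1 f1⟩, ?_⟩
    rw [PosQ_act, k4, map_sub, g2, f2, smul_sub]
    congr 1 <;> abel

theorem QE.kos (h : QE F M F' M') (xs : List Λ) : QE (F.kos xs) M (F'.kos xs) M' := by
  induction xs with
  | nil => exact h
  | cons x xs ih => exact ih.cone x

/-- exchanging two cones. -/
def PosQ_sw (F : FC Λ) (M : Type) [AddCommGroup M] [Module Λ M] (x y : Λ) :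
    (((F.cone x).cone y).ι → M) →ₗ[Λ] (((F.cone y).cone x).ι → M) where
  toFun v := PosQ_pr (F.cone y) x
    (PosQ_pr F y (v ∘ Sum.inl ∘ Sum.inl) (v ∘ Sum.inr ∘ Sum.inl))
    (PosQ_pr F y (v ∘ Sum.inl ∘ Sum.inr) (-(v ∘ Sum.inr ∘ Sum.inr)))
  map_add' v w := by
    rw [PosQ_add, PosQ_add, PosQ_add, ← neg_add]
    rfl
  map_smul' r v := by
    rw [RingHom.id_apply, PosQ_smul, PosQ_smul, PosQ_smul, smul_neg]
    rfl

theorem PosQ_sw_pr {x y : Λ} (a b c e : F.ι → M) :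
    PosQ_sw F M x y (PosQ_pr (F.cone x) y (PosQ_pr F x a b) (PosQ_pr F x c e)) =
      PosQ_pr (F.cone y) x (PosQ_pr F y a c) (PosQ_pr F y b (-e)) := rfl

theorem PosQ_ex2 (F : FC Λ) (x y : Λ) (v : ((F.cone x).cone y).ι → M) :
    ∃ a b c e, v = PosQ_pr (F.cone x) y (PosQ_pr F x a b) (PosQ_pr F x c e) := by
  obtain ⟨p, q, rfl⟩ := PosQ_ex (F.cone x) y v
  obtain ⟨a, b, rfl⟩ := PosQ_ex F x p
  obtain ⟨c, e, rfl⟩ := PosQ_ex F x q
  exact ⟨a, b, c, e, rfl⟩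

theorem PosQ_sw_sw {x y : Λ} (v : ((F.cone x).cone y).ι → M) :
    PosQ_sw F M y x (PosQ_sw F M x y v) = v := by
  obtain ⟨a, b, c, e, rfl⟩ := PosQ_ex2 F x y v
  rw [PosQ_sw_pr, PosQ_sw_pr, neg_neg]

theorem PosQ_sw_mem {x y : Λ} {i : ℤ} {v : ((F.cone x).cone y).ι → M}
    (hv : v ∈ ((F.cone x).cone y).G M i) : PosQ_sw F M x y v ∈ ((F.cone y).cone x).G M i := by
  obtain ⟨a, b, c, e, rfl⟩ := PosQ_ex2 F x y v
  rw [PosQ_mem, PosQ_mem, PosQ_mem] at hv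
  rw [PosQ_sw_pr, PosQ_mem, PosQ_mem, PosQ_mem]
  exact ⟨⟨hv.1.1, hv.2.1⟩, hv.1.2, neg_mem hv.2.2⟩

theorem PosQ_sw_comm (F : FC Λ) (x y : Λ) (v : ((F.cone x).cone y).ι → M) :
    PosQ_sw F M x y (((F.cone x).cone y).act M v) =
      ((F.cone y).cone x).act M (PosQ_sw F M x y v) := by
  obtain ⟨a, b, c, e, rfl⟩ := PosQ_ex2 F x y v
  simp only [PosQ_act, PosQ_smul, PosQ_add, PosQ_neg, PosQ_sw_pr, PosQ_pr_inj, map_neg, smul_neg]
  refine ⟨⟨?_, ?_⟩, ?_, ?_⟩ <;> first | trivial | abel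

/-- an isomorphism: exchange the two middle blocks, and change the sign of the last one. -/
theorem qe_swap (F : FC Λ) (M : Type) [AddCommGroup M] [Module Λ M] (x y : Λ) :
    QE ((F.cone x).cone y) M ((F.cone y).cone x) M := by
  refine ⟨PosQ_sw F M x y, PosQ_mk (fun i z hz => PosQ_sw_mem hz) (PosQ_sw_comm F x y)
    (fun i z' hz h0 => ?_) fun i z hz h0 w hw e => ?_⟩
  · refine ⟨PosQ_sw F M y x z', PosQ_sw_mem hz, ?_, 0, zero_mem _, ?_⟩
    · rw [← PosQ_sw_comm, h0, map_zero]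
    · rw [map_zero, add_zero, PosQ_sw_sw]
  · exact ⟨PosQ_sw F M y x w, PosQ_sw_mem hw, by rw [← PosQ_sw_comm, e, PosQ_sw_sw]⟩

theorem qe_kos_perm (F : FC Λ) (M : Type) [AddCommGroup M] [Module Λ M] {xs ys : List Λ}
    (h : xs.Perm ys) : QE (F.kos xs) M (F.kos ys) M := by
  induction h with
  | nil => exact QE.refl F M
  | cons x _ ih => exact ih.cone x
  | swap x y l => exact qe_swap (F.kos l) M x y
  | trans _ _ ih₁ ih₂ => exact ih₁.trans ih₂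

theorem FC.Res.resol' {N : Type} [AddCommGroup N] [Module Λ N] (h : F.Res N) {d : ℕ}
    (hd : F.Bdd d) : Resol d F.deg F.d N := by
  obtain ⟨h1, π, h2, h3⟩ := h
  refine ⟨⟨hd, F.d_deg, F.dd⟩, π, h2, h3.trans (sup_bot_eq _), fun j hj _ => ?_⟩
  refine le_trans ?_ ((h1 j (by omega)).trans (sup_bot_eq _).le)
  exact inf_le_inf_left _ (le_of_eq (Submodule.comap_bot _).symm)

theorem FC.exists_bdd (F : FC Λ) : ∃ d, F.Bdd d :=
  ⟨Finset.univ.sup F.deg, fun b => Finset.le_sup (Finset.mem_univ b)⟩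

theorem FC.gcx (F : FC Λ) {d : ℕ} (hd : F.Bdd d) : GCx d F.deg F.d := ⟨hd, F.d_deg, F.dd⟩

/-- balancing: `balance`, `FC.kos_res`, `FC.Res.resol'`, `Resol.pres`. -/
theorem bal_kos {N : Type} [AddCommGroup N] [Module Λ N] (hF : F.Res N) {xs : List Λ}
    (hx : IsWeaklyRegular Λ xs) (lam : LenFn Λ) (j : ℤ) :
    F.h lam (Λ ⧸ Ideal.ofList xs) j = (kz xs).h lam N j := by
  obtain ⟨d, hd⟩ := F.exists_bdd
  obtain ⟨d', hd'⟩ := (kz xs).exists_bdd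
  have h2 : (kz xs).Res (Λ ⧸ Ideal.ofList xs) := FC.kos_res xs hx
  exact balance lam ((hF.resol' hd).pres (j + 1)) ((h2.resol' hd').pres (j + 1)) (lt_add_one j)
    (lt_add_one j)

/-- `Zc`, `Bd` with `U = ⊥` are `Zt`, `Bt`; outside `[0, d]` the terms vanish (`GCx.gr_eq_bot`). -/
theorem res_of_resol {ι : Type} [Fintype ι] [DecidableEq ι] {d : ℕ} {deg : ι → ℕ}
    {P : Matrix ι ι Λ} {N : Type} [AddCommGroup N] [Module Λ N] (h : Resol d deg P N) :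
    (FC.ofG h.1).Res N := by
  obtain ⟨hG, ε, h1, h2, h3⟩ := h
  refine ⟨fun i hi => ?_, ε, h1, h2.trans (sup_bot_eq _).symm⟩
  by_cases hi' : i < 0 ∨ (d : ℤ) < i
  · refine inf_le_left.trans ?_
    exact (hG.gr_eq_bot hi' ⊤).le.trans bot_le
  · refine le_trans ?_ ((h3 i (by omega) (by omega)).trans le_sup_left)
    exact inf_le_inf_left _ (le_of_eq (Submodule.comap_bot _))

theorem FC.Res.ex {N : Type} [AddCommGroup N] [Module Λ N] (h : F.Res N) {j : ℤ} (hj : j ≠ 0) :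
    F.Ex Λ j := by
  refine le_trans ?_ ((h.1 j hj).trans (sup_bot_eq _).le)
  exact inf_le_inf_left _ (le_of_eq (Submodule.comap_bot _).symm)

end Crest.Agent.R188
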