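import Crest.Agent.R188.Pow

/-!
# R188 / PowE

Additivity of the cyclic Adams functional on extensions.
-/

set_option autoImplicit false
set_option linter.unusedSectionVars false
set_option linter.unusedVariables false

noncomputable section

namespace Crest.Agent.R188

open Filter
open Crest.Agent.R183 (Zc Bd mact gr Htpy)
open scoped TensorProduct

variable {R : Type} [CommRing R] (ν : AddFn R) {ℓ : ℕ} [NeZero ℓ]
  (N : Type) [AddCommGroup N] [Module R N]

/-- vectors supported on `S`. -/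
def powE_cs (R : Type) [CommRing R] {κ : Type} (N : Type) [AddCommGroup N] [Module R N]
    (S : κ → Prop) : Submodule R (κ → N) where
  carrier := {v | ∀ b, ¬ S b → v b = 0}
  add_mem' := by
    intro v w hv hw b hb
    simp [hv b hb, hw b hb]
  zero_mem' := by
    intro b _
    rfl
  smul_mem' := by
    intro c v hv b hb
    simp [hv b hb]

theorem powE_mem_cs {κ : Type} {S : κ → Prop} {v : κ → N} :
    v ∈ powE_cs R N S ↔ ∀ b, ¬ S b → v b = 0 := Iff.rfl

theorem powE_gr_eq {κ : Type} (deg : κ → ℕ) (i : ℤ) :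
    gr deg i (⊤ : Submodule R N) = powE_cs R N fun b => (deg b : ℤ) = i := by
  ext v
  rw [powE_mem_cs]
  simp only [gr, Submodule.mem_pi, Set.mem_univ, true_implies]
  refine forall_congr' fun b => ?_
  by_cases h : (deg b : ℤ) = i
  · simp [h]
  · simp [h]

theorem powE_cs_mono {κ : Type} {S T : κ → Prop} (h : ∀ b, S b → T b) :
    powE_cs R N S ≤ powE_cs R N T := fun _ hv b hb => hv b fun hs => hb (h b hs)

theorem powE_cs_congr {κ : Type} {S T : κ → Prop} (h : ∀ b, S b ↔ T b) :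
    powE_cs R N S = powE_cs R N T :=
  le_antisymm (powE_cs_mono N fun b => (h b).1) (powE_cs_mono N fun b => (h b).2)

theorem powE_cs_bot {κ : Type} {S : κ → Prop} (h : ∀ b, ¬ S b) : powE_cs R N S = ⊥ := by
  rw [eq_bot_iff]
  intro v hv
  rw [Submodule.mem_bot]
  funext b
  exact hv b (h b)

theorem powE_mact_mem {κ κ' : Type} [Fintype κ'] (P : Matrix κ κ' R) {S : κ' → Prop}
    {T : κ → Prop} (h : ∀ b b', P b b' ≠ 0 → S b' → T b) {v : κ' → N} (hv : v ∈ powE_cs R N S) :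
    mact P N v ∈ powE_cs R N T := by
  intro b hb
  change ∑ b', P b b' • v b' = 0
  refine Finset.sum_eq_zero fun b' _ => ?_
  by_cases h0 : P b b' = 0
  · rw [h0, zero_smul]
  · rw [hv b' fun hs => hb (h b b' h0 hs), smul_zero]

theorem powE_mact_map {κ κ' : Type} [Fintype κ'] (P : Matrix κ κ' R) {S : κ' → Prop}
    {T : κ → Prop} (h : ∀ b b', P b b' ≠ 0 → S b' → T b) :
    (powE_cs R N S).map (mact P N) ≤ powE_cs R N T := by
  rintro _ ⟨v, hv, rfl⟩
  exact powE_mact_mem N P h hv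

theorem powE_mact_mul {κ κ' κ'' : Type} [Fintype κ'] [Fintype κ''] (P : Matrix κ κ' R)
    (Q : Matrix κ' κ'' R) (v : κ'' → N) : mact (P * Q) N v = mact P N (mact Q N v) := by
  funext b
  change ∑ b'', (P * Q) b b'' • v b'' = ∑ b', P b b' • ∑ b'', Q b' b'' • v b''
  simp only [Matrix.mul_apply, Finset.sum_smul, Finset.smul_sum, mul_smul]
  exact Finset.sum_comm

theorem powE_mact_add {κ κ' : Type} [Fintype κ'] (P Q : Matrix κ κ' R) (v : κ' → N) :
    mact (P + Q) N v = mact P N v + mact Q N v := by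
  funext b
  change ∑ b', (P + Q) b b' • v b' = ∑ b', P b b' • v b' + ∑ b', Q b b' • v b'
  simp only [Matrix.add_apply, add_smul, Finset.sum_add_distrib]

theorem powE_mact_sub {κ κ' : Type} [Fintype κ'] (P Q : Matrix κ κ' R) (v : κ' → N) :
    mact (P - Q) N v = mact P N v - mact Q N v := by
  funext b
  change ∑ b', (P - Q) b b' • v b' = ∑ b', P b b' • v b' - ∑ b', Q b b' • v b'
  simp only [Matrix.sub_apply, sub_smul, Finset.sum_sub_distrib]

theorem powE_mact_smul_one {κ : Type} [Fintype κ] [DecidableEq κ] (y : R) (v : κ → N) :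
    mact (y • (1 : Matrix κ κ R)) N v = y • v := by
  funext b
  change ∑ b', (y • (1 : Matrix κ κ R)) b b' • v b' = y • v b
  rw [Finset.sum_eq_single b]
  · simp
  · intro b' _ hb'
    simp [Ne.symm hb']
  · simp

theorem powE_cs_fg [IsNoetherianRing R] [Module.Finite R N] {κ : Type} [Fintype κ]
    (S : κ → Prop) : (powE_cs R N S).FG := IsNoetherian.noetherian _

/-- comparison of a filtered complex with its associated graded complex. -/
theorem powE_tau_gr [IsNoetherianRing R] [Module.Finite R N] (hu : IsUnit (ℓ : R))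
    {κ : Type} [Fintype κ] [DecidableEq κ] (deg wt : κ → ℕ) (m : ℕ) (hm : ∀ b, wt b < m)
    (P P₀ : Matrix κ κ R) (σ : κ → κ)
    (hc : IsCx (mact P N) (fun i => gr deg i (⊤ : Submodule R N)) ⊥)
    (hc₀ : IsCx (mact P₀ N) (fun i => gr deg i (⊤ : Submodule R N)) ⊥)
    (ha : IsAct ℓ (mact P N) (LinearMap.funLeft R N σ) (fun i => gr deg i (⊤ : Submodule R N)) ⊥)
    (ha₀ : IsAct ℓ (mact P₀ N) (LinearMap.funLeft R N σ) (fun i => gr deg i (⊤ : Submodule R N)) ⊥)
    (hP : ∀ b b', P b b' ≠ 0 → deg b' = deg b + 1 ∧ wt b ≤ wt b')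
    (hP₀ : ∀ b b', P₀ b b' ≠ 0 → deg b' = deg b + 1 ∧ wt b ≤ wt b')
    (hPP : ∀ b b', (P - P₀) b b' ≠ 0 → deg b' = deg b + 1 ∧ wt b < wt b')
    (hσ : ∀ b, deg (σ b) = deg b ∧ wt (σ b) = wt b)
    {𝔞 : Ideal R} (hg : ν.good (R ⧸ 𝔞))
    (hH : ∀ y ∈ 𝔞, ∃ (k : ℕ) (H : Matrix κ κ R),
      (∀ b b', H b b' ≠ 0 → deg b = deg b' + 1 ∧ wt b ≤ wt b') ∧
        P₀ * H + H * P₀ = y ^ k • (1 : Matrix κ κ R)) :
    ν.tau ℓ (mact P N) (LinearMap.funLeft R N σ) (fun i => gr deg i (⊤ : Submodule R N)) ⊥ =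
      ν.tau ℓ (mact P₀ N) (LinearMap.funLeft R N σ) (fun i => gr deg i (⊤ : Submodule R N)) ⊥ := by
  set X : ℕ → ℤ → Submodule R (κ → N) :=
    fun j i => powE_cs R N fun b => (deg b : ℤ) = i ∧ wt b < j with hX
  have X0 : X 0 = ⊥ := by
    funext i
    exact powE_cs_bot N fun b hb => absurd hb.2 (Nat.not_lt_zero _)
  have Xm : X m = fun i => gr deg i (⊤ : Submodule R N) := by
    funext i
    rw [powE_gr_eq]
    exact powE_cs_congr N fun b => ⟨fun h => h.1, fun h => ⟨h, hm b⟩⟩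
  have Xle : ∀ j i, X j i ≤ gr deg i (⊤ : Submodule R N) := by
    intro j i
    rw [powE_gr_eq]
    exact powE_cs_mono N fun b h => h.1
  have hmono : ∀ j i, X j i ≤ X (j + 1) i := fun j i =>
    powE_cs_mono N fun b h => ⟨h.1, Nat.lt_succ_of_lt h.2⟩
  have hs : ∀ Q : Matrix κ κ R, (∀ b b', Q b b' ≠ 0 → deg b' = deg b + 1 ∧ wt b ≤ wt b') →
      ∀ j i, (X j i).map (mact Q N) ≤ X j (i - 1) := by
    intro Q hQ j i
    refine powE_mact_map N Q fun b b' h0 hb' => ?_
    obtain ⟨h1, h2⟩ := hQ b b' h0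
    obtain ⟨h3, h4⟩ := hb'
    refine ⟨?_, lt_of_le_of_lt h2 h4⟩
    rw [h1] at h3
    push_cast at h3
    omega
  have hρ : ∀ j i, (X j i).map (LinearMap.funLeft R N σ) ≤ X j i := by
    rintro j i _ ⟨v, hv, rfl⟩ b hb
    refine hv (σ b) fun h => hb ?_
    have h' : (deg (σ b) : ℤ) = i ∧ wt (σ b) < j := h
    rw [(hσ b).1, (hσ b).2] at h'
    exact h'
  have cx : ∀ Q : Matrix κ κ R, IsCx (mact Q N) (fun i => gr deg i (⊤ : Submodule R N)) ⊥ →
      (∀ b b', Q b b' ≠ 0 → deg b' = deg b + 1 ∧ wt b ≤ wt b') →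
      ∀ j, IsCx (mact Q N) (X (j + 1)) (X j) := by
    intro Q hQ hQ' j
    have h1 : IsCx (mact Q N) (X (j + 1)) ⊥ :=
      hQ.sub (fun i => bot_le) (Xle (j + 1)) (hs Q hQ' (j + 1))
    exact h1.quo (fun i => bot_le) (hmono j) (hs Q hQ' j)
  have act : ∀ Q : Matrix κ κ R, IsAct ℓ (mact Q N) (LinearMap.funLeft R N σ)
      (fun i => gr deg i (⊤ : Submodule R N)) ⊥ →
      ∀ j, IsAct ℓ (mact Q N) (LinearMap.funLeft R N σ) (X (j + 1)) (X j) := fun Q hQ j =>
    ⟨hQ.pow, hQ.comm, hρ (j + 1), hρ j⟩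
  have iso : ∀ j, PIso LinearMap.id (mact P N) (X (j + 1)) (X j) (mact P₀ N) (X (j + 1)) (X j) := by
    intro j
    refine ⟨fun i => ?_, fun i => ?_, fun i x hx => ?_⟩
    · rw [Submodule.map_id]
      exact sup_eq_left.2 (hmono j i)
    · rw [Submodule.comap_id]
      exact inf_eq_right.2 (hmono j i)
    · rw [LinearMap.id_apply, LinearMap.id_apply, ← powE_mact_sub]
      refine powE_mact_mem N (P - P₀) (fun b b' h0 hb' => ?_) hx
      obtain ⟨h1, h2⟩ := hPP b b' h0
      obtain ⟨h3, h4⟩ := hb'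
      refine ⟨?_, by omega⟩
      rw [h1] at h3
      push_cast at h3
      omega
  have g₀ : ∀ j, ν.gd (mact P₀ N) (X (j + 1)) (X j) := by
    intro j
    refine ν.gd_of_killed hg (fun i => powE_cs_fg N _) fun y hy i => ?_
    obtain ⟨k, H, hH1, hH2⟩ := hH y hy
    have hup : ∀ j i, (X j i).map (mact H N) ≤ X j (i + 1) := by
      intro j i
      refine powE_mact_map N H fun b b' h0 hb' => ?_
      obtain ⟨h1, h2⟩ := hH1 b b' h0
      obtain ⟨h3, h4⟩ := hb'
      refine ⟨?_, lt_of_le_of_lt h2 h4⟩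
      rw [h1]
      push_cast
      omega
    refine ⟨k, (cx P₀ hc₀ hP₀ j).smul_mem_bd (mact H N) (y ^ k) (hup (j + 1)) (hup j)
      (fun i x _ => ?_) i⟩
    rw [← powE_mact_mul, ← powE_mact_mul, ← powE_mact_add, hH2, powE_mact_smul_one, sub_self]
    exact Submodule.zero_mem _
  have g : ∀ j, ν.gd (mact P N) (X (j + 1)) (X j) := fun j =>
    (ν.chi_iso (iso j) (cx P hc hP j) (cx P₀ hc₀ hP₀ j)).1.2 (g₀ j)
  have key : ∀ j, ν.tau ℓ (mact P N) (LinearMap.funLeft R N σ) (X (j + 1)) (X j) =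
      ν.tau ℓ (mact P₀ N) (LinearMap.funLeft R N σ) (X (j + 1)) (X j) := by
    intro j
    refine ν.tau_iso hu (iso j) (cx P hc hP j) (cx P₀ hc₀ hP₀ j) (act P ha j) (act P₀ ha₀ j)
      fun i x _ => ?_
    rw [LinearMap.id_apply, LinearMap.id_apply, sub_self]
    exact Submodule.zero_mem _
  rw [← X0, ← Xm] at hc hc₀ ha ha₀ ⊢
  rw [ν.tau_filt hu X m hc ha hmono (hs P hP) hρ (fun j _ => g j),
    ν.tau_filt hu X m hc₀ ha₀ hmono (hs P₀ hP₀) hρ (fun j _ => g₀ j)]
  exact Finset.sum_congr rfl fun j _ => key j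

section Slot
variable {ι : Type} [Fintype ι] [DecidableEq ι] (deg : ι → ℕ)

theorem powE_tens_ite (A : Matrix ι ι R) (M : ZMod ℓ → Matrix ι ι R) (t : ZMod ℓ)
    (b b' : ZMod ℓ → ι) :
    tens (fun s => if s = t then A else M s) b b' =
      A (b t) (b' t) * ∏ s ∈ Finset.univ.erase t, M s (b s) (b' s) := by
  change ∏ s, (if s = t then A else M s) (b s) (b' s) = _
  rw [← Finset.mul_prod_erase Finset.univ _ (Finset.mem_univ t), if_pos rfl]
  congr 1
  refine Finset.prod_congr rfl fun s hs => ?_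
  rw [if_neg (Finset.ne_of_mem_erase hs)]

theorem powE_slot_ne_zero {h : Matrix ι ι R} (t : ZMod ℓ) (b b' : ZMod ℓ → ι)
    (h0 : slot ℓ deg h t b b' ≠ 0) : h (b t) (b' t) ≠ 0 ∧ ∀ s, s ≠ t → b s = b' s := by
  unfold slot at h0
  rw [powE_tens_ite] at h0
  refine ⟨left_ne_zero_of_mul h0, fun s hs => ?_⟩
  by_contra hne
  refine right_ne_zero_of_mul h0 (Finset.prod_eq_zero (i := s) (by simp [hs]) ?_)
  split_ifs
  · exact Matrix.diagonal_apply_ne _ hne
  · exact Matrix.one_apply_ne hne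

theorem powE_powD_sub (d d' : Matrix ι ι R) :
    powD ℓ deg d - powD ℓ deg d' = powD ℓ deg (d - d') := by
  unfold powD
  rw [← Finset.sum_sub_distrib]
  refine Finset.sum_congr rfl fun t _ => ?_
  ext b b'
  unfold slot
  rw [Matrix.sub_apply, powE_tens_ite, powE_tens_ite, powE_tens_ite, Matrix.sub_apply, sub_mul]

theorem powE_powW_cmp (w : ι → ℕ) (t : ZMod ℓ) (b b' : ZMod ℓ → ι)
    (h : ∀ s, s ≠ t → b s = b' s) : powW ℓ w b + w (b' t) = powW ℓ w b' + w (b t) := by
  unfold powW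
  rw [← Finset.add_sum_erase Finset.univ _ (Finset.mem_univ t),
    ← Finset.add_sum_erase Finset.univ (fun s => w (b' s)) (Finset.mem_univ t),
    Finset.sum_congr rfl fun s hs => congrArg w (h s (Finset.ne_of_mem_erase hs))]
  omega

theorem powE_powW_rot (w : ι → ℕ) (b : ZMod ℓ → ι) :
    powW ℓ w (fun t => b (t + 1)) = powW ℓ w b := by
  unfold powW
  exact Equiv.sum_comp (Equiv.addRight (1 : ZMod ℓ)) fun t => w (b t)

theorem powE_slot_htpy (hℓ : Odd ℓ) {d H : Matrix ι ι R} {y : R}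
    (hd : ∀ b b', d b b' ≠ 0 → deg b' = deg b + 1) (hH : ∀ b b', H b b' ≠ 0 → deg b = deg b' + 1)
    (h : d * H + H * d = y • (1 : Matrix ι ι R)) :
    powD ℓ deg d * slot ℓ deg H 0 + slot ℓ deg H 0 * powD ℓ deg d =
      y • (1 : Matrix (ZMod ℓ → ι) (ZMod ℓ → ι) R) := by
  unfold powD
  rw [Finset.sum_mul, Finset.mul_sum, ← Finset.sum_add_distrib, Finset.sum_eq_single 0]
  · rw [slot_mul_self, slot_mul_self, ← tens_one]
    ext b b'
    have e : (fun _ : ZMod ℓ => (1 : Matrix ι ι R)) = fun s => if s = 0 then 1 else 1 := by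
      funext s
      rw [ite_self]
    rw [e, Matrix.add_apply, Matrix.smul_apply, powE_tens_ite, powE_tens_ite, powE_tens_ite,
      ← add_mul, ← Matrix.add_apply, h, Matrix.smul_apply, smul_eq_mul, smul_eq_mul, mul_assoc]
  · intro t _ ht
    rw [slot_anticomm deg hℓ (d := d) (h := H) (fun b b' h0 => ?_) (fun b b' h0 => ?_) ht,
      neg_add_cancel]
    · rw [hd b b' h0]
      exact ⟨deg b, by ring⟩
    · rw [hH b b' h0]
      exact ⟨deg b', by ring⟩
  · simp

end Slot

section Blk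
variable {ι : Type} [Fintype ι] [DecidableEq ι] (p : ι → Prop) [DecidablePred p]

/-- block diagonal matrices. -/
def powE_blk (A : Matrix {b // p b} {b // p b} R) (B : Matrix {b // ¬ p b} {b // ¬ p b} R) :
    Matrix ι ι R :=
  (Matrix.fromBlocks A 0 0 B).submatrix (Equiv.sumCompl p).symm (Equiv.sumCompl p).symm

variable {p}

theorem powE_blk_mul (A A' : Matrix {b // p b} {b // p b} R)
    (B B' : Matrix {b // ¬ p b} {b // ¬ p b} R) :
    powE_blk p A B * powE_blk p A' B' = powE_blk p (A * A') (B * B') := by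
  unfold powE_blk
  rw [Matrix.submatrix_mul_equiv, Matrix.fromBlocks_multiply]
  simp

theorem powE_blk_add (A A' : Matrix {b // p b} {b // p b} R)
    (B B' : Matrix {b // ¬ p b} {b // ¬ p b} R) :
    powE_blk p A B + powE_blk p A' B' = powE_blk p (A + A') (B + B') := by
  unfold powE_blk
  ext b b'
  rw [Matrix.add_apply, Matrix.submatrix_apply, Matrix.submatrix_apply, ← Matrix.add_apply,
    Matrix.fromBlocks_add, add_zero, add_zero, Matrix.submatrix_apply]

theorem powE_blk_zero : powE_blk p (0 : Matrix {b // p b} {b // p b} R) 0 = 0 := by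
  unfold powE_blk
  simp

theorem powE_blk_smul_one (y : R) :
    powE_blk p (y • (1 : Matrix {b // p b} {b // p b} R)) (y • 1) = y • 1 := by
  unfold powE_blk
  have e : Matrix.fromBlocks (y • (1 : Matrix {b // p b} {b // p b} R)) 0 0
      (y • (1 : Matrix {b // ¬ p b} {b // ¬ p b} R)) = y • 1 := by
    rw [← Matrix.fromBlocks_one, Matrix.fromBlocks_smul, smul_zero, smul_zero]
  rw [e, Matrix.submatrix_smul]
  simp

theorem powE_blk_pp (A : Matrix {b // p b} {b // p b} R)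
    (B : Matrix {b // ¬ p b} {b // ¬ p b} R) {b b' : ι} (h : p b) (h' : p b') :
    powE_blk p A B b b' = A ⟨b, h⟩ ⟨b', h'⟩ := by
  unfold powE_blk
  rw [Matrix.submatrix_apply, Equiv.sumCompl_symm_apply_of_pos h,
    Equiv.sumCompl_symm_apply_of_pos h', Matrix.fromBlocks_apply₁₁]

theorem powE_blk_nn (A : Matrix {b // p b} {b // p b} R)
    (B : Matrix {b // ¬ p b} {b // ¬ p b} R) {b b' : ι} (h : ¬ p b) (h' : ¬ p b') :
    powE_blk p A B b b' = B ⟨b, h⟩ ⟨b', h'⟩ := by
  unfold powE_blk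
  rw [Matrix.submatrix_apply, Equiv.sumCompl_symm_apply_of_neg h,
    Equiv.sumCompl_symm_apply_of_neg h', Matrix.fromBlocks_apply₂₂]

theorem powE_blk_pn (A : Matrix {b // p b} {b // p b} R)
    (B : Matrix {b // ¬ p b} {b // ¬ p b} R) {b b' : ι} (h : p b) (h' : ¬ p b') :
    powE_blk p A B b b' = 0 := by
  unfold powE_blk
  rw [Matrix.submatrix_apply, Equiv.sumCompl_symm_apply_of_pos h,
    Equiv.sumCompl_symm_apply_of_neg h', Matrix.fromBlocks_apply₁₂, Matrix.zero_apply]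

theorem powE_blk_np (A : Matrix {b // p b} {b // p b} R)
    (B : Matrix {b // ¬ p b} {b // ¬ p b} R) {b b' : ι} (h : ¬ p b) (h' : p b') :
    powE_blk p A B b b' = 0 := by
  unfold powE_blk
  rw [Matrix.submatrix_apply, Equiv.sumCompl_symm_apply_of_neg h,
    Equiv.sumCompl_symm_apply_of_pos h', Matrix.fromBlocks_apply₂₁, Matrix.zero_apply]

theorem powE_blk_ne_zero {A : Matrix {b // p b} {b // p b} R}
    {B : Matrix {b // ¬ p b} {b // ¬ p b} R} (r : ι → ι → Prop)
    (hA : ∀ c c', A c c' ≠ 0 → r c.1 c'.1) (hB : ∀ c c', B c c' ≠ 0 → r c.1 c'.1) (b b' : ι)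
    (h0 : powE_blk p A B b b' ≠ 0) : r b b' ∧ (p b ↔ p b') := by
  by_cases h : p b <;> by_cases h' : p b'
  · rw [powE_blk_pp A B h h'] at h0
    exact ⟨hA _ _ h0, iff_of_true h h'⟩
  · exact absurd (powE_blk_pn A B h h') h0
  · exact absurd (powE_blk_np A B h h') h0
  · rw [powE_blk_nn A B h h'] at h0
    exact ⟨hB _ _ h0, iff_of_false h h'⟩

end Blk

/-- the projection on the vectors with label `ω`. -/
def powE_proj (R : Type) [CommRing R] {κ Ω : Type} [DecidableEq Ω] (N : Type) [AddCommGroup N]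
    [Module R N] (lab : κ → Ω) (ω : Ω) : (κ → N) →ₗ[R] (κ → N) where
  toFun v b := if lab b = ω then v b else 0
  map_add' v w := by
    funext b
    by_cases h : lab b = ω <;> simp [h]
  map_smul' c v := by
    funext b
    by_cases h : lab b = ω <;> simp [h]

theorem powE_proj_apply {κ Ω : Type} [DecidableEq Ω] (lab : κ → Ω) (ω : Ω) (v : κ → N) (b : κ) :
    powE_proj R N lab ω v b = if lab b = ω then v b else 0 := rfl

theorem powE_proj_map {κ Ω : Type} [DecidableEq Ω] (lab : κ → Ω) (ω : Ω) (S : κ → Prop) :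
    (powE_cs R N S).map (powE_proj R N lab ω) = powE_cs R N fun b => S b ∧ lab b = ω := by
  apply le_antisymm
  · rintro _ ⟨v, hv, rfl⟩ b hb
    rw [powE_proj_apply]
    split_ifs with h
    · exact hv b fun hs => hb ⟨hs, h⟩
    · rfl
  · intro v hv
    refine ⟨v, powE_cs_mono N (fun b h => h.1) hv, ?_⟩
    funext b
    rw [powE_proj_apply]
    split_ifs with h
    · rfl
    · exact (hv b fun hs => h hs.2).symm

theorem powE_proj_comm {κ Ω : Type} [Fintype κ] [DecidableEq Ω] (lab : κ → Ω) (ω : Ω)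
    (P : Matrix κ κ R) (hP : ∀ b b', P b b' ≠ 0 → lab b = lab b') :
    powE_proj R N lab ω ∘ₗ mact P N = mact P N ∘ₗ powE_proj R N lab ω := by
  refine LinearMap.ext fun v => funext fun b => ?_
  change (if lab b = ω then ∑ b', P b b' • v b' else 0) =
    ∑ b', P b b' • (if lab b' = ω then v b' else 0)
  split_ifs with h
  · refine Finset.sum_congr rfl fun b' _ => ?_
    by_cases h0 : P b b' = 0
    · rw [h0, zero_smul, zero_smul]
    · rw [if_pos ((hP b b' h0).symm.trans h)]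
  · refine (Finset.sum_eq_zero fun b' _ => ?_).symm
    by_cases h0 : P b b' = 0
    · rw [h0, zero_smul]
    · rw [if_neg fun h' => h ((hP b b' h0).trans h'), smul_zero]

/-- the summand of `F₀^{⊗ℓ}` on the tuples with all entries in a block. -/
theorem powE_part (hℓ : Odd ℓ) (hu : IsUnit (ℓ : R)) {ι : Type} [Fintype ι] [DecidableEq ι]
    (deg : ι → ℕ) (d₀ : Matrix ι ι R) (G : FC R) (f : G.ι → ι) (hf : Function.Injective f)
    (hdeg : ∀ c, G.deg c = deg (f c)) (hd : ∀ c c', d₀ (f c) (f c') = G.d c c')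
    (hd' : ∀ c b, b ∉ Set.range f → d₀ (f c) b = 0) (W U : ℤ → Submodule R ((ZMod ℓ → ι) → N))
    (hW : ∀ i, W i = powE_cs R N fun b => (powW ℓ deg b : ℤ) = i ∧ ∀ t, b t ∈ Set.range f)
    (hU : ∀ i, U i = ⊥) (hc : IsCx (mact (powD ℓ deg d₀) N) W U) :
    ν.tau ℓ (mact (powD ℓ deg d₀) N) (rot R ℓ ι N) W U = ν.adams ℓ G N := by
  classical
  have hU' : U = ⊥ := funext hU
  subst hU'
  set α : Matrix G.ι ι R := Matrix.of fun c b => if f c = b then 1 else 0 with hα
  set φ : ((ZMod ℓ → ι) → N) →ₗ[R] ((ZMod ℓ → G.ι) → N) :=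
    LinearMap.funLeft R N fun c t => f (c t) with hφ
  have hφα : ∀ v, φ v = mact (tens fun _ : ZMod ℓ => α) N v := by
    intro v
    funext c
    change v (fun t => f (c t)) = ∑ b, (∏ s, α (c s) (b s)) • v b
    rw [Finset.sum_eq_single fun t => f (c t)]
    · simp [hα]
    · intro b _ hb
      obtain ⟨s, hs⟩ := Function.ne_iff.1 hb
      rw [Finset.prod_eq_zero (Finset.mem_univ s) (by simp [hα, Ne.symm hs]), zero_smul]
    · simp
  have hαd : α * d₀ = G.d * α := by
    ext c b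
    simp only [Matrix.mul_apply, hα, Matrix.of_apply, ite_mul, one_mul, zero_mul, mul_ite, mul_one,
      mul_zero, Finset.sum_ite_eq, Finset.mem_univ, if_true]
    by_cases hb : b ∈ Set.range f
    · obtain ⟨c', rfl⟩ := hb
      rw [hd, Finset.sum_eq_single c']
      · rw [if_pos rfl]
      · intro c'' _ hne
        rw [if_neg fun h => hne (hf h)]
      · simp
    · rw [hd' c b hb]
      refine (Finset.sum_eq_zero fun c' _ => ?_).symm
      rw [if_neg fun h => hb ⟨c', h⟩]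
  have hαdeg : ∀ c b, α c b ≠ 0 → G.deg c = deg b := by
    intro c b h0
    by_cases h : f c = b
    · rw [← h, hdeg]
    · simp [hα, h] at h0
  have hw : ∀ c : ZMod ℓ → G.ι, powW ℓ deg (fun t => f (c t)) = powW ℓ G.deg c := by
    intro c
    unfold powW
    exact Finset.sum_congr rfl fun t _ => (hdeg _).symm
  have hinj : Function.Injective fun (c : ZMod ℓ → G.ι) t => f (c t) := fun c c' h =>
    funext fun t => hf (congrFun h t)
  have iso : PIso φ (mact (powD ℓ deg d₀) N) W ⊥ ((G.pow ℓ hℓ).act N) ((G.pow ℓ hℓ).G N) ⊥ := by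
    refine ⟨fun i => ?_, fun i => ?_, fun i x _ => ?_⟩
    · rw [Pi.bot_apply, sup_bot_eq, hW]
      change _ = gr (powW ℓ G.deg) i (⊤ : Submodule R N)
      rw [powE_gr_eq]
      apply le_antisymm
      · rintro _ ⟨v, hv, rfl⟩ c hc
        refine hv _ fun h => hc ?_
        have h' : (powW ℓ deg (fun t => f (c t)) : ℤ) = i := h.1
        rwa [hw] at h'
      · intro w hw'
        refine ⟨Function.extend (fun (c : ZMod ℓ → G.ι) t => f (c t)) w 0, fun b hb => ?_, ?_⟩
        · by_cases hex : ∃ c : ZMod ℓ → G.ι, (fun t => f (c t)) = b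
          · obtain ⟨c, rfl⟩ := hex
            rw [hinj.extend_apply]
            refine hw' c fun h => hb ⟨?_, fun t => ⟨c t, rfl⟩⟩
            rw [hw]
            exact h
          · rw [Function.extend_apply' _ _ _ hex, Pi.zero_apply]
        · funext c
          exact hinj.extend_apply w 0 c
    · rw [Pi.bot_apply, Pi.bot_apply, hW, eq_bot_iff]
      rintro v ⟨hv, hv'⟩
      rw [Submodule.mem_bot]
      funext b
      by_cases hb : ∀ t, b t ∈ Set.range f
      · choose c hc using hb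
        have e : b = fun t => f (c t) := funext fun t => (hc t).symm
        have h0 : φ v = 0 := hv'
        rw [e]
        exact congrFun h0 c
      · exact hv b fun h => hb h.2
    · rw [Pi.bot_apply, Submodule.mem_bot, sub_eq_zero, hφα, hφα, ← powE_mact_mul,
        tens_powD deg G.deg α hαdeg hαd, powE_mact_mul]
      rfl
  have act : IsAct ℓ (mact (powD ℓ deg d₀) N) (rot R ℓ ι N) W ⊥ := by
    refine ⟨rot_pow N, rot_powD N deg d₀, fun i => ?_, fun i => by simp⟩
    rw [hW]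
    rintro _ ⟨v, hv, rfl⟩ b hb
    refine hv (fun t => b (t + 1)) fun h => hb ⟨?_, fun t => ?_⟩
    · have h' : (powW ℓ deg (fun t => b (t + 1)) : ℤ) = i := h.1
      rwa [powE_powW_rot] at h'
    · have h' : b (t - 1 + 1) ∈ Set.range f := h.2 (t - 1)
      rwa [sub_add_cancel] at h'
  rw [ν.adams_eq N G hℓ]
  refine ν.tau_iso hu iso hc (FC.isCx _ N) act (FC.pow_act N G hℓ) fun i x _ => ?_
  rw [Pi.bot_apply, Submodule.mem_bot, sub_eq_zero]
  rfl

/-- the rotation of labels. -/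
def powE_pi (ℓ : ℕ) : Equiv.Perm (ZMod ℓ → Bool) where
  toFun ω t := ω (t - 1)
  invFun ω t := ω (t + 1)
  left_inv ω := by
    funext t
    simp
  right_inv ω := by
    funext t
    simp

theorem powE_pi_pow (n : ℕ) (ω : ZMod ℓ → Bool) (t : ZMod ℓ) :
    (powE_pi ℓ ^ n) ω t = ω (t - n) := by
  induction n generalizing ω t with
  | zero => simp
  | succ n ih =>
    rw [pow_succ', Equiv.Perm.mul_apply]
    change (powE_pi ℓ ^ n) ω (t - 1) = _
    rw [ih]
    congr 1
    push_cast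
    ring

theorem powE_pi_fixed : (Finset.univ.filter fun ω => powE_pi ℓ ω = ω) =
    {fun _ => true, fun _ => false} := by
  ext ω
  simp only [Finset.mem_filter, Finset.mem_univ, true_and, Finset.mem_insert, Finset.mem_singleton]
  constructor
  · intro h
    have h1 : ∀ n : ℕ, (powE_pi ℓ ^ n) ω = ω := fun n => Equiv.Perm.pow_apply_eq_self_of_apply_eq_self h n
    have h2 : ∀ t, ω t = ω 0 := by
      intro t
      have := congrFun (h1 t.val) t
      rw [powE_pi_pow, ZMod.natCast_zmod_val, sub_self] at this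
      exact this.symm
    cases h0 : ω 0
    · exact Or.inr (funext fun t => (h2 t).trans h0)
    · exact Or.inl (funext fun t => (h2 t).trans h0)
  · rintro (rfl | rfl) <;> rfl

/-- Filter `F^{⊗ℓ} ⊗ N` by the number of slots not satisfying `p` (`tau_filt`).  The graded pieces are the
weight pieces of `F₀^{⊗ℓ} ⊗ N`, `F₀ = F.sub ⊕ F.quo` (block diagonal differential `d₀`), and `F₀^{⊗ℓ}` is
the direct sum over the labels `ω : ZMod ℓ → Bool` (`ω t = decide (p (b t))`), permuted by the rotation;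
`tau_ind` leaves the two constant labels.  Every piece has good homology: a power of `y ∈ 𝔞` is
null-homotopic on `F₀` through a block diagonal homotopy `H₀`, and `slot ℓ deg H₀ 0` preserves labels. -/
theorem AddFn.adams_ext [IsNoetherianRing R] [Module.Finite R N] (hp : ℓ.Prime) (hℓ : Odd ℓ)
    (hu : IsUnit (ℓ : R)) (F : FC R) (p : F.ι → Prop) [DecidablePred p] (h : F.IsSub p)
    {𝔞 : Ideal R} (ha : ν.good (R ⧸ 𝔞))
    (h1 : ∀ y ∈ 𝔞, ∃ k : ℕ, Htpy (F.sub p h).deg (F.sub p h).d (y ^ k))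
    (h2 : ∀ y ∈ 𝔞, ∃ k : ℕ, Htpy (F.quo p h).deg (F.quo p h).d (y ^ k)) :
    ν.adams ℓ F N = ν.adams ℓ (F.sub p h) N + ν.adams ℓ (F.quo p h) N := by
  let d₁ : Matrix {b // p b} {b // p b} R := F.d.submatrix Subtype.val Subtype.val
  let d₂ : Matrix {b // ¬ p b} {b // ¬ p b} R := F.d.submatrix Subtype.val Subtype.val
  set d₀ : Matrix F.ι F.ι R := powE_blk p d₁ d₂ with hd₀
  have d₀ne : ∀ b b', d₀ b b' ≠ 0 → F.d b b' ≠ 0 ∧ (p b ↔ p b') :=
    powE_blk_ne_zero (fun b b' => F.d b b' ≠ 0) (fun c c' h0 => h0) (fun c c' h0 => h0)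
  have dsub : ∀ b b', (F.d - d₀) b b' ≠ 0 → F.d b b' ≠ 0 ∧ p b ∧ ¬ p b' := by
    intro b b' h0
    rw [Matrix.sub_apply] at h0
    by_cases hb : p b <;> by_cases hb' : p b'
    · rw [hd₀, powE_blk_pp _ _ hb hb'] at h0
      exact absurd (sub_self _) h0
    · rw [hd₀, powE_blk_pn _ _ hb hb', sub_zero] at h0
      exact ⟨h0, hb, hb'⟩
    · rw [hd₀, powE_blk_np _ _ hb hb', sub_zero] at h0
      exact absurd (h b b' h0 hb') hb
    · rw [hd₀, powE_blk_nn _ _ hb hb'] at h0
      exact absurd (sub_self _) h0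
  have d₀deg : ∀ b b', d₀ b b' ≠ 0 → F.deg b' = F.deg b + 1 := fun b b' h0 =>
    F.d_deg b b' (d₀ne b b' h0).1
  let F₀ : FC R :=
    { ι := F.ι
      deg := F.deg
      d := d₀
      d_deg := d₀deg
      dd := by
        have e1 : d₁ * d₁ = 0 := (F.sub p h).dd
        have e2 : d₂ * d₂ = 0 := (F.quo p h).dd
        rw [hd₀, powE_blk_mul, e1, e2, powE_blk_zero] }
  have hH : ∀ y ∈ 𝔞, ∃ (k : ℕ) (H : Matrix F.ι F.ι R),
      (∀ b b', H b b' ≠ 0 → F.deg b = F.deg b' + 1 ∧ (p b ↔ p b')) ∧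
        d₀ * H + H * d₀ = y ^ k • (1 : Matrix F.ι F.ι R) := by
    intro y hy
    obtain ⟨k1, hk1⟩ := h1 y hy
    obtain ⟨k2, hk2⟩ := h2 y hy
    obtain ⟨H1, hH1, hH1'⟩ : Htpy (fun c : {b // p b} => F.deg c.1) d₁ (y ^ k2 * y ^ k1) :=
      FC.htpy_mul _ hk1 (y ^ k2)
    obtain ⟨H2, hH2, hH2'⟩ : Htpy (fun c : {b // ¬ p b} => F.deg c.1) d₂ (y ^ k1 * y ^ k2) :=
      FC.htpy_mul _ hk2 (y ^ k1)
    rw [← pow_add] at hH1' hH2'
    rw [add_comm k1 k2] at hH2'
    refine ⟨k2 + k1, powE_blk p H1 H2,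
      powE_blk_ne_zero (fun b b' => F.deg b = F.deg b' + 1) hH1 hH2, ?_⟩
    rw [hd₀, powE_blk_mul, powE_blk_mul, powE_blk_add, hH1', hH2', powE_blk_smul_one]
  set w : F.ι → ℕ := fun b => if p b then 0 else 1 with hw
  have wle : ∀ (t : ZMod ℓ) (b b' : ZMod ℓ → F.ι), (∀ s, s ≠ t → b s = b' s) →
      (p (b' t) → p (b t)) → powW ℓ w b ≤ powW ℓ w b' := by
    intro t b b' hs hp'
    have e := powE_powW_cmp w t b b' hs
    have : w (b t) ≤ w (b' t) := by
      simp only [hw]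
      split_ifs with h1 h2 h2
      · exact le_rfl
      · exact Nat.zero_le _
      · exact absurd (hp' h2) h1
      · exact le_rfl
    omega
  have step1 : ν.adams ℓ F N = ν.adams ℓ F₀ N := by
    refine powE_tau_gr ν N hu (powW ℓ F.deg) (powW ℓ w) (ℓ + 1) (fun b => ?_)
      (powD ℓ F.deg F.d) (powD ℓ F.deg d₀) (fun b t => b (t + 1))
      (FC.isCx (F.pow ℓ hℓ) N) (FC.isCx (F₀.pow ℓ hℓ) N) (FC.pow_act N F hℓ) (FC.pow_act N F₀ hℓ)
      (fun b b' h0 => ⟨powD_deg F.deg F.d_deg b b' h0, ?_⟩)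
      (fun b b' h0 => ⟨powD_deg F.deg d₀deg b b' h0, ?_⟩) (fun b b' h0 => ?_)
      (fun b => ⟨powE_powW_rot _ b, powE_powW_rot _ b⟩) ha fun y hy => ?_
    · have : powW ℓ w b ≤ ∑ _t : ZMod ℓ, 1 := by
        refine Finset.sum_le_sum fun t _ => ?_
        simp only [hw]
        split_ifs
        · exact Nat.zero_le _
        · exact le_rfl
      rw [Finset.sum_const, Finset.card_univ, ZMod.card, smul_eq_mul, mul_one] at this
      omega
    · obtain ⟨t, ht, hs⟩ := powD_ne_zero F.deg b b' h0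
      exact wle t b b' hs (h _ _ ht)
    · obtain ⟨t, ht, hs⟩ := powD_ne_zero F.deg b b' h0
      exact wle t b b' hs (d₀ne _ _ ht).2.2
    · rw [powE_powD_sub] at h0
      refine ⟨powD_deg F.deg (fun c c' hc => F.d_deg c c' (dsub c c' hc).1) b b' h0, ?_⟩
      obtain ⟨t, ht, hs⟩ := powD_ne_zero F.deg b b' h0
      have e := powE_powW_cmp w t b b' hs
      have e1 : w (b t) = 0 := if_pos (dsub _ _ ht).2.1
      have e2 : w (b' t) = 1 := if_neg (dsub _ _ ht).2.2
      omega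
    · obtain ⟨k, H, hH1, hH2⟩ := hH y hy
      refine ⟨k, slot ℓ F.deg H 0, fun b b' h0 => ?_,
        powE_slot_htpy F.deg hℓ d₀deg (fun b b' h0 => (hH1 b b' h0).1) hH2⟩
      obtain ⟨ht, hs⟩ := powE_slot_ne_zero F.deg 0 b b' h0
      refine ⟨?_, wle 0 b b' hs (hH1 _ _ ht).2.2⟩
      have e := powE_powW_cmp F.deg 0 b b' hs
      have e1 := (hH1 _ _ ht).1
      omega
  have g : ν.gdF (F₀.pow ℓ hℓ) N := by
    refine ν.gdF_of_htpy _ N ha fun y hy => ?_
    obtain ⟨k, H, hH1, hH2⟩ := hH y hy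
    exact ⟨k, FC.htpy_pow F₀ hℓ ⟨H, fun b b' h0 => (hH1 b b' h0).1, hH2⟩⟩
  set lab : (ZMod ℓ → F.ι) → ZMod ℓ → Bool := fun b t => decide (p (b t)) with hlab
  have hsum : ∑ ω, powE_proj R N lab ω = LinearMap.id := by
    refine LinearMap.ext fun v => funext fun b => ?_
    rw [LinearMap.sum_apply, Finset.sum_apply]
    simp [powE_proj_apply]
  have horth : ∀ ω ω', ω ≠ ω' → powE_proj R N lab ω ∘ₗ powE_proj R N lab ω' = 0 := by
    intro ω ω' hne
    refine LinearMap.ext fun v => funext fun b => ?_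
    change (if lab b = ω then (if lab b = ω' then v b else 0) else 0) = 0
    split_ifs with h1 h2
    · exact absurd (h1.symm.trans h2) hne
    · rfl
    · rfl
  have hD : ∀ ω, powE_proj R N lab ω ∘ₗ (F₀.pow ℓ hℓ).act N =
      (F₀.pow ℓ hℓ).act N ∘ₗ powE_proj R N lab ω := by
    intro ω
    refine powE_proj_comm N lab ω (powD ℓ F.deg d₀) fun b b' h0 => ?_
    obtain ⟨t, ht, hs⟩ := powD_ne_zero F.deg b b' h0
    funext s
    by_cases hst : s = t
    · subst hst
      exact decide_eq_decide.2 (d₀ne _ _ ht).2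
    · simp only [hlab, hs s hst]
  have hWe : ∀ ω i, ((F₀.pow ℓ hℓ).G N i).map (powE_proj R N lab ω) =
      powE_cs R N fun b => (powW ℓ F.deg b : ℤ) = i ∧ lab b = ω := by
    intro ω i
    rw [← powE_proj_map, ← powE_gr_eq]
    rfl
  have hW : ∀ ω i, ((F₀.pow ℓ hℓ).G N i).map (powE_proj R N lab ω) ≤ (F₀.pow ℓ hℓ).G N i := by
    intro ω i
    rw [hWe]
    refine le_trans (powE_cs_mono N fun b hb => hb.1) ?_
    rw [← powE_gr_eq]
    exact le_rfl
  have hU : ∀ ω i, ((⊥ : ℤ → Submodule R ((ZMod ℓ → F.ι) → N)) i).map (powE_proj R N lab ω) ≤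
      (⊥ : ℤ → Submodule R ((ZMod ℓ → F.ι) → N)) i := by
    intro ω i
    simp
  have hπ : powE_pi ℓ ^ ℓ = 1 := by
    refine Equiv.ext fun ω => funext fun t => ?_
    rw [powE_pi_pow, ZMod.natCast_self, sub_zero]
    rfl
  have hρ : ∀ ω, rot R ℓ F.ι N ∘ₗ powE_proj R N lab ω =
      powE_proj R N lab (powE_pi ℓ ω) ∘ₗ rot R ℓ F.ι N := by
    intro ω
    refine LinearMap.ext fun v => funext fun b => ?_
    change (if (powE_pi ℓ).symm (lab b) = ω then v (fun t => b (t + 1)) else 0) =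
      if lab b = powE_pi ℓ ω then v (fun t => b (t + 1)) else 0
    simp only [Equiv.symm_apply_eq]
  have cx := (ν.chi_idem (FC.isCx (F₀.pow ℓ hℓ) N) (powE_proj R N lab) hsum horth hD hW hU).1
  rw [step1, ν.adams_eq N F₀ hℓ, ν.tau_ind hp hu (FC.isCx (F₀.pow ℓ hℓ) N) (FC.pow_act N F₀ hℓ) g
    (powE_proj R N lab) hsum horth hD hW hU (powE_pi ℓ) hπ hρ, powE_pi_fixed,
    Finset.sum_pair fun e => absurd (congrFun e 0) (by simp)]
  congr 1
  · refine powE_part ν N hℓ hu F.deg d₀ (F.sub p h) Subtype.val Subtype.val_injective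
      (fun _ => rfl) (fun c c' => powE_blk_pp _ _ c.2 c'.2)
      (fun c b hb => powE_blk_pn _ _ c.2 fun hb' => hb ⟨⟨b, hb'⟩, rfl⟩) _ _ (fun i => ?_)
      (fun i => Submodule.map_bot _) (cx _)
    refine (hWe _ i).trans (powE_cs_congr N fun b => and_congr_right fun _ => ?_)
    constructor
    · intro e t
      exact ⟨⟨b t, of_decide_eq_true (congrFun e t)⟩, rfl⟩
    · intro e
      funext t
      obtain ⟨c, hc⟩ := e t
      exact decide_eq_true (hc ▸ c.2)
  · refine powE_part ν N hℓ hu F.deg d₀ (F.quo p h) Subtype.val Subtype.val_injective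
      (fun _ => rfl) (fun c c' => powE_blk_nn _ _ c.2 c'.2)
      (fun c b hb => powE_blk_np _ _ c.2 (by_contra fun hb' => hb ⟨⟨b, hb'⟩, rfl⟩)) _ _ (fun i => ?_)
      (fun i => Submodule.map_bot _) (cx _)
    refine (hWe _ i).trans (powE_cs_congr N fun b => and_congr_right fun _ => ?_)
    constructor
    · intro e t
      exact ⟨⟨b t, of_decide_eq_false (congrFun e t)⟩, rfl⟩
    · intro e
      funext t
      obtain ⟨c, hc⟩ := e t
      exact decide_eq_false (hc ▸ c.2)

end Crest.Agent.R188
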