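import Crest.Agent.R188.Pow

/-!
# R188 / PowKAux

Graded submodules with a coefficient submodule depending on the basis vector; helpers for `PowK`.
-/

set_option autoImplicit false
set_option linter.unusedSectionVars false
set_option linter.unusedVariables false

noncomputable section

namespace Crest.Agent.R188

open Filter
open Crest.Agent.R183 (Zc Bd mact gr Htpy)
open scoped TensorProduct

variable {R : Type} [CommRing R] (ν : AddFn R)
  {N : Type} [AddCommGroup N] [Module R N]

theorem powk_mact_apply {κ κ' : Type} [Fintype κ'] (P : Matrix κ κ' R) (v : κ' → N) (b : κ) :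
    mact P N v b = ∑ b', P b b' • v b' := rfl

theorem powk_mact_mul {κ κ' κ'' : Type} [Fintype κ'] [Fintype κ''] (P : Matrix κ κ' R)
    (Q : Matrix κ' κ'' R) (v : κ'' → N) : mact (P * Q) N v = mact P N (mact Q N v) := by
  ext b
  simp only [powk_mact_apply, Matrix.mul_apply, Finset.sum_smul, Finset.smul_sum, mul_smul]
  exact Finset.sum_comm

theorem powk_mact_add {κ κ' : Type} [Fintype κ'] (P Q : Matrix κ κ' R) (v : κ' → N) :
    mact (P + Q) N v = mact P N v + mact Q N v := by
  ext b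
  simp [powk_mact_apply, add_smul, Finset.sum_add_distrib]

theorem powk_mact_sub {κ κ' : Type} [Fintype κ'] (P Q : Matrix κ κ' R) (v : κ' → N) :
    mact (P - Q) N v = mact P N v - mact Q N v := by
  ext b
  simp [powk_mact_apply, sub_smul, Finset.sum_sub_distrib]

theorem powk_mact_smul {κ κ' : Type} [Fintype κ'] (c : R) (P : Matrix κ κ' R) (v : κ' → N) :
    mact (c • P) N v = c • mact P N v := by
  ext b
  simp [powk_mact_apply, mul_smul, Finset.smul_sum]

theorem powk_mact_one {κ : Type} [Fintype κ] [DecidableEq κ] (v : κ → N) :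
    mact (1 : Matrix κ κ R) N v = v := by
  ext b
  simp [powk_mact_apply, Matrix.one_apply]

theorem powk_mact_zero {κ κ' : Type} [Fintype κ'] (v : κ' → N) :
    mact (0 : Matrix κ κ' R) N v = 0 := by
  ext b
  simp [powk_mact_apply]

/-- vectors in degree `i` whose coordinate `b` lies in `L b`. -/
def powkG {κ : Type} (deg : κ → ℕ) (L : κ → Submodule R N) (i : ℤ) : Submodule R (κ → N) :=
  Submodule.pi Set.univ fun b => if (deg b : ℤ) = i then L b else ⊥

theorem powkG_top {κ : Type} (deg : κ → ℕ) (i : ℤ) :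
    gr deg i (⊤ : Submodule R N) = powkG deg (fun _ => ⊤) i := rfl

theorem mem_powkG {κ : Type} {deg : κ → ℕ} {L : κ → Submodule R N} {i : ℤ} {z : κ → N} :
    z ∈ powkG deg L i ↔ ∀ b, z b ∈ L b ∧ ((deg b : ℤ) ≠ i → z b = 0) := by
  simp only [powkG, Submodule.mem_pi, Set.mem_univ, true_imp_iff]
  refine forall_congr' fun b => ?_
  by_cases h : (deg b : ℤ) = i
  · simp [h]
  · simp only [h, if_false, Submodule.mem_bot, ne_eq, not_false_eq_true, true_imp_iff]
    exact ⟨fun h => ⟨h ▸ (L b).zero_mem, h⟩, fun h => h.2⟩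

theorem powkG_mono {κ : Type} (deg : κ → ℕ) {L L' : κ → Submodule R N} (h : ∀ b, L b ≤ L' b)
    (i : ℤ) : powkG deg L i ≤ powkG deg L' i := by
  intro z hz
  rw [mem_powkG] at hz ⊢
  exact fun b => ⟨h b (hz b).1, (hz b).2⟩

theorem powkG_mact {κ κ' : Type} [Fintype κ'] (deg : κ → ℕ) (deg' : κ' → ℕ)
    (L : κ → Submodule R N) (L' : κ' → Submodule R N) (P : Matrix κ κ' R) (i j : ℤ)
    (h : ∀ b b', P b b' ≠ 0 → L' b' ≤ L b ∧ ((deg' b' : ℤ) = j → (deg b : ℤ) = i))
    {z : κ' → N} (hz : z ∈ powkG deg' L' j) : mact P N z ∈ powkG deg L i := by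
  rw [mem_powkG] at hz ⊢
  intro b
  rw [powk_mact_apply]
  refine ⟨Submodule.sum_mem _ fun b' _ => ?_, fun hb => Finset.sum_eq_zero fun b' _ => ?_⟩
  · by_cases e : P b b' = 0
    · simp [e]
    · exact Submodule.smul_mem _ _ ((h b b' e).1 (hz b').1)
  · by_cases e : P b b' = 0
    · simp [e]
    · rw [(hz b').2 fun e' => hb ((h b b' e).2 e'), smul_zero]

theorem powkG_isCx {κ : Type} [Fintype κ] (deg : κ → ℕ) (P : Matrix κ κ R)
    (hP : ∀ b b', P b b' ≠ 0 → deg b' = deg b + 1) (hPP : P * P = 0)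
    (L L' : κ → Submodule R N) (hle : ∀ b, L' b ≤ L b)
    (hL : ∀ b b', P b b' ≠ 0 → L b' ≤ L b) (hL' : ∀ b b', P b b' ≠ 0 → L' b' ≤ L' b) :
    IsCx (mact P N) (powkG deg L) (powkG deg L') where
  le i := powkG_mono deg hle i
  subW i := by
    rintro _ ⟨z, hz, rfl⟩
    exact powkG_mact deg deg L L P _ i (fun b b' e => ⟨hL b b' e, fun e' => by
      have := hP b b' e; omega⟩) hz
  subU i := by
    rintro _ ⟨z, hz, rfl⟩
    exact powkG_mact deg deg L' L' P _ i (fun b b' e => ⟨hL' b b' e, fun e' => by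
      have := hP b b' e; omega⟩) hz
  dd i z hz := by
    rw [← powk_mact_mul, hPP, powk_mact_zero]
    exact Submodule.zero_mem _
  fin := by
    refine (Set.finite_range fun b => (deg b : ℤ)).subset fun i hi => ?_
    by_contra hn
    refine hi fun z hz => ?_
    have : z = 0 := by
      ext b
      exact (mem_powkG.1 hz b).2 fun e => hn ⟨b, e⟩
    rw [this]
    exact Submodule.zero_mem _

theorem powkG_fg [IsNoetherianRing R] [Module.Finite R N] {κ : Type} [Fintype κ] (deg : κ → ℕ)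
    (L : κ → Submodule R N) (i : ℤ) : (powkG deg L i).FG :=
  IsNoetherian.noetherian _

/-- homology killed by powers of three families of elements. -/
theorem powk_gd [IsNoetherianRing R] {V : Type} [AddCommGroup V] [Module R V] {D : V →ₗ[R] V}
    {W U : ℤ → Submodule R V} {𝔞 𝔟 : Ideal R} {x : R}
    (ha : ν.good (R ⧸ (𝔞 ⊔ 𝔟 ⊔ Ideal.span {x}))) (hW : ∀ i, (W i).FG)
    (h1 : ∀ y ∈ 𝔞, ∀ i, ∀ z ∈ Zc D W U i, y • z ∈ Bd D W U i)
    (h2 : ∀ y ∈ 𝔟, ∀ z : V, y • z = 0)
    (h3 : ∃ k : ℕ, ∀ i, ∀ z ∈ Zc D W U i, x ^ k • z ∈ Bd D W U i) : ν.gd D W U := by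
  refine ν.gd_of_killed ha hW fun y hy i => ?_
  let I : Ideal R :=
    { carrier := {y | ∀ z ∈ Zc D W U i, y • z ∈ Bd D W U i}
      add_mem' := fun {a b} ha hb z hz => by
        rw [add_smul]; exact Submodule.add_mem _ (ha z hz) (hb z hz)
      zero_mem' := fun z hz => by rw [zero_smul]; exact Submodule.zero_mem _
      smul_mem' := fun c a ha z hz => by
        rw [smul_eq_mul, mul_smul]; exact Submodule.smul_mem _ _ (ha z hz) }
  have : 𝔞 ⊔ 𝔟 ⊔ Ideal.span {x} ≤ I.radical := by
    refine sup_le (sup_le (le_trans ?_ Ideal.le_radical) (le_trans ?_ Ideal.le_radical)) ?_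
    · exact fun y hy => h1 y hy i
    · intro y hy z hz
      rw [h2 y hy z]
      exact Submodule.zero_mem _
    · rw [Ideal.span_singleton_le_iff_mem]
      obtain ⟨k, hk⟩ := h3
      exact ⟨k, hk i⟩
  exact this hy

section Lab
variable {κ Ω : Type} [DecidableEq Ω] (lab : κ → Ω)

/-- projection onto the coordinates with label `ω`. -/
def powkE (R : Type) [CommRing R] (N : Type) [AddCommGroup N] [Module R N] (lab : κ → Ω) (ω : Ω) :
    (κ → N) →ₗ[R] (κ → N) :=
  LinearMap.pi fun b => if lab b = ω then LinearMap.proj b else 0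

theorem powkE_apply (ω : Ω) (z : κ → N) (b : κ) :
    powkE R N lab ω z b = if lab b = ω then z b else 0 := by
  simp only [powkE, LinearMap.pi_apply]
  split_ifs <;> simp

theorem powkE_sum [Fintype Ω] : ∑ ω, powkE R N lab ω = LinearMap.id := by
  ext z b
  simp [LinearMap.sum_apply, Finset.sum_apply, powkE_apply]

theorem powkE_orth (ω ω' : Ω) (h : ω ≠ ω') : powkE R N lab ω ∘ₗ powkE R N lab ω' = 0 := by
  refine LinearMap.ext fun z => funext fun b => ?_
  simp only [LinearMap.comp_apply, powkE_apply, LinearMap.zero_apply, Pi.zero_apply]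
  split_ifs with h1 h2
  · exact absurd (h1.symm.trans h2) h
  · rfl
  · rfl

theorem powkE_mact [Fintype κ] (P : Matrix κ κ R) (hP : ∀ b b', P b b' ≠ 0 → lab b = lab b')
    (ω : Ω) : powkE R N lab ω ∘ₗ mact P N = mact P N ∘ₗ powkE R N lab ω := by
  refine LinearMap.ext fun z => funext fun b => ?_
  simp only [LinearMap.comp_apply, powkE_apply, powk_mact_apply]
  split_ifs with h
  · refine Finset.sum_congr rfl fun b' _ => ?_
    by_cases e : P b b' = 0
    · simp [e]
    · rw [if_pos ((hP b b' e).symm.trans h)]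
  · refine (Finset.sum_eq_zero fun b' _ => ?_).symm
    by_cases e : P b b' = 0
    · simp [e]
    · rw [if_neg fun e' => h ((hP b b' e).trans e'), smul_zero]

theorem powkE_map (deg : κ → ℕ) (L : κ → Submodule R N) (ω : Ω) (i : ℤ) :
    (powkG deg L i).map (powkE R N lab ω) =
      powkG deg (fun b => if lab b = ω then L b else ⊥) i := by
  ext z
  constructor
  · rintro ⟨v, hv, rfl⟩
    rw [SetLike.mem_coe, mem_powkG] at hv
    rw [mem_powkG]
    intro b
    rw [powkE_apply]
    split_ifs with h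
    · exact hv b
    · simp
  · intro hz
    rw [mem_powkG] at hz
    refine ⟨z, mem_powkG.2 fun b => ⟨?_, (hz b).2⟩, funext fun b => ?_⟩
    · have := (hz b).1
      split_ifs at this with h
      · exact this
      · rw [(Submodule.mem_bot R).1 this]; exact Submodule.zero_mem _
    · rw [powkE_apply]
      split_ifs with h
      · rfl
      · have := (hz b).1
        rw [if_neg h] at this
        exact ((Submodule.mem_bot R).1 this).symm

theorem powkE_map_le (deg : κ → ℕ) (L : κ → Submodule R N) (ω : Ω) (i : ℤ) :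
    (powkG deg L i).map (powkE R N lab ω) ≤ powkG deg L i := by
  rw [powkE_map]
  refine powkG_mono deg (fun b => ?_) i
  split_ifs
  · exact le_rfl
  · exact bot_le

end Lab

section Rot
variable {ℓ : ℕ} [NeZero ℓ] {ι : Type}

theorem powk_rot_apply (z : (ZMod ℓ → ι) → N) (b : ZMod ℓ → ι) :
    rot R ℓ ι N z b = z fun t => b (t + 1) := rfl

theorem powk_powW_rot (w : ι → ℕ) (b : ZMod ℓ → ι) :
    powW ℓ w (fun t => b (t + 1)) = powW ℓ w b :=
  Fintype.sum_equiv (Equiv.addRight 1) _ _ fun _ => rfl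

theorem powkG_rot (deg : ι → ℕ) (L : (ZMod ℓ → ι) → Submodule R N)
    (hL : ∀ b : ZMod ℓ → ι, L (fun t => b (t + 1)) = L b) (i : ℤ) :
    (powkG (powW ℓ deg) L i).map (rot R ℓ ι N) ≤ powkG (powW ℓ deg) L i := by
  rintro _ ⟨z, hz, rfl⟩
  rw [SetLike.mem_coe, mem_powkG] at hz
  rw [mem_powkG]
  intro b
  rw [powk_rot_apply, ← hL b, ← powk_powW_rot deg b]
  exact hz _

theorem powkG_isAct [Fintype ι] [DecidableEq ι] (deg : ι → ℕ) (d : Matrix ι ι R)
    (L L' : (ZMod ℓ → ι) → Submodule R N)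
    (hL : ∀ b : ZMod ℓ → ι, L (fun t => b (t + 1)) = L b)
    (hL' : ∀ b : ZMod ℓ → ι, L' (fun t => b (t + 1)) = L' b) :
    IsAct ℓ (mact (powD ℓ deg d) N) (rot R ℓ ι N) (powkG (powW ℓ deg) L)
      (powkG (powW ℓ deg) L') where
  pow := rot_pow N
  comm := rot_powD N deg d
  mapW := powkG_rot deg L hL
  mapU := powkG_rot deg L' hL'

/-- the rotation of labels. -/
def powkPerm (ℓ : ℕ) (Ω : Type) : Equiv.Perm (ZMod ℓ → Ω) :=
  Equiv.arrowCongr (Equiv.addRight 1) (Equiv.refl Ω)

theorem powkPerm_apply {Ω : Type} (ω : ZMod ℓ → Ω) (t : ZMod ℓ) :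
    powkPerm ℓ Ω ω t = ω (t - 1) := by
  simp [powkPerm, Equiv.arrowCongr_apply, sub_eq_add_neg]

theorem powkPerm_pow_apply {Ω : Type} (n : ℕ) (ω : ZMod ℓ → Ω) (t : ZMod ℓ) :
    (powkPerm ℓ Ω ^ n) ω t = ω (t - n) := by
  induction n generalizing ω t with
  | zero => simp
  | succ n ih =>
    rw [pow_succ, Equiv.Perm.mul_apply, ih, powkPerm_apply]
    congr 1
    push_cast
    ring

theorem powkPerm_pow (Ω : Type) : powkPerm ℓ Ω ^ ℓ = 1 := by
  ext ω t
  rw [powkPerm_pow_apply]
  simp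

theorem powkPerm_fix {Ω : Type} (ω : ZMod ℓ → Ω) (h : powkPerm ℓ Ω ω = ω) (t : ZMod ℓ) :
    ω t = ω 0 := by
  have h1 : ∀ n : ℕ, (powkPerm ℓ Ω ^ n) ω = ω := fun n => Equiv.Perm.pow_apply_eq_self_of_apply_eq_self h n
  have := congrFun (h1 t.val) t
  rw [powkPerm_pow_apply] at this
  simpa using this.symm

theorem powkPerm_filter :
    Finset.univ.filter (fun ω => powkPerm ℓ Bool ω = ω) = {fun _ => false, fun _ => true} := by
  ext ω
  simp only [Finset.mem_filter, Finset.mem_univ, true_and, Finset.mem_insert, Finset.mem_singleton]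
  constructor
  · intro h
    cases e : ω 0
    · left; funext t; rw [powkPerm_fix ω h t, e]
    · right; funext t; rw [powkPerm_fix ω h t, e]
  · rintro (rfl | rfl) <;> funext t <;> rw [powkPerm_apply]

theorem powkE_rot {Ω : Type} [DecidableEq Ω] (f : ι → Ω) (ω : ZMod ℓ → Ω) :
    rot R ℓ ι N ∘ₗ powkE R N (fun (b : ZMod ℓ → ι) t => f (b t)) ω =
      powkE R N (fun (b : ZMod ℓ → ι) t => f (b t)) (powkPerm ℓ Ω ω) ∘ₗ rot R ℓ ι N := by
  refine LinearMap.ext fun z => funext fun b => ?_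
  simp only [LinearMap.comp_apply, powkE_apply, powk_rot_apply]
  congr 1
  refine propext ⟨fun h => funext fun t => ?_, fun h => funext fun t => ?_⟩
  · rw [powkPerm_apply, ← h]; simp
  · have := congrFun h (t + 1)
    rw [powkPerm_apply] at this
    simpa using this

variable [Fintype ι] [DecidableEq ι]

theorem powk_slot_ne_zero (deg : ι → ℕ) (d : Matrix ι ι R) (t : ZMod ℓ) (b b' : ZMod ℓ → ι)
    (h : slot ℓ deg d t b b' ≠ 0) : d (b t) (b' t) ≠ 0 ∧ ∀ s, s ≠ t → b s = b' s := by
  simp only [slot, tens, Matrix.of_apply] at h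
  have h' : ∀ s, (if s = t then d else if tour ℓ t s then
      Matrix.diagonal fun b => (-1 : R) ^ deg b else 1) (b s) (b' s) ≠ 0 := fun s e =>
    h (Finset.prod_eq_zero (Finset.mem_univ s) e)
  refine ⟨by simpa using h' t, fun s hs => ?_⟩
  have := h' s
  rw [if_neg hs] at this
  by_contra e
  split_ifs at this
  · exact this (Matrix.diagonal_apply_ne _ e)
  · exact this (Matrix.one_apply_ne e)

theorem powk_slot_add (deg : ι → ℕ) (d d' : Matrix ι ι R) (t : ZMod ℓ) :
    slot ℓ deg (d + d') t = slot ℓ deg d t + slot ℓ deg d' t := by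
  ext b b'
  simp only [slot, tens, Matrix.of_apply, Matrix.add_apply]
  rw [← Finset.mul_prod_erase _ _ (Finset.mem_univ t),
    ← Finset.mul_prod_erase _ _ (Finset.mem_univ t), ← Finset.mul_prod_erase _ _ (Finset.mem_univ t)]
  simp only [if_true, Matrix.add_apply, add_mul]
  congr 2 <;> exact Finset.prod_congr rfl fun s hs => by
    rw [if_neg (Finset.ne_of_mem_erase hs), if_neg (Finset.ne_of_mem_erase hs)]

theorem powk_powD_add (deg : ι → ℕ) (d d' : Matrix ι ι R) :
    powD ℓ deg (d + d') = powD ℓ deg d + powD ℓ deg d' := by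
  simp only [powD, powk_slot_add, Finset.sum_add_distrib]

/-- the homotopy in slot `0`. -/
theorem powk_htpy (hℓ : Odd ℓ) (deg : ι → ℕ) (d H : Matrix ι ι R) (y : R)
    (hd : ∀ b b', d b b' ≠ 0 → deg b' = deg b + 1) (hH : ∀ b b', H b b' ≠ 0 → deg b = deg b' + 1)
    (h : d * H + H * d = y • (1 : Matrix ι ι R)) :
    powD ℓ deg d * slot ℓ deg H 0 + slot ℓ deg H 0 * powD ℓ deg d =
      y • (1 : Matrix (ZMod ℓ → ι) (ZMod ℓ → ι) R) := by
  rw [powD, Finset.sum_mul, Finset.mul_sum, ← Finset.sum_add_distrib,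
    Finset.sum_eq_single (0 : ZMod ℓ)]
  · rw [slot_mul_self, slot_mul_self]
    ext b b'
    simp only [tens, Matrix.add_apply, Matrix.of_apply, Matrix.smul_apply, smul_eq_mul]
    rw [← Finset.mul_prod_erase _ _ (Finset.mem_univ (0 : ZMod ℓ)),
      ← Finset.mul_prod_erase _ _ (Finset.mem_univ (0 : ZMod ℓ))]
    simp only [if_true]
    have e1 : ∀ M : Matrix ι ι R, ∏ s ∈ Finset.univ.erase (0 : ZMod ℓ),
        (if s = 0 then M else 1) (b s) (b' s) =
        ∏ s ∈ Finset.univ.erase (0 : ZMod ℓ), (1 : Matrix ι ι R) (b s) (b' s) := fun M =>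
      Finset.prod_congr rfl fun s hs => by rw [if_neg (Finset.ne_of_mem_erase hs)]
    rw [e1, e1, ← add_mul, ← Matrix.add_apply, h, Matrix.smul_apply, smul_eq_mul, mul_assoc,
      Finset.mul_prod_erase _ (fun s => (1 : Matrix ι ι R) (b s) (b' s)) (Finset.mem_univ _)]
    congr 1
    have := congrFun (congrFun (tens_one (R := R) (κ := ZMod ℓ) (ι := ι)) b) b'
    simpa [tens] using this
  · intro t _ ht
    rw [slot_anticomm deg hℓ (fun b b' e => ?_) (fun b b' e => ?_) ht, neg_add_cancel]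
    · rw [hd b b' e]; exact ⟨deg b, by ring⟩
    · rw [hH b b' e]; exact ⟨deg b', by ring⟩
  · simp

/-- shifting all degrees by one and changing the sign of `d` changes `powD` by a sign. -/
theorem powk_powD_shift (deg : ι → ℕ) (d : Matrix ι ι R) :
    ∃ ε : R, IsUnit ε ∧ powD ℓ (fun b => deg b + 1) (-d) = ε • powD ℓ deg d := by
  refine ⟨-∏ s : ZMod ℓ, if tour ℓ 0 s then -1 else 1, ?_, ?_⟩
  · refine IsUnit.neg (IsUnit.prod_iff.2 fun s _ => ?_)
    split_ifs
    · exact isUnit_one.neg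
    · exact isUnit_one
  · rw [powD, powD, Finset.smul_sum]
    refine Finset.sum_congr rfl fun t _ => ?_
    ext b b'
    have e1 : (∏ s : ZMod ℓ, if tour ℓ 0 s then (-1 : R) else 1) =
        ∏ s : ZMod ℓ, if tour ℓ t s then (-1 : R) else 1 := by
      refine Fintype.prod_equiv (Equiv.addRight t) _ _ fun s => ?_
      simp [tour]
    have e2 : ¬ tour ℓ t t := by simp [tour]
    simp only [slot, tens, Matrix.of_apply, Matrix.smul_apply, smul_eq_mul]
    rw [e1, neg_mul, ← Finset.prod_mul_distrib, ← Finset.mul_prod_erase _ _ (Finset.mem_univ t),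
      ← Finset.mul_prod_erase _ _ (Finset.mem_univ t)]
    simp only [if_true, e2, if_false, one_mul, Matrix.neg_apply, neg_mul]
    congr 2
    refine Finset.prod_congr rfl fun s hs => ?_
    rw [if_neg (Finset.ne_of_mem_erase hs), if_neg (Finset.ne_of_mem_erase hs)]
    split_ifs
    · simp only [Matrix.diagonal_apply]
      split_ifs
      · ring
      · simp
    · simp

end Rot

end Crest.Agent.R188
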