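import Crest.Agent.R188.PowKAux

/-!
# R188 / PowKAux2

The filtration of the tensor power of a cone; helpers for `PowK`.
-/

set_option autoImplicit false
set_option linter.unusedSectionVars false
set_option linter.unusedVariables false

noncomputable section

namespace Crest.Agent.R188

open Filter
open Crest.Agent.R183 (Zc Bd mact gr Htpy)
open scoped TensorProduct Pointwise

variable {R : Type} [CommRing R] (ν : AddFn R) {ℓ : ℕ} [NeZero ℓ]
  (N : Type) [AddCommGroup N] [Module R N]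

theorem powkG_bot {κ : Type} (deg : κ → ℕ) :
    powkG deg (fun _ => (⊥ : Submodule R N)) = ⊥ := by
  funext i
  refine le_antisymm (fun z hz => ?_) bot_le
  have : z = 0 := funext fun b => (Submodule.mem_bot R).1 (mem_powkG.1 hz b).1
  rw [this]
  exact Submodule.zero_mem _

theorem powk_pow_smul_le (x : R) {m n : ℕ} (h : m ≤ n) :
    x ^ n • (⊤ : Submodule R N) ≤ x ^ m • (⊤ : Submodule R N) := by
  intro z hz
  obtain ⟨v, -, rfl⟩ := (Submodule.mem_smul_pointwise_iff_exists _ _ _).1 hz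
  obtain ⟨k, rfl⟩ := Nat.exists_eq_add_of_le h
  rw [pow_add, mul_smul]
  exact Submodule.smul_mem_pointwise_smul _ _ _ trivial

theorem powk_powW_le {ι : Type} (u : ι → ℕ) (c : ℕ) (b b' : ZMod ℓ → ι) (t : ZMod ℓ)
    (h : u (b t) + c ≤ u (b' t)) (h' : ∀ s, s ≠ t → b s = b' s) :
    powW ℓ u b + c ≤ powW ℓ u b' := by
  unfold powW
  rw [← Finset.add_sum_erase _ _ (Finset.mem_univ t), ← Finset.add_sum_erase _ _ (Finset.mem_univ t)]
  have : ∑ s ∈ Finset.univ.erase t, u (b s) = ∑ s ∈ Finset.univ.erase t, u (b' s) :=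
    Finset.sum_congr rfl fun s hs => by rw [h' s (Finset.ne_of_mem_erase hs)]
  omega

theorem powk_tens_diag {κ ι : Type} [Fintype κ] [DecidableEq κ] [Fintype ι] [DecidableEq ι]
    (f : ι → R) (z : (κ → ι) → N) (b : κ → ι) :
    mact (tens fun _ : κ => Matrix.diagonal f) N z b = (∏ s, f (b s)) • z b := by
  rw [powk_mact_apply, Finset.sum_eq_single b]
  · simp [tens]
  · intro b' _ hb
    obtain ⟨s, hs⟩ := Function.ne_iff.1 hb
    have : tens (fun _ : κ => Matrix.diagonal f) b b' = 0 :=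
      Finset.prod_eq_zero (Finset.mem_univ s) (Matrix.diagonal_apply_ne _ (Ne.symm hs))
    rw [this, zero_smul]
  · simp

theorem powk_tens_inr {κ ι : Type} [Fintype κ] [DecidableEq κ] [Fintype ι] [DecidableEq ι]
    (z : (κ → ι ⊕ ι) → N) (c : κ → ι) :
    mact (tens fun _ : κ => Matrix.fromCols (0 : Matrix ι ι R) (1 : Matrix ι ι R)) N z c =
      z fun s => Sum.inr (c s) := by
  rw [powk_mact_apply, Finset.sum_eq_single fun s => Sum.inr (c s)]
  · simp [tens]
  · intro b' _ hb
    obtain ⟨s, hs⟩ := Function.ne_iff.1 hb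
    have : tens (fun _ : κ => Matrix.fromCols (0 : Matrix ι ι R) (1 : Matrix ι ι R)) c b' = 0 := by
      refine Finset.prod_eq_zero (Finset.mem_univ s) ?_
      rcases e : b' s with a | a
      · simp
      · rw [e] at hs
        have : c s ≠ a := fun h => hs (by rw [h])
        simp [Matrix.one_apply_ne this]
    rw [this, zero_smul]
  · simp

/-- degrees of the cone. -/
def powkDeg (F : FC R) : F.ι ⊕ F.ι → ℕ := Sum.elim F.deg fun b => F.deg b + 1

/-- differential of the cone. -/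
def powkD (F : FC R) (x : R) : Matrix (F.ι ⊕ F.ι) (F.ι ⊕ F.ι) R :=
  Matrix.fromBlocks F.d (x • 1) 0 (-F.d)

/-- indicator of the right summand. -/
def powkW (ι : Type) : ι ⊕ ι → ℕ := Sum.elim (fun _ => 0) fun _ => 1

/-- the coefficient modules of the filtration. -/
def powkL (ℓ : ℕ) [NeZero ℓ] {ι : Type} (x : R) (j : ℕ) (b : ZMod ℓ → ι ⊕ ι) : Submodule R N :=
  if powW ℓ (powkW ι) b < j then ⊤ else x ^ powW ℓ (powkW ι) b • (⊤ : Submodule R N)

/-- the filtration. -/
def powkX (ℓ : ℕ) [NeZero ℓ] (F : FC R) (x : R) (j : ℕ) : ℤ → Submodule R ((ZMod ℓ → F.ι ⊕ F.ι) → N) :=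
  powkG (powW ℓ (powkDeg F)) (powkL N ℓ x j)

theorem powk_w_le {ι : Type} (b : ZMod ℓ → ι ⊕ ι) : powW ℓ (powkW ι) b ≤ ℓ := by
  unfold powW
  calc ∑ t, powkW ι (b t) ≤ ∑ t : ZMod ℓ, 1 := Finset.sum_le_sum fun t _ => by
        rcases b t with a | a <;> simp [powkW]
    _ = ℓ := by simp

theorem powkL_anti {ι : Type} (x : R) (j j' : ℕ) (b b' : ZMod ℓ → ι ⊕ ι) (c : ℕ)
    (h : powW ℓ (powkW ι) b + c ≤ powW ℓ (powkW ι) b') (hj : j' ≤ j + c) :
    powkL N ℓ x j' b' ≤ powkL N ℓ x j b := by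
  unfold powkL
  split_ifs with h1 h2 h2
  · exact le_rfl
  · omega
  · exact le_top
  · exact powk_pow_smul_le N x (by omega)

theorem powkL_top {ι : Type} (x : R) : powkL N ℓ (ι := ι) x (ℓ + 1) = fun _ => ⊤ := by
  funext b
  exact if_pos (Nat.lt_succ_of_le (powk_w_le b))

theorem powkL_rot {ι : Type} (x : R) (j : ℕ) (b : ZMod ℓ → ι ⊕ ι) :
    powkL N ℓ x j (fun t => b (t + 1)) = powkL N ℓ x j b := by
  unfold powkL
  rw [powk_powW_rot]

theorem powkL_pow_smul {ι : Type} (x : R) (j : ℕ) (b : ZMod ℓ → ι ⊕ ι) (z : N) :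
    x ^ ℓ • z ∈ powkL N ℓ x j b := by
  unfold powkL
  split_ifs
  · trivial
  · exact powk_pow_smul_le N x (powk_w_le b) (Submodule.smul_mem_pointwise_smul _ _ _ trivial)

variable (F : FC R)

theorem powkD_deg (x : R) : ∀ b b', powkD F x b b' ≠ 0 → powkDeg F b' = powkDeg F b + 1 :=
  (F.cone x).d_deg

theorem powkD_dd (hℓ : Odd ℓ) (x : R) :
    powD ℓ (powkDeg F) (powkD F x) * powD ℓ (powkDeg F) (powkD F x) = 0 :=
  ((F.cone x).pow ℓ hℓ).dd

theorem powkD_w (x : R) (b b' : ZMod ℓ → F.ι ⊕ F.ι)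
    (h : powD ℓ (powkDeg F) (powkD F x) b b' ≠ 0) :
    powW ℓ (powkW F.ι) b + 0 ≤ powW ℓ (powkW F.ι) b' := by
  obtain ⟨t, h1, h2⟩ := powD_ne_zero _ b b' h
  refine powk_powW_le _ 0 b b' t ?_ h2
  rcases e : b t with a | a <;> rcases e' : b' t with a' | a' <;>
    simp_all [powkW, powkD]

theorem powkX_isCx (hℓ : Odd ℓ) (x y : R) {j j' : ℕ} (h : j ≤ j') :
    IsCx (mact (powD ℓ (powkDeg F) (powkD F y)) N) (powkX N ℓ F x j') (powkX N ℓ F x j) :=
  powkG_isCx _ _ (powD_deg _ (powkD_deg F y)) (powkD_dd F hℓ y) _ _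
    (fun b => powkL_anti N x j' j b b 0 le_rfl h)
    (fun b b' e => powkL_anti N x j' j' b b' 0 (powkD_w F y b b' e) le_rfl)
    (fun b b' e => powkL_anti N x j j b b' 0 (powkD_w F y b b' e) le_rfl)

theorem powkX_isAct (x y : R) (j j' : ℕ) :
    IsAct ℓ (mact (powD ℓ (powkDeg F) (powkD F y)) N) (rot R ℓ (F.ι ⊕ F.ι) N)
      (powkX N ℓ F x j') (powkX N ℓ F x j) :=
  powkG_isAct _ _ _ _ (powkL_rot N x j') (powkL_rot N x j)

theorem powkX_top (x : R) : powkX N ℓ F x (ℓ + 1) = fun i => gr (powW ℓ (powkDeg F)) i ⊤ := by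
  funext i
  rw [powkX, powkL_top, powkG_top]

/-- the graded pieces do not see the off-diagonal block. -/
theorem powkX_piso (x y : R) (j : ℕ) :
    PIso LinearMap.id (mact (powD ℓ (powkDeg F) (powkD F y)) N) (powkX N ℓ F x (j + 1))
      (powkX N ℓ F x j) (mact (powD ℓ (powkDeg F) (powkD F 0)) N) (powkX N ℓ F x (j + 1))
      (powkX N ℓ F x j) where
  surj i := by
    rw [Submodule.map_id, sup_eq_left]
    exact powkG_mono _ (fun b => powkL_anti N x (j + 1) j b b 0 le_rfl (by omega)) i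
  ker i := by
    rw [Submodule.comap_id, inf_eq_right]
    exact powkG_mono _ (fun b => powkL_anti N x (j + 1) j b b 0 le_rfl (by omega)) i
  comm i z hz := by
    have e : powkD F y = powkD F 0 + Matrix.fromBlocks 0 (y • 1) 0 0 := by
      simp [powkD, Matrix.fromBlocks_add]
    rw [LinearMap.id_apply, LinearMap.id_apply, e, powk_powD_add, powk_mact_add, add_sub_cancel_left]
    refine powkG_mact _ _ _ _ _ _ i (fun b b' h => ⟨?_, fun e' => ?_⟩) hz
    · refine powkL_anti N x j (j + 1) b b' 1 ?_ le_rfl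
      obtain ⟨t, h1, h2⟩ := powD_ne_zero _ b b' h
      refine powk_powW_le _ 1 b b' t ?_ h2
      rcases e : b t with a | a <;> rcases e' : b' t with a' | a' <;> simp_all [powkW]
    · have := powD_deg (powkDeg F) (d := Matrix.fromBlocks 0 (y • (1 : Matrix F.ι F.ι R)) 0 0)
        (fun a a' h => ?_) b b' h
      · omega
      · rcases a with a | a <;> rcases a' with a' | a' <;> simp at h
        by_cases e : a = a'
        · simp [powkDeg, e]
        · simp [Matrix.one_apply_ne e] at h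

theorem powkX_gd [IsNoetherianRing R] [Module.Finite R N] (hℓ : Odd ℓ) (x : R) {𝔞 𝔟 : Ideal R}
    (ha : ν.good (R ⧸ (𝔞 ⊔ 𝔟 ⊔ Ideal.span {x}))) (hb : 𝔟 ≤ Module.annihilator R N)
    (h1 : ∀ y ∈ 𝔞, Htpy F.deg F.d y) {j j' : ℕ} (h : j ≤ j') :
    ν.gd (mact (powD ℓ (powkDeg F) (powkD F 0)) N) (powkX N ℓ F x j') (powkX N ℓ F x j) := by
  refine powk_gd ν ha (fun i => powkG_fg _ _ i) (fun y hy => ?_) (fun y hy z => ?_) ⟨ℓ, fun i z hz => ?_⟩
  · obtain ⟨H, hH, hHe⟩ := h1 y hy
    let H₀ : Matrix (F.ι ⊕ F.ι) (F.ι ⊕ F.ι) R := Matrix.fromBlocks H 0 0 (-H)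
    have hH₀ : ∀ b b', H₀ b b' ≠ 0 → powkDeg F b = powkDeg F b' + 1 := by
      rintro (a | a) (a' | a') e
      · exact hH a a' e
      · simp [H₀] at e
      · simp [H₀] at e
      · have := hH a a' (by simpa [H₀] using e)
        simp [powkDeg, this]
    have he : powkD F 0 * H₀ + H₀ * powkD F 0 = y • (1 : Matrix (F.ι ⊕ F.ι) (F.ι ⊕ F.ι) R) := by
      simp only [powkD, H₀, Matrix.fromBlocks_multiply, Matrix.fromBlocks_add]
      rw [← Matrix.fromBlocks_one, Matrix.fromBlocks_smul]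
      simp [hHe]
    have key : ∀ (k : ℕ) (i : ℤ), (powkX N ℓ F x k i).map (mact (slot ℓ (powkDeg F) H₀ 0) N) ≤
        powkX N ℓ F x k (i + 1) := by
      rintro k i _ ⟨z, hz, rfl⟩
      refine powkG_mact _ _ _ _ _ _ i (fun b b' e => ?_) hz
      obtain ⟨e1, e2⟩ := powk_slot_ne_zero _ _ _ b b' e
      refine ⟨powkL_anti N x k k b b' 0 (powk_powW_le _ 0 b b' 0 ?_ e2) le_rfl, fun e' => ?_⟩
      · rcases e : b 0 with a | a <;> rcases e' : b' 0 with a' | a' <;> simp_all [powkW, H₀]
      · have f1 := powk_powW_le (powkDeg F) 1 b' b 0 (hH₀ _ _ e1).ge fun s hs => (e2 s hs).symm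
        have f2 : powW ℓ (powkDeg F) b ≤ powW ℓ (powkDeg F) b' + 1 := by
          unfold powW
          rw [← Finset.add_sum_erase _ _ (Finset.mem_univ (0 : ZMod ℓ)),
            ← Finset.add_sum_erase _ _ (Finset.mem_univ (0 : ZMod ℓ)), hH₀ _ _ e1]
          have : ∑ s ∈ Finset.univ.erase (0 : ZMod ℓ), powkDeg F (b s) =
              ∑ s ∈ Finset.univ.erase (0 : ZMod ℓ), powkDeg F (b' s) :=
            Finset.sum_congr rfl fun s hs => by rw [e2 s (Finset.ne_of_mem_erase hs)]
          omega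
        omega
    refine (powkX_isCx N F hℓ x 0 h).smul_mem_bd (mact (slot ℓ (powkDeg F) H₀ 0) N) y (key j') (key j)
      fun i z hz => ?_
    rw [← powk_mact_mul, ← powk_mact_mul, ← powk_mact_add,
      powk_htpy hℓ _ _ _ y (powkD_deg F 0) hH₀ he, powk_mact_smul, powk_mact_one, sub_self]
    exact Submodule.zero_mem _
  · funext b
    exact Module.mem_annihilator.1 (hb hy) (z b)
  · refine Submodule.mem_sup_right (mem_powkG.2 fun b => ⟨powkL_pow_smul N x j b (z b), fun e => ?_⟩)
    rw [Pi.smul_apply, (mem_powkG.1 hz.1 b).2 e, smul_zero]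

/-- the embedding of the tensor power of `cone x` in that of `cone 1`. -/
theorem powkX_emb (x : R) (hx : IsSMulRegular N x) :
    PIso (mact (tens fun _ : ZMod ℓ => Matrix.diagonal fun a => x ^ powkW F.ι a) N)
      (mact (powD ℓ (powkDeg F) (powkD F x)) N) (fun i => gr (powW ℓ (powkDeg F)) i ⊤) ⊥
      (mact (powD ℓ (powkDeg F) (powkD F 1)) N) (powkX N ℓ F x 0) ⊥ where
  surj i := by
    have e : ∀ (z : (ZMod ℓ → F.ι ⊕ F.ι) → N) b,
        mact (tens fun _ : ZMod ℓ => Matrix.diagonal fun a => x ^ powkW F.ι a) N z b =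
          x ^ powW ℓ (powkW F.ι) b • z b := fun z b => by
      rw [powk_tens_diag, Finset.prod_pow_eq_pow_sum]; rfl
    rw [Pi.bot_apply, sup_bot_eq, powkG_top]
    ext z
    constructor
    · rintro ⟨v, hv, rfl⟩
      rw [SetLike.mem_coe, mem_powkG] at hv
      refine mem_powkG.2 fun b => ⟨?_, fun h => ?_⟩
      · rw [e, powkL, if_neg (Nat.not_lt_zero _)]
        exact Submodule.smul_mem_pointwise_smul _ _ _ trivial
      · rw [e, (hv b).2 h, smul_zero]
    · intro hz
      have hz' := mem_powkG.1 hz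
      have : ∀ b, ∃ v : N, x ^ powW ℓ (powkW F.ι) b • v = z b := fun b => by
        have := (hz' b).1
        rw [powkL, if_neg (Nat.not_lt_zero _)] at this
        obtain ⟨v, -, hv⟩ := (Submodule.mem_smul_pointwise_iff_exists _ _ _).1 this
        exact ⟨v, hv⟩
      choose v hv using this
      refine ⟨v, mem_powkG.2 fun b => ⟨trivial, fun h => ?_⟩, funext fun b => by rw [e, hv]⟩
      refine (hx.pow (powW ℓ (powkW F.ι) b)).right_eq_zero_of_smul ?_
      rw [hv, (hz' b).2 h]
  ker i := by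
    refine le_antisymm (fun z hz => ?_) bot_le
    have h2 : mact (tens fun _ : ZMod ℓ => Matrix.diagonal fun a => x ^ powkW F.ι a) N z = 0 := hz.2
    have : z = 0 := funext fun b => by
      have := congrFun h2 b
      rw [powk_tens_diag, Finset.prod_pow_eq_pow_sum] at this
      exact (hx.pow _).right_eq_zero_of_smul this
    rw [this]
    exact Submodule.zero_mem _
  comm i z hz := by
    have h1 : ∀ b' b, (Matrix.diagonal fun a => x ^ powkW F.ι a) b' b ≠ 0 →
        powkDeg F b' = powkDeg F b := fun b' b h => by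
      by_cases e : b' = b
      · rw [e]
      · exact absurd (Matrix.diagonal_apply_ne _ e) h
    have h2 : (Matrix.diagonal fun a => x ^ powkW F.ι a) * powkD F x =
        powkD F 1 * Matrix.diagonal fun a => x ^ powkW F.ι a := by
      ext (a | a) (a' | a') <;>
        simp [Matrix.diagonal_mul, Matrix.mul_diagonal, powkD, powkW, mul_comm]
    rw [← powk_mact_mul, ← powk_mact_mul, tens_powD (powkDeg F) (powkDeg F) _ h1 h2, sub_self]
    exact Submodule.zero_mem _

/-- labels of the basis vectors of the tensor power of a cone. -/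
abbrev powkLab (ℓ : ℕ) (ι : Type) (b : ZMod ℓ → ι ⊕ ι) : ZMod ℓ → Bool := fun t => (b t).isRight

theorem powkD_lab (b b' : ZMod ℓ → F.ι ⊕ F.ι) (h : powD ℓ (powkDeg F) (powkD F 0) b b' ≠ 0) :
    powkLab ℓ F.ι b = powkLab ℓ F.ι b' := by
  obtain ⟨t, h1, h2⟩ := powD_ne_zero _ b b' h
  funext s
  by_cases e : s = t
  · subst e
    unfold powkLab
    rcases e : b s with a | a <;> rcases e' : b' s with a' | a' <;> simp_all [powkD]
  · unfold powkLab
    rw [h2 s e]

theorem powkLab_true {ι : Type} (b : ZMod ℓ → ι ⊕ ι) (h : powkLab ℓ ι b = fun _ => true) :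
    ∃ c : ZMod ℓ → ι, b = fun t => Sum.inr (c t) := by
  have : ∀ t, ∃ a, b t = Sum.inr a := fun t => by
    have := congrFun h t
    rcases e : b t with a | a
    · simp [powkLab, e] at this
    · exact ⟨a, rfl⟩
  choose c hc using this
  exact ⟨c, funext hc⟩

theorem powkLab_inr {ι : Type} (c : ZMod ℓ → ι) :
    powkLab ℓ ι (fun t => Sum.inr (c t)) = fun _ => true := rfl

theorem powk_w_inr {ι : Type} (c : ZMod ℓ → ι) :
    powW ℓ (powkW ι) (fun t => Sum.inr (c t)) = ℓ := by
  simp [powW, powkW]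

theorem powk_deg_inr (c : ZMod ℓ → F.ι) :
    powW ℓ (powkDeg F) (fun t => Sum.inr (c t)) = powW ℓ F.deg c + ℓ := by
  simp [powW, powkDeg, Finset.sum_add_distrib]

theorem powk_w_false {ι : Type} (b : ZMod ℓ → ι ⊕ ι) (h : powkLab ℓ ι b = fun _ => false) :
    powW ℓ (powkW ι) b = 0 := by
  refine Finset.sum_eq_zero fun t _ => ?_
  have := congrFun h t
  rcases e : b t with a | a
  · rfl
  · simp [powkLab, e] at this

/-- the piece with constant label `false` vanishes. -/
theorem powkX_false (x : R) (i : ℤ) :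
    (powkX N ℓ F x (ℓ + 1) i).map (powkE R N (powkLab ℓ F.ι) fun _ => false) =
      (powkX N ℓ F x 0 i).map (powkE R N (powkLab ℓ F.ι) fun _ => false) := by
  rw [powkX, powkX, powkE_map, powkE_map]
  congr 1
  funext b
  split_ifs with h
  · simp [powkL, powk_w_false b h]
  · rfl

/-- the map to `F^{⊗ℓ} ⊗ N / x ^ ℓ`. -/
def powkPhi (ℓ : ℕ) [NeZero ℓ] (F : FC R) (x : R) :
    ((ZMod ℓ → F.ι ⊕ F.ι) → N) →ₗ[R] ((ZMod ℓ → F.ι) → QuotSMulTop (x ^ ℓ) N) :=
  (Submodule.mkQ _).compLeft _ ∘ₗ LinearMap.funLeft R N fun c t => Sum.inr (c t)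

theorem powkPhi_apply (x : R) (z : (ZMod ℓ → F.ι ⊕ F.ι) → N) (c : ZMod ℓ → F.ι) :
    powkPhi N ℓ F x z c = Submodule.Quotient.mk (z fun t => Sum.inr (c t)) := rfl

/-- the piece with constant label `true`. -/
theorem powkX_true (x : R) {ε : R} (hε : powD ℓ (fun b => F.deg b + 1) (-F.d) = ε • powD ℓ F.deg F.d) :
    PIso (powkPhi N ℓ F x) (mact (powD ℓ (powkDeg F) (powkD F 0)) N)
      (fun i => (powkX N ℓ F x (ℓ + 1) i).map (powkE R N (powkLab ℓ F.ι) fun _ => true))
      (fun i => (powkX N ℓ F x 0 i).map (powkE R N (powkLab ℓ F.ι) fun _ => true))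
      (ε • mact (powD ℓ F.deg F.d) (QuotSMulTop (x ^ ℓ) N))
      (fun i => gr (powW ℓ F.deg) (i - ℓ) ⊤) ⊥ where
  surj i := by
    rw [Pi.bot_apply, sup_bot_eq, powkG_top, powkX, powkE_map]
    ext v
    constructor
    · rintro ⟨z, hz, rfl⟩
      rw [SetLike.mem_coe, mem_powkG] at hz
      refine mem_powkG.2 fun c => ⟨trivial, fun h => ?_⟩
      rw [powkPhi_apply, (hz _).2, Submodule.Quotient.mk_zero]
      rw [powk_deg_inr]
      push_cast
      omega
    · intro hv
      rw [mem_powkG] at hv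
      have : ∀ c, ∃ z : N, Submodule.Quotient.mk z = v c ∧ (v c = 0 → z = 0) := fun c => by
        by_cases h : v c = 0
        · exact ⟨0, by rw [h]; rfl, fun _ => rfl⟩
        · obtain ⟨z, hz⟩ := Submodule.Quotient.mk_surjective _ (v c)
          exact ⟨z, hz, fun e => absurd e h⟩
      choose u hu hu0 using this
      refine ⟨fun b => if powkLab ℓ F.ι b = fun _ => true then u fun t => Sum.elim id id (b t) else 0,
        mem_powkG.2 fun b => ⟨?_, fun h => ?_⟩, funext fun c => ?_⟩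
      · split_ifs with h
        · rw [powkL_top]; trivial
        · exact Submodule.zero_mem _
      · split_ifs with h'
        · obtain ⟨c, rfl⟩ := powkLab_true b h'
          refine hu0 _ ((hv c).2 ?_)
          rw [powk_deg_inr] at h
          push_cast at h
          omega
        · rfl
      · rw [powkPhi_apply, if_pos (powkLab_inr c)]
        exact hu c
  ker i := by
    rw [powkX, powkX, powkE_map, powkE_map]
    ext z
    simp only [Submodule.mem_inf, mem_powkG, Pi.bot_apply, Submodule.mem_comap, Submodule.mem_bot]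
    constructor
    · rintro ⟨h1, h2⟩ b
      refine ⟨?_, (h1 b).2⟩
      have := (h1 b).1
      split_ifs at this ⊢ with h
      · obtain ⟨c, rfl⟩ := powkLab_true b h
        rw [powkL, if_neg (Nat.not_lt_zero _), powk_w_inr]
        exact (Submodule.Quotient.mk_eq_zero _).1 (congrFun h2 c)
      · exact this
    · intro h1
      refine ⟨fun b => ⟨?_, (h1 b).2⟩, funext fun c => ?_⟩
      · have := (h1 b).1
        split_ifs at this ⊢ with h
        · rw [powkL_top]; trivial
        · exact this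
      · have := (h1 fun t => Sum.inr (c t)).1
        rw [if_pos (powkLab_inr c), powkL, if_neg (Nat.not_lt_zero _), powk_w_inr] at this
        exact (Submodule.Quotient.mk_eq_zero _).2 this
  comm i z hz := by
    have h1 : ∀ b' b, Matrix.fromCols (0 : Matrix F.ι F.ι R) (1 : Matrix F.ι F.ι R) b' b ≠ 0 →
        F.deg b' + 1 = powkDeg F b := by
      rintro a (a' | a') h
      · simp at h
      · by_cases e : a = a'
        · simp [powkDeg, e]
        · simp [Matrix.one_apply_ne e] at h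
    have h2 : Matrix.fromCols (0 : Matrix F.ι F.ι R) (1 : Matrix F.ι F.ι R) * powkD F 0 =
        -F.d * Matrix.fromCols (0 : Matrix F.ι F.ι R) (1 : Matrix F.ι F.ι R) := by
      simp [powkD, Matrix.fromCols_mul_fromBlocks, Matrix.mul_fromCols, Matrix.neg_mul]
    have h3 := tens_powD (ℓ := ℓ) (powkDeg F) (fun b => F.deg b + 1) _ h1 h2
    rw [Pi.bot_apply, Submodule.mem_bot, sub_eq_zero]
    funext c
    rw [powkPhi_apply, ← powk_tens_inr (R := R) N (mact (powD ℓ (powkDeg F) (powkD F 0)) N z) c,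
      ← powk_mact_mul, h3, hε, powk_mact_mul,
      powk_mact_smul]
    simp only [LinearMap.smul_apply, Pi.smul_apply, powk_mact_apply (powD ℓ F.deg F.d),
      powk_tens_inr, powkPhi_apply, ← Submodule.mkQ_apply, map_smul, map_sum]

end Crest.Agent.R188
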