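import Crest.Agent.R188.FC2
import Crest.Agent.R188.GS

/-!
# R188 / Prod

Products with projective spaces; generic sections of line bundles.
-/

set_option autoImplicit false
set_option linter.unusedSectionVars false
set_option linter.unusedVariables false

noncomputable section

namespace Crest.Agent.R188

open Filter
open Crest.Agent.R183 (Zc Bd mact gr Htpy)
open scoped TensorProduct

variable {T : Type} [CommRing T] {K σ : Type} [Field K] [Algebra T K] [Fintype σ] [DecidableEq σ]
  {S : Sys K σ} {𝔶 : Ideal T} {ν : AddFn T} {n : ℕ}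
  {K' : Type} [Field K'] [Algebra K K'] [Algebra T K'] [IsScalarTower T K K'] {r : ℕ}
  {u : Fin r → K'} (hu : AlgebraicIndependent K u)

/-- pull back of a list of sections. -/
def pullL (K' : Type) [Field K'] [Algebra K K'] (Ls : List (K × (σ → ℤ))) :
    List (K' × (Option σ → ℤ)) := Ls.map fun p => (algebraMap K K' p.1, ext p.2 0)

/-- pull back of operators. -/
def pullG : GR σ →ₐ[ℝ] GR (Option σ) :=
  AddMonoidAlgebra.mapDomainAlgHom ℝ ℝ
    ({ toFun := fun γ => ext γ 0
       map_zero' := by funext o; cases o <;> rfl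
       map_add' := fun _ _ => by funext o; cases o <;> simp [ext] } : (σ → ℤ) →+ (Option σ → ℤ))

/-- `binom(k₀ + r, r) f(k)`. -/
def pullF (r : ℕ) (f : (σ → ℤ) → ℝ) : (Option σ → ℤ) → ℝ :=
  fun k => (((k none).toNat + r).choose r : ℝ) * f fun j => k (some j)

theorem prod_gens_none : ((S.prod u hu).gens none : Set K') = insert 1 (Set.range u) := by
  classical
  ext x
  simp [Sys.prod]

theorem prod_gens_some (j : σ) :
    ((S.prod u hu).gens (some j) : Set K') = algebraMap K K' '' (S.gens j : Set K) := by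
  classical
  ext x
  simp [Sys.prod]

/-- the underlying chart. -/
theorem Sys.exists_res (χ' : (S.prod u hu).Chart) :
    ∃ χ : S.Chart, (∀ j, (χ' (some j) : K') = algebraMap K K' (χ j)) ∧
      (∀ γ c, (S.prod u hu).a χ' (ext γ c) = algebraMap K K' (S.a χ γ) * (χ' none : K') ^ c) ∧
      ∃ φ : S.O T χ →ₐ[T] (S.prod u hu).O T χ', (∀ x, (φ x : K') = algebraMap K K' x) ∧
        ∀ 𝔓, 𝔓 ∈ (S.prod u hu).U 𝔶 χ' ↔ PrimeSpectrum.comap φ.toRingHom 𝔓 ∈ S.U 𝔶 χ := by
  have h1 : ∀ j, ∃ g : ↥(S.gens j), (χ' (some j) : K') = algebraMap K K' g := by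
    intro j
    have h : ((χ' (some j) : K')) ∈ ((S.prod u hu).gens (some j) : Set K') := (χ' (some j)).2
    rw [prod_gens_some] at h
    obtain ⟨g, hg, e⟩ := h
    exact ⟨⟨g, hg⟩, e.symm⟩
  choose χ hχ using h1
  refine ⟨χ, hχ, ?_, ?_⟩
  · intro γ c
    unfold Sys.a
    rw [Fintype.prod_option, map_prod, mul_comm]
    congr 1
    refine Finset.prod_congr rfl fun j _ => ?_
    rw [map_zpow₀, hχ]
    rfl
  · have hle : (S.O T χ).map (IsScalarTower.toAlgHom T K K') ≤ (S.prod u hu).O T χ' := by
      unfold Sys.O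
      rw [AlgHom.map_adjoin]
      refine Algebra.adjoin_mono ?_
      rintro _ ⟨x, ⟨j, g, hg, rfl⟩, rfl⟩
      refine ⟨some j, algebraMap K K' g, ?_, ?_⟩
      · have : algebraMap K K' g ∈ ((S.prod u hu).gens (some j) : Set K') := by
          rw [prod_gens_some]; exact ⟨g, hg, rfl⟩
        exact this
      · simp [hχ]
    let φ : S.O T χ →ₐ[T] (S.prod u hu).O T χ' :=
      ((IsScalarTower.toAlgHom T K K').comp (S.O T χ).val).codRestrict _
        fun x => hle ⟨x, x.2, rfl⟩
    refine ⟨φ, fun x => rfl, fun 𝔓 => ?_⟩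
    have e : (PrimeSpectrum.comap φ.toRingHom 𝔓).asIdeal.comap (algebraMap T (S.O T χ)) =
        𝔓.asIdeal.comap (algebraMap T ((S.prod u hu).O T χ')) := by
      rw [PrimeSpectrum.comap_asIdeal, Ideal.comap_comap]
      congr 1
      exact φ.comp_algebraMap
    simp only [Sys.U, Set.mem_ofPred_eq, e]

/-- a chart of the product is generated by `r` elements over a chart of `S`. -/
theorem Ctx.prod (h : Ctx T S 𝔶 ν n) : Ctx T (S.prod u hu) 𝔶 ν (n + r) := by
  classical
  have := h.noeth
  refine ⟨h.noeth, h.consts, h.good, fun χ' => ?_⟩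
  obtain ⟨χ, hχ, -, φ, hφ, hU⟩ := Sys.exists_res (T := T) (𝔶 := 𝔶) hu χ'
  let : Algebra (S.O T χ) ((S.prod u hu).O T χ') := φ.toRingHom.toAlgebra
  have := S.O_noeth (T := T) χ
  have := (S.prod u hu).O_noeth (T := T) χ'
  have hal : ∀ x, algebraMap (S.O T χ) ((S.prod u hu).O T χ') x = φ x := fun x => rfl
  have hgen : ∀ g ∈ (insert 1 (Set.range u) : Set K'),
      g / (χ' none : K') ∈ (S.prod u hu).O T χ' := by
    intro g hg
    refine Algebra.subset_adjoin ⟨none, g, ?_, rfl⟩
    have : g ∈ ((S.prod u hu).gens none : Set K') := by rw [prod_gens_none]; exact hg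
    exact this
  let y : Fin r → (S.prod u hu).O T χ' := fun j =>
    if u j = (χ' none : K') then ⟨1 / (χ' none : K'), hgen _ (Set.mem_insert _ _)⟩
    else ⟨u j / (χ' none : K'), hgen _ (Set.mem_insert_of_mem _ ⟨j, rfl⟩)⟩
  have hc0 : (χ' none : K') ≠ 0 := fun e => (S.prod u hu).nz none (e ▸ (χ' none).2)
  have hadj : Algebra.adjoin (S.O T χ) (Set.range y) = ⊤ := by
    rw [eq_top_iff]
    rintro ⟨x, hx⟩ -
    induction hx using Algebra.adjoin_induction with
    | mem x hx =>
      obtain ⟨o, g, hg, rfl⟩ := hx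
      cases o with
      | none =>
        have hg' : g ∈ ((S.prod u hu).gens none : Set K') := hg
        have hc : (χ' none : K') ∈ ((S.prod u hu).gens none : Set K') := (χ' none).2
        rw [prod_gens_none] at hg' hc
        by_cases e : g = (χ' none : K')
        · have : (⟨g / (χ' none : K'), hgen g hg'⟩ : (S.prod u hu).O T χ') = 1 := by
            apply Subtype.ext
            simp [e, hc0]
          exact this ▸ one_mem _
        · rcases hg' with rfl | ⟨j, rfl⟩
          · rcases hc with hc | ⟨i, hi⟩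
            · exact absurd hc.symm e
            · refine Algebra.subset_adjoin ⟨i, ?_⟩
              simp only [y, if_pos hi]
          · refine Algebra.subset_adjoin ⟨j, ?_⟩
            simp only [y, if_neg e]
      | some j =>
        have hg' : g ∈ ((S.prod u hu).gens (some j) : Set K') := hg
        rw [prod_gens_some] at hg'
        obtain ⟨g0, hg0, rfl⟩ := hg'
        have hm : g0 / (χ j : K) ∈ S.O T χ := Algebra.subset_adjoin ⟨j, g0, hg0, rfl⟩
        have := (Algebra.adjoin (S.O T χ) (Set.range y)).algebraMap_mem ⟨_, hm⟩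
        convert this using 1
        apply Subtype.ext
        rw [hal, hφ]
        simp [hχ]
    | algebraMap t =>
      have := (Algebra.adjoin (S.O T χ) (Set.range y)).algebraMap_mem (algebraMap T _ t)
      convert this using 1
      rw [hal, φ.commutes]
      rfl
    | add a b ha hb iha ihb => exact add_mem iha ihb
    | mul a b ha hb iha ihb => exact mul_mem iha ihb
  refine Small.fibre (h.small χ) ⊥ r fun 𝔓 h𝔓 => ⟨bot_le, (hU 𝔓).1 h𝔓, ?_⟩
  refine fibre_height_le ⊥ y hadj 𝔓.asIdeal bot_le y fun i => ⟨1, ?_, 0, Pi.single i 1, ?_⟩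
  · exact (Ideal.ne_top_iff_one _).1 (Ideal.comap_ne_top _ 𝔓.2.ne_top)
  · simp [Pi.single_apply]

theorem Sys.L_prod (k : Option σ → ℤ) :
    (S.prod u hu).L T k = (Submodule.span T (insert 1 (Set.range u))) ^ (k none).toNat *
      (S.L T fun j => k (some j)).map (IsScalarTower.toAlgHom T K K').toLinearMap := by
  unfold Sys.L
  rw [Fintype.prod_option]
  congr 1
  · rw [Sys.I, prod_gens_none]
  · change _ = Submodule.mapHom (IsScalarTower.toAlgHom T K K') _
    rw [map_prod]
    refine Finset.prod_congr rfl fun j _ => ?_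
    rw [map_pow]
    congr 1
    change _ = Submodule.map _ _
    rw [Sys.I, Sys.I, prod_gens_some, Submodule.map_span]
    rfl

theorem Sys.Sec.pull {Ls : List (K × (σ → ℤ))} (h : S.Sec T Ls) :
    (S.prod u hu).Sec T (pullL K' Ls) := by
  intro p hp
  obtain ⟨p0, hp0, rfl⟩ := List.mem_map.1 hp
  obtain ⟨h1, h2⟩ := h p0 hp0
  refine ⟨fun o => ?_, ?_⟩
  · cases o with
    | none => exact le_rfl
    | some j => exact h1 j
  · rw [Sys.L_prod]
    simp only [ext, Option.elim, Int.toNat_zero, pow_zero, one_mul]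
    exact ⟨p0.1, h2, rfl⟩

theorem Sys.AdmL.pull {Ls : List (K × (σ → ℤ))} (hs : S.Sec T Ls) (h : S.AdmL T 𝔶 Ls) :
    (S.prod u hu).AdmL T 𝔶 (pullL K' Ls) := by
  intro χ' 𝔓 h𝔓
  obtain ⟨χ, hχ, ha, φ, hφ, hU⟩ := Sys.exists_res (T := T) (𝔶 := 𝔶) hu χ'
  obtain ⟨p, hp, hm, hn⟩ := h χ _ ((hU 𝔓).1 h𝔓)
  refine ⟨(algebraMap K K' p.1, ext p.2 0), List.mem_map.2 ⟨p, hp, rfl⟩, ?_⟩
  have e : algebraMap K K' p.1 / (S.prod u hu).a χ' (ext p.2 0) = (φ ⟨_, hm⟩ : K') := by
    rw [ha, hφ]
    simp
  refine ⟨e ▸ (φ ⟨_, hm⟩).2, fun hc => hn ?_⟩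
  rw [PrimeSpectrum.comap_asIdeal, Ideal.mem_comap]
  convert hc using 1
  exact Subtype.ext e.symm

theorem prod_pullG_single (γ : σ → ℤ) (c : ℝ) :
    pullG (AddMonoidAlgebra.single γ c) = AddMonoidAlgebra.single (ext γ 0) c := by
  simp [pullG]

theorem prod_neg_ext (γ : σ → ℤ) : -(ext γ 0) = ext (-γ) 0 := by
  funext o; cases o <;> simp [ext]

theorem eul_pull (Ls : List (K × (σ → ℤ))) : eul (pullL K' Ls) = pullG (eul Ls) := by
  unfold eul pullL
  rw [map_list_prod, List.map_map, List.map_map]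
  congr 1
  refine List.map_congr_left fun p _ => ?_
  simp only [Function.comp, map_sub, map_one, prod_pullG_single, prod_neg_ext]

theorem pullG_TT (γ : σ → ℤ) : pullG (TT γ) = TT (ext γ 0) := by
  exact prod_pullG_single γ 1

theorem act_pull (ξ : GR σ) (f : (σ → ℤ) → ℝ) : act (pullG ξ) (pullF r f) = pullF r (act ξ f) := by
  induction ξ using AddMonoidAlgebra.induction_on with
  | of γ =>
    have : (AddMonoidAlgebra.of ℝ (σ → ℤ) (Multiplicative.ofAdd γ) : GR σ) = TT γ := rfl
    rw [this, pullG_TT]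
    funext k
    rw [act_TT]
    simp only [pullF, act_TT]
    congr 2
    simp [ext]
  | add a b ha hb =>
    rw [map_add, act_add, act_add, ha, hb]
    funext k
    simp only [pullF, Pi.add_apply]
    ring
  | smul c a ha =>
    rw [map_smul, act_smul, act_smul, ha]
    funext k
    simp only [pullF, Pi.smul_apply, smul_eq_mul]
    ring

theorem prod_tendsto_some :
    Tendsto (fun (k : Option σ → ℤ) (j : σ) => k (some j)) atTop atTop := by
  refine tendsto_atTop_atTop.2 fun b => ⟨ext b 0, fun k hk j => hk (some j)⟩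

theorem pullF_congr {f g : (σ → ℤ) → ℝ} (h : f =ᶠ[atTop] g) : pullF r f =ᶠ[atTop] pullF r g := by
  filter_upwards [prod_tendsto_some.eventually h] with k hk
  simp only [pullF]
  rw [hk]

theorem prod_act_step (r : ℕ) (f : (σ → ℤ) → ℝ) :
    act (1 - TT (-ee (none : Option σ))) (pullF (r + 1) f) =ᶠ[atTop] pullF r f := by
  filter_upwards [eventually_ge_atTop (ee (none : Option σ))] with k hk
  have h1 : (1 : ℤ) ≤ k none := by simpa using hk none
  rw [act_sub, act_one, Pi.sub_apply, act_TT]
  simp only [pullF]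
  have e1 : (fun j => (k + -ee (none : Option σ)) (some j)) = fun j => k (some j) := by
    funext j
    simp
  have e2 : ((k + -ee (none : Option σ)) none).toNat + 1 = (k none).toNat := by
    simp only [Pi.add_apply, Pi.neg_apply, Pi.single_eq_same]
    omega
  rw [e1, ← e2]
  generalize ((k + -ee (none : Option σ)) none).toNat = m
  rw [show m + 1 + (r + 1) = (m + 1 + r) + 1 by ring, Nat.choose_succ_succ',
    show m + (r + 1) = m + 1 + r by ring]
  push_cast
  ring

/-- `r` differences in the new variable remove the binomial coefficient. -/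
theorem act_pow_pullF (f : (σ → ℤ) → ℝ) :
    act ((1 - TT (-ee (none : Option σ))) ^ r) (pullF r f) =ᶠ[atTop] pullF 0 f := by
  induction r with
  | zero => rw [pow_zero, act_one]
  | succ r ih =>
    rw [pow_succ, act_mul]
    exact (act_congr _ (prod_act_step r f)).trans ih

theorem pullF_zero_eq {f : (σ → ℤ) → ℝ} (h : pullF 0 f =ᶠ[atTop] 0) : f =ᶠ[atTop] 0 := by
  obtain ⟨b, hb⟩ := eventually_atTop.1 h
  filter_upwards [eventually_ge_atTop fun j => b (some j)] with k hk
  have := hb (ext k (b none)) fun o => by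
    cases o with
    | none => exact le_rfl
    | some j => exact hk j
  simpa [pullF, ext] using this

include hu in
/-- the monomials of degree `d` in `1, u₁, …, u_r`. -/
theorem prod_monos (T : Type) [CommRing T] [Algebra T K'] (d : ℕ) :
    ∃ (κ : Type) (_ : Fintype κ) (mono : κ → K'), Fintype.card κ = (d + r).choose r ∧
      LinearIndependent K mono ∧
      (Submodule.span T (insert 1 (Set.range u))) ^ d = Submodule.span T (Set.range mono) := by
  classical
  let v : Option (Fin r) → K' := fun o => o.elim 1 u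
  have hv : insert 1 (Set.range u) = Set.range v := by
    ext x
    simp only [Set.mem_insert_iff, Set.mem_range, Option.exists, v, Option.elim]
    exact or_congr_left eq_comm
  let mono : ∀ d, ↥((Finset.univ : Finset (Option (Fin r))).finsuppAntidiag d) → K' :=
    fun d α => ∏ o, v o ^ α.1 o
  refine ⟨_, inferInstance, mono d, ?_, ?_, ?_⟩
  · rw [Fintype.card_coe, Finset.card_finsuppAntidiag_nat_eq_choose, Finset.card_univ,
      Fintype.card_option, Fintype.card_fin, show r + 1 + d - 1 = d + r by omega]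
    exact Nat.choose_symm_add
  · have h1 := ((MvPolynomial.basisMonomials (Fin r) K).linearIndependent.map'
      (MvPolynomial.aeval u).toLinearMap (LinearMap.ker_eq_bot.2 hu)).comp
      (fun α : ↥((Finset.univ : Finset (Option (Fin r))).finsuppAntidiag d) => α.1.some) (by
        intro α β e
        have h1 := (Finset.mem_finsuppAntidiag.1 α.2).1
        have h2 := (Finset.mem_finsuppAntidiag.1 β.2).1
        have h3 : ∀ j, α.1 (some j) = β.1 (some j) := fun j => by
          simpa using DFunLike.congr_fun e j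
        rw [Fintype.sum_option] at h1 h2
        simp only [h3] at h1
        apply Subtype.ext
        ext o
        cases o with
        | none => omega
        | some j => exact h3 j)
    have e : mono d = (⇑(MvPolynomial.aeval (R := K) u).toLinearMap ∘
        ⇑(MvPolynomial.basisMonomials (Fin r) K)) ∘ fun α => α.1.some := ?_
    · rw [e]; exact h1
    funext α
    simp only [mono, Function.comp, MvPolynomial.coe_basisMonomials, AlgHom.toLinearMap_apply,
      MvPolynomial.aeval_monomial, map_one, one_mul, Fintype.prod_option, v, Option.elim, one_pow]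
    rw [Finsupp.prod_fintype _ _ (by simp)]
    rfl
  · rw [hv]
    apply le_antisymm
    · induction d with
      | zero =>
        rw [pow_zero, Submodule.one_eq_span]
        refine Submodule.span_mono ?_
        rintro _ rfl
        exact ⟨⟨0, by simp⟩, by simp [mono]⟩
      | succ d ih =>
        rw [pow_succ]
        refine (mul_le_mul_left ih _).trans ?_
        rw [Submodule.span_mul_span]
        refine Submodule.span_mono ?_
        rintro _ ⟨_, ⟨α, rfl⟩, _, ⟨o, rfl⟩, rfl⟩
        refine ⟨⟨α.1 + Finsupp.single o 1, ?_⟩, ?_⟩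
        · have h1 := (Finset.mem_finsuppAntidiag.1 α.2).1
          refine Finset.mem_finsuppAntidiag.2 ⟨?_, Finset.subset_univ _⟩
          change ∑ o', (α.1 o' + Finsupp.single o 1 o') = d + 1
          rw [Finset.sum_add_distrib, h1, Finset.sum_eq_single o] <;>
            simp +contextual [eq_comm]
        · simp only [mono, Finsupp.add_apply, pow_add, Finset.prod_mul_distrib]
          congr 1
          rw [Finset.prod_eq_single o] <;> simp +contextual [eq_comm]
    · rw [Submodule.span_le]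
      rintro _ ⟨α, rfl⟩
      have h1 := (Finset.mem_finsuppAntidiag.1 α.2).1
      have key : ∀ s : Finset (Option (Fin r)), ∏ o ∈ s, v o ^ α.1 o ∈
          Submodule.span T (Set.range v) ^ ∑ o ∈ s, α.1 o := by
        intro s
        induction s using Finset.induction_on with
        | empty => simp [Submodule.one_le.1 le_rfl]
        | insert o s ho ih =>
          rw [Finset.prod_insert ho, Finset.sum_insert ho, pow_add]
          exact Submodule.mul_mem_mul
            (Submodule.pow_mem_pow _ (Submodule.subset_span (Set.mem_range_self o)) _) ih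
      have := key Finset.univ
      rw [h1] at this
      exact this

/-- the product relation, in a fixed degree `d` of the new variable. -/
def ProdRel (d : ℕ) (κ : Type) (C : FCx T K σ) (C' : FCx T K' (Option σ)) : Prop :=
  ∃ Φ : (κ → C.V) →ₗ[T] C'.V, Function.Injective Φ ∧
    (∀ x, C'.D (Φ x) = Φ fun c => C.D (x c)) ∧
    (∀ (a : K) x, algebraMap K K' a • Φ x = Φ (a • x)) ∧
    ∀ k i, (k none).toNat = d →
      C'.G k i = (Submodule.pi Set.univ fun _ => C.G (fun j => k (some j)) i).map Φ

theorem ProdRel.cone {d : ℕ} {κ : Type} {C : FCx T K σ} {C' : FCx T K' (Option σ)}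
    (h : ProdRel d κ C C') (x : K) (δ : σ → ℤ) :
    ProdRel d κ (C.cone x δ) (C'.cone (algebraMap K K' x) (ext δ 0)) := by
  obtain ⟨Φ, h1, h2, h3, h4⟩ := h
  refine ⟨(Φ ∘ₗ (LinearMap.fst T C.V C.V).compLeft κ).prod
    (Φ ∘ₗ (LinearMap.snd T C.V C.V).compLeft κ), ?_, ?_, ?_, ?_⟩
  · intro a b e
    have e1 := h1 (congrArg Prod.fst e)
    have e2 := h1 (congrArg Prod.snd e)
    funext c
    exact Prod.ext (congrFun e1 c) (congrFun e2 c)
  · intro a
    refine Prod.ext ?_ ?_
    · change C'.D (Φ fun c => (a c).1) + algebraMap K K' x • Φ (fun c => (a c).2) =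
        Φ fun c => C.D (a c).1 + x • (a c).2
      rw [h2, h3, ← map_add]
      rfl
    · change -C'.D (Φ fun c => (a c).2) = Φ fun c => -C.D (a c).2
      rw [h2, ← map_neg]
      rfl
  · intro a y
    refine Prod.ext ?_ ?_
    · exact h3 a fun c => (y c).1
    · exact h3 a fun c => (y c).2
  · intro k i hk
    have e1 := h4 k i hk
    have e2 := h4 (k - ext δ 0) (i - 1) (by simpa [ext] using hk)
    change (C'.G k i).prod (C'.G (k - ext δ 0) (i - 1)) = _
    rw [e1, e2]
    apply le_antisymm
    · rintro ⟨_, _⟩ ⟨⟨a, ha, rfl⟩, ⟨b, hb, rfl⟩⟩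
      exact ⟨fun c => (a c, b c), fun c _ => ⟨ha c trivial, hb c trivial⟩, rfl⟩
    · rintro _ ⟨a, ha, rfl⟩
      exact ⟨⟨fun c => (a c).1, fun c _ => (ha c trivial).1, rfl⟩,
        ⟨fun c => (a c).2, fun c _ => (ha c trivial).2, rfl⟩⟩

theorem ProdRel.kos {d : ℕ} {κ : Type} {C : FCx T K σ} {C' : FCx T K' (Option σ)}
    (h : ProdRel d κ C C') (Ls : List (K × (σ → ℤ))) :
    ProdRel d κ (C.kos Ls) (C'.kos (pullL K' Ls)) := by
  induction Ls with
  | nil => exact h
  | cons p Ls ih => exact ih.cone p.1 p.2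

theorem prodRel_line (d : ℕ) : ∃ (κ : Type) (_ : Fintype κ), Fintype.card κ = (d + r).choose r ∧
    ProdRel d κ (S.line T 0) ((S.prod u hu).line T 0) := by
  obtain ⟨κ, _, mono, hc, hli, hsp⟩ := prod_monos hu T d
  refine ⟨κ, inferInstance, hc, (Fintype.linearCombination K mono).restrictScalars T,
    hli.fintypeLinearCombination_injective, fun x => ?_, fun a x => ?_, fun k i hk => ?_⟩
  · exact (map_zero (Fintype.linearCombination K mono)).symm
  · exact (algebraMap_smul K' a (Fintype.linearCombination K mono x)).trans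
      (map_smul (Fintype.linearCombination K mono) a x).symm
  · change (if i = 0 then (S.prod u hu).L T (k + 0) else ⊥) =
      (Submodule.pi Set.univ fun _ =>
        if i = 0 then S.L T ((fun j => k (some j)) + 0) else ⊥).map _
    split_ifs with hi
    · rw [add_zero, add_zero, Sys.L_prod, hk, hsp]
      apply le_antisymm
      · rw [Submodule.mul_le]
        rintro a ha _ ⟨b, hb, rfl⟩
        induction ha using Submodule.span_induction with
        | mem a ha =>
          classical
          obtain ⟨c, rfl⟩ := ha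
          refine ⟨Pi.single c b, fun c' _ => ?_, ?_⟩
          · by_cases e : c' = c
            · subst e; simpa using hb
            · simp [e]
          · change Fintype.linearCombination K mono (Pi.single c b) = _
            rw [Fintype.linearCombination_apply_single, Algebra.smul_def, mul_comm]
            rfl
        | zero => simp
        | add a a' _ _ h1 h2 => rw [add_mul]; exact add_mem h1 h2
        | smul t a _ h1 => rw [smul_mul_assoc]; exact Submodule.smul_mem _ _ h1
      · rintro _ ⟨x, hx, rfl⟩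
        change Fintype.linearCombination K mono x ∈ _
        rw [Fintype.linearCombination_apply]
        refine Submodule.sum_mem _ fun c _ => ?_
        rw [Algebra.smul_def, mul_comm (algebraMap K K' _)]
        exact Submodule.mul_mem_mul (Submodule.subset_span (Set.mem_range_self c))
          ⟨x c, hx c trivial, rfl⟩
    · rw [Submodule.pi_univ_bot, Submodule.map_bot]

/-- Say that `C'` is the product of `C` if there is an additive `ι : C.V → C'.V`, semilinear over `K → K'`,
with `D' ι = ι D`, such that the maps `x ↦ u ^ α • ι x` are independent and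
`C'.G k i = ⨆_{|α| ≤ k none} u ^ α • ι (C.G (k ∘ some) i)`.  This holds for `line 0`, passes to cones, and
gives `C'.G k ≅ (C.G (k ∘ some)) ^ binom(k none + r, r)` (`chi_pi`, `chi_iso`). -/
theorem P_pull (Ls : List (K × (σ → ℤ))) (hs : S.Sec T Ls) (g : ((S.line T 0).kos Ls).Gd ν) :
    (((S.prod u hu).line T 0).kos (pullL K' Ls)).P ν =ᶠ[atTop]
      pullF r (((S.line T 0).kos Ls).P ν) := by
  have w1 := FCx.WF.isCx S (FCx.WF.kos S (FCx.wf_line (T := T) S 0) hs)
  have w2 := FCx.WF.isCx _ (FCx.WF.kos _ (FCx.wf_line (T := T) (S.prod u hu) 0) (hs.pull hu))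
  filter_upwards [prod_tendsto_some.eventually (w1.and g), w2] with k ⟨hk1, hk2⟩ hk3
  obtain ⟨κ, _, hc, hrel⟩ := prodRel_line (T := T) (S := S) hu (k none).toNat
  obtain ⟨Φ, h1, h2, h3, h4⟩ := hrel.kos Ls
  obtain ⟨p1, p2⟩ := ν.chi_pi κ hk1
  obtain ⟨-, p3⟩ := p2 hk2
  have hb : (fun i : ℤ => Submodule.pi Set.univ fun _ : κ =>
      (⊥ : ℤ → Submodule T ((S.line T 0).kos Ls).V) i) = ⊥ := by
    funext i
    exact Submodule.pi_univ_bot
  rw [hb] at p1 p3
  have e := (ν.chi_iso (φ := Φ) ⟨fun i => ?_, fun i => ?_, fun i x hx => ?_⟩ p1 hk3).2.1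
  · simp only [pullF, FCx.P]
    rw [← e, p3, hc]
  · rw [h4 k i rfl]
    exact sup_bot_eq _
  · simp only [Pi.bot_apply, Submodule.comap_bot, LinearMap.ker_eq_bot.2 h1, inf_bot_eq]
  · simp only [Pi.bot_apply, Submodule.mem_bot, LinearMap.restrictScalars_apply, h2, sub_eq_zero]
    rfl

theorem prod_one_le_rank {F q : Type} [Field F] [Fintype q] (M : Matrix Unit q F) (c : q)
    (h : M () c ≠ 0) : 1 ≤ M.rank := by
  have h1 := Matrix.rank_submatrix_le M (id : Unit → Unit) (fun _ : Unit => c)
  have h2 : (M.submatrix (id : Unit → Unit) (fun _ : Unit => c)).rank = Fintype.card Unit :=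
    Matrix.rank_of_det_ne_zero (by simpa using h)
  rw [h2] at h1
  simpa using h1

/-- one generic section of type `δ`, for finitely many sets on the charts of finitely many conditions:
`y = ∑ λ_g g` over generators `g` of `L δ` containing all `a χ δ` (`exists_generic` with `1 × q` matrices).
The function `e t * (y / a) + w t` is cut, where `e t` is a unit along `Z t`. -/
theorem exists_section [IsNoetherianRing T] (hC : Consts T) {δ : σ → ℤ} (hδ : 0 ≤ δ) {τ : Type}
    [Finite τ] (O : τ → Type) [∀ t, CommRing (O t)] [∀ t, Algebra T (O t)]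
    [∀ t, IsNoetherianRing (O t)] (χ : τ → S.Chart) (φ : ∀ t, S.O T (χ t) →ₐ[T] O t)
    (m : τ → ℕ) (Z : ∀ t, Set (PrimeSpectrum (O t))) (hZ : ∀ t, Small (m t) (Z t))
    (e w : ∀ t, O t) (he : ∀ t, ∀ 𝔭 ∈ Z t, e t ∉ 𝔭.asIdeal) :
    ∃ (y : K) (hy : y ∈ S.L T δ), ∀ t, Small (m t - 1)
      {𝔭 ∈ Z t | w t + e t * φ t ⟨y / S.a (χ t) δ, S.div_mem_O (χ t) hδ hy⟩ ∈ 𝔭.asIdeal} := by
  classical
  let g : ∀ t, S.Chart → S.O T (χ t) := fun t c =>
    ⟨S.a c δ / S.a (χ t) δ, S.div_mem_O (χ t) hδ (S.a_mem_L c hδ)⟩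
  obtain ⟨l, hl⟩ := exists_generic hC O S.Chart (fun _ => Unit) m (fun _ => 1) Z hZ
    (fun t => Matrix.of fun _ c => e t * φ t (g t c)) (fun t _ => w t) (by
      intro t 𝔭 h𝔭
      refine prod_one_le_rank _ (χ t) ?_
      have : g t (χ t) = 1 := Subtype.ext (div_self (S.a_ne _ _))
      simp only [Matrix.map_apply, Matrix.of_apply, this, map_one, mul_one, ne_eq,
        Ideal.algebraMap_residueField_eq_zero]
      exact he t 𝔭 h𝔭)
  have hy : ∑ c, l c • S.a c δ ∈ S.L T δ :=
    Submodule.sum_mem _ fun c _ => Submodule.smul_mem _ _ (S.a_mem_L c hδ)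
  refine ⟨_, hy, fun t => (hl t).mono le_rfl ?_⟩
  rintro 𝔭 ⟨h1, h2⟩
  refine ⟨h1, fun _ => ?_⟩
  have e1 : (⟨(∑ c, l c • S.a c δ) / S.a (χ t) δ, S.div_mem_O (χ t) hδ hy⟩ : S.O T (χ t)) =
      ∑ c, l c • g t c := by
    apply Subtype.ext
    simp only [g, AddSubmonoidClass.coe_finsetSum, SetLike.val_smul, Finset.sum_div,
      smul_div_assoc]
  rw [e1, map_sum, Finset.mul_sum] at h2
  convert h2 using 3 with c
  rw [map_smul, Matrix.of_apply, Algebra.smul_def]
  ring

/-- the zero set of a list of sections in a set of points. -/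
def Sys.zer (S : Sys K σ) (χ : S.Chart) (Z : Set (PrimeSpectrum (S.O T χ)))
    (Ls : List (K × (σ → ℤ))) : Set (PrimeSpectrum (S.O T χ)) :=
  {𝔓 ∈ Z | ∀ p ∈ Ls, ¬ S.Nv χ 𝔓 (p.1 / S.a χ p.2)}

/-- generic sections of prescribed types; every sublist is generic. -/
theorem exists_sections [IsNoetherianRing T] (hC : Consts T) (δs : List (σ → ℤ))
    (hδ : ∀ δ ∈ δs, 0 ≤ δ) {τ : Type} [Finite τ] (χ : τ → S.Chart) (m : τ → ℕ)
    (Z : ∀ t, Set (PrimeSpectrum (S.O T (χ t)))) (hZ : ∀ t, Small (m t) (Z t)) :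
    ∃ Ls : List (K × (σ → ℤ)), Ls.map Prod.snd = δs ∧ S.Sec T Ls ∧
      ∀ t, ∀ L', L'.Sublist Ls → Small (m t - L'.length) (S.zer (χ t) (Z t) L') := by
  classical
  induction δs with
  | nil =>
    refine ⟨[], rfl, fun p hp => absurd hp List.not_mem_nil, fun t L' hL => ?_⟩
    rw [List.sublist_nil.1 hL]
    exact (hZ t).mono (by simp) fun 𝔓 h => h.1
  | cons δ δs ih =>
    obtain ⟨Ls, h1, h2, h3⟩ := ih fun δ' h => hδ δ' (List.mem_cons_of_mem _ h)
    have hδ0 : 0 ≤ δ := hδ δ List.mem_cons_self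
    have := fun c => S.O_noeth (T := T) c
    obtain ⟨y, hy, h4⟩ := exists_section (S := S) hC hδ0 (τ := τ × {L' // L' ∈ Ls.sublists})
      (fun t => S.O T (χ t.1)) (fun t => χ t.1) (fun t => AlgHom.id T _)
      (fun t => m t.1 - t.2.1.length) (fun t => S.zer (χ t.1) (Z t.1) t.2.1)
      (fun t => h3 t.1 t.2.1 (List.mem_sublists.1 t.2.2)) (fun _ => 1) (fun _ => 0)
      (fun t 𝔭 _ => (Ideal.ne_top_iff_one _).1 𝔭.2.ne_top)
    refine ⟨(y, δ) :: Ls, by simp [h1], ?_, fun t L' hL => ?_⟩
    · intro p hp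
      rcases List.mem_cons.1 hp with rfl | hp
      · exact ⟨hδ0, hy⟩
      · exact h2 p hp
    · rcases List.sublist_cons_iff.1 hL with hL1 | ⟨L'', rfl, hL1⟩
      · exact h3 t L' hL1
      · refine (h4 (t, ⟨L'', List.mem_sublists.2 hL1⟩)).mono (by simp; omega) ?_
        rintro 𝔓 ⟨hz, hp⟩
        refine ⟨⟨hz, fun p hp' => hp p (List.mem_cons_of_mem _ hp')⟩, ?_⟩
        have hn := hp (y, δ) List.mem_cons_self
        by_contra hc
        refine hn ⟨S.div_mem_O (χ t) hδ0 hy, fun hc' => hc ?_⟩
        simpa using hc'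

theorem admL_iff (Ls : List (K × (σ → ℤ))) :
    S.AdmL T 𝔶 Ls ↔ ∀ χ, Small 0 (S.zer χ (S.U 𝔶 χ) Ls) := by
  refine forall_congr' fun χ => ?_
  rw [small_zero_iff, Set.eq_empty_iff_forall_notMem]
  constructor
  · rintro h 𝔓 ⟨h1, h2⟩
    obtain ⟨p, hp, hn⟩ := h 𝔓 h1
    exact h2 p hp hn
  · intro h 𝔓 h1
    by_contra hc
    exact h 𝔓 ⟨h1, fun p hp hn => hc ⟨p, hp, hn⟩⟩

theorem Ctx.exists_adm (h : Ctx T S 𝔶 ν n) (δs : List (σ → ℤ)) (hδ : ∀ δ ∈ δs, 0 ≤ δ) :
    ∃ Ls : List (K × (σ → ℤ)), Ls.map Prod.snd = δs ∧ S.Sec T Ls ∧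
      ∀ L', L'.Sublist Ls → n ≤ L'.length → S.AdmL T 𝔶 L' := by
  have := h.noeth
  obtain ⟨Ls, h1, h2, h3⟩ := exists_sections (S := S) h.consts δs hδ (τ := S.Chart) id
    (fun _ => n) (fun χ => S.U 𝔶 χ) h.small
  refine ⟨Ls, h1, h2, fun L' hL hn => (admL_iff L').2 fun χ => ?_⟩
  exact (h3 χ L' hL).mono (by omega) le_rfl

end Crest.Agent.R188
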