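import Crest.Agent.R188.CM

/-! Row 188: regular local rings are domains and Cohen–Macaulay. -/

set_option autoImplicit false
set_option linter.unusedSectionVars false

namespace Crest.Agent.R188

open IsLocalRing RingTheory.Sequence CategoryTheory CategoryTheory.Abelian
open scoped Pointwise

section
variable {T : Type} [CommRing T] [IsLocalRing T] [IsNoetherianRing T]

theorem rl_wr_triv (M : Type) [AddCommGroup M] [Module T M] [Subsingleton M] (ys : List T) :
    IsWeaklyRegular M ys := by
  induction ys generalizing M with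
  | nil => exact .nil T M
  | cons y ys ih =>
    have : Subsingleton (QuotSMulTop y M) := (Submodule.mkQ_surjective _).subsingleton
    exact .cons (fun a b _ => Subsingleton.elim a b) (ih _)

theorem dep_triv (M : Type) [AddCommGroup M] [Module T M] [Subsingleton M] (r : ℕ) : Dep T M r :=
  ⟨List.replicate r 0, by simp, fun y hy => by rw [List.eq_of_mem_replicate hy]; exact zero_mem _,
    rl_wr_triv M _⟩

theorem Dep.anti {M : Type} [AddCommGroup M] [Module T M] {r r' : ℕ} (h : Dep T M r) (hr : r' ≤ r) :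
    Dep T M r' := by
  obtain ⟨ys, a, b, c⟩ := h
  refine ⟨ys.take r', by simp [a, hr], fun y hy => b y (List.mem_of_mem_take hy), ?_⟩
  rw [← List.take_append_drop r' ys, isWeaklyRegular_append_iff] at c
  exact c.1

theorem Dep.syz {F M : Type} [AddCommGroup F] [Module T F] [Module.Finite T F] [AddCommGroup M]
    [Module T M] [Module.Finite T M] [Nontrivial M] (π : F →ₗ[T] M) (hπ : Function.Surjective π)
    {r : ℕ} (hF : Dep T F (r + 1)) (hM : Dep T M r) : Dep T (LinearMap.ker π) (r + 1) := by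
  rcases subsingleton_or_nontrivial (LinearMap.ker π) with h | h
  · exact dep_triv _ _
  have : Nontrivial F := hπ.nontrivial
  obtain ⟨ys, a, b, c⟩ := hF
  obtain ⟨zs, a', b', c'⟩ := hM
  let N := ModuleCat.of T (T ⧸ maximalIdeal T)
  have hN : Module.support T N = PrimeSpectrum.zeroLocus (maximalIdeal T) := by
    rw [Module.support_eq_zeroLocus, Ideal.annihilator_quotient]
  have h1 := ModuleCat.subsingleton_ext_of_exists_isRegular (maximalIdeal T) N hN.subset
    (ModuleCat.of T F) (cm_lt F) ys b (IsRegular.of_isWeaklyRegular_of_mem_maximalIdeal F b c)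
  have h2 := ModuleCat.subsingleton_ext_of_exists_isRegular (maximalIdeal T) N hN.subset
    (ModuleCat.of T M) (cm_lt M) zs b' (IsRegular.of_isWeaklyRegular_of_mem_maximalIdeal M b' c')
  have hS := LinearMap.shortExact_shortComplexKer hπ
  have h3 : ∀ i < r + 1, Subsingleton (Ext N (ModuleCat.of T (LinearMap.ker π)) i) := by
    intro i hi
    cases i with
    | zero =>
      have e1 : Subsingleton (N ⟶ ModuleCat.of T F) :=
        Ext.addEquiv₀.subsingleton_congr.mp (h1 0 (by omega))
      have e2 : Subsingleton (N →ₗ[T] F) := (ModuleCat.homAddEquiv (M := N)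
        (N := ModuleCat.of T F)).symm.subsingleton
      have e3 : Subsingleton (N →ₗ[T] LinearMap.ker π) := ⟨fun f g => by
        have := Subsingleton.elim ((LinearMap.ker π).subtype ∘ₗ f) ((LinearMap.ker π).subtype ∘ₗ g)
        exact LinearMap.ext fun x => Subtype.ext (LinearMap.congr_fun this x)⟩
      exact (Ext.addEquiv₀.trans (ModuleCat.homAddEquiv (M := N)
        (N := ModuleCat.of T (LinearMap.ker π)))).subsingleton
    | succ i =>
      have z1 := h1 (i + 1) (by omega)
      have z2 := h2 i (by omega)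
      refine subsingleton_of_forall_eq 0 fun x => ?_
      obtain ⟨y, hy⟩ := Ext.covariant_sequence_exact₁ N hS x (z1.elim _ _) (n₀ := i) rfl
      rw [← hy, z2.elim y 0, Ext.zero_comp]
  obtain ⟨rs, a, b, c⟩ := ModuleCat.exists_isRegular_of_exists_subsingleton_ext (maximalIdeal T)
    (r + 1) (ModuleCat.of T (LinearMap.ker π)) (cm_lt _) N hN h3
  exact ⟨rs, a, b, c.toIsWeaklyRegular⟩

theorem rl_replace {d : ℕ} (z : Fin (d + 1) → T) (hz : maximalIdeal T = Ideal.span (Set.range z))
    {x : T} (hx : x ∈ maximalIdeal T) (hx2 : x ∉ maximalIdeal T ^ 2) :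
    ∃ z' : Fin d → T, maximalIdeal T = Ideal.span {x} ⊔ Ideal.span (Set.range z') := by
  have hzm : ∀ i, z i ∈ maximalIdeal T := fun i => hz ▸ Ideal.subset_span ⟨i, rfl⟩
  obtain ⟨c, hc⟩ := (Ideal.mem_span_range_iff_exists_fun).1 (hz ▸ hx)
  obtain ⟨i, hi⟩ : ∃ i, IsUnit (c i) := by
    by_contra hcon
    push Not at hcon
    refine hx2 (hc ▸ Ideal.sum_mem _ fun i _ => ?_)
    rw [sq]
    exact Ideal.mul_mem_mul (hcon i) (hzm i)
  refine ⟨z ∘ i.succAbove, le_antisymm ?_ (sup_le ((Ideal.span_singleton_le_iff_mem _).2 hx)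
    (Ideal.span_le.2 (by rintro _ ⟨j, rfl⟩; exact hzm _)))⟩
  rw [hz, Ideal.span_le]
  rintro _ ⟨j, rfl⟩
  have h1 : ∀ j, z (i.succAbove j) ∈ Ideal.span {x} ⊔ Ideal.span (Set.range (z ∘ i.succAbove)) :=
    fun j => Ideal.mem_sup_right (Ideal.subset_span ⟨j, rfl⟩)
  rcases Fin.eq_self_or_eq_succAbove i j with rfl | ⟨j, rfl⟩
  · rw [Fin.sum_univ_succAbove _ j] at hc
    rw [SetLike.mem_coe, ← Ideal.unit_mul_mem_iff_mem _ hi, eq_sub_of_add_eq hc]
    exact sub_mem (Ideal.mem_sup_left (Ideal.subset_span rfl))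
      (Ideal.sum_mem _ fun j _ => Ideal.mul_mem_left _ _ (h1 j))
  · exact h1 j

theorem rl_param {d : ℕ} (hd : ringKrullDim T = (d + 1 : ℕ)) (S : Set (Ideal T)) (hS : S.Finite)
    (hp : ∀ P ∈ S, P.IsPrime ∧ P ≠ maximalIdeal T) :
    ∃ x ∈ maximalIdeal T, x ∉ maximalIdeal T ^ 2 ∧ ∀ P ∈ S, x ∉ P := by
  by_contra hcon
  push Not at hcon
  obtain ⟨P, hP, hle⟩ := ((maximalIdeal T).subset_union_prime_finite (hS.insert (maximalIdeal T ^ 2))
    (f := id) (maximalIdeal T ^ 2) (maximalIdeal T ^ 2) fun P h h1 _ =>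
      (hp P (h.resolve_left h1)).1).1 (by
      intro x hx
      simp only [id, Set.mem_iUnion]
      by_cases h : x ∈ maximalIdeal T ^ 2
      · exact ⟨_, Set.mem_insert _ _, h⟩
      · obtain ⟨P, hP, hxP⟩ := hcon x hx h
        exact ⟨P, Set.mem_insert_of_mem _ hP, hxP⟩)
  rcases hP with rfl | hP
  · have h0 : maximalIdeal T = ⊥ :=
      Submodule.eq_bot_of_le_smul_of_le_jacobson_bot (maximalIdeal T) _ (IsNoetherian.noetherian _)
        (by rwa [smul_eq_mul, ← sq]) (maximalIdeal_le_jacobson _)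
    have h1 := maximalIdeal_height_eq_ringKrullDim (R := T)
    rw [h0, Ideal.height_bot, hd] at h1
    exact absurd h1 (by exact_mod_cast (Nat.succ_ne_zero d).symm)
  · exact (hp P hP).2 ((maximalIdeal.isMaximal T).eq_of_le (hp P hP).1.ne_top hle).symm

theorem rl_quot {d : ℕ} (hd : ringKrullDim T = (d + 1 : ℕ)) (z : Fin (d + 1) → T)
    (hz : maximalIdeal T = Ideal.span (Set.range z)) {x : T} (hx : x ∈ maximalIdeal T)
    (hx2 : x ∉ maximalIdeal T ^ 2) :
    ∃ (_ : IsLocalRing (T ⧸ Ideal.span {x})) (z' : Fin d → T ⧸ Ideal.span {x}),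
      ringKrullDim (T ⧸ Ideal.span {x}) = d ∧
      maximalIdeal (T ⧸ Ideal.span {x}) = Ideal.span (Set.range z') ∧
      maximalIdeal (T ⧸ Ideal.span {x}) = (maximalIdeal T).map (Ideal.Quotient.mk _) := by
  have hle : Ideal.span {x} ≤ maximalIdeal T := (Ideal.span_singleton_le_iff_mem _).2 hx
  have : Nontrivial (T ⧸ Ideal.span {x}) :=
    Ideal.Quotient.nontrivial_iff.2 (ne_top_of_le_ne_top (maximalIdeal.isMaximal T).ne_top hle)
  have hl : IsLocalRing (T ⧸ Ideal.span {x}) := .of_surjective' _ Ideal.Quotient.mk_surjective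
  obtain ⟨z', hz'⟩ := rl_replace z hz hx hx2
  have hm : maximalIdeal (T ⧸ Ideal.span {x}) = (maximalIdeal T).map (Ideal.Quotient.mk _) :=
    (map_maximalIdeal_of_surjective _ Ideal.Quotient.mk_surjective).symm
  have hm' : maximalIdeal (T ⧸ Ideal.span {x}) =
      Ideal.span (Set.range (Ideal.Quotient.mk (Ideal.span {x}) ∘ z')) := by
    rw [hm, hz', Ideal.map_sup, Ideal.map_quotient_self, bot_sup_eq, Ideal.map_span, Set.range_comp]
  refine ⟨hl, _, le_antisymm ?_ ?_, hm', hm⟩
  · refine (ringKrullDim_le_spanFinrank_maximalIdeal _).trans ?_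
    rw [hm']
    have := (Submodule.spanFinrank_span_le_ncard_of_finite (R := T ⧸ Ideal.span {x})
      (Set.finite_range (Ideal.Quotient.mk (Ideal.span {x}) ∘ z'))).trans
      (show _ ≤ d by
        rw [← Set.image_univ]
        simpa using Set.ncard_image_le (s := (Set.univ : Set (Fin d))))
    exact_mod_cast this
  · have h1 := ringKrullDim_le_ringKrullDim_quotient_add_encard (R := T) {x}
      (Set.singleton_subset_iff.2 (by
        rw [← Ideal.jacobson_bot]; exact maximalIdeal_le_jacobson _ hx))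
    rw [hd, Set.encard_singleton] at h1
    obtain ⟨m, hm⟩ : ∃ m : ℕ∞, ringKrullDim (T ⧸ Ideal.span {x}) = m :=
      (WithBot.ne_bot_iff_exists.1 ringKrullDim_ne_bot).imp fun _ h => h.symm
    rw [hm] at h1 ⊢
    have h2 : ((d + 1 : ℕ) : ℕ∞) ≤ m + 1 := by exact_mod_cast h1
    have h3 : (d : ℕ∞) ≤ m := by
      rw [Nat.cast_succ] at h2
      exact (ENat.add_le_add_iff_right ENat.one_ne_top).1 h2
    exact_mod_cast h3

end

theorem rl_main (d : ℕ) : ∀ (T : Type) [CommRing T] [IsLocalRing T] [IsNoetherianRing T]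
    (z : Fin d → T), ringKrullDim T = d → maximalIdeal T = Ideal.span (Set.range z) →
    IsDomain T ∧ Dep T T d ∧ ∀ (M : Type) [AddCommGroup M] [Module T M] [Module.Finite T M],
      Dep T M d → Module.Free T M := by
  induction d with
  | zero =>
    intro T _ _ _ z _ hz
    have hf : IsField T := isField_iff_maximalIdeal_eq.2 (by simpa using hz)
    refine ⟨hf.isDomain, ⟨[], rfl, by simp, .nil T T⟩, fun M _ _ _ _ => ?_⟩
    let _ := hf.toField
    exact Module.Free.of_divisionRing T M
  | succ d ih =>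
    intro T _ _ _ z hd hz
    have hmin : ∀ P ∈ minimalPrimes T, P.IsPrime ∧ P ≠ maximalIdeal T := fun P hP => by
      refine ⟨hP.isPrime, ?_⟩
      rintro rfl
      have h1 := maximalIdeal_height_eq_ringKrullDim (R := T)
      rw [Ideal.height_eq_zero_iff.2 hP, hd] at h1
      exact absurd h1 (by exact_mod_cast (Nat.succ_ne_zero d).symm)
    obtain ⟨x, hx, hx2, hxP⟩ := rl_param hd _ (minimalPrimes.finite_of_isNoetherianRing T) hmin
    obtain ⟨_, z', h1, h2, h3⟩ := rl_quot hd z hz hx hx2
    obtain ⟨i1, ⟨ys, a, b, c⟩, -⟩ := ih _ z' h1 h2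
    have hprime : (Ideal.span {x}).IsPrime := (Ideal.Quotient.isDomain_iff_prime _).1 i1
    obtain ⟨P, hP, hPx⟩ := Ideal.exists_minimalPrimes_le (bot_le : ⊥ ≤ Ideal.span {x})
    have hP0 : P = ⊥ := by
      refine Submodule.eq_bot_of_le_smul_of_le_jacobson_bot (maximalIdeal T) _
        (IsNoetherian.noetherian _) (fun w hw => ?_) (maximalIdeal_le_jacobson _)
      obtain ⟨c, rfl⟩ := Ideal.mem_span_singleton'.1 (hPx hw)
      rw [mul_comm]
      exact Ideal.mul_mem_mul hx ((hP.isPrime.mem_or_mem hw).resolve_right (hxP P hP))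
    have hbot : (⊥ : Ideal T).IsPrime := hP0 ▸ hP.isPrime
    have hdom : IsDomain T := IsDomain.of_bot_isPrime T
    have hx0 : x ≠ 0 := fun h => hx2 (h ▸ zero_mem _)
    refine ⟨hdom, ?_, fun M _ _ _ hM => ?_⟩
    · choose s hs using Ideal.Quotient.mk_surjective (I := Ideal.span {x})
      refine ⟨x :: ys.map s, by simp [a], ?_, ?_⟩
      · simp only [List.mem_cons, List.mem_map]
        rintro y (rfl | ⟨y, hy, rfl⟩)
        · exact hx
        · by_contra hu
          exact b y hy (hs y ▸ (notMem_maximalIdeal.1 hu).map _)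
      · rw [isWeaklyRegular_cons_iff']
        refine ⟨fun a b h => mul_left_cancel₀ hx0 h, ?_⟩
        have e : (ys.map s).map (Ideal.Quotient.mk (Ideal.span {x})) = ys := by
          rw [List.map_map]; simp [Function.comp_def, hs]
        rw [e]
        have e2 : QuotSMulTop x T ≃ₗ[T ⧸ Ideal.span {x}] T ⧸ Ideal.span {x} :=
          (Submodule.quotEquivOfEq _ _ (by
            rw [← Submodule.ideal_span_singleton_smul, smul_eq_mul, Ideal.mul_top])
              : QuotSMulTop x T ≃ₗ[T] T ⧸ Ideal.span {x}).extendScalarsOfSurjective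
            Ideal.Quotient.mk_surjective
        exact (e2.isWeaklyRegular_congr ys).2 c
    · rcases subsingleton_or_nontrivial M with h | h
      · infer_instance
      obtain ⟨x, hx, hx2, hxP⟩ := rl_param hd _ (associatedPrimes.finite T M) fun P hP => by
        refine ⟨hP.isPrime, ?_⟩
        rintro rfl
        obtain ⟨ys, a, b, c⟩ := hM
        have := cm_ass ys M b c ⟨_, hP.isPrime⟩ hP
        have h0 : Order.coheight (⟨maximalIdeal T, hP.isPrime⟩ : PrimeSpectrum T) = 0 :=
          Order.coheight_eq_zero.2 fun Q _ => le_maximalIdeal Q.2.ne_top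
        rw [h0, a] at this
        exact absurd this (by simp)
      have hr : IsSMulRegular M x := by
        intro u w huw
        by_contra h3
        have : x ∈ ⋃ p ∈ associatedPrimes T M, (p : Set T) := by
          rw [biUnion_associatedPrimes_eq_zero_divisors]
          exact ⟨u - w, sub_ne_zero.2 h3, by rw [smul_sub]; exact sub_eq_zero.2 huw⟩
        simp only [Set.mem_iUnion] at this
        obtain ⟨P, hP, hxp⟩ := this
        exact hxP P hP hxp
      obtain ⟨_, z', h1, h2, h3⟩ := rl_quot hd z hz hx hx2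
      obtain ⟨ys, a, b, c⟩ := hM.quot hx hr
      have := Module.Finite.of_restrictScalars_finite T (T ⧸ Ideal.span {x}) (QuotSMulTop x M)
      have := Module.finitePresentation_of_finite T M
      refine (Module.free_quotSMulTop_iff_free T M (maximalIdeal_le_jacobson _ hx) hr).1
        ((ih _ z' h1 h2).2.2 _ ⟨ys.map (Ideal.Quotient.mk _), by simp [a], ?_, ?_⟩)
      · simp only [List.mem_map]
        rintro _ ⟨y, hy, rfl⟩
        rw [h3]
        exact Ideal.mem_map_of_mem _ (b y hy)
      · exact (isWeaklyRegular_map_algebraMap_iff (T ⧸ Ideal.span {x}) _ ys).2 c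

section
variable {T : Type} [CommRing T]

theorem rl_gen [IsRegularLocalRing T] {d : ℕ} (hd : ringKrullDim T = d) :
    ∃ z : Fin d → T, maximalIdeal T = Ideal.span (Set.range z) := by
  obtain ⟨s, hs, hsp⟩ := Submodule.FG.exists_span_finset_card_eq_spanFinrank
    (IsNoetherian.noetherian (maximalIdeal T))
  have h := IsRegularLocalRing.spanFinrank_maximalIdeal (R := T)
  rw [hd, ← hs] at h
  have h' : s.card = d := by exact_mod_cast h
  refine ⟨fun i => (s.equivFinOfCardEq h').symm i, ?_⟩
  rw [← hsp]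
  congr 1
  ext y
  exact ⟨fun hy => ⟨s.equivFinOfCardEq h' ⟨y, hy⟩, by simp⟩, by rintro ⟨i, rfl⟩; simp⟩

theorem rl_domain [IsRegularLocalRing T] {d : ℕ} (hd : ringKrullDim T = d) : IsDomain T :=
  (rl_gen hd).elim fun z hz => (rl_main d T z hd hz).1

theorem reg_dep [IsRegularLocalRing T] {d : ℕ} (hd : ringKrullDim T = d) : Dep T T d :=
  (rl_gen hd).elim fun z hz => (rl_main d T z hd hz).2.1

theorem reg_free [IsRegularLocalRing T] {d : ℕ} (hd : ringKrullDim T = d) (M : Type)
    [AddCommGroup M] [Module T M] [Module.Finite T M] (h : Dep T M d) : Module.Free T M :=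
  (rl_gen hd).elim fun z hz => (rl_main d T z hd hz).2.2 M h

/-- the dimension formula. -/
theorem reg_height_add [IsRegularLocalRing T] {d : ℕ} (hd : ringKrullDim T = d) (𝔮 : Ideal T)
    [𝔮.IsPrime] : ringKrullDim (T ⧸ 𝔮) + 𝔮.height = d := by
  obtain ⟨xs, -, -, h1, h2⟩ := cm_regseq hd (reg_dep hd) 𝔮
  rw [← h1]
  exact h2

end

end Crest.Agent.R188
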