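import Crest.Agent.R183.RegPSA
import Crest.Agent.R188.RegL0

/-! Row 188, part IV: regular local rings are domains; regular systems of parameters. -/

set_option autoImplicit false

namespace Crest.Agent.R188

open Crest.Agent.R183 IsLocalRing

variable {R : Type} [CommRing R]

theorem Reg1A_ncard {α : Type} {d : ℕ} (x : Fin d → α) : (Set.range x).ncard ≤ d := by
  rw [← Set.image_univ]
  simpa using Set.ncard_image_le (s := (Set.univ : Set (Fin d)))

theorem reg_of_gen [IsLocalRing R] [IsNoetherianRing R] {d : ℕ} (x : Fin d → R)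
    (hx : sp x = maximalIdeal R) (hd : (d : WithBot ℕ∞) ≤ ringKrullDim R) :
    IsRegularLocalRing R ∧ ringKrullDim R = d := by
  have h : ((maximalIdeal R).spanFinrank : WithBot ℕ∞) ≤ d := by
    rw [← hx]
    exact_mod_cast (Submodule.spanFinrank_span_le_ncard_of_finite (R := R)
      (Set.finite_range x)).trans (Reg1A_ncard x)
  exact ⟨.of_spanFinrank_maximalIdeal_le R (h.trans hd),
    le_antisymm ((ringKrullDim_le_spanFinrank_maximalIdeal R).trans h) hd⟩

theorem dim_le_of_gen [IsLocalRing R] [IsNoetherianRing R] {n : ℕ} (x : Fin n → R)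
    (hx : ∀ i, x i ∈ maximalIdeal R) (I : Ideal R) {c : ℕ}
    (h : maximalIdeal R ^ c ≤ I ⊔ sp x) : ringKrullDim (R ⧸ I) ≤ n := by
  by_cases hI : I = ⊤
  · subst hI
    rw [ringKrullDim_eq_bot_of_subsingleton]
    exact bot_le
  have : Nontrivial (R ⧸ I) := Ideal.Quotient.nontrivial_iff.2 hI
  have hl : IsLocalRing (R ⧸ I) := .of_surjective' _ Ideal.Quotient.mk_surjective
  have hm : maximalIdeal (R ⧸ I) = (maximalIdeal R).map (Ideal.Quotient.mk I) :=
    (map_maximalIdeal_of_surjective _ Ideal.Quotient.mk_surjective).symm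
  have hmin : maximalIdeal (R ⧸ I) ∈
      (Ideal.span (Set.range (Ideal.Quotient.mk I ∘ x))).minimalPrimes := by
    refine ⟨⟨inferInstance, Ideal.span_le.2 ?_⟩, fun P hP _ => ?_⟩
    · rintro _ ⟨i, rfl⟩
      rw [hm]
      exact Ideal.mem_map_of_mem _ (hx i)
    · have := hP.1
      refine Ideal.IsPrime.le_of_pow_le (n := c) ?_
      rw [hm, ← Ideal.map_pow]
      refine (Ideal.map_mono h).trans (le_trans ?_ hP.2)
      rw [Ideal.map_sup, Ideal.map_quotient_self, bot_sup_eq, sp, Ideal.map_span, Set.range_comp]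
  rw [← maximalIdeal_height_eq_ringKrullDim]
  have := (Ideal.height_le_card_of_mem_minimalPrimes_span (Set.finite_range _) hmin).trans
    (Nat.cast_le.2 (Reg1A_ncard _))
  exact_mod_cast this

theorem exists_dim_nat [IsLocalRing R] [IsNoetherianRing R] {I : Ideal R} (hI : I ≠ ⊤) :
    ∃ a : ℕ, ringKrullDim (R ⧸ I) = a := by
  have : Nontrivial (R ⧸ I) := Ideal.Quotient.nontrivial_iff.2 hI
  have hl : IsLocalRing (R ⧸ I) := .of_surjective' _ Ideal.Quotient.mk_surjective
  obtain ⟨m, hm⟩ := WithBot.ne_bot_iff_exists.1 (ringKrullDim_ne_bot (R := R ⧸ I))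
  have : m ≠ ⊤ := fun h => ringKrullDim_ne_top (R := R ⧸ I) (by rw [← hm, h]; rfl)
  obtain ⟨a, rfl⟩ := ENat.ne_top_iff_exists.1 this
  exact ⟨a, hm.symm⟩

theorem reg_exists_gen [IsRegularLocalRing R] {d : ℕ} (hd : ringKrullDim R = d) :
    ∃ x : Fin d → R, sp x = maximalIdeal R :=
  (rl_gen hd).imp fun _ h => h.symm

theorem Reg1A_ps_dim (k : Type) [Field k] (d : ℕ) :
    (d : WithBot ℕ∞) ≤ ringKrullDim (MvPowerSeries (Fin d) k) := by
  induction d with
  | zero => exact ringKrullDim_nonneg_of_nontrivial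
  | succ d ih =>
    have h := ringKrullDim_succ_le_of_surjective
      (MvPowerSeries.killCompl (R := k) (Fin.succEmb d)).toRingHom
      (fun f => ⟨_, MvPowerSeries.killCompl_rename_app f⟩)
      (r := MvPowerSeries.X 0) (mem_nonZeroDivisors_of_ne_zero (by
        intro h
        simpa using congrArg (MvPowerSeries.coeff (Finsupp.single (0 : Fin (d + 1)) 1)) h))
      (MvPowerSeries.killCompl_X_eq_zero (by simp))
    refine le_trans ?_ h
    push_cast
    gcongr

/-- power series over a field. -/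
theorem reg_ps (k : Type) [Field k] (d : ℕ) :
    IsRegularLocalRing (MvPowerSeries (Fin d) k) ∧ ringKrullDim (MvPowerSeries (Fin d) k) = d := by
  refine reg_of_gen MvPowerSeries.X (eq_maximalIdeal ?_) (Reg1A_ps_dim k d)
  rw [RegPSA_sp_eq_Ie, RegPSA_Ie_X]
  exact RegPSA_K_one_max _ Ideal.bot_isMaximal

end Crest.Agent.R188
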