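import Crest.Agent.R188.TBasic

/-! Row 188, part IV: existence of partial free resolutions. -/

set_option autoImplicit false

namespace Crest.Agent.R188

open Crest.Agent.R183 IsLocalRing

variable {R : Type} [CommRing R]

theorem Reg2A_gr {ι : Type} {deg : ι → ℕ} {j : ℤ} {v : ι → R} :
    v ∈ gr deg j (⊤ : Submodule R R) ↔ ∀ b, (deg b : ℤ) ≠ j → v b = 0 := by
  simp [mem_gr]

theorem Reg2A_splice {ι : Type} [Fintype ι] {d : ℕ} {deg : ι → ℕ} {P : Matrix ι ι R}
    {N : Type} [AddCommGroup N] [Module R N] {r : ℕ} (q : (Fin r → R) →ₗ[R] N)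
    (hq : Function.Surjective q) (h : GCx d deg P) (ε : (ι → R) →ₗ[R] LinearMap.ker q)
    (hs : (gr deg 0 (⊤ : Submodule R R)).map ε = ⊤) (hB : Bt deg P R 0 ≤ LinearMap.ker ε) (n : ℤ)
    (h1 : 0 < n → gr deg 0 (⊤ : Submodule R R) ⊓ LinearMap.ker ε ≤ Bt deg P R 0)
    (h2 : ∀ j : ℤ, 1 ≤ j → j < n → Zt deg P R j ≤ Bt deg P R j) :
    ∃ A : Matrix (Fin r) ι R,
      PRes (d + 1) (n + 1) (Sum.elim (fun _ => 0) fun b => deg b + 1)
        (Matrix.fromBlocks 0 A 0 P) N := by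
  classical
  let A : Matrix (Fin r) ι R := fun i b => if deg b = 0 then (ε (Pi.single b 1)).1 i else 0
  have hA0 : ∀ v ∈ gr deg 0 (⊤ : Submodule R R), mact A R v = (ε v).1 := fun v hv => by
    funext i
    rw [mact_apply]
    conv_rhs => rw [pi_eq_sum_univ' v, map_sum, Submodule.coe_sum, Finset.sum_apply]
    refine Finset.sum_congr rfl fun b _ => ?_
    by_cases hb : deg b = 0
    · simp [A, hb, mul_comm]
    · rw [Reg2A_gr.1 hv b (by exact_mod_cast hb)]; simp
  have hA1 : ∀ j : ℤ, j ≠ 0 → ∀ v ∈ gr deg j (⊤ : Submodule R R), mact A R v = 0 :=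
    fun j hj v hv => by
      funext i
      rw [mact_apply]
      refine Finset.sum_eq_zero fun b _ => ?_
      by_cases hb : deg b = 0
      · rw [Reg2A_gr.1 hv b (by omega), smul_zero]
      · simp [A, hb]
  have hAP : ∀ j : ℤ, ∀ v ∈ gr deg j (⊤ : Submodule R R), mact A R (mact P R v) = 0 :=
    fun j v hv => by
      by_cases hj : j = 0 + 1
      · subst hj
        rw [hA0 _ (by simpa using h.mact_mem hv), LinearMap.mem_ker.1 (hB ⟨v, hv, rfl⟩)]
        rfl
      · exact hA1 (j - 1) (by omega) _ (h.mact_mem hv)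
  have hm : ∀ w : Fin r ⊕ ι → R, mact (Matrix.fromBlocks 0 A 0 P) R w =
      Sum.elim (mact A R (w ∘ Sum.inr)) (mact P R (w ∘ Sum.inr)) := fun w => by
    funext b
    rcases b with b | b <;> simp [mact_apply]
  have hg : ∀ (j : ℤ) (w : Fin r ⊕ ι → R),
      w ∈ gr (Sum.elim (fun _ => 0) fun b => deg b + 1 : Fin r ⊕ ι → ℕ) (j + 1)
        (⊤ : Submodule R R) ↔ (j + 1 ≠ 0 → w ∘ Sum.inl = 0) ∧
          w ∘ Sum.inr ∈ gr deg j (⊤ : Submodule R R) := fun j w => by
    simp only [Reg2A_gr, Sum.forall, Sum.elim_inl, Sum.elim_inr, Function.comp_apply]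
    refine and_congr ⟨fun H hj => funext fun i => H i (by omega), fun H i hi =>
      congrFun (H (by omega)) i⟩ (forall_congr' fun b => ?_)
    push_cast
    simp
  have hneg : ∀ v ∈ gr deg (-1) (⊤ : Submodule R R), v = 0 := fun v hv =>
    funext fun b => Reg2A_gr.1 hv b (by omega)
  refine ⟨A, ⟨?_, ?_, ?_⟩, q ∘ₗ LinearMap.funLeft R R Sum.inl, ?_, ?_, fun j hj hn w hw => ?_⟩
  · rintro (b | b)
    · exact Nat.zero_le _
    · exact Nat.succ_le_succ (h.deg_le b)
  · rintro (b | b) (b' | b') hb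
    · exact absurd rfl hb
    · by_cases h0 : deg b' = 0
      · simp [h0]
      · exact absurd (if_neg h0) hb
    · exact absurd rfl hb
    · simpa using h.P_deg b b' hb
  · have : A * P = 0 := by
      ext i b
      have := congrFun (hAP (deg b) (Pi.single b 1)
        (Reg2A_gr.2 fun b' hb => Pi.single_eq_of_ne (by rintro rfl; exact hb rfl) _)) i
      rw [← LinearMap.comp_apply, ← mact_mul, mact_apply] at this
      simpa [Pi.single_apply] using this
    simp [Matrix.fromBlocks_multiply, this, h.sq]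
  · refine eq_top_iff.2 fun y _ => ?_
    obtain ⟨u, rfl⟩ := hq y
    exact ⟨Sum.elim u 0, (hg (-1) _).2 ⟨fun h => absurd (by norm_num) h, zero_mem _⟩, rfl⟩
  · ext w
    constructor
    · rintro ⟨a, b⟩
      have a' := hneg _ ((hg (-1) w).1 (by rw [neg_add_cancel]; exact a)).2
      obtain ⟨v, hv, e⟩ : (⟨w ∘ Sum.inl, b⟩ : LinearMap.ker q) ∈
          (gr deg 0 (⊤ : Submodule R R)).map ε := hs ▸ trivial
      refine ⟨Sum.elim 0 v, (hg 0 _).2 ⟨fun _ => rfl, hv⟩, ?_⟩
      rw [hm, Sum.elim_comp_inr, hA0 v hv, e, hneg _ (h.mact_mem hv), ← a']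
      exact Sum.elim_comp_inl_inr w
    · rintro ⟨u, hu, rfl⟩
      have hv := ((hg 0 u).1 hu).2
      rw [hm, hA0 _ hv, hneg _ (h.mact_mem hv)]
      exact ⟨(hg (-1) _).2 ⟨fun h => absurd (by norm_num) h, zero_mem _⟩, (ε _).2⟩
  · obtain ⟨j, rfl⟩ : ∃ i, j = i + 1 := ⟨j - 1, by omega⟩
    obtain ⟨a, b⟩ := mem_Zt.1 hw
    obtain ⟨a1, a2⟩ := (hg j w).1 a
    rw [hm] at b
    have b1 : mact A R (w ∘ Sum.inr) = 0 := funext fun i => congrFun b (.inl i)
    have b2 : mact P R (w ∘ Sum.inr) = 0 := funext fun i => congrFun b (.inr i)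
    obtain ⟨v, hv, e⟩ : w ∘ Sum.inr ∈ Bt deg P R j := by
      by_cases hj0 : j = 0
      · subst hj0
        exact h1 (by omega) ⟨a2, Subtype.ext ((hA0 _ a2).symm.trans b1)⟩
      · exact h2 j (by omega) (by omega) ⟨a2, b2⟩
    refine ⟨Sum.elim 0 v, (hg (j + 1) _).2 ⟨fun _ => rfl, hv⟩, ?_⟩
    rw [hm, Sum.elim_comp_inr, hA1 (j + 1) (by omega) v hv, e, ← a1 (by omega)]
    exact Sum.elim_comp_inl_inr w

/-- splicing a resolution of the kernel of `Rʳ → N`. -/
theorem PRes.splice {ι : Type} [Fintype ι] {d : ℕ} {n : ℤ} {deg : ι → ℕ} {P : Matrix ι ι R}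
    {N : Type} [AddCommGroup N] [Module R N] {r : ℕ} (q : (Fin r → R) →ₗ[R] N)
    (hq : Function.Surjective q) (h : PRes d n deg P (LinearMap.ker q)) :
    ∃ A : Matrix (Fin r) ι R,
      PRes (d + 1) (n + 1) (Sum.elim (fun _ => 0) fun b => deg b + 1)
        (Matrix.fromBlocks 0 A 0 P) N := by
  obtain ⟨h, ε, h2⟩ := h
  exact Reg2A_splice q hq h ε h2.surj (h2.ker ▸ inf_le_right) n (fun _ => h2.ker.le) h2.ex

/-- partial resolutions exist over Noetherian rings. -/
theorem exists_pres [IsNoetherianRing R] (n : ℕ) (N : Type) [AddCommGroup N] [Module R N]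
    [Module.Finite R N] : ∃ (ι : Type) (_ : Fintype ι) (_ : DecidableEq ι) (deg : ι → ℕ)
      (P : Matrix ι ι R), PRes (n + 1) (n + 1 : ℕ) deg P N := by
  induction n generalizing N with
  | zero =>
    obtain ⟨r, q, hq⟩ := Module.Finite.exists_fin' R N
    obtain ⟨s, ε, hε⟩ := Module.Finite.exists_fin' R (LinearMap.ker q)
    have hg : gr (fun _ : Fin s => 0) 0 (⊤ : Submodule R R) = ⊤ :=
      eq_top_iff.2 fun v _ => Reg2A_gr.2 fun b hb => absurd rfl hb
    obtain ⟨A, hA⟩ := Reg2A_splice (d := 0) (deg := fun _ => 0) (P := 0) q hq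
      ⟨fun _ => le_rfl, fun _ _ h => absurd rfl h, by simp⟩ ε
      (by rw [hg, Submodule.map_top, LinearMap.range_eq_top.2 hε])
      (by
        rintro _ ⟨v, -, rfl⟩
        have : mact (0 : Matrix (Fin s) (Fin s) R) R v = 0 := funext fun b => by simp [mact_apply]
        rw [this]
        exact zero_mem _) 0 (fun h => absurd h (lt_irrefl _)) (fun j a b => by omega)
    exact ⟨_, inferInstance, inferInstance, _, _, hA⟩
  | succ n ih =>
    obtain ⟨r, q, hq⟩ := Module.Finite.exists_fin' R N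
    obtain ⟨ι, _, _, deg, P, h⟩ := ih (LinearMap.ker q)
    obtain ⟨A, hA⟩ := h.splice q hq
    exact ⟨_, inferInstance, inferInstance, _, _, by exact_mod_cast hA⟩

end Crest.Agent.R188
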