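import Crest.Agent.R188.CoreE0
import Crest.Agent.R188.RegL1

/-! Row 188: `CoreE`. -/

set_option autoImplicit false

namespace Crest.Agent.R188

open IsLocalRing

section
variable {T : Type} [CommRing T]

theorem estarP_of_regular [IsRegularLocalRing T] {d : ℕ} (hd : ringKrullDim T = d) (hc : Consts T) :
    EstarP T d :=
  have := rl_domain hd
  estarP_of_dep hd (reg_dep hd) (rl_glDim hd) hc

end

theorem coreE : CoreE := fun p _ k _ _ _ d G T _ _ π h => by
  have h1 := h.reg
  have := estarP_of_regular (T := T) h.dim (consts_of_witt π)
  convert this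

end Crest.Agent.R188
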