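import Crest.Agent.R188.Defs

/-! Row 188, Part I: multi-Rees systems ("blow-ups"), charts, families of submodules ("sheaves"),
complexes of families, the relation `Gam`, flags. -/

set_option autoImplicit false

namespace Crest.Agent.R188

open Filter
open Crest.Agent.R183 (Zc Bd mact gr Htpy)

/-- finitely many blocks of nonzero elements of a field. -/
structure Sys (K σ : Type) [Field K] where
  gens : σ → Finset K
  ne : ∀ j, (gens j).Nonempty
  nz : ∀ j, (0 : K) ∉ gens j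

/-- unit vectors. -/
abbrev ee {σ : Type} [DecidableEq σ] (j : σ) : σ → ℤ := Pi.single j 1

/-- extension of an exponent to a new block. -/
def ext {σ : Type} (γ : σ → ℤ) (c : ℤ) : Option σ → ℤ := fun o => o.elim c γ

namespace Sys
variable (T : Type) [CommRing T] {K σ : Type} [Field K] [Algebra T K] [Fintype σ] [DecidableEq σ]

/-- the fractional ideal of a block. -/
def I (S : Sys K σ) (j : σ) : Submodule T K := Submodule.span T (S.gens j : Set K)

/-- `I ^ k`. -/
noncomputable def L (S : Sys K σ) (k : σ → ℤ) : Submodule T K := ∏ j, S.I T j ^ (k j).toNat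

/-- charts: a choice of a generator in each block. -/
abbrev Chart (S : Sys K σ) : Type := ∀ j, ↥(S.gens j)

/-- the local generator of `I ^ γ` on a chart. -/
noncomputable def a (S : Sys K σ) (χ : S.Chart) (γ : σ → ℤ) : K := ∏ j, ((χ j : K)) ^ γ j

/-- the coordinate ring of a chart. -/
def O (S : Sys K σ) (χ : S.Chart) : Subalgebra T K :=
  Algebra.adjoin T {x | ∃ j, ∃ g ∈ S.gens j, x = g / (χ j : K)}

variable {T} in
/-- the points of a chart over `V(𝔶)` minus the maximal ideals. -/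
def U (S : Sys K σ) (𝔶 : Ideal T) (χ : S.Chart) : Set (PrimeSpectrum (S.O T χ)) :=
  {𝔓 | 𝔶 ≤ 𝔓.asIdeal.comap (algebraMap T (S.O T χ)) ∧
    ¬ (𝔓.asIdeal.comap (algebraMap T (S.O T χ))).IsMaximal}

variable {T} in
/-- `s ∈ K` is a function on the chart which does not vanish at `𝔓`. -/
def Nv (S : Sys K σ) (χ : S.Chart) (𝔓 : PrimeSpectrum (S.O T χ)) (s : K) : Prop :=
  ∃ h : s ∈ S.O T χ, (⟨s, h⟩ : S.O T χ) ∉ 𝔓.asIdeal

/-- a new block. -/
def add (S : Sys K σ) (G : Finset K) (h1 : G.Nonempty) (h2 : (0 : K) ∉ G) : Sys K (Option σ) where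
  gens o := o.elim G S.gens
  ne o := by cases o; exacts [h1, S.ne _]
  nz o := by cases o; exacts [h2, S.nz _]

open Classical in
/-- extension of the field together with the block `1, u₁, …, u_r` (product with `ℙ^r`). -/
noncomputable def prod (S : Sys K σ) {K' : Type} [Field K'] [Algebra K K'] {r : ℕ} (u : Fin r → K')
    (hu : AlgebraicIndependent K u) : Sys K' (Option σ) where
  gens o := o.elim (insert 1 (Finset.univ.image u)) fun j => (S.gens j).image (algebraMap K K')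
  ne o := by
    cases o
    · exact Finset.insert_nonempty _ _
    · exact (S.ne _).image _
  nz o := by
    cases o with
    | none =>
      intro h
      rcases Finset.mem_insert.1 h with h | h
      · exact zero_ne_one h
      · obtain ⟨i, -, hi⟩ := Finset.mem_image.1 h
        exact hu.ne_zero i hi
    | some j =>
      intro h
      obtain ⟨g, hg, h0⟩ := Finset.mem_image.1 h
      exact S.nz j ((map_eq_zero_iff _ (algebraMap K K').injective).1 h0 ▸ hg)

variable {V : Type} [AddCommGroup V] [Module K V] [Module T V] [IsScalarTower T K V]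

variable {T} in
/-- finitely generated multigraded modules, up to finitely many degrees. -/
def Stable (S : Sys K σ) (M : (σ → ℤ) → Submodule T V) : Prop :=
  ∀ᶠ k in atTop, (M k).FG ∧ ∀ j, M (k + ee j) = S.I T j • M k

variable {T} in
/-- sections over a chart. -/
def loc (S : Sys K σ) (χ : S.Chart) (M : (σ → ℤ) → Submodule T V) : Submodule T V where
  carrier := {x | ∀ᶠ k in atTop, S.a χ k • x ∈ M k}
  add_mem' hx hy := (hx.and hy).mono fun k h => by rw [smul_add]; exact add_mem h.1 h.2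
  zero_mem' := Eventually.of_forall fun k => by simp
  smul_mem' c x hx := hx.mono fun k h => by
    rw [smul_comm]; exact (M k).smul_mem c h

/-- the sections `x ∈ I ^ δ` have no common zero over `U`. -/
def AdmL (S : Sys K σ) (𝔶 : Ideal T) (Ls : List (K × (σ → ℤ))) : Prop :=
  ∀ χ, ∀ 𝔓 ∈ S.U 𝔶 χ, ∃ p ∈ Ls, S.Nv χ 𝔓 (p.1 / S.a χ p.2)

/-- a list of sections. -/
def Sec (S : Sys K σ) (Ls : List (K × (σ → ℤ))) : Prop :=
  ∀ p ∈ Ls, 0 ≤ p.2 ∧ p.1 ∈ S.L T p.2

end Sys

/-- complexes of families of `T`-submodules of a `K`-vector space. -/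
structure FCx (T K σ : Type) [CommRing T] [Field K] [Algebra T K] where
  V : Type
  [acg : AddCommGroup V]
  [mK : Module K V]
  [mT : Module T V]
  [tw : IsScalarTower T K V]
  D : V →ₗ[K] V
  G : (σ → ℤ) → ℤ → Submodule T V

attribute [instance] FCx.acg FCx.mK FCx.mT FCx.tw

namespace FCx
variable {T K σ : Type} [CommRing T] [Field K] [Algebra T K] [Fintype σ] [DecidableEq σ]

/-- well formed complexes. -/
structure WF (S : Sys K σ) (C : FCx T K σ) : Prop where
  dd : ∀ x, C.D (C.D x) = 0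
  bdd : ∃ lo hi : ℤ, ∀ k i, i < lo ∨ hi < i → C.G k i = ⊥
  stable : ∀ i, S.Stable fun k => C.G k i
  sub : ∀ᶠ k in atTop, ∀ i, (C.G k i).map (C.D.restrictScalars T) ≤ C.G k (i - 1)

/-- Euler characteristic in degree `k`. -/
noncomputable def P (ν : AddFn T) (C : FCx T K σ) (k : σ → ℤ) : ℝ :=
  ν.chi (C.D.restrictScalars T) (C.G k) ⊥

/-- good homology in large degrees. -/
def Gd (ν : AddFn T) (C : FCx T K σ) : Prop :=
  ∀ᶠ k in atTop, ν.gd (C.D.restrictScalars T) (C.G k) ⊥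

/-- twist by `-δ` and shift. -/
def sh (C : FCx T K σ) (δ : σ → ℤ) : FCx T K σ where
  V := C.V
  D := -C.D
  G k i := C.G (k - δ) (i - 1)

/-- cone of a section `x` of type `δ`. -/
def cone (C : FCx T K σ) (x : K) (δ : σ → ℤ) : FCx T K σ where
  V := C.V × C.V
  D := ((C.D ∘ₗ LinearMap.fst K C.V C.V) + x • LinearMap.snd K C.V C.V).prod
    (-(C.D ∘ₗ LinearMap.snd K C.V C.V))
  G k i := (C.G k i).prod (C.G (k - δ) (i - 1))

/-- Koszul complexes. -/
def kos (C : FCx T K σ) : List (K × (σ → ℤ)) → FCx T K σ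
  | [] => C
  | p :: Ls => (kos C Ls).cone p.1 p.2

/-- short exact sequences in large degrees. -/
def SES (A B C : FCx T K σ) : Prop :=
  ∃ (i : A.V →ₗ[K] B.V) (q : B.V →ₗ[K] C.V), Function.Injective i ∧ i ∘ₗ A.D = B.D ∘ₗ i ∧
    q ∘ₗ B.D = C.D ∘ₗ q ∧ ∀ᶠ k in atTop, ∀ n,
      (A.G k n).map (i.restrictScalars T) = B.G k n ⊓ LinearMap.ker (q.restrictScalars T) ∧
      (B.G k n).map (q.restrictScalars T) = C.G k n

/-- isomorphisms in large degrees. -/
def Iso (A B : FCx T K σ) : Prop :=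
  ∃ i : A.V →ₗ[K] B.V, Function.Injective i ∧ i ∘ₗ A.D = B.D ∘ₗ i ∧
    ∀ᶠ k in atTop, ∀ n, (A.G k n).map (i.restrictScalars T) = B.G k n

/-- `s` is null-homotopic on the chart `χ`. -/
def NH (S : Sys K σ) (C : FCx T K σ) (χ : S.Chart) (s : K) : Prop :=
  ∃ h : C.V →ₗ[K] C.V, (∀ x, C.D (h x) + h (C.D x) = s • x) ∧
    ∀ i, ∀ x ∈ S.loc χ (fun k => C.G k i), h x ∈ S.loc χ (fun k => C.G k (i + 1))

/-- exact over `U`. -/
def Adm (S : Sys K σ) (𝔶 : Ideal T) (C : FCx T K σ) : Prop :=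
  ∀ χ, ∀ 𝔓 ∈ S.U 𝔶 χ, ∃ s, S.Nv χ 𝔓 s ∧ C.NH S χ s

/-- the section `w` of type `δ` is globally null-homotopic. -/
def GNH (C : FCx T K σ) (w : K) (δ : σ → ℤ) : Prop :=
  ∃ h : C.V →ₗ[K] C.V, (∀ x, C.D (h x) + h (C.D x) = w • x) ∧
    ∀ᶠ k in atTop, ∀ i, (C.G (k - δ) i).map (h.restrictScalars T) ≤ C.G k (i + 1)

end FCx

section
variable (T : Type) [CommRing T] {K σ : Type} [Field K] [Algebra T K] [Fintype σ] [DecidableEq σ]

/-- the line bundle `I ^ γ` in degree zero. -/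
noncomputable def Sys.line (S : Sys K σ) (γ : σ → ℤ) : FCx T K σ where
  V := K
  D := 0
  G k i := if i = 0 then S.L T (k + γ) else ⊥

/-- the two term complex `I ^ γ ⊆ I ^ γ'`. -/
noncomputable def Sys.two (S : Sys K σ) (γ γ' : σ → ℤ) : FCx T K σ where
  V := K × K
  D := (LinearMap.snd K K K).prod 0
  G k i := if i = 0 then (S.L T (k + γ')).prod ⊥ else if i = 1 then (⊥ : Submodule T K).prod (S.L T (k + γ))
    else ⊥

/-- the group ring of the exponents. -/
abbrev GR (σ : Type) : Type := AddMonoidAlgebra ℝ (σ → ℤ)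

/-- shift operators. -/
noncomputable abbrev TT {σ : Type} (γ : σ → ℤ) : GR σ := AddMonoidAlgebra.single γ 1

/-- action of the group ring on functions. -/
noncomputable def act {σ : Type} (ξ : GR σ) (f : (σ → ℤ) → ℝ) : (σ → ℤ) → ℝ :=
  fun k => ξ.coeff.sum fun γ c => c * f (k + γ)

/-- the augmentation ideal. -/
noncomputable def aug (σ : Type) : Ideal (GR σ) := Ideal.span (Set.range fun γ : σ → ℤ => TT γ - 1)

/-- the Euler class of a list of types. -/
noncomputable def eul {K σ : Type} (Ls : List (K × (σ → ℤ))) : GR σ :=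
  (Ls.map fun p => 1 - TT (-p.2)).prod

variable {T} in
/-- the graph of the functional `Λ` on the `e`-th power of the augmentation ideal. -/
noncomputable def Gam (S : Sys K σ) (𝔶 : Ideal T) (ν : AddFn T) (e : ℕ) :
    Submodule ℝ (GR σ × ((σ → ℤ) → ℝ)) :=
  Submodule.span ℝ ({p | p.1 = 0 ∧ p.2 =ᶠ[atTop] 0} ∪
    {p | ∃ (γ : σ → ℤ) (Ls : List (K × (σ → ℤ))), e ≤ Ls.length ∧ S.Sec T Ls ∧ S.AdmL T 𝔶 Ls ∧
      p = (TT γ * eul Ls, act (TT γ) (((S.line T 0).kos Ls).P ν))})

/-- the standing hypotheses of Part I. -/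
structure Ctx (S : Sys K σ) (𝔶 : Ideal T) (ν : AddFn T) (n : ℕ) : Prop where
  noeth : IsNoetherianRing T
  consts : Consts T
  good : ∀ (N : Type) [AddCommGroup N] [Module T N], ν.good N ↔ InPhi 𝔶 N
  small : ∀ χ, Small n (S.U 𝔶 χ)

/-- partial flags of line bundles `I ^ γ i · u i` in the free module on `s`. -/
structure PFlag (S : Sys K σ) {ι M : Type} [Fintype ι] (s : Set ι) (u : M → ι → K) (wt : M → ℕ)
    (γ : M → σ → ℤ) (A : Set M) : Prop where
  supp : ∀ i ∈ A, ∀ b, u i b ≠ 0 → b ∈ s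
  f : ∀ χ, ∀ i ∈ A, ∃ f : ι → K, (∀ b, f b ∈ S.O T χ) ∧
    f - S.a χ (γ i) • u i ∈ Submodule.span K (u '' {i' | i' ∈ A ∧ wt i' < wt i})
  g : ∀ χ, ∀ i ∈ A, ∃ g : ι → K, (∀ b, g b ∈ S.O T χ) ∧
    (∀ i' ∈ A, i' ≠ i → wt i' ≤ wt i → g ⬝ᵥ u i' = 0) ∧ S.a χ (γ i) * (g ⬝ᵥ u i) = 1

/-- full flags. -/
structure Flag (S : Sys K σ) {ι M : Type} [Fintype ι] (u : M → ι → K) (wt : M → ℕ)
    (γ : M → σ → ℤ) : Prop where
  pf : PFlag T S Set.univ u wt γ Set.univ
  span : Submodule.span K (Set.range u) = ⊤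

/-- the basis `v π, d (v π)`. -/
noncomputable def pairU (F : FC T) {W : ℕ} (v : Fin W → F.ι → K) (i : Fin W × Bool) : F.ι → K :=
  if i.2 then v i.1 else (F.d.map (algebraMap T K)).mulVec (v i.1)

/-- a filtration of `F` by two term complexes of line bundles which are exact over `U`. -/
structure FlagCx (𝔶 : Ideal T) (F : FC T) (S : Sys K σ) (W : ℕ) (v : Fin W → F.ι → K)
    (jd : Fin W → ℕ) (γ : Fin W × Bool → σ → ℤ) : Prop where
  hom : ∀ π b, v π b ≠ 0 → F.deg b = jd π + 1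
  flag : Flag T S (pairU T F v) (fun i => i.1.val) γ
  incl : ∀ χ π, S.a χ (γ (π, true) - γ (π, false)) ∈ S.O T χ
  unit : ∀ χ π, ∀ 𝔓 ∈ S.U 𝔶 χ, S.Nv χ 𝔓 (S.a χ (γ (π, true) - γ (π, false)))

end

end Crest.Agent.R188
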