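import Crest.Agent.R188.GonA

/-! Row 188, part IV: Serre's theorem for power series rings over a field. -/

set_option autoImplicit false

namespace Crest.Agent.R188

open Crest.Agent.R183 IsLocalRing
open scoped TensorProduct

section Aux
open MvPowerSeries
variable {A σ : Type} [CommRing A]

theorem Ser2A_coeff_zero (n : ℕ) : ∀ f ∈ Ideal.span (Set.range (X : σ → MvPowerSeries σ A)) ^ n,
    ∀ e : σ →₀ ℕ, e.degree < n → coeff e f = 0 := by
  classical
  induction n with
  | zero => exact fun _ _ _ h => absurd h (Nat.not_lt_zero _)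
  | succ n ih =>
    intro f hf e he
    rw [pow_succ'] at hf
    refine Submodule.mul_induction_on hf (fun r hr g hg => ?_) fun x y hx hy => by
      rw [map_add, hx, hy, add_zero]
    have h0 : constantCoeff r = 0 := by
      refine (Ideal.span_le (I := RingHom.ker (constantCoeff (σ := σ) (R := A)))).2 ?_ hr
      rintro _ ⟨j, rfl⟩
      exact constantCoeff_X j
    rw [coeff_mul]
    refine Finset.sum_eq_zero fun p hp => ?_
    by_cases h1 : p.1 = 0
    · rw [h1, coeff_zero_eq_constantCoeff_apply, h0, zero_mul]
    · have h2 : p.1.degree + p.2.degree = e.degree := by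
        rw [← map_add, Finset.HasAntidiagonal.mem_antidiagonal.1 hp]
      have h3 : p.1.degree ≠ 0 := fun h => h1 ((Finsupp.degree_eq_zero_iff _).1 h)
      rw [ih g hg p.2 (by omega), mul_zero]

theorem Ser2A_mem [Finite σ] (n : ℕ) : ∀ f : MvPowerSeries σ A,
    (∀ e : σ →₀ ℕ, e.degree < n → coeff e f = 0) →
      f ∈ Ideal.span (Set.range (X : σ → MvPowerSeries σ A)) ^ n := by
  classical
  have := Fintype.ofFinite σ
  induction n with
  | zero => exact fun f _ => by rw [pow_zero, Ideal.one_eq_top]; exact Submodule.mem_top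
  | succ n ih =>
    have key : ∀ (s : Finset σ) (f : MvPowerSeries σ A),
        (∀ e : σ →₀ ℕ, e.degree < n + 1 → coeff e f = 0) →
        (∀ e : σ →₀ ℕ, (∀ j ∈ s, e j = 0) → coeff e f = 0) →
        f ∈ Ideal.span (Set.range (X : σ → MvPowerSeries σ A)) ^ (n + 1) := by
      intro s
      induction s using Finset.induction_on with
      | empty =>
        intro f _ hf
        have : f = 0 := MvPowerSeries.ext fun α => by simpa using hf α (by simp)
        rw [this]
        exact zero_mem _
      | insert j s _ ihs =>
        intro f h1 hf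
        let g : MvPowerSeries σ A := fun α => if α j = 0 then coeff α f else 0
        have hg : ∀ α, coeff α g = if α j = 0 then coeff α f else 0 := fun α => rfl
        have h2 : g ∈ Ideal.span (Set.range (X : σ → MvPowerSeries σ A)) ^ (n + 1) := by
          refine ihs g (fun α hα => by rw [hg, h1 α hα, ite_self]) fun α hα => ?_
          rw [hg]
          split_ifs with h
          · refine hf α fun i hi => ?_
            rcases Finset.mem_insert.1 hi with rfl | hi
            exacts [h, hα i hi]
          · rfl
        obtain ⟨u, hu⟩ : (X j : MvPowerSeries σ A) ∣ f - g := by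
          rw [X_dvd_iff]
          intro α hα
          rw [map_sub, hg, if_pos hα, sub_self]
        have h3 : u ∈ Ideal.span (Set.range (X : σ → MvPowerSeries σ A)) ^ n := by
          refine ih u fun α hα => ?_
          have h4 : (Finsupp.single j 1 + α).degree < n + 1 := by
            rw [map_add, Finsupp.degree_single]
            omega
          have h5 := congrArg (coeff (Finsupp.single j 1 + α)) hu
          rw [map_sub, hg, h1 _ h4, ite_self, sub_zero, X_def, coeff_add_monomial_mul, one_mul] at h5
          exact h5.symm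
        rw [← sub_add_cancel f g, hu]
        refine add_mem ?_ h2
        rw [pow_succ']
        exact Ideal.mul_mem_mul (Ideal.subset_span ⟨j, rfl⟩) h3
    intro f hf
    refine key Finset.univ f hf fun e he => hf e ?_
    have : e = 0 := Finsupp.ext fun j => he j (Finset.mem_univ j)
    rw [this, map_zero]
    exact Nat.succ_pos n

theorem Ser2A_trunc [Finite σ] (n : ℕ) (s : Finset (σ →₀ ℕ)) (hs : ∀ e, e ∈ s ↔ e.degree < n)
    (f : MvPowerSeries σ A) : f - ∑ e ∈ s, monomial e (coeff e f) ∈
      Ideal.span (Set.range (X : σ → MvPowerSeries σ A)) ^ n := by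
  classical
  refine Ser2A_mem n _ fun e he => ?_
  rw [map_sub, map_sum, Finset.sum_eq_single e, coeff_monomial_same, sub_self]
  · exact fun b _ hb => coeff_monomial_ne hb.symm _
  · exact fun h => absurd ((hs e).2 he) h

end Aux

/-- extension of coefficients along a flat map from a Noetherian ring is flat on power series. -/
theorem flat_ps_map {O D σ : Type} [CommRing O] [IsNoetherianRing O] [CommRing D] [IsLocalRing D]
    [IsNoetherianRing D] [Algebra O D] [Module.Flat O D] [Finite σ] :
    letI : Algebra (MvPowerSeries σ O) (MvPowerSeries σ D) :=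
      (MvPowerSeries.map (algebraMap O D)).toAlgebra
    Module.Flat (MvPowerSeries σ O) (MvPowerSeries σ D) := by
  let _ : Algebra (MvPowerSeries σ O) (MvPowerSeries σ D) :=
    (MvPowerSeries.map (algebraMap O D)).toAlgebra
  have ham : algebraMap (MvPowerSeries σ O) (MvPowerSeries σ D) =
    MvPowerSeries.map (algebraMap O D) := rfl
  have : IsScalarTower O (MvPowerSeries σ O) (MvPowerSeries σ D) :=
    IsScalarTower.of_algebraMap_eq fun c => by
      rw [ham, MvPowerSeries.algebraMap_apply, MvPowerSeries.algebraMap_apply, MvPowerSeries.map_C]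
      rfl
  have hI : (Ideal.span (Set.range (MvPowerSeries.X : σ → MvPowerSeries σ O))).map
      (algebraMap (MvPowerSeries σ O) (MvPowerSeries σ D)) =
      Ideal.span (Set.range (MvPowerSeries.X : σ → MvPowerSeries σ D)) := by
    rw [Ideal.map_span, ← Set.range_comp, ham]
    congr 2
    funext j
    exact MvPowerSeries.map_X _ j
  let ψ : MvPowerSeries σ O ⊗[O] D →ₗ[MvPowerSeries σ O] MvPowerSeries σ D :=
    LinearMap.liftBaseChange (MvPowerSeries σ O)
      ((MvPowerSeries.monomial (0 : σ →₀ ℕ) : D →ₗ[D] MvPowerSeries σ D).restrictScalars O)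
  have hψ : ∀ r d, ψ (r ⊗ₜ d) = MvPowerSeries.map (algebraMap O D) r * MvPowerSeries.C d :=
    fun r d => LinearMap.liftBaseChange_tmul _ _ _ _
  have hψ' : ∀ e d, ψ (MvPowerSeries.monomial e 1 ⊗ₜ d) = MvPowerSeries.monomial e d := fun e d => by
    rw [hψ, MvPowerSeries.map_monomial, map_one, ← MvPowerSeries.monomial_zero_eq_C_apply,
      MvPowerSeries.monomial_mul_monomial, add_zero, one_mul]
  have hfin : ∀ n : ℕ, ∃ s : Finset (σ →₀ ℕ), ∀ e, e ∈ s ↔ e.degree < n := fun n =>
    ⟨(Finsupp.finite_of_degree_lt n).toFinset, fun e => by simp⟩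
  refine flat_of_trunc (Ideal.span (Set.range MvPowerSeries.X)) ?_ ψ (fun n t => ?_) fun n x hx => ?_
  · rw [hI, Ideal.span_le]
    rintro _ ⟨j, rfl⟩ h
    have := MvPowerSeries.isUnit_constantCoeff _ h
    rw [MvPowerSeries.constantCoeff_X] at this
    exact not_isUnit_zero this
  · obtain ⟨s, hs⟩ := hfin n
    refine ⟨∑ e ∈ s, MvPowerSeries.monomial e 1 ⊗ₜ MvPowerSeries.coeff e t, ?_⟩
    rw [Ideal.map_pow, hI, map_sum]
    simp only [hψ']
    exact Ser2A_trunc n s hs t
  · obtain ⟨s, hs⟩ := hfin n
    have key : ∀ y : MvPowerSeries σ O ⊗[O] D,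
        y - ∑ e ∈ s, MvPowerSeries.monomial e 1 ⊗ₜ MvPowerSeries.coeff e (ψ y) ∈
          (Ideal.span (Set.range (MvPowerSeries.X : σ → MvPowerSeries σ O)) ^ n • ⊤ :
            Submodule (MvPowerSeries σ O) (MvPowerSeries σ O ⊗[O] D)) := by
      intro y
      induction y using TensorProduct.induction_on with
      | zero => simp
      | tmul r d =>
        have e1 : ∀ e : σ →₀ ℕ, (MvPowerSeries.monomial e (1 : O)) ⊗ₜ[O]
            MvPowerSeries.coeff e (ψ (r ⊗ₜ d)) =
            MvPowerSeries.monomial e (MvPowerSeries.coeff e r) ⊗ₜ[O] d := fun e => by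
          rw [hψ, MvPowerSeries.coeff_mul_C, MvPowerSeries.coeff_map, ← Algebra.smul_def,
            ← TensorProduct.smul_tmul, ← map_smul, smul_eq_mul, mul_one]
        simp only [e1]
        rw [← TensorProduct.sum_tmul, ← TensorProduct.sub_tmul, ← mul_one (r - _), ← smul_eq_mul,
          ← TensorProduct.smul_tmul']
        exact Submodule.smul_mem_smul (Ser2A_trunc n s hs r) Submodule.mem_top
      | add y z hy hz =>
        simp only [map_add, TensorProduct.tmul_add, Finset.sum_add_distrib]
        rw [add_sub_add_comm]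
        exact add_mem hy hz
    have h := key x
    rw [Ideal.map_pow, hI] at hx
    rwa [Finset.sum_eq_zero fun e he => by
      rw [Ser2A_coeff_zero n _ hx e ((hs e).1 he), TensorProduct.tmul_zero], sub_zero] at h

end Crest.Agent.R188
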