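import Crest.Agent.R188.Defs

/-!
# R188 / Small

Dimension toolkit.
-/

set_option autoImplicit false
set_option linter.unusedSectionVars false
set_option linter.unusedVariables false

noncomputable section

namespace Crest.Agent.R188

open Filter
open Crest.Agent.R183 (Zc Bd mact gr Htpy)
open scoped TensorProduct

variable {O : Type} [CommRing O] {δ : ℕ} {Z : Set (PrimeSpectrum O)}

theorem small_ht {Q : Type} [CommRing Q] (g : O →+* Q) (hg : Function.Surjective g) {𝔞 : Ideal O}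
    (hk : RingHom.ker g = 𝔞) (𝔭 : PrimeSpectrum O) (h : 𝔞 ≤ 𝔭.asIdeal) :
    (𝔭.asIdeal.map g).height = Order.height (⟨𝔭, h⟩ : PrimeSpectrum.zeroLocus (R := O) 𝔞) := by
  rw [← Order.height_orderIso (Ideal.primeSpectrumOrderIsoZeroLocusOfSurj g hg hk).symm,
    ← PrimeSpectrum.height_eq_orderHeight]
  rfl

theorem Small.mono (h : Small δ Z) {δ' : ℕ} {Z' : Set (PrimeSpectrum O)} (h1 : δ ≤ δ')
    (h2 : Z' ⊆ Z) : Small δ' Z' := by
  obtain ⟨A, hA⟩ := h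
  refine ⟨A, fun 𝔭 h𝔭 => ?_⟩
  obtain ⟨𝔞, h3, h4, h5⟩ := hA 𝔭 (h2 h𝔭)
  exact ⟨𝔞, h3, h4, h5.trans_le (by exact_mod_cast h1)⟩

theorem Small.union (h : Small δ Z) {Z' : Set (PrimeSpectrum O)} (h' : Small δ Z') :
    Small δ (Z ∪ Z') := by
  classical
  obtain ⟨A, hA⟩ := h
  obtain ⟨A', hA'⟩ := h'
  refine ⟨A ∪ A', fun 𝔭 h𝔭 => ?_⟩
  rcases h𝔭 with h𝔭 | h𝔭
  · obtain ⟨𝔞, h3, h4⟩ := hA 𝔭 h𝔭
    exact ⟨𝔞, Finset.mem_union_left _ h3, h4⟩
  · obtain ⟨𝔞, h3, h4⟩ := hA' 𝔭 h𝔭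
    exact ⟨𝔞, Finset.mem_union_right _ h3, h4⟩

theorem small_zero_iff : Small 0 Z ↔ Z = ∅ := by
  constructor
  · rintro ⟨A, hA⟩
    refine Set.eq_empty_of_forall_notMem fun 𝔭 h𝔭 => ?_
    obtain ⟨𝔞, -, -, h⟩ := hA 𝔭 h𝔭
    simp at h
  · rintro rfl
    exact ⟨∅, fun _ h => h.elim⟩

theorem small_empty : Small δ (∅ : Set (PrimeSpectrum O)) := by
  exact ⟨∅, fun _ h => h.elim⟩

theorem small_field {K : Type} [Field K] (Z : Set (PrimeSpectrum K)) : Small 1 Z := by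
  refine ⟨{⊥}, fun 𝔭 _ => ⟨⊥, Finset.mem_singleton_self _, bot_le, ?_⟩⟩
  rw [small_ht _ Ideal.Quotient.mk_surjective Ideal.mk_ker 𝔭 bot_le,
    Order.height_eq_zero.2 fun b _ => (Subsingleton.elim _ _).le]
  simp

/-- hypersurface sections: `P` is the set of minimal primes of the ideals of the cover. -/
theorem Small.cut [IsNoetherianRing O] (h : Small δ Z) :
    ∃ P : Finset (Ideal O), (∀ 𝔰 ∈ P, 𝔰.IsPrime) ∧ ∀ f : O, (∀ 𝔰 ∈ P, f ∉ 𝔰) →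
      Small (δ - 1) {𝔭 ∈ Z | f ∈ 𝔭.asIdeal} := by
  classical
  obtain ⟨A, hA⟩ := h
  refine ⟨A.biUnion fun 𝔞 => (Ideal.finite_minimalPrimes_of_isNoetherianRing O 𝔞).toFinset,
    fun 𝔰 h𝔰 => ?_, fun f hf => ⟨A.image fun 𝔞 => 𝔞 ⊔ Ideal.span {f}, fun 𝔭 h𝔭 => ?_⟩⟩
  · obtain ⟨𝔞, -, h1⟩ := Finset.mem_biUnion.1 h𝔰
    exact ((Set.Finite.mem_toFinset _).1 h1).1.1
  obtain ⟨𝔞, h1, h2, h3⟩ := hA 𝔭 h𝔭.1
  have h4 : 𝔞 ⊔ Ideal.span {f} ≤ 𝔭.asIdeal :=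
    sup_le h2 ((Ideal.span_singleton_le_iff_mem _).2 h𝔭.2)
  refine ⟨_, Finset.mem_image_of_mem _ h1, h4, ?_⟩
  rw [small_ht _ Ideal.Quotient.mk_surjective Ideal.mk_ker 𝔭 h2] at h3
  rw [small_ht _ Ideal.Quotient.mk_surjective Ideal.mk_ker 𝔭 h4]
  have key : ∀ p : LTSeries (PrimeSpectrum.zeroLocus (R := O) (𝔞 ⊔ Ideal.span {f} : Ideal O)),
      p.last = ⟨𝔭, h4⟩ → p.length + 1 < δ := by
    intro p hp
    have h5 : 𝔞 ⊔ Ideal.span {f} ≤ p.head.1.asIdeal := p.head.2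
    obtain ⟨𝔰, h6, h7⟩ := Ideal.exists_minimalPrimes_le (le_sup_left.trans h5)
    have h8 : f ∉ 𝔰 := hf 𝔰 (Finset.mem_biUnion.2 ⟨𝔞, h1, (Set.Finite.mem_toFinset _).2 h6⟩)
    let ι : PrimeSpectrum.zeroLocus (R := O) (𝔞 ⊔ Ideal.span {f} : Ideal O) →
        PrimeSpectrum.zeroLocus (R := O) 𝔞 := fun q =>
      ⟨q.1, (le_sup_left : 𝔞 ≤ 𝔞 ⊔ Ideal.span {f}).trans
        (show 𝔞 ⊔ Ideal.span {f} ≤ q.1.asIdeal from q.2)⟩
    have hι : StrictMono ι := fun _ _ h => h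
    have h9 : (⟨⟨𝔰, h6.1.1⟩, h6.1.2⟩ : PrimeSpectrum.zeroLocus (R := O) 𝔞) < (p.map ι hι).head := by
      refine lt_of_le_not_ge h7 fun h => h8 (h ?_)
      exact (Ideal.span_singleton_le_iff_mem _).1 (le_sup_right.trans h5)
    have h10 := Order.length_le_height (p := (p.map ι hι).cons _ h9) (x := ⟨𝔭, h2⟩)
      (by rw [RelSeries.last_cons, LTSeries.last_map, hp])
    have h11 := h10.trans_lt h3
    rw [RelSeries.cons_length, LTSeries.map_length] at h11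
    exact_mod_cast h11
  have h5 := key (RelSeries.singleton _ _) rfl
  refine lt_of_le_of_lt (Order.height_le (n := (δ - 2 : ℕ)) fun p hp => ?_) ?_
  · have := key p hp
    exact_mod_cast (show p.length ≤ δ - 2 by omega)
  · exact_mod_cast (show δ - 2 < δ - 1 by omega)

/-- fibre dimension (`Ideal.height_le_height_add_of_liesOver` for `O / 𝔞 → O' / (𝔞 O' + 𝔟)`). -/
theorem Small.fibre [IsNoetherianRing O] (h : Small δ Z) {O' : Type} [CommRing O'] [Algebra O O']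
    [IsNoetherianRing O'] (𝔟 : Ideal O') (φ : ℕ) {Z' : Set (PrimeSpectrum O')}
    (hZ : ∀ 𝔓 ∈ Z', 𝔟 ≤ 𝔓.asIdeal ∧ PrimeSpectrum.comap (algebraMap O O') 𝔓 ∈ Z ∧
      (𝔓.asIdeal.map (Ideal.Quotient.mk
        ((𝔓.asIdeal.comap (algebraMap O O')).map (algebraMap O O') ⊔ 𝔟))).height ≤ φ) :
    Small (δ + φ) Z' := by
  classical
  obtain ⟨A, hA⟩ := h
  refine ⟨A.image fun 𝔞 => 𝔞.map (algebraMap O O') ⊔ 𝔟, fun 𝔓 h𝔓 => ?_⟩
  obtain ⟨h1, h2, h3⟩ := hZ 𝔓 h𝔓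
  obtain ⟨𝔞, h4, h5, h6⟩ := hA _ h2
  rw [PrimeSpectrum.comap_asIdeal] at h5 h6
  set 𝔭 := 𝔓.asIdeal.comap (algebraMap O O') with h𝔭
  set 𝔠 := 𝔞.map (algebraMap O O') ⊔ 𝔟 with h𝔠
  have h7 : 𝔠 ≤ 𝔓.asIdeal := sup_le (Ideal.map_le_iff_le_comap.2 h5) h1
  refine ⟨𝔠, Finset.mem_image_of_mem _ h4, h7, ?_⟩
  have h8 : 𝔞 ≤ 𝔠.comap (algebraMap O O') := Ideal.map_le_iff_le_comap.1 le_sup_left
  letI : Algebra (O ⧸ 𝔞) (O' ⧸ 𝔠) := (Ideal.quotientMap 𝔠 (algebraMap O O') h8).toAlgebra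
  have h9 : (algebraMap (O ⧸ 𝔞) (O' ⧸ 𝔠)).comp (Ideal.Quotient.mk 𝔞) =
      (Ideal.Quotient.mk 𝔠).comp (algebraMap O O') := Ideal.quotientMap_comp_mk h8
  haveI : (𝔭.map (Ideal.Quotient.mk 𝔞)).IsPrime :=
    Ideal.map_isPrime_of_surjective Ideal.Quotient.mk_surjective (Ideal.mk_ker.trans_le h5)
  haveI : (𝔓.asIdeal.map (Ideal.Quotient.mk 𝔠)).IsPrime :=
    Ideal.map_isPrime_of_surjective Ideal.Quotient.mk_surjective (Ideal.mk_ker.trans_le h7)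
  haveI : (𝔓.asIdeal.map (Ideal.Quotient.mk 𝔠)).LiesOver (𝔭.map (Ideal.Quotient.mk 𝔞)) := by
    refine ⟨Ideal.comap_injective_of_surjective _ Ideal.Quotient.mk_surjective ?_⟩
    rw [Ideal.under_def, Ideal.comap_comap, h9, ← Ideal.comap_comap, Ideal.comap_map_mk h5,
      Ideal.comap_map_mk h7]
  have h10 := Ideal.height_le_height_add_of_liesOver (𝔭.map (Ideal.Quotient.mk 𝔞))
    (𝔓.asIdeal.map (Ideal.Quotient.mk 𝔠))
  have h11 : 𝔭.map (algebraMap O O') ⊔ 𝔟 ≤ 𝔓.asIdeal := sup_le Ideal.map_comap_le h1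
  have h12 : RingHom.ker ((Ideal.Quotient.mk ((𝔭.map (Ideal.Quotient.mk 𝔞)).map
      (algebraMap (O ⧸ 𝔞) (O' ⧸ 𝔠)))).comp (Ideal.Quotient.mk 𝔠)) =
      𝔭.map (algebraMap O O') ⊔ 𝔟 := by
    rw [← RingHom.comap_ker, Ideal.mk_ker, Ideal.map_map, h9, ← Ideal.map_map,
      Ideal.comap_map_of_surjective _ Ideal.Quotient.mk_surjective, ← RingHom.ker_eq_comap_bot,
      Ideal.mk_ker, h𝔠, ← sup_assoc,
      (sup_eq_left.2 (Ideal.map_mono h5) : 𝔭.map (algebraMap O O') ⊔ _ = _)]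
  rw [Ideal.map_map (I := 𝔓.asIdeal), small_ht (RingHom.comp _ _)
    (Ideal.Quotient.mk_surjective.comp Ideal.Quotient.mk_surjective) h12 𝔓 h11] at h10
  rw [small_ht _ Ideal.Quotient.mk_surjective Ideal.mk_ker 𝔓 h11] at h3
  refine h10.trans_lt ?_
  push_cast
  exact WithTop.add_lt_add_of_lt_of_le (ne_top_of_le_ne_top (ENat.natCast_ne_top φ) h3) h6 h3

/-- the fibre through `𝔓` is generated over the residue field by `φ` elements, so it is a quotient of a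
polynomial ring in `φ` variables.  Here `ρ` generates `O'` and modulo `𝔭 O' + 𝔟`, after inverting the
elements of `O ∖ 𝔭`, each `ρ i` is a combination of `1` and the `y j`. -/
theorem fibre_height_le {O' : Type} [CommRing O'] [Algebra O O'] (𝔟 : Ideal O') {κ : Type}
    (ρ : κ → O') (hρ : Algebra.adjoin O (Set.range ρ) = ⊤) (𝔓 : Ideal O') [𝔓.IsPrime] (hb : 𝔟 ≤ 𝔓)
    {φ : ℕ} (y : Fin φ → O')
    (hy : ∀ i, ∃ s : O, s ∉ 𝔓.comap (algebraMap O O') ∧ ∃ (c₀ : O) (c : Fin φ → O),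
      s • ρ i - (algebraMap O O' c₀ + ∑ j, c j • y j) ∈
        (𝔓.comap (algebraMap O O')).map (algebraMap O O') ⊔ 𝔟) :
    (𝔓.map (Ideal.Quotient.mk ((𝔓.comap (algebraMap O O')).map (algebraMap O O') ⊔ 𝔟))).height ≤ φ := by
  set 𝔭 := 𝔓.comap (algebraMap O O') with h𝔭
  set 𝔠 := 𝔭.map (algebraMap O O') ⊔ 𝔟 with h𝔠
  have hp : 𝔭.IsPrime := inferInstance
  have h1 : 𝔠 ≤ 𝔓 := sup_le Ideal.map_comap_le hb
  let ψ : MvPolynomial (Fin φ) O →ₐ[O] O' := MvPolynomial.aeval y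
  have key : ∀ x : O', ∃ s : O, s ∉ 𝔭 ∧ ∃ F, algebraMap O O' s * x - ψ F ∈ 𝔠 := by
    intro x
    have hx : x ∈ Algebra.adjoin O (Set.range ρ) := hρ ▸ Algebra.mem_top
    induction hx using Algebra.adjoin_induction with
    | mem x hx =>
      obtain ⟨i, rfl⟩ := hx
      obtain ⟨s, hs, c₀, c, h⟩ := hy i
      refine ⟨s, hs, MvPolynomial.C c₀ + ∑ j, c j • MvPolynomial.X j, ?_⟩
      simpa [ψ, Algebra.smul_def] using h
    | algebraMap r => exact ⟨1, hp.one_notMem, MvPolynomial.C r, by simp [ψ]⟩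
    | add x x' _ _ h h' =>
      obtain ⟨s, hs, F, h⟩ := h
      obtain ⟨s', hs', F', h'⟩ := h'
      refine ⟨s * s', hp.mul_notMem hs hs', s' • F + s • F', ?_⟩
      have := add_mem (𝔠.mul_mem_left (algebraMap O O' s') h) (𝔠.mul_mem_left (algebraMap O O' s) h')
      rw [map_add, map_smul, map_smul, map_mul, Algebra.smul_def, Algebra.smul_def]
      refine (congrArg (· ∈ 𝔠) ?_).mp this
      ring
    | mul x x' _ _ h h' =>
      obtain ⟨s, hs, F, h⟩ := h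
      obtain ⟨s', hs', F', h'⟩ := h'
      refine ⟨s * s', hp.mul_notMem hs hs', F * F', ?_⟩
      have := add_mem (𝔠.mul_mem_left (algebraMap O O' s' * x') h) (𝔠.mul_mem_left (ψ F) h')
      rw [map_mul, map_mul]
      refine (congrArg (· ∈ 𝔠) ?_).mp this
      ring
  rw [small_ht _ Ideal.Quotient.mk_surjective Ideal.mk_ker ⟨𝔓, inferInstance⟩ h1]
  refine Order.height_le fun p hl => ?_
  have h2 : ∀ i, 𝔠 ≤ (p i).1.asIdeal := fun i => (p i).2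
  have h3 : ∀ i, (p i).1.asIdeal.comap (algebraMap O O') = 𝔭 := by
    intro i
    refine le_antisymm (Ideal.comap_mono ?_) (Ideal.map_le_iff_le_comap.1 (le_sup_left.trans (h2 i)))
    have : p i ≤ p.last := p.monotone (Fin.le_last i)
    rw [hl] at this
    exact this
  let q : Fin (p.length + 1) →
      PrimeSpectrum.comap (algebraMap O (MvPolynomial (Fin φ) O)) ⁻¹' {⟨𝔭, hp⟩} := fun i =>
    ⟨PrimeSpectrum.comap ψ.toRingHom (p i).1, PrimeSpectrum.ext (by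
      rw [PrimeSpectrum.comap_asIdeal, PrimeSpectrum.comap_asIdeal, Ideal.comap_comap,
        AlgHom.toRingHom_eq_coe, AlgHom.comp_algebraMap, h3])⟩
  have hq : StrictMono q := by
    intro i j hij
    have h4 : (p i).1.asIdeal < (p j).1.asIdeal := p.strictMono hij
    obtain ⟨x, hx, hx'⟩ := SetLike.exists_of_lt h4
    obtain ⟨s, hs, F, hF⟩ := key x
    refine lt_of_le_not_ge (Ideal.comap_mono h4.le) fun h => ?_
    have h5 : ψ F ∈ (p j).1.asIdeal := by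
      have := sub_mem ((p j).1.asIdeal.mul_mem_left (algebraMap O O' s) hx) (h2 j hF)
      rwa [sub_sub_cancel] at this
    have h6 : ψ F ∈ (p i).1.asIdeal := h h5
    have h7 := add_mem (h2 i hF) h6
    rw [sub_add_cancel] at h7
    rcases (p i).1.isPrime.mem_or_mem h7 with h8 | h8
    · exact hs (h3 i ▸ h8)
    · exact hx' h8
  have h4 := Order.LTSeries.length_le_krullDim (LTSeries.mk p.length q hq)
  rw [Order.krullDim_eq_of_orderIso (PrimeSpectrum.preimageOrderIsoFiber O _ _), ← ringKrullDim,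
    ringKrullDim_eq_of_ringEquiv (MvPolynomial.algebraTensorAlgEquiv O _).toRingEquiv,
    MvPolynomial.ringKrullDim_of_isNoetherianRing, ringKrullDim_eq_zero_of_field, zero_add,
    Nat.card_eq_fintype_card, Fintype.card_fin, LTSeries.mk_length] at h4
  exact_mod_cast h4

/-- the punctured spectrum. -/
theorem small_punct [IsLocalRing O] (𝔶 : Ideal O) (n : ℕ) (h : ringKrullDim (O ⧸ 𝔶) ≤ n) :
    Small n {𝔭 : PrimeSpectrum O | 𝔶 ≤ 𝔭.asIdeal ∧ ¬ 𝔭.asIdeal.IsMaximal} := by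
  refine ⟨{𝔶}, fun 𝔭 h𝔭 => ⟨𝔶, Finset.mem_singleton_self _, h𝔭.1, ?_⟩⟩
  rw [small_ht _ Ideal.Quotient.mk_surjective Ideal.mk_ker 𝔭 h𝔭.1]
  have h1 : 𝔭.asIdeal ≤ IsLocalRing.maximalIdeal O := IsLocalRing.le_maximalIdeal 𝔭.isPrime.ne_top
  have h2 : (⟨𝔭, h𝔭.1⟩ : PrimeSpectrum.zeroLocus (R := O) 𝔶) <
      ⟨IsLocalRing.closedPoint O, h𝔭.1.trans h1⟩ := by
    refine lt_of_le_not_ge h1 fun h3 => h𝔭.2 ?_
    rw [le_antisymm h1 h3]
    infer_instance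
  have h3 := Order.height_le_krullDim
    (⟨IsLocalRing.closedPoint O, h𝔭.1.trans h1⟩ : PrimeSpectrum.zeroLocus (R := O) 𝔶)
  rw [← ringKrullDim_quotient] at h3
  have h4 : Order.height (⟨IsLocalRing.closedPoint O, h𝔭.1.trans h1⟩ :
      PrimeSpectrum.zeroLocus (R := O) 𝔶) ≤ (n : ℕ∞) := WithBot.coe_le_coe.1 (h3.trans h)
  exact Order.height_le_coe_iff.1 h4 _ h2

end Crest.Agent.R188
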