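import Crest.Agent.R188.SDefs
import Crest.Agent.R188.Small

/-!
# R188 / Sys1

Multi-Rees systems: line bundles and charts.
-/

set_option autoImplicit false
set_option linter.unusedSectionVars false
set_option linter.unusedVariables false

noncomputable section

namespace Crest.Agent.R188

open Filter
open Crest.Agent.R183 (Zc Bd mact gr Htpy)
open scoped TensorProduct

variable {T : Type} [CommRing T] {K σ : Type} [Field K] [Algebra T K] [Fintype σ] [DecidableEq σ]
  (S : Sys K σ)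

namespace Sys

theorem Sys1_ne (χ : S.Chart) (j : σ) : (χ j : K) ≠ 0 := fun h => S.nz j (h ▸ (χ j).2)

theorem Sys1_prod_mem {κ : Type} (s : Finset κ) (M : κ → Submodule T K) (x : κ → K)
    (h : ∀ i ∈ s, x i ∈ M i) : ∏ i ∈ s, x i ∈ ∏ i ∈ s, M i := by
  classical
  induction s using Finset.induction_on with
  | empty => simp only [Finset.prod_empty]; exact Submodule.one_le.1 le_rfl
  | insert c s hc ih =>
    rw [Finset.prod_insert hc, Finset.prod_insert hc]
    exact Submodule.mul_mem_mul (h c (Finset.mem_insert_self _ _))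
      (ih fun i hi => h i (Finset.mem_insert_of_mem hi))

theorem Sys1_mem (χ : S.Chart) (k : σ → ℤ) : ∏ j, (χ j : K) ^ (k j).toNat ∈ S.L T k :=
  Sys1_prod_mem _ _ _ fun j _ => Submodule.pow_mem_pow _ (Submodule.subset_span (χ j).2) _

theorem Sys1_a_eq (χ : S.Chart) {k : σ → ℤ} (h : 0 ≤ k) :
    S.a χ k = ∏ j, (χ j : K) ^ (k j).toNat :=
  Finset.prod_congr rfl fun j _ => by rw [← zpow_natCast, Int.toNat_of_nonneg (h j)]

theorem Sys1_div_one (O : Subalgebra T K) : ∀ x ∈ (1 : Submodule T K), x / 1 ∈ O := fun x hx => by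
  obtain ⟨r, rfl⟩ := Submodule.mem_one.1 hx
  rw [div_one]; exact O.algebraMap_mem r

theorem Sys1_div_mul (O : Subalgebra T K) {M M' : Submodule T K} {c c' : K}
    (h : ∀ x ∈ M, x / c ∈ O) (h' : ∀ x ∈ M', x / c' ∈ O) : ∀ x ∈ M * M', x / (c * c') ∈ O := by
  intro x hx
  refine Submodule.mul_induction_on hx (fun y hy z hz => ?_) fun y z h1 h2 => ?_
  · rw [mul_div_mul_comm]; exact mul_mem (h y hy) (h' z hz)
  · rw [add_div]; exact add_mem h1 h2

theorem Sys1_div_pow (O : Subalgebra T K) {M : Submodule T K} {c : K}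
    (h : ∀ x ∈ M, x / c ∈ O) (n : ℕ) : ∀ x ∈ M ^ n, x / c ^ n ∈ O := by
  induction n with
  | zero => rw [pow_zero, pow_zero]; exact Sys1_div_one O
  | succ n ih => rw [pow_succ, pow_succ]; exact Sys1_div_mul O ih h

theorem Sys1_div_prod (O : Subalgebra T K) {κ : Type} (s : Finset κ) (M : κ → Submodule T K)
    (c : κ → K) (h : ∀ i ∈ s, ∀ x ∈ M i, x / c i ∈ O) :
    ∀ x ∈ ∏ i ∈ s, M i, x / ∏ i ∈ s, c i ∈ O := by
  classical
  induction s using Finset.induction_on with
  | empty => rw [Finset.prod_empty, Finset.prod_empty]; exact Sys1_div_one O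
  | insert i s hi ih =>
    rw [Finset.prod_insert hi, Finset.prod_insert hi]
    exact Sys1_div_mul O (h i (Finset.mem_insert_self _ _))
      (ih fun j hj => h j (Finset.mem_insert_of_mem hj))

theorem Sys1_pigeon (G : Finset K) (hG : G.Nonempty) {m n : ℕ} (h : G.card * m ≤ n) :
    Submodule.span T (G : Set K) ^ n ≤
      ∑ g : G, Submodule.span T {(g : K) ^ m} * Submodule.span T (G : Set K) ^ (n - m) := by
  classical
  rw [Submodule.span_pow, Submodule.span_le]
  intro x hx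
  obtain ⟨f, rfl⟩ := Set.mem_pow.1 hx
  have : Nonempty G := hG.to_subtype
  obtain ⟨g, hg⟩ := Fintype.exists_le_card_fiber_of_mul_le_card (fun i => (⟨f i, (f i).2⟩ : G))
    (n := m) (by simpa using h)
  obtain ⟨A, hA, hAc⟩ := Finset.exists_subset_card_eq hg
  rw [List.prod_ofFn, ← Finset.prod_mul_prod_compl A]
  have h1 : ∏ i ∈ A, (f i : K) = (g : K) ^ m := by
    rw [← hAc, ← Finset.prod_const]
    refine Finset.prod_congr rfl fun i hi => ?_
    exact congrArg Subtype.val (Finset.mem_filter.1 (hA hi)).2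
  have h2 : ∏ i ∈ Aᶜ, (f i : K) ∈ Submodule.span T (G : Set K) ^ (n - m) := by
    have := Sys1_prod_mem Aᶜ (fun _ => Submodule.span T (G : Set K)) (fun i => (f i : K))
      fun i _ => Submodule.subset_span (f i).2
    rwa [Finset.prod_const, Finset.card_compl, Fintype.card_fin, hAc] at this
  rw [h1]
  have h3 := Finset.single_le_sum (f := fun g : G => Submodule.span T {(g : K) ^ m} *
    Submodule.span T (G : Set K) ^ (n - m)) (fun _ _ => bot_le) (Finset.mem_univ g)
  exact h3 (Submodule.mul_mem_mul (Submodule.mem_span_singleton_self _) h2)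

theorem a_ne (χ : S.Chart) (γ : σ → ℤ) : S.a χ γ ≠ 0 := by
  exact Finset.prod_ne_zero_iff.2 fun j _ => zpow_ne_zero _ (S.Sys1_ne χ j)

theorem a_add (χ : S.Chart) (γ γ' : σ → ℤ) : S.a χ (γ + γ') = S.a χ γ * S.a χ γ' := by
  simp only [a, Pi.add_apply, zpow_add₀ (S.Sys1_ne χ _), Finset.prod_mul_distrib]

theorem a_zero (χ : S.Chart) : S.a χ 0 = 1 := by
  simp [a]

theorem a_sub (χ : S.Chart) (γ γ' : σ → ℤ) : S.a χ (γ - γ') = S.a χ γ / S.a χ γ' := by
  simp only [a, Pi.sub_apply, zpow_sub₀ (S.Sys1_ne χ _), Finset.prod_div_distrib]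

theorem a_sum (χ : S.Chart) {κ : Type} (s : Finset κ) (γ : κ → σ → ℤ) :
    S.a χ (∑ c ∈ s, γ c) = ∏ c ∈ s, S.a χ (γ c) := by
  classical
  induction s using Finset.induction_on with
  | empty => simp [a_zero]
  | insert c s hc ih => rw [Finset.sum_insert hc, Finset.prod_insert hc, a_add, ih]

theorem a_ee (χ : S.Chart) (j : σ) : S.a χ (ee j) = (χ j : K) := by
  rw [a, Finset.prod_eq_single j]
  · simp
  · intro i _ hi
    simp [hi]
  · intro h; exact absurd (Finset.mem_univ j) h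

theorem nonempty_chart : Nonempty S.Chart := by
  exact ⟨fun j => ⟨(S.ne j).choose, (S.ne j).choose_spec⟩⟩

theorem L_zero : S.L T 0 = 1 := by
  simp [L]

theorem L_ee (j : σ) : S.L T (ee j) = S.I T j := by
  rw [L, Finset.prod_eq_single j]
  · simp
  · intro i _ hi
    simp [hi]
  · intro h; exact absurd (Finset.mem_univ j) h

theorem L_add {k k' : σ → ℤ} (h : 0 ≤ k) (h' : 0 ≤ k') : S.L T (k + k') = S.L T k * S.L T k' := by
  simp only [L, ← Finset.prod_mul_distrib, ← pow_add]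
  refine Finset.prod_congr rfl fun j _ => ?_
  rw [Pi.add_apply, Int.toNat_add (h j) (h' j)]

theorem L_fg (k : σ → ℤ) : (S.L T k).FG := by
  refine Finset.prod_induction _ Submodule.FG (fun _ _ => Submodule.FG.mul) ?_ fun j _ => ?_
  · rw [Submodule.one_eq_span]; exact Submodule.fg_span_singleton _
  · exact Submodule.FG.pow ⟨S.gens j, rfl⟩ _

theorem a_mem_L (χ : S.Chart) {k : σ → ℤ} (h : 0 ≤ k) : S.a χ k ∈ S.L T k := by
  rw [S.Sys1_a_eq χ h]
  exact S.Sys1_mem χ k

theorem div_mem_O (χ : S.Chart) {k : σ → ℤ} (h : 0 ≤ k) {x : K} (hx : x ∈ S.L T k) :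
    x / S.a χ k ∈ S.O T χ := by
  rw [S.Sys1_a_eq χ h]
  refine Sys1_div_prod (S.O T χ) Finset.univ _ _ (fun j _ => Sys1_div_pow (S.O T χ) ?_ _) x hx
  intro y hy
  induction hy using Submodule.span_induction with
  | mem g hg => exact Algebra.subset_adjoin ⟨j, g, hg, rfl⟩
  | zero => rw [zero_div]; exact zero_mem _
  | add y z _ _ h1 h2 => rw [add_div]; exact add_mem h1 h2
  | smul r y _ h1 => rw [smul_div_assoc]; exact Subalgebra.smul_mem _ h1 r

theorem O_noeth [IsNoetherianRing T] (χ : S.Chart) : IsNoetherianRing (S.O T χ) := by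
  classical
  refine isNoetherianRing_of_fg (Subalgebra.fg_def.2 ⟨_, ?_, rfl⟩)
  refine (Set.finite_iUnion fun j => ((S.gens j).finite_toSet.image fun g => g / (χ j : K))).subset ?_
  rintro x ⟨j, g, hg, rfl⟩
  exact Set.mem_iUnion.2 ⟨j, g, hg, rfl⟩

/-- every function on a chart is a section divided by the local generator. -/
theorem mem_O_iff (χ : S.Chart) (x : K) :
    x ∈ S.O T χ ↔ ∀ᶠ k in atTop, S.a χ k * x ∈ S.L T k := by
  constructor
  · intro hx
    induction hx using Algebra.adjoin_induction with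
    | mem x hx =>
      obtain ⟨j, g, hg, rfl⟩ := hx
      filter_upwards [eventually_ge_atTop (ee j)] with k hk
      have h0 : (0 : σ → ℤ) ≤ ee j := Pi.single_nonneg.2 zero_le_one
      have h1 : 0 ≤ k - ee j := sub_nonneg.2 hk
      have e : S.a χ k * (g / (χ j : K)) = S.a χ (k - ee j) * g := by
        rw [a_sub, a_ee]; ring
      have e2 : S.L T k = S.L T (k - ee j) * S.I T j := by
        rw [← L_ee, ← S.L_add h1 h0, sub_add_cancel]
      rw [e, e2]
      exact Submodule.mul_mem_mul (S.a_mem_L χ h1) (Submodule.subset_span hg)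
    | algebraMap r =>
      filter_upwards [eventually_ge_atTop 0] with k hk
      rw [mul_comm, ← Algebra.smul_def]
      exact Submodule.smul_mem _ r (S.a_mem_L χ hk)
    | add x y _ _ h1 h2 =>
      filter_upwards [h1, h2] with k a1 a2
      rw [mul_add]; exact add_mem a1 a2
    | mul x y _ _ h1 h2 =>
      obtain ⟨k1, hk1, b1⟩ := ((eventually_ge_atTop 0).and h1).exists
      obtain ⟨k2, b2⟩ := eventually_atTop.1 ((eventually_ge_atTop 0).and h2)
      filter_upwards [eventually_ge_atTop (k1 + k2)] with k hk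
      obtain ⟨c1, c2⟩ := b2 (k - k1) (le_sub_iff_add_le'.2 hk)
      have e : S.a χ k * (x * y) = (S.a χ k1 * x) * (S.a χ (k - k1) * y) := by
        have := S.a_add χ k1 (k - k1)
        rw [add_sub_cancel] at this
        rw [this]; ring
      have e2 : S.L T k = S.L T k1 * S.L T (k - k1) := by
        rw [← S.L_add hk1 c1, add_sub_cancel]
      rw [e, e2]
      exact Submodule.mul_mem_mul b1 c2
  · intro h
    obtain ⟨k, hk, b⟩ := ((eventually_ge_atTop 0).and h).exists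
    have := S.div_mem_O χ hk b
    rwa [mul_div_cancel_left₀ _ (S.a_ne χ k)] at this

/-- pigeonhole: a product of many generators is divisible by `a χ m` for some chart. -/
theorem L_le_iSup {m : σ → ℤ} (hm : 0 ≤ m) :
    ∀ᶠ k in atTop, S.L T k ≤ ⨆ χ : S.Chart, Submodule.span T {S.a χ m} * S.L T (k - m) := by
  filter_upwards [eventually_ge_atTop (fun j => ((S.gens j).card : ℤ) * m j)] with k hk
  have hkm : ∀ j, (S.gens j).card * (m j).toNat ≤ (k j).toNat ∧
      (k j - m j).toNat = (k j).toNat - (m j).toNat := fun j => by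
    have h1 : ((S.gens j).card : ℤ) * m j ≤ k j := hk j
    have h2 : 0 ≤ m j := hm j
    have h3 : (1 : ℤ) ≤ (S.gens j).card := by exact_mod_cast (S.ne j).card_pos
    have h4 : m j ≤ k j := by nlinarith
    refine ⟨?_, by omega⟩
    zify
    rw [Int.toNat_of_nonneg h2, Int.toNat_of_nonneg (h2.trans h4)]
    exact h1
  have h1 : S.L T k ≤ ∏ j, ∑ g : S.gens j,
      Submodule.span T {(g : K) ^ (m j).toNat} * S.I T j ^ ((k j).toNat - (m j).toNat) :=
    Finset.prod_le_prod' fun j _ => Sys1_pigeon (S.gens j) (S.ne j) (hkm j).1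
  refine h1.trans ?_
  rw [Fintype.prod_sum]
  refine Finset.sum_induction _ (fun N => N ≤ _) (fun _ _ h1 h2 => sup_le h1 h2) bot_le fun χ _ => ?_
  refine le_trans (le_of_eq ?_) (le_iSup _ χ)
  rw [Finset.prod_mul_distrib, Submodule.prod_span_singleton, S.Sys1_a_eq χ hm, L]
  simp only [Pi.sub_apply, (hkm _).2]

theorem finrank_L [IsDomain T] [IsFractionRing T K] (k : σ → ℤ) :
    Module.finrank T (S.L T k) = 1 := by
  obtain ⟨χ⟩ := S.nonempty_chart
  have h1 : Module.rank T K = 1 := by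
    rw [← IsLocalization.rank_eq K (nonZeroDivisors T) le_rfl, Module.rank_self]
  have h2 : Module.rank T (S.L T k) ≤ 1 := h1 ▸ Submodule.rank_le _
  have h3 : Nontrivial (S.L T k) := by
    rw [Submodule.nontrivial_iff_ne_bot, Submodule.ne_bot_iff]
    exact ⟨_, S.Sys1_mem χ k, Finset.prod_ne_zero_iff.2 fun j _ => pow_ne_zero _ (S.Sys1_ne χ j)⟩
  have h4 : 0 < Module.rank T (S.L T k) := rank_pos
  exact Module.finrank_eq_of_rank_eq (le_antisymm h2 (Cardinal.one_le_iff_pos.2 h4))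

theorem Nv.one (χ : S.Chart) (𝔓 : PrimeSpectrum (S.O T χ)) : S.Nv χ 𝔓 1 := by
  exact ⟨one_mem _, (Ideal.ne_top_iff_one _).1 𝔓.isPrime.ne_top⟩

theorem Nv.mul {χ : S.Chart} {𝔓 : PrimeSpectrum (S.O T χ)} {s t : K} (hs : S.Nv χ 𝔓 s)
    (ht : S.Nv χ 𝔓 t) : S.Nv χ 𝔓 (s * t) := by
  obtain ⟨h1, h2⟩ := hs
  obtain ⟨h3, h4⟩ := ht
  exact ⟨mul_mem h1 h3, fun h => (𝔓.isPrime.mem_or_mem (x := ⟨s, h1⟩) (y := ⟨t, h3⟩) h).elim h2 h4⟩

theorem Nv.of_mul {χ : S.Chart} {𝔓 : PrimeSpectrum (S.O T χ)} {s t : K} (h : S.Nv χ 𝔓 (s * t))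
    (hs : s ∈ S.O T χ) (ht : t ∈ S.O T χ) : S.Nv χ 𝔓 s ∧ S.Nv χ 𝔓 t := by
  obtain ⟨h1, h2⟩ := h
  exact ⟨⟨hs, fun h => h2 (𝔓.asIdeal.mul_mem_right ⟨t, ht⟩ h)⟩,
    ⟨ht, fun h => h2 (𝔓.asIdeal.mul_mem_left ⟨s, hs⟩ h)⟩⟩

section add
variable (G : Finset K) (h1 : G.Nonempty) (h2 : (0 : K) ∉ G)

/-- the underlying chart of `S`. -/
def res (χ : (S.add G h1 h2).Chart) : S.Chart := fun j => χ (some j)

theorem a_add_ext (χ : (S.add G h1 h2).Chart) (γ : σ → ℤ) (c : ℤ) :
    (S.add G h1 h2).a χ (ext γ c) = S.a (S.res G h1 h2 χ) γ * (χ none : K) ^ c := by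
  rw [a, Fintype.prod_option, mul_comm]
  rfl

theorem O_add (χ : (S.add G h1 h2).Chart) :
    (S.add G h1 h2).O T χ =
      S.O T (S.res G h1 h2 χ) ⊔ Algebra.adjoin T ((fun g => g / (χ none : K)) '' (G : Set K)) := by
  rw [O, O, ← Algebra.adjoin_union]
  congr 1
  ext x
  constructor
  · rintro ⟨j, g, hg, rfl⟩
    cases j with
    | none => exact Or.inr ⟨g, hg, rfl⟩
    | some j => exact Or.inl ⟨j, g, hg, rfl⟩
  · rintro (⟨j, g, hg, rfl⟩ | ⟨g, hg, rfl⟩)
    · exact ⟨some j, g, hg, rfl⟩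
    · exact ⟨none, g, hg, rfl⟩

theorem O_le_add (χ : (S.add G h1 h2).Chart) : S.O T (S.res G h1 h2 χ) ≤ (S.add G h1 h2).O T χ := by
  rw [O_add]; exact le_sup_left

/-- points of the new chart over `U` lie over `U`. -/
theorem comap_mem_U (𝔶 : Ideal T) (χ : (S.add G h1 h2).Chart)
    (𝔓 : PrimeSpectrum ((S.add G h1 h2).O T χ)) :
    𝔓 ∈ (S.add G h1 h2).U 𝔶 χ ↔ PrimeSpectrum.comap
      (Subalgebra.inclusion (S.O_le_add G h1 h2 χ)).toRingHom 𝔓 ∈ S.U 𝔶 (S.res G h1 h2 χ) := by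
  exact Iff.rfl

end add

/-- the empty system. -/
def empty (K : Type) [Field K] : Sys K Empty := ⟨fun j => j.elim, fun j => j.elim, fun j => j.elim⟩

theorem small_empty_sys [IsNoetherianRing T] [IsLocalRing T] (hinj : Function.Injective (algebraMap T K))
    (𝔶 : Ideal T) (n : ℕ) (h : ringKrullDim (T ⧸ 𝔶) ≤ n) (χ : (empty K).Chart) :
    Small n ((empty K).U 𝔶 χ) := by
  have hO : (empty K).O T χ = ⊥ := by
    rw [O, ← Algebra.adjoin_empty]
    congr 1
    ext x
    simp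
  have := (empty K).O_noeth (T := T) χ
  have h1 := (small_punct 𝔶 n h).fibre (O' := (empty K).O T χ) ⊥ 0 (Z' := (empty K).U 𝔶 χ)
    fun 𝔓 h𝔓 => ⟨bot_le, h𝔓, fibre_height_le ⊥ (κ := Empty) (fun i => i.elim) ?_ 𝔓.asIdeal bot_le
      (φ := 0) (fun i => i.elim0) fun i => i.elim⟩
  · simpa using h1
  · rw [eq_top_iff]
    rintro ⟨x, hx⟩ -
    have hx' : x ∈ (⊥ : Subalgebra T K) := hO ▸ hx
    obtain ⟨r, rfl⟩ := Algebra.mem_bot.1 hx'
    exact Subalgebra.algebraMap_mem _ r

end Sys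

end Crest.Agent.R188
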