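import Crest.Agent.R188.Sys1

/-!
# R188 / Sys2

Stable families and their sections over charts.
-/

set_option autoImplicit false
set_option linter.unusedSectionVars false
set_option linter.unusedVariables false

noncomputable section

namespace Crest.Agent.R188

open Filter
open Crest.Agent.R183 (Zc Bd mact gr Htpy)
open scoped TensorProduct

variable {T : Type} [CommRing T] {K σ : Type} [Field K] [Algebra T K] [Fintype σ] [DecidableEq σ]
  (S : Sys K σ)
  {V : Type} [AddCommGroup V] [Module K V] [Module T V] [IsScalarTower T K V]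
  {M M' : (σ → ℤ) → Submodule T V}

namespace Sys

theorem sys2_shift (γ : σ → ℤ) : Tendsto (fun k : σ → ℤ => k + γ) atTop atTop :=
  tendsto_atTop_add_const_right _ γ tendsto_id

theorem sys2_ev_shift {p : (σ → ℤ) → Prop} (γ : σ → ℤ) :
    (∀ᶠ k in atTop, p (k + γ)) ↔ ∀ᶠ k in atTop, p k :=
  ⟨fun h => ((sys2_shift (-γ)).eventually h).mono fun k hk => by simpa using hk,
    fun h => (sys2_shift γ).eventually h⟩

theorem sys2_ind {P : (σ → ℤ) → Prop} (h0 : P 0) (hs : ∀ m j, 0 ≤ m → P m → P (m + ee j)) :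
    ∀ m, 0 ≤ m → P m := by
  have key : ∀ n : ℕ, ∀ m : σ → ℤ, 0 ≤ m → ∑ j, m j = n → P m := by
    intro n
    induction n with
    | zero =>
      intro m hm he
      have : m = 0 := funext fun j =>
        (Finset.sum_eq_zero_iff_of_nonneg fun j _ => hm j).1 (by simpa using he) j
          (Finset.mem_univ j)
      rwa [this]
    | succ n ih =>
      intro m hm he
      obtain ⟨j, hj⟩ : ∃ j, 0 < m j := by
        by_contra hc
        push Not at hc
        have : ∑ j, m j ≤ 0 := Finset.sum_nonpos fun j _ => hc j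
        omega
      have h1 : 0 ≤ m - ee j := fun i => by
        by_cases e : i = j
        · subst e
          simp only [Pi.sub_apply, Pi.single_eq_same, Pi.zero_apply]
          omega
        · simpa [e] using hm i
      have h2 := hs _ j h1 (ih _ h1 (by
        simp only [Pi.sub_apply, Finset.sum_sub_distrib, he, Finset.sum_pi_single',
          Finset.mem_univ, if_true]
        push_cast
        ring))
      rwa [sub_add_cancel] at h2
  intro m hm
  have h1 : 0 ≤ ∑ j, m j := Finset.sum_nonneg fun j _ => hm j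
  exact key (∑ j, m j).toNat m hm (Int.toNat_of_nonneg h1).symm

theorem sys2_mul_smul (I J : Submodule T K) (N : Submodule T V) : (I * J) • N = I • J • N :=
  Submodule.smul_assoc I J N

theorem sys2_ee_nonneg (j : σ) : (0 : σ → ℤ) ≤ ee j := fun i => by
  by_cases e : i = j
  · subst e; simp
  · simp [e]

theorem sys2_map_smul {V' : Type} [AddCommGroup V'] [Module K V'] [Module T V']
    [IsScalarTower T K V'] (φ : V →ₗ[K] V') (I : Submodule T K) (N : Submodule T V) :
    (I • N).map (φ.restrictScalars T) = I • N.map (φ.restrictScalars T) := by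
  refine le_antisymm (Submodule.map_le_iff_le_comap.2 (Submodule.smul_le.2 fun r hr v hv => ?_))
    (Submodule.smul_le.2 ?_)
  · rw [Submodule.mem_comap, LinearMap.restrictScalars_apply, map_smul]
    exact Submodule.smul_mem_smul hr ⟨v, hv, rfl⟩
  · rintro r hr _ ⟨v, hv, rfl⟩
    exact ⟨r • v, Submodule.smul_mem_smul hr hv, by simp⟩

theorem sys2_smul_prod {V' : Type} [AddCommGroup V'] [Module K V'] [Module T V']
    [IsScalarTower T K V'] (I : Submodule T K) (A : Submodule T V) (B : Submodule T V') :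
    I • A.prod B = (I • A).prod (I • B) := by
  refine le_antisymm (Submodule.smul_le.2 fun r hr v hv =>
    ⟨Submodule.smul_mem_smul hr hv.1, Submodule.smul_mem_smul hr hv.2⟩) ?_
  rintro ⟨a, b⟩ ⟨ha, hb⟩
  have h1 : ((a, 0) : V × V') ∈ I • A.prod B := by
    refine Submodule.smul_induction_on (p := fun a => ((a, 0) : V × V') ∈ I • A.prod B) ha
      (fun r hr v hv => ?_) fun x y hx hy => ?_
    · have := Submodule.smul_mem_smul (N := A.prod B) (n := (v, 0)) hr ⟨hv, zero_mem _⟩
      simpa using this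
    · simpa using add_mem hx hy
  have h2 : ((0, b) : V × V') ∈ I • A.prod B := by
    refine Submodule.smul_induction_on (p := fun b => ((0, b) : V × V') ∈ I • A.prod B) hb
      (fun r hr v hv => ?_) fun x y hx hy => ?_
    · have := Submodule.smul_mem_smul (N := A.prod B) (n := (0, v)) hr ⟨zero_mem _, hv⟩
      simpa using this
    · simpa using add_mem hx hy
  simpa using add_mem h1 h2

theorem sys2_smul_pi {κ : Type} [Fintype κ] (I : Submodule T K) (N : κ → Submodule T V) :
    I • Submodule.pi Set.univ N = Submodule.pi Set.univ fun c => I • N c := by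
  classical
  refine le_antisymm (Submodule.smul_le.2 fun r hr v hv c hc =>
    Submodule.smul_mem_smul hr (hv c hc)) fun x hx => ?_
  rw [← Finset.univ_sum_single x]
  refine Submodule.sum_mem _ fun c _ => ?_
  refine Submodule.smul_induction_on
    (p := fun a => (Pi.single c a : κ → V) ∈ I • Submodule.pi Set.univ N) (hx c trivial)
    (fun r hr v hv => ?_) fun x y hx hy => ?_
  · rw [Pi.single_smul]
    refine Submodule.smul_mem_smul hr fun c' _ => ?_
    by_cases e : c' = c
    · subst e; simpa using hv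
    · simp [e]
  · rw [Pi.single_add]
    exact add_mem hx hy

theorem sys2_mem_loc {χ : S.Chart} {x : V} :
    x ∈ S.loc χ M ↔ ∀ᶠ k in atTop, S.a χ k • x ∈ M k := Iff.rfl

theorem sys2_a_cancel (χ : S.Chart) (k : σ → ℤ) (x : V) : S.a χ (-k) • S.a χ k • x = x := by
  rw [smul_smul, ← a_add, neg_add_cancel, a_zero, one_smul]

theorem stable_L (γ : σ → ℤ) : S.Stable fun k => S.L T (k + γ) := by
  filter_upwards [(sys2_shift γ).eventually (eventually_ge_atTop 0)] with k hk
  refine ⟨S.L_fg _, fun j => ?_⟩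
  rw [add_right_comm, add_comm, S.L_add (sys2_ee_nonneg j) hk, L_ee]
  rfl

theorem Stable.congr (h : S.Stable M) (e : ∀ᶠ k in atTop, M k = M' k) : S.Stable M' := by
  have e' : ∀ᶠ k in atTop, ∀ j, M (k + ee j) = M' (k + ee j) :=
    eventually_all.2 fun j => (sys2_shift (ee j)).eventually e
  filter_upwards [h, e, e'] with k h1 h2 h3
  exact ⟨h2 ▸ h1.1, fun j => by rw [← h3, ← h2, h1.2]⟩

theorem Stable.shift (h : S.Stable M) (γ : σ → ℤ) : S.Stable fun k => M (k + γ) := by
  filter_upwards [(sys2_shift γ).eventually h] with k hk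
  exact ⟨hk.1, fun j => by rw [add_right_comm, hk.2]⟩

theorem stable_bot : S.Stable fun _ => (⊥ : Submodule T V) :=
  Eventually.of_forall fun _ => ⟨Submodule.fg_bot, fun _ => (Submodule.smul_bot _).symm⟩

theorem Stable.sup (h : S.Stable M) (h' : S.Stable M') : S.Stable fun k => M k ⊔ M' k := by
  filter_upwards [h, h'] with k h1 h2
  exact ⟨h1.1.sup h2.1, fun j => by rw [h1.2, h2.2, Submodule.smul_sup]⟩

theorem Stable.eq_smul (h : S.Stable M) :
    ∀ᶠ k in atTop, ∀ m : σ → ℤ, 0 ≤ m → M (k + m) = S.L T m • M k := by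
  obtain ⟨k₀, hk₀⟩ := eventually_atTop.1 h
  filter_upwards [eventually_ge_atTop k₀] with k hk
  refine sys2_ind (by rw [add_zero, L_zero, Submodule.one_smul]) fun m j hm ih => ?_
  rw [← add_assoc, (hk₀ _ (hk.trans (le_add_of_nonneg_right hm))).2, ih, add_comm m,
    S.L_add (sys2_ee_nonneg j) hm, L_ee, sys2_mul_smul]

theorem Stable.smul_mem (h : S.Stable M) {δ : σ → ℤ} (hδ : 0 ≤ δ) {x : K} (hx : x ∈ S.L T δ) :
    ∀ᶠ k in atTop, ∀ v ∈ M (k - δ), x • v ∈ M k := by
  filter_upwards [(sys2_shift (-δ)).eventually (h.eq_smul S)] with k hk v hv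
  have := hk δ hδ
  rw [neg_add_cancel_right, ← sub_eq_add_neg] at this
  rw [this]
  exact Submodule.smul_mem_smul hx hv

theorem sys2_mem_loc_of (h : S.Stable M) :
    ∀ᶠ k in atTop, ∀ χ, ∀ x ∈ M k, S.a χ (-k) • x ∈ S.loc χ M := by
  filter_upwards [h.eq_smul S] with k hk χ x hx
  rw [sys2_mem_loc]
  filter_upwards [eventually_ge_atTop k] with k' hk'
  have h1 := hk (k' - k) (sub_nonneg.2 hk')
  rw [add_sub_cancel] at h1
  rw [h1, smul_smul, ← a_add, ← sub_eq_add_neg]
  exact Submodule.smul_mem_smul (S.a_mem_L χ (sub_nonneg.2 hk')) hx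

section
variable {V' : Type} [AddCommGroup V'] [Module K V'] [Module T V'] [IsScalarTower T K V']

theorem Stable.map (h : S.Stable M) (φ : V →ₗ[K] V') :
    S.Stable fun k => (M k).map (φ.restrictScalars T) := by
  filter_upwards [h] with k hk
  exact ⟨hk.1.map _, fun j => by rw [hk.2, sys2_map_smul]⟩

theorem Stable.prod (h : S.Stable M) {N : (σ → ℤ) → Submodule T V'} (h' : S.Stable N) :
    S.Stable fun k => (M k).prod (N k) := by
  filter_upwards [h, h'] with k h1 h2
  exact ⟨h1.1.prod h2.1, fun j => by rw [h1.2, h2.2, sys2_smul_prod]⟩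

theorem loc_map (h : S.Stable M) (φ : V →ₗ[K] V') (χ : S.Chart) :
    S.loc χ (fun k => (M k).map (φ.restrictScalars T)) = (S.loc χ M).map (φ.restrictScalars T) := by
  refine le_antisymm (fun y hy => ?_) ?_
  · obtain ⟨k, ⟨v, hv, he⟩, h2⟩ := ((S.sys2_mem_loc.1 hy).and (S.sys2_mem_loc_of h)).exists
    refine ⟨_, h2 χ v hv, ?_⟩
    rw [LinearMap.restrictScalars_apply] at he ⊢
    rw [map_smul, he, sys2_a_cancel]
  · rintro _ ⟨x, hx, rfl⟩
    exact (S.sys2_mem_loc.1 hx).mono fun k hk => ⟨_, hk, by simp⟩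

theorem loc_comap (φ : V' →ₗ[K] V) (χ : S.Chart) :
    S.loc χ (fun k => (M k).comap (φ.restrictScalars T)) =
      (S.loc χ M).comap (φ.restrictScalars T) := by
  ext x
  simp only [sys2_mem_loc, Submodule.mem_comap, LinearMap.restrictScalars_apply, map_smul]

theorem loc_prod (N : (σ → ℤ) → Submodule T V') (χ : S.Chart) :
    S.loc χ (fun k => (M k).prod (N k)) = (S.loc χ M).prod (S.loc χ N) := by
  ext x
  simp only [sys2_mem_loc, Submodule.mem_prod, eventually_and, Prod.smul_fst, Prod.smul_snd]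

end

theorem Stable.pi {κ : Type} [Fintype κ] {N : κ → (σ → ℤ) → Submodule T V}
    (h : ∀ c, S.Stable (N c)) : S.Stable fun k => Submodule.pi Set.univ fun c => N c k := by
  filter_upwards [eventually_all.2 h] with k hk
  refine ⟨Submodule.fg_pi fun c => (hk c).1, fun j => ?_⟩
  rw [sys2_smul_pi]
  congr 1
  exact funext fun c => (hk c).2 j

theorem loc_pi {κ : Type} [Fintype κ] (N : κ → (σ → ℤ) → Submodule T V) (χ : S.Chart) :
    S.loc χ (fun k => Submodule.pi Set.univ fun c => N c k) =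
      Submodule.pi Set.univ fun c => S.loc χ (N c) := by
  ext x
  simp only [sys2_mem_loc, Submodule.mem_pi, Set.mem_univ, true_imp_iff, eventually_all,
    Pi.smul_apply]

theorem loc_inf (χ : S.Chart) : S.loc χ (fun k => M k ⊓ M' k) = S.loc χ M ⊓ S.loc χ M' := by
  ext x
  simp only [sys2_mem_loc, Submodule.mem_inf, eventually_and]

theorem loc_const (χ : S.Chart) (W : Submodule K V) :
    S.loc χ (fun _ => W.restrictScalars T) = W.restrictScalars T := by
  ext x
  rw [sys2_mem_loc]
  refine ⟨fun h => ?_, fun h => Eventually.of_forall fun k => W.smul_mem _ h⟩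
  obtain ⟨k, hk⟩ := h.exists
  rw [← S.sys2_a_cancel χ k x]
  exact W.smul_mem _ hk

theorem loc_mono (χ : S.Chart) (h : ∀ᶠ k in atTop, M k ≤ M' k) : S.loc χ M ≤ S.loc χ M' := fun x hx =>
  ((S.sys2_mem_loc.1 hx).and h).mono fun k hk => hk.2 hk.1

theorem loc_sup (h : S.Stable M) (h' : S.Stable M') (χ : S.Chart) :
    S.loc χ (fun k => M k ⊔ M' k) = S.loc χ M ⊔ S.loc χ M' := by
  refine le_antisymm (fun y hy => ?_) (sup_le
    (S.loc_mono χ (Eventually.of_forall fun k => le_sup_left))
    (S.loc_mono χ (Eventually.of_forall fun k => le_sup_right)))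
  obtain ⟨k, h1, h2, h3⟩ := ((S.sys2_mem_loc.1 hy).and
    ((S.sys2_mem_loc_of h).and (S.sys2_mem_loc_of h'))).exists
  obtain ⟨u, hu, v, hv, he⟩ := Submodule.mem_sup.1 h1
  rw [← S.sys2_a_cancel χ k y, ← he, smul_add]
  exact Submodule.add_mem_sup (h2 χ u hu) (h3 χ v hv)

theorem mem_loc_shift (χ : S.Chart) (γ : σ → ℤ) (x : V) :
    x ∈ S.loc χ (fun k => M (k + γ)) ↔ S.a χ (-γ) • x ∈ S.loc χ M := by
  rw [sys2_mem_loc, sys2_mem_loc,
    ← sys2_ev_shift (p := fun k => S.a χ k • S.a χ (-γ) • x ∈ M k) γ]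
  refine eventually_congr (Eventually.of_forall fun k => ?_)
  rw [smul_smul, ← a_add, add_neg_cancel_right]

theorem mem_loc_L (χ : S.Chart) (γ : σ → ℤ) (x : K) :
    x ∈ S.loc χ (fun k => S.L T (k + γ)) ↔ x / S.a χ γ ∈ S.O T χ := by
  have e : S.a χ (-γ) • x = x / S.a χ γ := by
    rw [← zero_sub, a_sub, a_zero, smul_eq_mul, one_div, div_eq_inv_mul]
  rw [S.mem_loc_shift (M := fun k => S.L T k), mem_O_iff, e]
  rfl

theorem Stable.loc_smul (h : S.Stable M) (χ : S.Chart) {s : K} (hs : s ∈ S.O T χ) {x : V}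
    (hx : x ∈ S.loc χ M) : s • x ∈ S.loc χ M := by
  obtain ⟨δ, h1, h2⟩ := (((S.mem_O_iff χ s).1 hs).and (eventually_ge_atTop 0)).exists
  rw [sys2_mem_loc] at hx ⊢
  filter_upwards [h.smul_mem S h2 h1, (sys2_shift (-δ)).eventually hx] with k a1 a2
  rw [← sub_eq_add_neg] at a2
  have a3 := a1 _ a2
  have a4 : S.a χ δ * s * S.a χ (k - δ) = S.a χ k * s := by
    rw [mul_right_comm, ← a_add, add_sub_cancel]
  rwa [smul_smul, a4, ← smul_smul] at a3

theorem Stable.mem_loc (h : S.Stable M) :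
    ∀ᶠ k in atTop, ∀ χ, ∀ x ∈ M k, S.a χ (-k) • x ∈ S.loc χ M :=
  S.sys2_mem_loc_of h

/-- local to global (`L_le_iSup`). -/
theorem Stable.le_of_loc (h : S.Stable M) (h' : S.Stable M') (hl : ∀ χ, S.loc χ M ≤ S.loc χ M') :
    ∀ᶠ k in atTop, M k ≤ M' k := by
  obtain ⟨k₀, ⟨⟨s, hs⟩, -⟩, h1, h2⟩ := (Eventually.and h ((h.mem_loc S).and (h.eq_smul S))).exists
  have e1 : ∀ᶠ m in atTop, ∀ χ : S.Chart, ∀ v ∈ s, S.a χ m • v ∈ M' (m + k₀) := by
    refine eventually_all.2 fun χ => (eventually_all_finset s).2 fun v hv => ?_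
    have a1 := S.sys2_mem_loc.1 (hl χ (h1 χ v (hs ▸ Submodule.subset_span hv)))
    filter_upwards [(sys2_shift k₀).eventually a1] with m hm
    rwa [smul_smul, ← a_add, add_neg_cancel_right] at hm
  obtain ⟨m, b1, b2, b3⟩ := (e1.and (((sys2_shift k₀).eventually (h'.eq_smul S)).and
    (eventually_ge_atTop 0))).exists
  have b4 : ∀ χ : S.Chart, Submodule.span T {S.a χ m} • M k₀ ≤ M' (m + k₀) := fun χ => by
    refine Submodule.smul_le.2 fun r hr v hv => ?_
    obtain ⟨t, rfl⟩ := Submodule.mem_span_singleton.1 hr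
    rw [smul_assoc]
    refine Submodule.smul_mem _ t ?_
    rw [← hs] at hv
    induction hv using Submodule.span_induction with
    | mem x hx => exact b1 χ x hx
    | zero => simp
    | add x y _ _ hx hy => rw [smul_add]; exact add_mem hx hy
    | smul c x _ hx => rw [smul_comm]; exact Submodule.smul_mem _ c hx
  rw [← sys2_ev_shift k₀]
  filter_upwards [S.L_le_iSup (T := T) b3, eventually_ge_atTop m] with n c1 c2
  have c3 : n + k₀ = m + k₀ + (n - m) := by abel
  rw [add_comm n k₀, h2 n (b3.trans c2), add_comm k₀ n, c3, b2 _ (sub_nonneg.2 c2)]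
  refine (Submodule.smul_mono_left c1).trans ?_
  rw [Submodule.iSup_smul]
  refine iSup_le fun χ => ?_
  rw [mul_comm, sys2_mul_smul]
  exact Submodule.smul_mono le_rfl (b4 χ)

theorem Stable.eq_of_loc (h : S.Stable M) (h' : S.Stable M') (hl : ∀ χ, S.loc χ M = S.loc χ M') :
    ∀ᶠ k in atTop, M k = M' k :=
  ((h.le_of_loc S h' fun χ => (hl χ).le).and (h'.le_of_loc S h fun χ => (hl χ).ge)).mono
    fun _ hk => le_antisymm hk.1 hk.2

theorem L_le_of_mem_O {γ γ' : σ → ℤ} (h : ∀ χ, S.a χ (γ - γ') ∈ S.O T χ) :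
    ∀ᶠ k in atTop, S.L T (k + γ) ≤ S.L T (k + γ') := by
  refine (S.stable_L γ).le_of_loc S (S.stable_L γ') fun χ x hx => ?_
  rw [mem_loc_L] at hx ⊢
  have e : x / S.a χ γ' = x / S.a χ γ * S.a χ (γ - γ') := by
    have := S.a_ne χ γ
    rw [a_sub]
    field_simp
  rw [e]
  exact mul_mem hx (h χ)

end Sys

end Crest.Agent.R188
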