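import Crest.Agent.R188.Sys2
import Crest.Agent.R188.Add

/-!
# R188 / Sys3

Hilbert basis theorem for families; supports.
-/

set_option autoImplicit false
set_option linter.unusedSectionVars false
set_option linter.unusedVariables false

noncomputable section

namespace Crest.Agent.R188

open Filter
open Crest.Agent.R183 (Zc Bd mact gr Htpy)
open scoped TensorProduct

variable {T : Type} [CommRing T] {K σ : Type} [Field K] [Algebra T K] [Fintype σ] [DecidableEq σ]
  (S : Sys K σ)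
  {V : Type} [AddCommGroup V] [Module K V] [Module T V] [IsScalarTower T K V]
  {M M' : (σ → ℤ) → Submodule T V}

namespace Sys

theorem sys3_ind {k₀ : σ → ℤ} {P : (σ → ℤ) → Prop} (h0 : P k₀)
    (hs : ∀ k, k₀ ≤ k → ∀ j, P k → P (k + ee j)) : ∀ k, k₀ ≤ k → P k := by
  have key : ∀ n : ℕ, ∀ k, k₀ ≤ k → ∑ j, (k j - k₀ j) = n → P k := by
    intro n
    induction n with
    | zero =>
      intro k hk e
      have : k = k₀ := by
        funext j
        have := (Finset.sum_eq_zero_iff_of_nonneg fun j _ => sub_nonneg.2 (hk j)).1 e j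
          (Finset.mem_univ j)
        omega
      rwa [this]
    | succ n ih =>
      intro k hk e
      obtain ⟨j, -, hj⟩ := Finset.exists_ne_zero_of_sum_ne_zero
        (s := Finset.univ) (f := fun j => k j - k₀ j) (by rw [e]; omega)
      have hk' : k₀ ≤ k - ee j := fun i => by
        have : k₀ i ≤ k i := hk i
        by_cases hi : i = j
        · subst hi
          simp only [Pi.sub_apply, Pi.single_eq_same]
          omega
        · simpa [Pi.single_eq_of_ne hi] using this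
      have := hs _ hk' j (ih _ hk' (by
        simp only [Pi.sub_apply, sub_right_comm _ _ (k₀ _)]
        rw [Finset.sum_sub_distrib, e]
        simp))
      rwa [sub_add_cancel] at this
  intro k hk
  have h1 : 0 ≤ ∑ j, (k j - k₀ j) := Finset.sum_nonneg fun j _ => sub_nonneg.2 (hk j)
  exact key _ k hk (Int.toNat_of_nonneg h1).symm

theorem sys3_le_ee (k : σ → ℤ) (j : σ) : k ≤ k + ee j :=
  le_add_of_nonneg_right (Pi.single_nonneg.2 zero_le_one)

/-- shift operators -/
def sys3_sh (K σ V : Type) [Field K] [AddCommGroup V] [Module K V] :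
    Multiplicative (σ → ℤ) →* Module.End K ((σ → ℤ) → V) where
  toFun γ := LinearMap.funLeft K V (fun k => k - γ.toAdd)
  map_one' := by ext w k; simp [LinearMap.funLeft]
  map_mul' γ γ' := by ext w k; simp [LinearMap.funLeft, sub_sub]

/-- the action of the group algebra -/
def sys3_phi (K σ V : Type) [Field K] [AddCommGroup V] [Module K V] :
    AddMonoidAlgebra K (σ → ℤ) →ₐ[K] Module.End K ((σ → ℤ) → V) :=
  AddMonoidAlgebra.lift K _ _ (sys3_sh K σ V)

theorem sys3_phi_single (γ : σ → ℤ) (c : K) (w : (σ → ℤ) → V) (k : σ → ℤ) :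
    sys3_phi K σ V (AddMonoidAlgebra.single γ c) w k = c • w (k - γ) := by
  rw [sys3_phi, AddMonoidAlgebra.lift_single]
  rfl

variable (T) in
/-- the Rees algebra -/
def sys3_R : Subalgebra T (AddMonoidAlgebra K (σ → ℤ)) :=
  Algebra.adjoin T {x | ∃ j, ∃ g ∈ S.gens j, x = AddMonoidAlgebra.single (ee j) g}

theorem sys3_noeth [IsNoetherianRing T] : IsNoetherianRing (S.sys3_R T) := by
  refine isNoetherianRing_of_fg (Subalgebra.fg_def.2 ⟨_, ?_, rfl⟩)
  refine (Set.finite_iUnion fun j : σ => (S.gens j).finite_toSet.image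
    (fun g => AddMonoidAlgebra.single (ee j) g)).subset ?_
  rintro _ ⟨j, g, hg, rfl⟩
  exact Set.mem_iUnion.2 ⟨j, g, hg, rfl⟩

theorem sys3_mem_R {j : σ} {r : K} (hr : r ∈ S.I T j) :
    AddMonoidAlgebra.single (ee j) r ∈ S.sys3_R T := by
  induction hr using Submodule.span_induction with
  | mem g hg => exact Algebra.subset_adjoin ⟨j, g, hg, rfl⟩
  | zero => rw [AddMonoidAlgebra.single_zero]; exact zero_mem _
  | add x y _ _ hx hy => rw [AddMonoidAlgebra.single_add]; exact add_mem hx hy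
  | smul c x _ hx => rw [← AddMonoidAlgebra.smul_single]; exact Subalgebra.smul_mem _ hx c

theorem sys3_closed (Q : Submodule T ((σ → ℤ) → V))
    (hQ : ∀ j, ∀ g ∈ S.gens j, ∀ w ∈ Q, (fun k => g • w (k - ee j)) ∈ Q)
    {r : AddMonoidAlgebra K (σ → ℤ)} (hr : r ∈ S.sys3_R T) : ∀ w ∈ Q, sys3_phi K σ V r w ∈ Q := by
  induction hr using Algebra.adjoin_induction with
  | mem x hx =>
    obtain ⟨j, g, hg, rfl⟩ := hx
    intro w hw
    have : sys3_phi K σ V (AddMonoidAlgebra.single (ee j) g) w = fun k => g • w (k - ee j) :=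
      funext fun k => sys3_phi_single _ _ _ _
    rw [this]
    exact hQ j g hg w hw
  | algebraMap t =>
    intro w hw
    have : sys3_phi K σ V (algebraMap T _ t) w = t • w := by
      funext k
      rw [AddMonoidAlgebra.coe_algebraMap, Function.comp_apply, sys3_phi_single, sub_zero,
        algebraMap_smul, Pi.smul_apply]
    rw [this]
    exact Q.smul_mem t hw
  | add x y _ _ hx hy =>
    intro w hw
    rw [map_add, LinearMap.add_apply]
    exact add_mem (hx w hw) (hy w hw)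
  | mul x y _ _ hx hy =>
    intro w hw
    rw [map_mul, Module.End.mul_apply]
    exact hx _ (hy w hw)

theorem sys3_mem_ann {A B : Submodule T V} {t : T} :
    t ∈ Module.annihilator T ↥(A.map B.mkQ) ↔ ∀ x ∈ A, t • x ∈ B := by
  rw [Module.mem_annihilator]
  constructor
  · intro h x hx
    have := congrArg Subtype.val (h ⟨_, Submodule.mem_map_of_mem hx⟩)
    rw [← Submodule.Quotient.mk_eq_zero]
    exact this
  · rintro h ⟨_, x, hx, rfl⟩
    apply Subtype.ext
    exact (Submodule.Quotient.mk_eq_zero B).2 (h x hx)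

theorem sys3_nak {A B : Submodule T V} (hA : A.FG) {𝔭 : Ideal T} (hp : 𝔭.IsPrime) {t : T}
    (h : ∀ x ∈ A, t • x ∈ B ⊔ 𝔭 • A) (hle : Module.annihilator T ↥(A.map B.mkQ) ≤ 𝔭) : t ∈ 𝔭 := by
  haveI : Module.Finite T ↥(A.map B.mkQ) := Module.Finite.iff_fg.2 (hA.map _)
  obtain ⟨p, hm, -, hc, h0⟩ :=
    LinearMap.exists_monic_and_natDegree_eq_and_coeff_mem_pow_and_aeval_eq_zero T
      (algebraMap T (Module.End T ↥(A.map B.mkQ)) t) 𝔭 (by
        rintro _ ⟨⟨_, x, hx, rfl⟩, rfl⟩
        rw [Submodule.mem_smul_top_iff, ← Submodule.map_smul'']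
        obtain ⟨b, hb, c, hc, e⟩ := Submodule.mem_sup.1 (h x hx)
        refine ⟨c, hc, ?_⟩
        show B.mkQ c = t • B.mkQ x
        rw [← map_smul, ← e, map_add, Submodule.mkQ_apply B b,
          (Submodule.Quotient.mk_eq_zero B).2 hb, zero_add])
  rw [Polynomial.aeval_algebraMap_apply_eq_algebraMap_eval] at h0
  have h1 : p.eval t ∈ 𝔭 := hle (Module.mem_annihilator.2 fun m => by
    have := congrArg (fun f : Module.End T ↥(A.map B.mkQ) => f m) h0
    simpa using this)
  rw [Polynomial.eval_eq_sum_range, Finset.sum_range_succ, hm.coeff_natDegree, one_mul] at h1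
  refine hp.mem_of_pow_mem p.natDegree ((Ideal.add_mem_iff_right _ ?_).1 h1)
  refine Ideal.sum_mem _ fun i hi => Ideal.mul_mem_right _ _ (Ideal.pow_le_self ?_ (hc i))
  have := Finset.mem_range.1 hi
  omega

/-- Hilbert basis theorem: let `P = T[X_{j,g}]` (`g ∈ gens j`) act on `(σ → ℤ) →₀ V` by `g •` shift;
`⊕_{k ≥ k₀} M k` is generated by `M k₀`, so `⊕_{k ≥ k₀} M' k` is generated by finitely many homogeneous
elements. -/
theorem Stable.sub [IsNoetherianRing T] (h : S.Stable M)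
    (h' : ∀ᶠ k in atTop, M' k ≤ M k ∧ ∀ j, S.I T j • M' k ≤ M' (k + ee j)) : S.Stable M' := by
  obtain ⟨k₀, hk₀⟩ := eventually_atTop.1 (h.and h')
  haveI := S.sys3_noeth (T := T)
  letI : Module (S.sys3_R T) ((σ → ℤ) → V) := Module.compHom _
    ((sys3_phi K σ V).toRingHom.comp (S.sys3_R T).val.toRingHom)
  have hsm : ∀ (r : S.sys3_R T) (w : (σ → ℤ) → V), r • w = sys3_phi K σ V r w := fun _ _ => rfl
  obtain ⟨s₀, hs₀⟩ := (hk₀ k₀ le_rfl).1.1
  set 𝓜 : Submodule (S.sys3_R T) ((σ → ℤ) → V) :=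
    Submodule.span _ ((fun v => Pi.single k₀ v) '' (s₀ : Set V)) with h𝓜
  have hfg : 𝓜.FG := Submodule.fg_span (s₀.finite_toSet.image _)
  have hM : ∀ k, k₀ ≤ k → ∀ v ∈ M k, Pi.single k v ∈ 𝓜 := by
    refine sys3_ind ?_ ?_
    · intro v hv
      rw [← hs₀] at hv
      induction hv using Submodule.span_induction with
      | mem x hx => exact Submodule.subset_span ⟨x, hx, rfl⟩
      | zero => rw [Pi.single_zero]; exact zero_mem _
      | add x y _ _ hx hy => rw [Pi.single_add]; exact add_mem hx hy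
      | smul c x _ hx =>
        have := 𝓜.smul_mem (algebraMap T _ c) hx
        rw [hsm] at this
        convert this using 1
        funext k
        rw [Subalgebra.coe_algebraMap, AddMonoidAlgebra.coe_algebraMap, Function.comp_apply,
          sys3_phi_single, sub_zero, algebraMap_smul, Pi.single_smul, Pi.smul_apply]
    · intro k hk j ih v hv
      rw [(hk₀ k hk).1.2 j] at hv
      refine Submodule.smul_induction_on hv (fun r hr n hn => ?_) (fun x y hx hy => ?_)
      · have := 𝓜.smul_mem ⟨_, S.sys3_mem_R hr⟩ (ih n hn)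
        rw [hsm] at this
        convert this using 1
        funext k'
        rw [sys3_phi_single]
        by_cases e : k' = k + ee j
        · rw [e, add_sub_cancel_right, Pi.single_eq_same, Pi.single_eq_same]
        · rw [Pi.single_eq_of_ne e, Pi.single_eq_of_ne fun e' => e (by rw [← e', sub_add_cancel]),
            smul_zero]
      · rw [Pi.single_add]
        exact add_mem hx hy
  set Z : Set ((σ → ℤ) → V) := {w | ∃ k, k₀ ≤ k ∧ ∃ v ∈ M' k, w = Pi.single k v} with hZ
  have hZfg : (Submodule.span (S.sys3_R T) Z).FG := hfg.of_le (Submodule.span_le.2 (by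
    rintro _ ⟨k, hk, v, hv, rfl⟩
    exact hM k hk v ((hk₀ k hk).2.1 hv)))
  obtain ⟨s₁, hs₁, hs₂⟩ := (Submodule.fg_span_iff_fg_span_finset_subset Z).1 hZfg
  obtain ⟨k₁, hk₁⟩ : ∃ k₁ : σ → ℤ, ∀ w ∈ s₁, ∃ k, k₀ ≤ k ∧ k ≤ k₁ ∧ ∃ v ∈ M' k,
      w = Pi.single k v := by
    have hs₃ : ∀ w ∈ s₁, ∃ k, k₀ ≤ k ∧ ∃ v ∈ M' k, w = Pi.single k v := fun w hw => hs₁ hw
    choose! d hd using hs₃
    obtain ⟨k₁, hk₁⟩ := (s₁.finite_toSet.image d).bddAbove
    exact ⟨k₁, fun w hw => ⟨d w, (hd w hw).1, hk₁ ⟨w, hw, rfl⟩, (hd w hw).2⟩⟩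
  classical
  set N : (σ → ℤ) → Submodule T V := fun k => if k₀ ≤ k then M' k else ⊥ with hN
  have hN1 : ∀ k, k₀ ≤ k → N k = M' k := fun k hk => if_pos hk
  have hN2 : ∀ j, ∀ g ∈ S.gens j, ∀ k, ∀ v ∈ N (k - ee j), g • v ∈ N k := by
    intro j g hg k v hv
    by_cases hk : k₀ ≤ k - ee j
    · rw [hN1 _ hk] at hv
      have := (hk₀ _ hk).2.2 j (Submodule.smul_mem_smul (Submodule.subset_span hg) hv)
      rw [sub_add_cancel] at this
      rwa [hN1 k (hk.trans (sub_le_self _ (Pi.single_nonneg.2 zero_le_one)))]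
    · rw [show N (k - ee j) = ⊥ from if_neg hk, Submodule.mem_bot] at hv
      rw [hv, smul_zero]
      exact zero_mem _
  let Q : Submodule T ((σ → ℤ) → V) :=
    { carrier := {w | ∀ k, w k ∈ N k ∧ ∀ j, k₁ j < k j → w k ∈ S.I T j • N (k - ee j)}
      add_mem' := fun ha hb k => ⟨add_mem (ha k).1 (hb k).1,
        fun j hj => add_mem ((ha k).2 j hj) ((hb k).2 j hj)⟩
      zero_mem' := fun k => ⟨zero_mem _, fun _ _ => zero_mem _⟩
      smul_mem' := fun c _ ha k => ⟨Submodule.smul_mem _ c (ha k).1,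
        fun j hj => Submodule.smul_mem _ c ((ha k).2 j hj)⟩ }
  have hQ : ∀ j, ∀ g ∈ S.gens j, ∀ w ∈ Q, (fun k => g • w (k - ee j)) ∈ Q := by
    intro j g hg w hw k
    refine ⟨hN2 j g hg k _ (hw _).1, fun i hi => ?_⟩
    by_cases e : i = j
    · subst e
      exact Submodule.smul_mem_smul (Submodule.subset_span hg) (hw _).1
    · have := (hw (k - ee j)).2 i (by simpa [Pi.single_eq_of_ne e] using hi)
      show g • w (k - ee j) ∈ _
      refine Submodule.smul_induction_on (p := fun x => g • x ∈ S.I T i • N (k - ee i)) this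
        (fun r hr n hn => ?_) (fun x y hx hy => ?_)
      · rw [smul_comm]
        rw [sub_right_comm] at hn
        exact Submodule.smul_mem_smul hr (hN2 j g hg _ n hn)
      · rw [smul_add]
        exact add_mem hx hy
  have hZQ : ∀ w ∈ Submodule.span (S.sys3_R T) Z, w ∈ Q := by
    intro w hw
    rw [hs₂] at hw
    induction hw using Submodule.span_induction with
    | mem x hx =>
      obtain ⟨k, h1, h2, v, hv, rfl⟩ := hk₁ x hx
      intro k'
      by_cases e : k' = k
      · subst e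
        rw [Pi.single_eq_same, hN1 _ h1]
        exact ⟨hv, fun j hj => absurd (h2 j) (not_le.2 hj)⟩
      · rw [Pi.single_eq_of_ne e]
        exact ⟨zero_mem _, fun _ _ => zero_mem _⟩
    | zero => exact zero_mem _
    | add x y _ _ hx hy => exact add_mem hx hy
    | smul c x _ hx => exact S.sys3_closed Q hQ c.2 x hx
  filter_upwards [eventually_ge_atTop k₀, eventually_ge_atTop k₁] with k h0 h1
  refine ⟨(hk₀ k h0).1.1.of_le (hk₀ k h0).2.1, fun j => le_antisymm (fun v hv => ?_)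
    ((hk₀ k h0).2.2 j)⟩
  have := (hZQ _ (Submodule.subset_span ⟨k + ee j, h0.trans (sys3_le_ee k j), v, hv, rfl⟩)
    (k + ee j)).2 j (by
      have : k₁ j ≤ k j := h1 j
      simp only [Pi.add_apply, Pi.single_eq_same]
      omega)
  rwa [Pi.single_eq_same, add_sub_cancel_right, hN1 k h0] at this

theorem Stable.inf [IsNoetherianRing T] (h : S.Stable M) (h' : S.Stable M') :
    S.Stable fun k => M k ⊓ M' k := by
  refine Stable.sub S h ((h.and h').mono fun k hk => ⟨inf_le_left, fun j => ?_⟩)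
  refine Submodule.smul_le.2 fun r hr n hn => ⟨?_, ?_⟩
  · exact (hk.1.2 j).ge (Submodule.smul_mem_smul hr hn.1)
  · exact (hk.2.2 j).ge (Submodule.smul_mem_smul hr hn.2)

theorem Stable.inf_const [IsNoetherianRing T] (h : S.Stable M) (W : Submodule K V) :
    S.Stable fun k => M k ⊓ W.restrictScalars T := by
  refine Stable.sub S h (h.mono fun k hk => ⟨inf_le_left, fun j => ?_⟩)
  refine Submodule.smul_le.2 fun r hr n hn => ⟨?_, W.smul_mem r hn.2⟩
  exact (hk.2 j).ge (Submodule.smul_mem_smul hr hn.1)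

theorem Stable.inf_comap [IsNoetherianRing T] (h : S.Stable M) {V' : Type} [AddCommGroup V']
    [Module K V'] [Module T V'] [IsScalarTower T K V'] (φ : V →ₗ[K] V')
    {N : (σ → ℤ) → Submodule T V'} (h' : S.Stable N) :
    S.Stable fun k => M k ⊓ (N k).comap (φ.restrictScalars T) := by
  refine Stable.sub S h ((h.and h').mono fun k hk => ⟨inf_le_left, fun j => ?_⟩)
  refine Submodule.smul_le.2 fun r hr n hn => ⟨?_, ?_⟩
  · exact (hk.1.2 j).ge (Submodule.smul_mem_smul hr hn.1)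
  · show φ (r • n) ∈ N (k + ee j)
    rw [map_smul]
    exact (hk.2.2 j).ge (Submodule.smul_mem_smul hr hn.2)

theorem sys3_stable_smul [IsNoetherianRing T] (h : S.Stable M) (𝔭 : Ideal T) :
    S.Stable fun k => 𝔭 • M k := by
  refine Stable.sub S h (h.mono fun k hk => ⟨Submodule.smul_le_right, fun j => ?_⟩)
  refine Submodule.smul_le.2 fun r hr n hn => ?_
  refine Submodule.smul_induction_on hn (fun c hc m hm => ?_) (fun x y hx hy => ?_)
  · rw [smul_comm]
    exact Submodule.smul_mem_smul hc ((hk.2 j).ge (Submodule.smul_mem_smul hr hm))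
  · rw [smul_add]
    exact add_mem hx hy

theorem sys3_chart (h : S.Stable M) (h' : S.Stable M') {𝔶 𝔭 : Ideal T} (hp : 𝔭.IsPrime)
    (hy : 𝔶 ≤ 𝔭) (hm : ¬ 𝔭.IsMaximal) (χ : S.Chart)
    (hl : ∀ 𝔓 ∈ S.U 𝔶 χ, ∃ s, S.Nv χ 𝔓 s ∧ ∀ x ∈ S.loc χ M, s • x ∈ S.loc χ M') :
    ∃ t, t ∉ 𝔭 ∧ ∀ x ∈ S.loc χ M, t • x ∈ S.loc χ fun k => M' k ⊔ 𝔭 • M k := by
  let J : Ideal (S.O T χ) :=
    { carrier := {s | ∀ x ∈ S.loc χ M, (s : K) • x ∈ S.loc χ fun k => M' k ⊔ 𝔭 • M k}
      add_mem' := fun {a b} ha hb x hx => by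
        rw [Subalgebra.coe_add, add_smul]
        exact add_mem (ha x hx) (hb x hx)
      zero_mem' := fun x _ => by
        rw [Subalgebra.coe_zero, zero_smul]
        exact zero_mem _
      smul_mem' := fun c a ha x hx => by
        rw [smul_eq_mul, mul_comm, Subalgebra.coe_mul, mul_smul]
        exact ha _ (Stable.loc_smul S h χ c.2 hx) }
  by_contra hn
  push Not at hn
  obtain ⟨q, hq, hJq, hd⟩ := J.exists_le_prime_disjoint
    (𝔭.primeCompl.map (algebraMap T (S.O T χ))) (by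
      rw [Set.disjoint_left]
      rintro _ hs ⟨t, ht, rfl⟩
      obtain ⟨x, hx, hx'⟩ := hn t ht
      refine hx' ?_
      have := hs x hx
      rwa [Subalgebra.coe_algebraMap, algebraMap_smul] at this)
  have e : q.comap (algebraMap T (S.O T χ)) = 𝔭 := by
    refine le_antisymm (fun t ht => ?_) (fun t ht => hJq fun x hx => ?_)
    · by_contra h1
      exact Set.disjoint_left.1 hd ht ⟨t, h1, rfl⟩
    · rw [Subalgebra.coe_algebraMap, algebraMap_smul]
      refine Eventually.mono hx fun k hk => ?_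
      rw [smul_comm]
      exact Submodule.mem_sup_right (Submodule.smul_mem_smul ht hk)
  obtain ⟨s, ⟨hs, hs1⟩, hs2⟩ := hl ⟨q, hq⟩ ⟨by rw [e]; exact hy, by rw [e]; exact hm⟩
  exact hs1 (hJq fun x hx => loc_mono S χ (Eventually.of_forall fun k => le_sup_left) (hs2 x hx))

/-- Properness.  Fix `𝔭 ∈ U`.  On a chart the ideal `J` of the `s ∈ O` with `s • loc M ≤ loc M'` and `𝔭 O`
generate an ideal meeting `T ∖ 𝔭` (otherwise some prime of `O` over `𝔭` contains `J`), so
`t • a χ m • M k₀ ≤ M' (k₀ + m) + 𝔭 M (k₀ + m)` for large `m`; by `L_le_iSup` and Nakayama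
`ann (M k / M' k) ≰ 𝔭` for large `k`.  The annihilators `ann (M k / M' k)` increase with `k`, hence are
eventually constant. -/
theorem Stable.inPhi [IsNoetherianRing T] (h : S.Stable M) (h' : S.Stable M') (𝔶 : Ideal T)
    (hl : ∀ χ, ∀ 𝔓 ∈ S.U 𝔶 χ, ∃ s, S.Nv χ 𝔓 s ∧ ∀ x ∈ S.loc χ M, s • x ∈ S.loc χ M') :
    ∀ᶠ k in atTop, InPhi 𝔶 ↥((M k).map (M' k).mkQ) := by
  obtain ⟨k₀, hk₀⟩ := eventually_atTop.1 (h.and h')
  set 𝔞 : (σ → ℤ) → Ideal T := fun k => Module.annihilator T ↥((M k).map (M' k).mkQ) with h𝔞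
  have hmono : ∀ k, k₀ ≤ k → ∀ k', k ≤ k' → 𝔞 k ≤ 𝔞 k' := by
    intro k hk
    refine sys3_ind le_rfl fun k' hk' j ih => ih.trans fun t ht => ?_
    have hk'' := hk₀ k' (hk.trans hk')
    refine sys3_mem_ann.2 fun x hx => ?_
    rw [hk''.1.2 j] at hx
    rw [hk''.2.2 j]
    refine Submodule.smul_induction_on hx (fun r hr n hn => ?_) (fun x y hx hy => ?_)
    · rw [smul_comm]
      exact Submodule.smul_mem_smul hr (sys3_mem_ann.1 ht n hn)
    · rw [smul_add]
      exact add_mem hx hy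
  obtain ⟨_, ⟨k₁, hk₁, rfl⟩, hmax⟩ := set_has_maximal_iff_noetherian.2
    (inferInstance : IsNoetherian T T) (𝔞 '' Set.Ici k₀) ⟨_, k₀, Set.mem_Ici.2 le_rfl, rfl⟩
  have hconst : ∀ k, k₁ ≤ k → 𝔞 k = 𝔞 k₁ := fun k hk =>
    ((hmono k₁ hk₁ k hk).eq_of_not_lt (hmax _ ⟨k, le_trans hk₁ hk, rfl⟩)).symm
  filter_upwards [eventually_ge_atTop k₁] with k hk
  refine ⟨Module.Finite.iff_fg.2 ((hk₀ k (le_trans hk₁ hk)).1.1.map _), fun 𝔭 hp hy hle => ?_⟩
  by_contra hm
  classical
  choose t ht ht' using fun χ => S.sys3_chart h h' hp hy hm χ (hl χ)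
  have hT : ∏ χ, t χ ∉ 𝔭 := 𝔭.primeCompl.prod_mem fun χ _ => ht χ
  have hloc := Stable.le_of_loc S
    (Stable.map S h ((algebraMap T K (∏ χ, t χ)) • (LinearMap.id : V →ₗ[K] V)))
    (Stable.sup S h' (S.sys3_stable_smul h 𝔭)) (fun χ => by
      rw [loc_map S h]
      rintro _ ⟨x, hx, rfl⟩
      show algebraMap T K (∏ χ, t χ) • x ∈ _
      rw [algebraMap_smul, ← Finset.prod_erase_mul _ _ (Finset.mem_univ χ), mul_smul]
      exact Submodule.smul_mem _ _ (ht' χ x hx))
  obtain ⟨k', h1, h2⟩ := (hloc.and (eventually_ge_atTop k₁)).exists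
  refine hT (sys3_nak (hk₀ k' (le_trans hk₁ h2)).1.1 hp (B := M' k') (fun x hx => ?_) ?_)
  · have : algebraMap T K (∏ χ, t χ) • x ∈ M' k' ⊔ 𝔭 • M k' := h1 ⟨x, hx, rfl⟩
    rwa [algebraMap_smul] at this
  · exact ((hconst k' h2).trans (hconst k hk).symm).le.trans hle

end Sys

end Crest.Agent.R188
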