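import Crest.Agent.R188.TBasic

/-! Row 188, part IV: balancing of `Tor` through the double complex. -/

set_option autoImplicit false

namespace Crest.Agent.R188

open Crest.Agent.R183 IsLocalRing
open scoped ENNReal TensorProduct

variable {Λ : Type} [CommRing Λ]

/-- vectors concentrated in bidegree `(i, j)`. -/
def bgr {σ : Type} (a b : σ → ℕ) (U : Type) [AddCommGroup U] [Module Λ U] (i j : ℤ) :
    Submodule Λ (σ → U) :=
  gr a i ⊤ ⊓ gr b j ⊤

/-- the projection onto the part of `a`-degree `i`. -/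
def tbalaPr {σ : Type} (a : σ → ℕ) (U : Type) [AddCommGroup U] [Module Λ U] (i : ℤ) :
    (σ → U) →ₗ[Λ] (σ → U) where
  toFun v s := if (a s : ℤ) = i then v s else 0
  map_add' v w := by
    funext s
    simp only [Pi.add_apply]
    split_ifs <;> simp
  map_smul' r v := by
    funext s
    simp only [Pi.smul_apply, RingHom.id_apply]
    split_ifs <;> simp

theorem tbalaPr_apply {σ : Type} (a : σ → ℕ) {U : Type} [AddCommGroup U] [Module Λ U] (i : ℤ)
    (v : σ → U) (s : σ) : tbalaPr (Λ := Λ) a U i v s = if (a s : ℤ) = i then v s else 0 := rfl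

theorem tbala_mem_bgr {σ : Type} {a b : σ → ℕ} {U : Type} [AddCommGroup U] [Module Λ U]
    {i j : ℤ} {v : σ → U} :
    v ∈ bgr (Λ := Λ) a b U i j ↔ ∀ s, ((a s : ℤ) ≠ i ∨ (b s : ℤ) ≠ j) → v s = 0 := by
  simp only [bgr, Submodule.mem_inf, mem_gr, Submodule.mem_top, true_and, or_imp, forall_and]

theorem tbala_mem_tot {σ : Type} {a b : σ → ℕ} {U : Type} [AddCommGroup U] [Module Λ U]
    {m : ℤ} {v : σ → U} :
    v ∈ gr (fun s => a s + b s) m (⊤ : Submodule Λ U) ↔ ∀ s, (a s : ℤ) + b s ≠ m → v s = 0 := by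
  simp only [mem_gr, Submodule.mem_top, true_and, Nat.cast_add]

theorem tbala_pr_mem {σ : Type} {a b : σ → ℕ} {U : Type} [AddCommGroup U] [Module Λ U]
    {m : ℤ} {v : σ → U} (hv : v ∈ gr (fun s => a s + b s) m (⊤ : Submodule Λ U)) (i : ℤ) {j : ℤ}
    (hij : i + j = m) : tbalaPr (Λ := Λ) a U i v ∈ bgr (Λ := Λ) a b U i j := by
  rw [tbala_mem_bgr]
  intro s hs
  rw [tbalaPr_apply]
  split_ifs with h
  · exact tbala_mem_tot.1 hv s (by omega)
  · rfl

theorem tbala_bgr_le {σ : Type} {a b : σ → ℕ} {U : Type} [AddCommGroup U] [Module Λ U]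
    {i j m : ℤ} {v : σ → U} (hv : v ∈ bgr (Λ := Λ) a b U i j) (hij : i + j = m) :
    v ∈ gr (fun s => a s + b s) m (⊤ : Submodule Λ U) :=
  tbala_mem_tot.2 fun s hs => tbala_mem_bgr.1 hv s (by omega)

theorem tbala_pr_mact {σ : Type} [Fintype σ] {a : σ → ℕ} {U : Type} [AddCommGroup U] [Module Λ U]
    {P : Matrix σ σ Λ} {c : ℤ} (h : ∀ s t, P s t ≠ 0 → (a t : ℤ) = a s + c) (i : ℤ) (v : σ → U) :
    tbalaPr (Λ := Λ) a U i (mact P U v) = mact P U (tbalaPr (Λ := Λ) a U (i + c) v) := by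
  funext s
  rw [tbalaPr_apply, mact_apply, mact_apply]
  split_ifs with hs
  · refine Finset.sum_congr rfl fun t _ => ?_
    by_cases h0 : P s t = 0
    · rw [h0, zero_smul, zero_smul]
    · rw [tbalaPr_apply, if_pos (by rw [h s t h0, hs])]
  · refine (Finset.sum_eq_zero fun t _ => ?_).symm
    by_cases h0 : P s t = 0
    · rw [h0, zero_smul]
    · rw [tbalaPr_apply, if_neg (by rw [h s t h0]; omega), smul_zero]

/-- The double complex lemma: if the rows (differential `P₁`) are exact in the degrees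
`1 ≤ i < n`, the total complex has the homology of the complex of row cokernels in degrees `< n`.
Here `θ` identifies the complex of row cokernels with `(V₀, D₀, W₀)`. -/
theorem double_complex (lam : LenFn Λ) {σ : Type} [Fintype σ] (a b : σ → ℕ) (P₁ P₂ : Matrix σ σ Λ)
    (U : Type) [AddCommGroup U] [Module Λ U]
    (h₁ : ∀ s t, P₁ s t ≠ 0 → a t = a s + 1 ∧ b t = b s)
    (h₂ : ∀ s t, P₂ s t ≠ 0 → a t = a s ∧ b t = b s + 1)
    (sq₁ : P₁ * P₁ = 0) (sq₂ : P₂ * P₂ = 0) (anti : P₁ * P₂ + P₂ * P₁ = 0) {n : ℤ}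
    (hex : ∀ i j : ℤ, 1 ≤ i → i < n → ∀ v ∈ bgr (Λ := Λ) a b U i j, mact P₁ U v = 0 →
      ∃ w ∈ bgr (Λ := Λ) a b U (i + 1) j, mact P₁ U w = v)
    {V₀ : Type} [AddCommGroup V₀] [Module Λ V₀] (D₀ : V₀ →ₗ[Λ] V₀) (W₀ : ℤ → Submodule Λ V₀)
    (θ : (σ → U) →ₗ[Λ] V₀)
    (hθ0 : ∀ i j : ℤ, i ≠ 0 → ∀ v ∈ bgr (Λ := Λ) a b U i j, θ v = 0)
    (hθW : ∀ j : ℤ, (bgr (Λ := Λ) a b U 0 j).map θ = W₀ j)
    (hθD : ∀ j : ℤ, ∀ v ∈ bgr (Λ := Λ) a b U 0 j, θ (mact P₂ U v) = D₀ (θ v))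
    (hθker : ∀ j : ℤ, bgr (Λ := Λ) a b U 0 j ⊓ LinearMap.ker θ =
      (bgr (Λ := Λ) a b U 1 j).map (mact P₁ U))
    {m : ℤ} (hm : m < n) :
    hl lam (fun s => a s + b s) (P₁ + P₂) U m =
      lam.rel (W₀ m ⊓ LinearMap.ker D₀) ((W₀ (m + 1)).map D₀) := by
  classical
  have c₁ : ∀ s t, P₁ s t ≠ 0 → (a t : ℤ) = a s + 1 := fun s t h => by
    rw [(h₁ s t h).1]; push_cast; rfl
  have c₂ : ∀ s t, P₂ s t ≠ 0 → (a t : ℤ) = a s + 0 := fun s t h => by
    rw [(h₂ s t h).1, add_zero]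
  have hD : ∀ v, mact (P₁ + P₂) U v = mact P₁ U v + mact P₂ U v := fun v => by
    rw [mact_add, LinearMap.add_apply]
  have hDD : ∀ v, mact (P₁ + P₂) U (mact (P₁ + P₂) U v) = 0 := by
    intro v
    have e : (P₁ + P₂) * (P₁ + P₂) = 0 := by
      rw [add_mul, mul_add, mul_add, sq₁, sq₂, zero_add, add_zero, anti]
    rw [← LinearMap.comp_apply, ← mact_mul, e]
    funext s
    simp [mact_apply]
  have hDT : ∀ (k : ℤ) (v : σ → U), v ∈ gr (fun s => a s + b s) (k + 1) (⊤ : Submodule Λ U) →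
      mact (P₁ + P₂) U v ∈ gr (fun s => a s + b s) k (⊤ : Submodule Λ U) := by
    intro k v hv
    refine mact_mem_gr (fun s t h ht => ?_) hv
    by_cases h0 : P₁ s t = 0
    · have h3 : P₂ s t ≠ 0 := by rwa [Matrix.add_apply, h0, zero_add] at h
      have := h₂ s t h3
      push_cast at ht ⊢
      omega
    · have := h₁ s t h0
      push_cast at ht ⊢
      omega
  have hθpr : ∀ v, θ (tbalaPr (Λ := Λ) a U 0 v) = θ v := by
    intro v
    rw [eq_comm, ← sub_eq_zero, ← map_sub, ← Finset.univ_sum_single (v - tbalaPr (Λ := Λ) a U 0 v),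
      map_sum]
    refine Finset.sum_eq_zero fun s _ => ?_
    by_cases hs : (a s : ℤ) = 0
    · rw [Pi.sub_apply, tbalaPr_apply, if_pos hs, sub_self, Pi.single_zero, map_zero]
    · refine hθ0 (a s) (b s) hs _ (tbala_mem_bgr.2 fun t ht => ?_)
      refine Pi.single_eq_of_ne ?_ _
      rintro rfl
      omega
  have hθT : ∀ (k : ℤ) (v : σ → U), v ∈ gr (fun s => a s + b s) k (⊤ : Submodule Λ U) →
      θ v ∈ W₀ k := by
    intro k v hv
    rw [← hθpr, ← hθW]
    exact Submodule.mem_map_of_mem (tbala_pr_mem hv 0 (zero_add k))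
  have hθc : ∀ (k : ℤ) (v : σ → U), v ∈ gr (fun s => a s + b s) k (⊤ : Submodule Λ U) →
      θ (mact (P₁ + P₂) U v) = D₀ (θ v) := by
    intro k v hv
    have h3 : mact P₁ U (tbalaPr (Λ := Λ) a U (0 + 1) v) ∈
        bgr (Λ := Λ) a b U 0 (k - 1) ⊓ LinearMap.ker θ := by
      rw [hθker]
      exact Submodule.mem_map_of_mem (tbala_pr_mem hv _ (by ring))
    rw [← hθpr, hD, map_add, tbala_pr_mact c₁, tbala_pr_mact c₂, map_add, h3.2, zero_add, add_zero,
      hθD k _ (tbala_pr_mem hv 0 (zero_add k)), hθpr]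
  have acyc : ∀ k : ℤ, k < n → ∀ (l : ℕ) (v : σ → U),
      v ∈ gr (fun s => a s + b s) k (⊤ : Submodule Λ U) → mact (P₁ + P₂) U v = 0 → θ v = 0 →
      (∀ s, (a s : ℤ) < k + 1 - l → v s = 0) →
      ∃ w ∈ gr (fun s => a s + b s) (k + 1) (⊤ : Submodule Λ U), θ w = 0 ∧
        mact (P₁ + P₂) U w = v := by
    intro k hk l
    induction l with
    | zero =>
      intro v hv _ _ h0
      refine ⟨0, Submodule.zero_mem _, map_zero _, ?_⟩
      rw [map_zero]
      funext s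
      by_cases hs : (a s : ℤ) < k + 1 - (0 : ℕ)
      · exact (h0 s hs).symm
      · exact (tbala_mem_tot.1 hv s (by omega)).symm
    | succ l ih =>
      intro v hv hDv hθv h0
      by_cases hi : k - l < 0
      · exact ih v hv hDv hθv fun s hs => by omega
      have hv₀ := tbala_pr_mem hv (k - l) (j := l) (by ring)
      have hw : ∃ w ∈ bgr (Λ := Λ) a b U (k - l + 1) l,
          mact P₁ U w = tbalaPr (Λ := Λ) a U (k - l) v := by
        by_cases hi0 : k - l = 0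
        · rw [hi0] at hv₀ ⊢
          have h3 : tbalaPr (Λ := Λ) a U 0 v ∈ bgr (Λ := Λ) a b U 0 l ⊓ LinearMap.ker θ :=
            ⟨hv₀, by rw [SetLike.mem_coe, LinearMap.mem_ker, hθpr, hθv]⟩
          rw [hθker] at h3
          exact h3
        · refine hex (k - l) l (by omega) (by omega) _ hv₀ ?_
          have h3 := congrArg (tbalaPr (Λ := Λ) a U (k - l - 1)) hDv
          have h4 : tbalaPr (Λ := Λ) a U (k - l - 1 + 0) v = 0 := by
            funext s
            rw [tbalaPr_apply]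
            split_ifs with hs
            · exact h0 s (by push_cast; omega)
            · rfl
          rwa [hD, map_add, tbala_pr_mact c₁, tbala_pr_mact c₂, h4, map_zero, map_zero, add_zero,
            sub_add_cancel] at h3
      obtain ⟨w₀, hw₀, e⟩ := hw
      have hw₁ := tbala_bgr_le hw₀ (m := k + 1) (by ring)
      have hθw : θ w₀ = 0 := hθ0 _ _ (by omega) _ hw₀
      obtain ⟨w, hw, hθw', e'⟩ := ih (v - mact (P₁ + P₂) U w₀)
        (Submodule.sub_mem _ hv (hDT k _ hw₁)) (by rw [map_sub, hDv, hDD, sub_zero])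
        (by rw [map_sub, hθv, hθc _ _ hw₁, hθw, map_zero, sub_zero]) (by
          intro s hs
          have h3 : mact P₂ U w₀ s = 0 := by
            rw [mact_apply]
            refine Finset.sum_eq_zero fun t _ => ?_
            by_cases h5 : P₂ s t = 0
            · rw [h5, zero_smul]
            · rw [tbala_mem_bgr.1 hw₀ t (Or.inl (by have := c₂ s t h5; omega)), smul_zero]
          rw [hD, e, Pi.sub_apply, Pi.add_apply, h3, add_zero, tbalaPr_apply]
          split_ifs with h5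
          · exact sub_self _
          · rw [sub_zero]
            exact h0 s (by push_cast; omega))
      refine ⟨w + w₀, Submodule.add_mem _ hw hw₁, by rw [map_add, hθw, hθw', add_zero], ?_⟩
      rw [map_add, e', sub_add_cancel]
  have acyc' : ∀ k : ℤ, k < n → ∀ v : σ → U,
      v ∈ gr (fun s => a s + b s) k (⊤ : Submodule Λ U) → mact (P₁ + P₂) U v = 0 → θ v = 0 →
      ∃ w ∈ gr (fun s => a s + b s) (k + 1) (⊤ : Submodule Λ U), θ w = 0 ∧
        mact (P₁ + P₂) U w = v :=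
    fun k hk v hv h3 h4 => acyc k hk (k + 1).toNat v hv h3 h4 fun s hs => by omega
  have e₁ : (Zt (fun s => a s + b s) (P₁ + P₂) U m).map θ = W₀ m ⊓ LinearMap.ker D₀ := by
    apply le_antisymm
    · rintro _ ⟨v, hv, rfl⟩
      obtain ⟨hv1, hv2⟩ := mem_Zt.1 hv
      refine ⟨hθT m v hv1, ?_⟩
      rw [SetLike.mem_coe, LinearMap.mem_ker, ← hθc m v hv1, hv2, map_zero]
    · rintro x ⟨hx1, hx2⟩
      rw [← hθW] at hx1
      obtain ⟨v₀, hv₀, rfl⟩ := hx1
      have hv₁ := tbala_bgr_le hv₀ (m := m - 1 + 1) (by ring)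
      obtain ⟨w, hw, hθw, e⟩ := acyc' (m - 1) (by omega) _ (hDT _ _ hv₁) (hDD _)
        (by rw [hθc _ _ hv₁]; exact hx2)
      rw [sub_add_cancel] at hv₁ hw
      refine ⟨v₀ - w, mem_Zt.2 ⟨Submodule.sub_mem _ hv₁ hw, ?_⟩, ?_⟩
      · rw [map_sub, e, sub_self]
      · rw [map_sub, hθw, sub_zero]
  have e₂ : Zt (fun s => a s + b s) (P₁ + P₂) U m ⊓ Bt (fun s => a s + b s) (P₁ + P₂) U m =
      Zt (fun s => a s + b s) (P₁ + P₂) U m ⊓ ((W₀ (m + 1)).map D₀).comap θ := by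
    apply le_antisymm
    · rintro v ⟨hv, hv'⟩
      obtain ⟨w, hw, rfl⟩ := mem_Bt.1 hv'
      exact ⟨hv, θ w, hθT _ _ hw, (hθc _ _ hw).symm⟩
    · rintro v ⟨hv, y, hy, e⟩
      obtain ⟨hv1, hv2⟩ := mem_Zt.1 hv
      rw [← hθW] at hy
      obtain ⟨w₀, hw₀, rfl⟩ := hy
      have hw₁ := tbala_bgr_le hw₀ (m := m + 1) (zero_add _)
      obtain ⟨w, hw, -, e'⟩ := acyc' m hm (v - mact (P₁ + P₂) U w₀)
        (Submodule.sub_mem _ hv1 (hDT _ _ hw₁)) (by rw [map_sub, hv2, hDD, sub_zero])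
        (by rw [map_sub, hθc _ _ hw₁, e, sub_self])
      refine ⟨hv, mem_Bt.2 ⟨w + w₀, Submodule.add_mem _ hw hw₁, ?_⟩⟩
      rw [map_add, e', sub_add_cancel]
  rw [hl, ← lam.rel_inf_right, e₂, lam.rel_inf_right, ← lam.rel_map_comap, e₁]

end Crest.Agent.R188
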