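import Crest.Agent.R188.Chi

/-!
# R188 / Tau

The cyclic Adams functional. `ℓ` is invertible, so averaging over the group is available.
-/

set_option autoImplicit false
set_option linter.unusedSectionVars false
set_option linter.unusedVariables false

noncomputable section

namespace Crest.Agent.R188

open Filter
open Crest.Agent.R183 (Zc Bd mact gr Htpy)
open scoped TensorProduct

variable {R V : Type} [CommRing R] [AddCommGroup V] [Module R V] (ν : AddFn R)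
  {D ρ : V →ₗ[R] V} {W W' U : ℤ → Submodule R V} {ℓ : ℕ}

theorem Tau_mem_fix {x : V} : x ∈ fix ρ ↔ ρ x = x := Iff.rfl

theorem Tau_pow_mem {X : Submodule R V} (hX : X.map ρ ≤ X) (t : ℕ) {x : V} (hx : x ∈ X) :
    (ρ ^ t) x ∈ X := by
  induction t with
  | zero => simpa using hx
  | succ t ih =>
    rw [pow_succ', Module.End.mul_apply]
    exact hX ⟨_, ih, rfl⟩

theorem Tau_pow_fix (t : ℕ) {x : V} (hx : x ∈ fix ρ) : (ρ ^ t) x = x := by
  induction t with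
  | zero => simp
  | succ t ih => rw [pow_succ', Module.End.mul_apply, ih, Tau_mem_fix.1 hx]

theorem Tau_pow_comm {T : V →ₗ[R] V} (hT : ρ ∘ₗ T = T ∘ₗ ρ) (t : ℕ) (x : V) :
    (ρ ^ t) (T x) = T ((ρ ^ t) x) := by
  induction t with
  | zero => simp
  | succ t ih =>
    rw [pow_succ', Module.End.mul_apply, Module.End.mul_apply, ih]
    exact LinearMap.congr_fun hT _

/-- the norm -/
def Tau_N (ℓ : ℕ) (ρ : V →ₗ[R] V) : V →ₗ[R] V := ∑ t ∈ Finset.range ℓ, ρ ^ t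

theorem Tau_N_apply (x : V) : Tau_N ℓ ρ x = ∑ t ∈ Finset.range ℓ, (ρ ^ t) x := by
  simp [Tau_N, LinearMap.sum_apply]

theorem Tau_N_fix (hp : ρ ^ ℓ = 1) (x : V) : Tau_N ℓ ρ x ∈ fix ρ := by
  rw [Tau_mem_fix, Tau_N_apply, map_sum]
  have h1 := Finset.sum_range_succ (fun t => (ρ ^ t) x) ℓ
  have h2 := Finset.sum_range_succ' (fun t => (ρ ^ t) x) ℓ
  rw [h1, hp, pow_zero] at h2
  rw [add_right_cancel h2]
  refine Finset.sum_congr rfl fun t _ => ?_
  rw [pow_succ', Module.End.mul_apply]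

theorem Tau_N_mem {X : Submodule R V} (hX : X.map ρ ≤ X) {x : V} (hx : x ∈ X) :
    Tau_N ℓ ρ x ∈ X := by
  rw [Tau_N_apply]
  exact X.sum_mem fun t _ => Tau_pow_mem hX t hx

theorem Tau_N_of_fix {x : V} (hx : x ∈ fix ρ) : Tau_N ℓ ρ x = (ℓ : R) • x := by
  rw [Tau_N_apply, Finset.sum_congr rfl fun t _ => Tau_pow_fix t hx]
  simp [Nat.cast_smul_eq_nsmul]

theorem Tau_N_comm {T : V →ₗ[R] V} (hT : ρ ∘ₗ T = T ∘ₗ ρ) (x : V) :
    Tau_N ℓ ρ (T x) = T (Tau_N ℓ ρ x) := by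
  rw [Tau_N_apply, Tau_N_apply, map_sum]
  exact Finset.sum_congr rfl fun t _ => Tau_pow_comm hT t x

/-- the average -/
def Tau_A (u : R) (ℓ : ℕ) (ρ : V →ₗ[R] V) : V →ₗ[R] V := u • Tau_N ℓ ρ

theorem Tau_A_mem (u : R) (hp : ρ ^ ℓ = 1) {X : Submodule R V} (hX : X.map ρ ≤ X) {x : V}
    (hx : x ∈ X) : Tau_A u ℓ ρ x ∈ X ⊓ fix ρ :=
  Submodule.smul_mem _ u ⟨Tau_N_mem hX hx, Tau_N_fix hp x⟩

theorem Tau_A_of_fix {u : R} (hu : u * ℓ = 1) {x : V} (hx : x ∈ fix ρ) : Tau_A u ℓ ρ x = x := by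
  show u • Tau_N ℓ ρ x = x
  rw [Tau_N_of_fix hx, smul_smul, hu, one_smul]

theorem Tau_A_comm (u : R) {T : V →ₗ[R] V} (hT : ρ ∘ₗ T = T ∘ₗ ρ) (x : V) :
    Tau_A u ℓ ρ (T x) = T (Tau_A u ℓ ρ x) := by
  show u • Tau_N ℓ ρ (T x) = T (u • Tau_N ℓ ρ x)
  rw [Tau_N_comm hT, map_smul]

theorem Tau_D_fix (hc : ρ ∘ₗ D = D ∘ₗ ρ) {x : V} (hx : x ∈ fix ρ) : D x ∈ fix ρ := by
  have := LinearMap.congr_fun hc x
  simp only [LinearMap.comp_apply] at this
  rw [Tau_mem_fix, this, Tau_mem_fix.1 hx]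

theorem Tau_sub_fix (hc : ρ ∘ₗ D = D ∘ₗ ρ) {X Y : Submodule R V} (h : X.map D ≤ Y) :
    (X ⊓ fix ρ).map D ≤ Y ⊓ fix ρ := by
  rintro _ ⟨x, ⟨hx, hf⟩, rfl⟩
  exact ⟨h ⟨x, hx, rfl⟩, Tau_D_fix hc hf⟩

theorem IsCx.fix (h : IsCx D W U) (a : IsAct ℓ D ρ W U) :
    IsCx D (fun i => W i ⊓ fix ρ) (fun i => U i ⊓ fix ρ) := by
  refine ⟨fun i => inf_le_inf_right _ (h.le i), fun i => Tau_sub_fix a.comm (h.subW i),
    fun i => Tau_sub_fix a.comm (h.subU i), fun i x hx => ⟨h.dd i x hx.1,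
      Tau_D_fix a.comm (Tau_D_fix a.comm hx.2)⟩, h.fin.subset fun i hi hle => ?_⟩
  exact hi (inf_le_inf_right _ hle)

/-- the homology of the invariants embeds in the homology (average). -/
theorem fix_bd (hℓ : IsUnit (ℓ : R)) (h : IsCx D W U) (a : IsAct ℓ D ρ W U) (i : ℤ) :
    Zc D (fun i => W i ⊓ fix ρ) (fun i => U i ⊓ fix ρ) i ⊓ Bd D W U i =
      Bd D (fun i => W i ⊓ fix ρ) (fun i => U i ⊓ fix ρ) i := by
  obtain ⟨u, hu⟩ := hℓ.exists_left_inv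
  refine le_antisymm ?_ (le_inf ((h.fix a).bd_le i) ?_)
  · rintro x ⟨⟨⟨hxW, hxf⟩, -⟩, hb⟩
    obtain ⟨_, ⟨w, hw, rfl⟩, y, hy, rfl⟩ := Submodule.mem_sup.1 hb
    rw [← Tau_A_of_fix hu hxf, map_add, Tau_A_comm u a.comm]
    exact Submodule.add_mem_sup ⟨_, Tau_A_mem u a.pow (a.mapW _) hw, rfl⟩
      (Tau_A_mem u a.pow (a.mapU _) hy)
  · exact sup_le_sup (Submodule.map_mono inf_le_left) inf_le_left

theorem AddFn.gd_fix (hℓ : IsUnit (ℓ : R)) (h : IsCx D W U) (a : IsAct ℓ D ρ W U)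
    (g : ν.gd D W U) : ν.gd D (fun i => W i ⊓ fix ρ) (fun i => U i ⊓ fix ρ) := by
  intro i
  rw [← fix_bd hℓ h a i, (ν.rel_inf _ _).1]
  refine ν.grel_mono (le_sup_of_le_left ?_) le_rfl (g i)
  exact inf_le_inf inf_le_left (Submodule.comap_mono inf_le_left)

theorem AddFn.tau_ses (hℓ : IsUnit (ℓ : R)) (h : IsCx D W U) (a : IsAct ℓ D ρ W U)
    (h1 : ∀ i, U i ≤ W' i) (h2 : ∀ i, W' i ≤ W i) (h3 : ∀ i, (W' i).map D ≤ W' (i - 1))
    (h4 : ∀ i, (W' i).map ρ ≤ W' i) (g1 : ν.gd D W' U) (g2 : ν.gd D W W') :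
    ν.tau ℓ D ρ W U = ν.tau ℓ D ρ W' U + ν.tau ℓ D ρ W W' := by
  have a1 : IsAct ℓ D ρ W' U := ⟨a.pow, a.comm, h4, a.mapU⟩
  have a2 : IsAct ℓ D ρ W W' := ⟨a.pow, a.comm, a.mapW, h4⟩
  have e1 := ν.chi_ses h h1 h2 h3 g1 g2
  have e2 := ν.chi_ses (W' := fun i => W' i ⊓ fix ρ) (h.fix a)
    (fun i => inf_le_inf_right _ (h1 i)) (fun i => inf_le_inf_right _ (h2 i))
    (fun i => Tau_sub_fix a.comm (h3 i)) (ν.gd_fix hℓ (h.sub h1 h2 h3) a1 g1)
    (ν.gd_fix hℓ (h.quo h1 h2 h3) a2 g2)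
  unfold AddFn.tau
  rw [e1, e2]
  ring

theorem AddFn.tau_filt (hℓ : IsUnit (ℓ : R)) (X : ℕ → ℤ → Submodule R V) (m : ℕ)
    (h : IsCx D (X m) (X 0)) (a : IsAct ℓ D ρ (X m) (X 0))
    (hm : ∀ j i, X j i ≤ X (j + 1) i) (hs : ∀ j i, (X j i).map D ≤ X j (i - 1))
    (hρ : ∀ j i, (X j i).map ρ ≤ X j i) (g : ∀ j < m, ν.gd D (X (j + 1)) (X j)) :
    ν.tau ℓ D ρ (X m) (X 0) = ∑ j ∈ Finset.range m, ν.tau ℓ D ρ (X (j + 1)) (X j) := by
  have mono : ∀ i, Monotone fun j => X j i := fun i => monotone_nat_of_le_succ fun j => hm j i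
  have hc : ∀ j < m, IsCx D (X (j + 1)) (X j) := fun j hj =>
    (h.sub (W' := X (j + 1)) (fun i => mono i (Nat.zero_le _)) (fun i => mono i hj) (hs _)).quo
      (fun i => mono i (Nat.zero_le _)) (hm j) (hs _)
  have e1 := (ν.chi_filt X m h hm hs g).2
  have e2 := (ν.chi_filt (fun j i => X j i ⊓ fix ρ) m (h.fix a)
    (fun j i => inf_le_inf_right _ (hm j i)) (fun j i => Tau_sub_fix a.comm (hs j i))
    (fun j hj => ν.gd_fix hℓ (hc j hj) ⟨a.pow, a.comm, hρ _, hρ _⟩ (g j hj))).2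
  unfold AddFn.tau
  rw [e1, e2, Finset.sum_sub_distrib, Finset.mul_sum]

theorem AddFn.tau_iso (hℓ : IsUnit (ℓ : R)) {V' : Type} [AddCommGroup V'] [Module R V']
    {φ : V →ₗ[R] V'} {D' ρ' : V' →ₗ[R] V'} {X Y : ℤ → Submodule R V'} (e : PIso φ D W U D' X Y)
    (h : IsCx D W U) (h' : IsCx D' X Y) (a : IsAct ℓ D ρ W U) (a' : IsAct ℓ D' ρ' X Y)
    (hρ : ∀ i, ∀ x ∈ W i, φ (ρ x) - ρ' (φ x) ∈ Y i) :
    ν.tau ℓ D ρ W U = ν.tau ℓ D' ρ' X Y := by
  obtain ⟨u, hu⟩ := hℓ.exists_left_inv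
  have hpow : ∀ i (t : ℕ), ∀ x ∈ W i, φ ((ρ ^ t) x) - (ρ' ^ t) (φ x) ∈ Y i := by
    intro i t x hx
    induction t with
    | zero => simp
    | succ t ih =>
      have h1 := hρ i _ (Tau_pow_mem (a.mapW i) t hx)
      have h2 : ρ' (φ ((ρ ^ t) x) - (ρ' ^ t) (φ x)) ∈ Y i := a'.mapU i ⟨_, ih, rfl⟩
      rw [pow_succ', pow_succ', Module.End.mul_apply, Module.End.mul_apply]
      have := add_mem h1 h2
      rw [map_sub] at this
      simpa using this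
  have hA : ∀ i, ∀ x ∈ W i, φ (Tau_A u ℓ ρ x) - Tau_A u ℓ ρ' (φ x) ∈ Y i := by
    intro i x hx
    show φ (u • Tau_N ℓ ρ x) - u • Tau_N ℓ ρ' (φ x) ∈ Y i
    rw [map_smul, ← smul_sub, Tau_N_apply, Tau_N_apply, map_sum, ← Finset.sum_sub_distrib]
    exact Submodule.smul_mem _ _ (Submodule.sum_mem _ fun t _ => hpow i t x hx)
  have hφ : ∀ i, ∀ x ∈ W i, φ x ∈ X i := fun i x hx =>
    e.surj i ▸ Submodule.mem_sup_left ⟨x, hx, rfl⟩
  have hφU : ∀ i, ∀ x ∈ W i, φ x ∈ Y i ↔ x ∈ U i := fun i x hx => by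
    rw [← e.ker i]
    exact ⟨fun h => ⟨hx, h⟩, fun h => h.2⟩
  have e' : PIso (Tau_A u ℓ ρ' ∘ₗ φ) D (fun i => W i ⊓ fix ρ) (fun i => U i ⊓ fix ρ) D'
      (fun i => X i ⊓ fix ρ') (fun i => Y i ⊓ fix ρ') := by
    refine ⟨fun i => le_antisymm (sup_le ?_ (inf_le_inf_right _ (h'.le i))) ?_,
      fun i => le_antisymm ?_ ?_, fun i x hx => ?_⟩
    · rintro _ ⟨x, hx, rfl⟩
      exact Tau_A_mem u a'.pow (a'.mapW i) (hφ i x hx.1)
    · rintro x ⟨hx, hf⟩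
      rw [← e.surj i] at hx
      obtain ⟨_, ⟨w, hw, rfl⟩, y, hy, rfl⟩ := Submodule.mem_sup.1 hx
      refine Submodule.mem_sup.2 ⟨_, ⟨_, Tau_A_mem u a.pow (a.mapW i) hw, rfl⟩,
        Tau_A u ℓ ρ' (y - (φ (Tau_A u ℓ ρ w) - Tau_A u ℓ ρ' (φ w))),
        Tau_A_mem u a'.pow (a'.mapU i) (sub_mem hy (hA i w hw)), ?_⟩
      have h1 : Tau_A u ℓ ρ' (Tau_A u ℓ ρ' (φ w)) = Tau_A u ℓ ρ' (φ w) :=
        Tau_A_of_fix hu (Tau_A_mem u a'.pow (a'.mapW i) (hφ i w hw)).2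
      conv_rhs => rw [← Tau_A_of_fix hu hf]
      simp only [map_sub, map_add, LinearMap.comp_apply, h1]
      abel
    · rintro x ⟨⟨hx, hf⟩, hy⟩
      refine ⟨(hφU i x hx).1 ?_, hf⟩
      have h1 := hA i x hx
      rw [Tau_A_of_fix hu hf] at h1
      have := add_mem h1 hy.1
      simpa using this
    · rintro x ⟨hx, hf⟩
      exact ⟨⟨h.le i hx, hf⟩,
        Tau_A_mem u a'.pow (a'.mapU i) ((hφU i x (h.le i hx)).2 hx)⟩
    · have := Tau_A_mem u a'.pow (a'.mapU _) (e.comm i x hx.1)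
      rw [map_sub, Tau_A_comm u a'.comm] at this
      exact this
  unfold AddFn.tau
  rw [(ν.chi_iso e h h').2.1, (ν.chi_iso e' (h.fix a) (h'.fix a')).2.1]

theorem AddFn.tau_exa (hℓ : IsUnit (ℓ : R)) (h : IsCx D W U) (a : IsAct ℓ D ρ W U)
    (e : Exa D W U) : ν.tau ℓ D ρ W U = 0 := by
  have e' : Exa D (fun i => W i ⊓ fix ρ) (fun i => U i ⊓ fix ρ) := by
    intro i
    rw [← fix_bd hℓ h a i]
    refine le_inf le_rfl (le_trans ?_ (e i))
    exact inf_le_inf inf_le_left (Submodule.comap_mono inf_le_left)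
  unfold AddFn.tau
  rw [(ν.chi_exa e).2, (ν.chi_exa e').2]
  simp

theorem AddFn.tau_triv (hρ : ∀ i, W i ≤ fix ρ) (h : IsCx D W U) :
    ν.tau ℓ D ρ W U = (ℓ - 1 : ℝ) * ν.chi D W U := by
  have e1 : (fun i => W i ⊓ fix ρ) = W := funext fun i => inf_eq_left.2 (hρ i)
  have e2 : (fun i => U i ⊓ fix ρ) = U := funext fun i => inf_eq_left.2 ((h.le i).trans (hρ i))
  unfold AddFn.tau
  rw [e1, e2]
  ring

theorem AddFn.tau_shift (c : ℤ) (ε : R) (hε : IsUnit ε) :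
    ν.tau ℓ (ε • D) ρ (fun i => W (i - c)) (fun i => U (i - c)) =
      (-1 : ℝ) ^ c * ν.tau ℓ D ρ W U := by
  have e1 := (ν.chi_shift (D := D) (W := W) (U := U) c ε hε).2
  have e2 := (ν.chi_shift (D := D) (W := fun i => W i ⊓ fix ρ) (U := fun i => U i ⊓ fix ρ)
    c ε hε).2
  unfold AddFn.tau
  rw [e1, e2]
  ring

/-- if the terms are good the differential can be forgotten. -/
theorem AddFn.tau_terms (hℓ : IsUnit (ℓ : R)) (h : IsCx D W U) (a : IsAct ℓ D ρ W U)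
    (g : ∀ i, ν.grel (W i) (U i)) : ν.tau ℓ D ρ W U = ν.tau ℓ 0 ρ W U := by
  have h0 : IsCx (0 : V →ₗ[R] V) W U :=
    ⟨h.le, fun i => by simp, fun i => by simp, fun i x _ => by simp, h.fin⟩
  have a0 : IsAct ℓ (0 : V →ₗ[R] V) ρ W U := ⟨a.pow, by simp, a.mapW, a.mapU⟩
  have g' : ∀ i, ν.grel (W i ⊓ fix ρ) (U i ⊓ fix ρ) := by
    intro i
    have e : U i ⊓ fix ρ = (W i ⊓ fix ρ) ⊓ U i := by
      rw [inf_right_comm, inf_eq_right.2 (h.le i)]
    rw [e, (ν.rel_inf _ _).1]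
    exact ν.grel_mono (le_sup_of_le_left inf_le_left) le_rfl (g i)
  unfold AddFn.tau
  rw [(ν.chi_terms h g).2, (ν.chi_terms h0 g).2, (ν.chi_terms (h.fix a) g').2,
    (ν.chi_terms (h0.fix a0) g').2]

/-- summands that are permuted freely do not contribute: group the idempotents into orbits
(`chi_idem` for `W` and for the invariants); a free orbit `⊕_t ρ^t X` has invariants `≅ X` through `e ω`
and `χ = ℓ χ(X)`; orbits of `π` have one or `ℓ` elements. -/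
theorem AddFn.tau_ind (hp : ℓ.Prime) (hℓ : IsUnit (ℓ : R)) {Ω : Type} [Fintype Ω] [DecidableEq Ω]
    (h : IsCx D W U) (a : IsAct ℓ D ρ W U) (g : ν.gd D W U) (e : Ω → V →ₗ[R] V)
    (hsum : ∑ ω, e ω = LinearMap.id) (horth : ∀ ω ω', ω ≠ ω' → e ω ∘ₗ e ω' = 0)
    (hD : ∀ ω, e ω ∘ₗ D = D ∘ₗ e ω) (hW : ∀ ω i, (W i).map (e ω) ≤ W i)
    (hU : ∀ ω i, (U i).map (e ω) ≤ U i) (π : Equiv.Perm Ω) (hπ : π ^ ℓ = 1)
    (hρ : ∀ ω, ρ ∘ₗ e ω = e (π ω) ∘ₗ ρ) :
    ν.tau ℓ D ρ W U = ∑ ω ∈ Finset.univ.filter (fun ω => π ω = ω),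
      ν.tau ℓ D ρ (fun i => (W i).map (e ω)) fun i => (U i).map (e ω) := by
  classical
  have hl : 0 < ℓ := hp.pos
  have hρ' : ∀ ω x, ρ (e ω x) = e (π ω) (ρ x) := fun ω x => LinearMap.congr_fun (hρ ω) x
  have hρt : ∀ (t : ℕ) ω x, (ρ ^ t) (e ω x) = e ((π ^ t) ω) ((ρ ^ t) x) := by
    intro t ω x
    induction t with
    | zero => simp
    | succ t ih =>
      rw [pow_succ', pow_succ', Module.End.mul_apply, Module.End.mul_apply, ih, hρ',
        Equiv.Perm.mul_apply]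
  have horth' : ∀ ω ω' x, ω ≠ ω' → e ω (e ω' x) = 0 := fun ω ω' x hne =>
    LinearMap.congr_fun (horth ω ω' hne) x
  have hidem : ∀ ω x, e ω (e ω x) = e ω x := by
    intro ω x
    have h1 : ∑ ω', e ω' x = x := by
      have := LinearMap.congr_fun hsum x
      simpa [LinearMap.sum_apply] using this
    conv_rhs => rw [← h1, map_sum]
    rw [Finset.sum_eq_single ω (fun ω' _ hne => horth' _ _ x hne.symm) (by simp)]
  have hρinv : ∀ x, ρ ((ρ ^ (ℓ - 1)) x) = x := by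
    intro x
    rw [← Module.End.mul_apply, ← pow_succ', Nat.sub_add_cancel hl, a.pow]
    rfl
  have hρinj : Function.Injective ρ := by
    intro x y hxy
    have h1 : ∀ z, (ρ ^ (ℓ - 1)) (ρ z) = z := fun z => by
      rw [← Module.End.mul_apply, ← pow_succ, Nat.sub_add_cancel hl, a.pow]
      rfl
    rw [← h1 x, hxy, h1]
  obtain ⟨cx, -, hchi⟩ := ν.chi_idem h e hsum horth hD hW hU
  have hchi := hchi g
  -- the summands of an orbit are isomorphic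
  have hmap : ∀ (X : Submodule R V), X.map ρ ≤ X → ∀ ω,
      X.map (e (π ω)) = (X.map (e ω)).map ρ := by
    intro X hX ω
    apply le_antisymm
    · rintro _ ⟨x, hx, rfl⟩
      refine ⟨_, ⟨_, Tau_pow_mem hX (ℓ - 1) hx, rfl⟩, ?_⟩
      rw [hρ', hρinv]
    · rintro _ ⟨_, ⟨x, hx, rfl⟩, rfl⟩
      exact ⟨ρ x, hX ⟨x, hx, rfl⟩, (hρ' ω x).symm⟩
  have hstep : ∀ ω, ν.chi D (fun i => (W i).map (e (π ω))) (fun i => (U i).map (e (π ω))) =
      ν.chi D (fun i => (W i).map (e ω)) (fun i => (U i).map (e ω)) := by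
    intro ω
    refine (ν.chi_iso (φ := ρ) ⟨fun i => ?_, fun i => ?_, fun i x _ => ?_⟩ (cx ω) (cx (π ω))).2.1.symm
    · rw [← hmap _ (a.mapW i)]
      exact sup_eq_left.2 (Submodule.map_mono (h.le i))
    · rw [hmap _ (a.mapU i), Submodule.comap_map_eq_of_injective hρinj]
      exact inf_eq_right.2 (Submodule.map_mono (h.le i))
    · have := LinearMap.congr_fun a.comm x
      simp only [LinearMap.comp_apply] at this
      rw [this, sub_self]
      exact zero_mem _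
  have hsteps : ∀ (t : ℕ) ω,
      ν.chi D (fun i => (W i).map (e ((π ^ t) ω))) (fun i => (U i).map (e ((π ^ t) ω))) =
      ν.chi D (fun i => (W i).map (e ω)) (fun i => (U i).map (e ω)) := by
    intro t ω
    induction t with
    | zero => simp
    | succ t ih => rw [pow_succ', Equiv.Perm.mul_apply, hstep, ih]
  -- orbits
  let Q := Quotient (Equiv.Perm.SameCycle.setoid π)
  let c : Ω → Q := Quotient.mk _
  have hc : ∀ ω ω', c ω = c ω' ↔ π.SameCycle ω ω' := fun ω ω' => Quotient.eq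
  let E : Q → V →ₗ[R] V := fun q => ∑ ω ∈ Finset.univ.filter (fun ω => c ω = q), e ω
  have hE : ∀ q x, E q x = ∑ ω ∈ Finset.univ.filter (fun ω => c ω = q), e ω x := fun q x => by
    simp [E, LinearMap.sum_apply]
  have hEsum : ∑ q, E q = LinearMap.id := by
    rw [← hsum]
    exact Finset.sum_fiberwise Finset.univ c e
  have hEorth : ∀ q q', q ≠ q' → E q ∘ₗ E q' = 0 := by
    intro q q' hne
    ext x
    rw [LinearMap.comp_apply, hE, hE, LinearMap.zero_apply]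
    refine Finset.sum_eq_zero fun ω hω => ?_
    rw [map_sum]
    refine Finset.sum_eq_zero fun ω' hω' => horth' _ _ _ ?_
    rintro rfl
    exact hne ((Finset.mem_filter.1 hω).2.symm.trans (Finset.mem_filter.1 hω').2)
  have hED : ∀ q, E q ∘ₗ D = D ∘ₗ E q := by
    intro q
    ext x
    rw [LinearMap.comp_apply, LinearMap.comp_apply, hE, hE, map_sum]
    exact Finset.sum_congr rfl fun ω _ => LinearMap.congr_fun (hD ω) x
  have hEρ : ∀ q, ρ ∘ₗ E q = E q ∘ₗ ρ := by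
    intro q
    ext x
    rw [LinearMap.comp_apply, LinearMap.comp_apply, hE, hE, map_sum]
    refine Finset.sum_equiv π (fun ω => ?_) fun ω _ => hρ' ω x
    have : c (π ω) = c ω := (hc _ _).2 (by simpa using Equiv.Perm.SameCycle.refl π ω)
    simp [this]
  have hEX : ∀ (X : Submodule R V), (∀ ω, X.map (e ω) ≤ X) → ∀ q, X.map (E q) ≤ X := by
    rintro X hX q _ ⟨x, hx, rfl⟩
    rw [hE]
    exact X.sum_mem fun ω _ => hX ω ⟨x, hx, rfl⟩
  have hEW : ∀ q i, (W i ⊓ fix ρ).map (E q) ≤ W i ⊓ fix ρ := fun q i =>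
    Tau_sub_fix (hEρ q) (hEX _ (fun ω => hW ω i) q)
  have hEU : ∀ q i, (U i ⊓ fix ρ).map (E q) ≤ U i ⊓ fix ρ := fun q i =>
    Tau_sub_fix (hEρ q) (hEX _ (fun ω => hU ω i) q)
  obtain ⟨cx', -, hchi'⟩ := ν.chi_idem (h.fix a) E hEsum hEorth hED hEW hEU
  have hchi' := hchi' (ν.gd_fix hℓ h a g)
  rw [← Finset.sum_fiberwise (Finset.univ.filter fun ω => π ω = ω) c]
  conv_lhs => unfold AddFn.tau
  rw [hchi, hchi', ← Finset.sum_fiberwise Finset.univ c, Finset.mul_sum, ← Finset.sum_sub_distrib]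
  refine Finset.sum_congr rfl fun q _ => ?_
  obtain ⟨ω₀, rfl⟩ : ∃ ω₀, c ω₀ = q := Quotient.exists_rep q
  by_cases hfix : π ω₀ = ω₀
  · have f1 : Finset.univ.filter (fun ω => c ω = c ω₀) = {ω₀} := by
      ext ω
      simp only [Finset.mem_filter, Finset.mem_univ, true_and, Finset.mem_singleton, hc]
      exact ⟨fun hs => hs.eq_of_right hfix, fun hs => hs ▸ Equiv.Perm.SameCycle.refl _ _⟩
    have f2 : (Finset.univ.filter fun ω => π ω = ω).filter (fun ω => c ω = c ω₀) = {ω₀} := by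
      rw [Finset.filter_comm, f1]
      simp [Finset.filter_singleton, hfix]
    have f3 : E (c ω₀) = e ω₀ := by simp only [E, f1, Finset.sum_singleton]
    have f4 : ∀ X : Submodule R V, X.map (e ω₀) ≤ X →
        (X ⊓ fix ρ).map (e ω₀) = X.map (e ω₀) ⊓ fix ρ := by
      intro X hX
      apply le_antisymm
      · exact Tau_sub_fix (by rw [hρ, hfix]) le_rfl
      · rintro _ ⟨⟨x, hx, rfl⟩, hf⟩
        exact ⟨_, ⟨hX ⟨x, hx, rfl⟩, hf⟩, hidem _ _⟩
    rw [f1, f2, f3, Finset.sum_singleton, Finset.sum_singleton]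
    unfold AddFn.tau
    simp only [f4 _ (hW ω₀ _), f4 _ (hU ω₀ _)]
  · have := Fact.mk hp
    have hper : Function.minimalPeriod π ω₀ = ℓ := by
      refine Function.minimalPeriod_eq_prime ?_ hfix
      show π^[ℓ] ω₀ = ω₀
      rw [Equiv.Perm.iterate_eq_pow, hπ]
      rfl
    have hinj : Set.InjOn (fun t : ℕ => (π ^ t) ω₀) (Finset.range ℓ : Set ℕ) := by
      have := Function.iterate_injOn_Iio_minimalPeriod (f := π) (x := ω₀)
      rw [hper] at this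
      intro s hs t ht hst
      refine this (by simpa using hs) (by simpa using ht) ?_
      simpa [Equiv.Perm.iterate_eq_pow] using hst
    have f1 : Finset.univ.filter (fun ω => c ω = c ω₀) =
        (Finset.range ℓ).image fun t : ℕ => (π ^ t) ω₀ := by
      ext ω
      simp only [Finset.mem_filter, Finset.mem_univ, true_and, hc, Finset.mem_image,
        Finset.mem_range]
      constructor
      · intro hs
        obtain ⟨t, ht, rfl⟩ := hs.symm.exists_pow_eq'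
        exact ⟨t, ht.trans_le (orderOf_le_of_pow_eq_one hl hπ), rfl⟩
      · rintro ⟨t, -, rfl⟩
        simpa using Equiv.Perm.SameCycle.refl π ω₀
    have f2 : (Finset.univ.filter fun ω => π ω = ω).filter (fun ω => c ω = c ω₀) = ∅ := by
      refine Finset.filter_eq_empty_iff.2 fun ω hω hs => hfix ?_
      have h1 := (Finset.mem_filter.1 hω).2
      have h2 := ((hc _ _).1 hs).eq_of_left h1
      rw [← h2, h1]
    have f3 : ∀ x, E (c ω₀) x = ∑ t ∈ Finset.range ℓ, e ((π ^ t) ω₀) x := fun x => by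
      rw [hE, f1, Finset.sum_image hinj]
    have f4 : ∀ x, e ω₀ (Tau_N ℓ ρ (e ω₀ x)) = e ω₀ x := by
      intro x
      rw [Tau_N_apply, map_sum, Finset.sum_eq_single 0]
      · simp [hidem]
      · intro t ht hne
        rw [hρt]
        refine horth' _ _ _ fun hh => hne ?_
        exact (hinj (by simpa using hl) (by simpa using ht) (by simpa using hh)).symm
      · simp [hl.ne']
    have f5 : ∀ x, e ω₀ (E (c ω₀) x) = e ω₀ x := by
      intro x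
      rw [hE, map_sum, Finset.sum_eq_single ω₀ (fun ω _ hne => horth' _ _ _ hne.symm) (by simp),
        hidem]
    have f6 : ∀ x ∈ fix ρ, E (c ω₀) x = Tau_N ℓ ρ (e ω₀ x) := by
      intro x hx
      rw [f3, Tau_N_apply]
      refine Finset.sum_congr rfl fun t _ => ?_
      rw [hρt, Tau_pow_fix t hx]
    have iso : PIso (e ω₀) D (fun i => (W i ⊓ fix ρ).map (E (c ω₀)))
        (fun i => (U i ⊓ fix ρ).map (E (c ω₀))) D (fun i => (W i).map (e ω₀))
        (fun i => (U i).map (e ω₀)) := by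
      refine ⟨fun i => le_antisymm (sup_le ?_ (Submodule.map_mono (h.le i))) ?_,
        fun i => le_antisymm ?_ ?_, fun i x _ => ?_⟩
      · exact Submodule.map_mono ((hEW _ i).trans inf_le_left)
      · rintro _ ⟨x, hx, rfl⟩
        refine Submodule.mem_sup_left ⟨_, ⟨Tau_N ℓ ρ (e ω₀ x),
          ⟨Tau_N_mem (a.mapW i) (hW ω₀ i ⟨x, hx, rfl⟩), Tau_N_fix a.pow _⟩, rfl⟩, ?_⟩
        rw [f5, f4]
      · rintro _ ⟨⟨x, ⟨hx, hf⟩, rfl⟩, ⟨y, hy, hxy⟩⟩
        rw [f5] at hxy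
        refine ⟨Tau_N ℓ ρ (e ω₀ y),
          ⟨Tau_N_mem (a.mapU i) (hU ω₀ i ⟨y, hy, rfl⟩), Tau_N_fix a.pow _⟩, ?_⟩
        rw [f6 _ (Tau_N_fix a.pow _), f4, f6 _ hf, hxy]
      · refine le_inf (Submodule.map_mono (inf_le_inf_right _ (h.le i))) ?_
        rintro _ ⟨x, hx, rfl⟩
        exact ⟨x, hx.1, (f5 x).symm⟩
      · have := LinearMap.congr_fun (hD ω₀) x
        simp only [LinearMap.comp_apply] at this
        rw [this, sub_self]
        exact zero_mem _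
    rw [f2, Finset.sum_empty, (ν.chi_iso iso (cx' _) (cx _)).2.1, f1, Finset.sum_image hinj,
      Finset.sum_congr rfl fun t _ => hsteps t ω₀]
    simp

theorem AddFn.tau_eq_mul (μ : AddFn R) (c : ℝ)
    (hc : ∀ i, ν.rel (Zc D W U i) (Bd D W U i) = c * μ.rel (Zc D W U i) (Bd D W U i))
    (hc' : ∀ i, ν.rel (Zc D (fun i => W i ⊓ fix ρ) (fun i => U i ⊓ fix ρ) i)
        (Bd D (fun i => W i ⊓ fix ρ) (fun i => U i ⊓ fix ρ) i) =
      c * μ.rel (Zc D (fun i => W i ⊓ fix ρ) (fun i => U i ⊓ fix ρ) i)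
        (Bd D (fun i => W i ⊓ fix ρ) (fun i => U i ⊓ fix ρ) i)) :
    ν.tau ℓ D ρ W U = c * μ.tau ℓ D ρ W U := by
  unfold AddFn.tau
  rw [ν.chi_eq_mul μ c hc, ν.chi_eq_mul μ c hc']
  ring

end Crest.Agent.R188
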