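import Crest.Agent.R188.ThetaA
import Crest.Agent.R188.ConeA
import Crest.Agent.R188.TChi
import Crest.Agent.R188.Reg2A

/-! Row 188, part IV: modules over a hypersurface `H = T / (p)`; the multiplicity over `T` only
depends on `H`. -/

set_option autoImplicit false

namespace Crest.Agent.R188

open Crest.Agent.R183 IsLocalRing
open scoped ENNReal TensorProduct

theorem theta_fin {T t α β γ : ℤ → ℝ≥0∞}
    (H : ∀ j, t (j - 1) = γ (j + 1) + α j ∧ T j = α j + β j ∧ t j = β j + γ j)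
    (hneg : ∀ j < 0, t j = 0) (m : ℕ) (hfin : ∀ j ≤ (m : ℤ), T j ≠ ⊤) :
    t m ≠ ⊤ ∧ t (m - 1) ≠ ⊤ := by
  have key : ∀ j : ℤ, T j ≠ ⊤ → t (j - 1 - 1) ≠ ⊤ → t j ≠ ⊤ := fun j h1 h2 => by
    rw [(H j).2.1] at h1
    rw [(H (j - 1)).1, sub_add_cancel] at h2
    rw [(H j).2.2]
    exact ENNReal.add_ne_top.2 ⟨(ENNReal.add_ne_top.1 h1).2, (ENNReal.add_ne_top.1 h2).1⟩
  induction m with
  | zero =>
    refine ⟨key _ (hfin _ le_rfl) ?_, ?_⟩ <;> rw [hneg _ (by simp)] <;> simp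
  | succ m ih =>
    obtain ⟨h1, h2⟩ := ih fun j hj => hfin j (by push_cast; omega)
    push_cast at hfin ⊢
    rw [add_sub_cancel_right]
    exact ⟨key _ (hfin _ le_rfl) (by rwa [add_sub_cancel_right]), h1⟩

theorem theta_num {T t α β γ : ℤ → ℝ≥0∞}
    (H : ∀ j, t (j - 1) = γ (j + 1) + α j ∧ T j = α j + β j ∧ t j = β j + γ j)
    (hneg : ∀ j < 0, t j = 0) (m : ℕ) (hfin : ∀ j ≤ (m : ℤ), T j ≠ ⊤) :
    chi 0 m T = (-1 : ℝ) ^ m * ((t m).toReal - (γ (m + 1)).toReal) := by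
  have step : ∀ k : ℕ, (∀ j ≤ (k : ℤ), T j ≠ ⊤) → (T k).toReal =
      (t (k - 1)).toReal - (γ (k + 1)).toReal + ((t k).toReal - (γ k).toReal) := fun k hk => by
    obtain ⟨h1, h2⟩ := theta_fin H hneg k hk
    obtain ⟨a1, a2⟩ := ENNReal.add_ne_top.1 ((H k).1 ▸ h2)
    obtain ⟨a3, a4⟩ := ENNReal.add_ne_top.1 ((H k).2.2 ▸ h1)
    rw [(H k).1, (H k).2.1, (H k).2.2, ENNReal.toReal_add a1 a2, ENNReal.toReal_add a2 a3,
      ENNReal.toReal_add a3 a4]
    ring
  induction m with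
  | zero =>
    have h0 : γ 0 = 0 := by
      have := (H (-1)).1
      rw [hneg _ (by norm_num), neg_add_cancel] at this
      exact (add_eq_zero.1 this.symm).1
    have := step 0 hfin
    rw [hneg _ (by norm_num)] at this
    simp only [Nat.cast_zero, h0] at this
    simp [chi, this]
    ring
  | succ m ih =>
    have h1 := ih fun j hj => hfin j (by push_cast; omega)
    have h2 := step (m + 1) hfin
    unfold chi at h1 ⊢
    push_cast at h2 ⊢
    rw [add_sub_cancel_right] at h2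
    rw [← Finset.insert_Icc_right_eq_Icc_add_one (by omega), Finset.sum_insert (by simp), h1, h2,
      show ((-1 : ℝ) ^ ((m : ℤ) + 1)) = (-1) ^ (m + 1) by
        rw [← zpow_natCast]; push_cast; rfl]
    ring

variable {T H : Type} [CommRing T] [CommRing H] [Algebra T H]

/-- Hochster's theta formula. -/
theorem theta_formula [IsLocalRing T] [IsNoetherianRing T] {d : ℕ} (hG : GlDim T d)
    (hs : Function.Surjective (algebraMap T H)) {p : T}
    (hp : p ∈ nonZeroDivisors T) (hker : RingHom.ker (algebraMap T H) = Ideal.span {p})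
    {ι : Type} [Fintype ι] [DecidableEq ι] {e : ℕ} {n : ℤ} {deg : ι → ℕ} {Q : Matrix ι ι H}
    (hn : (d : ℤ) + 2 ≤ n) {M N : Type} [AddCommGroup M] [Module T M] [Module H M]
    [IsScalarTower T H M] [AddCommGroup N] [Module T N] [Module H N] [IsScalarTower T H N]
    [Module.Finite T M] (hMN : Meet T M N) (hQ : PRes e n deg Q N) :
    (chiT T d M N : ℝ) =
      (-1 : ℝ) ^ d * ((hl (lenFn H) deg Q M d).toReal - (hl (lenFn H) deg Q M (d + 1)).toReal) := by
  obtain ⟨D, τ, hD, hDdeg, hDD, hF⟩ := theta_lift hs hp hker hQ.1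
  have hres := theta_res hs hp hker hQ hD hDdeg hDD hF
  obtain ⟨ι₁, _, _, deg₁, P₁, h₁⟩ := hG M inferInstance
  obtain ⟨ι₂, _, _, deg₂, P₂, h₂⟩ := hG N hres.finite
  have hT : ∀ j : ℤ, j ≤ d + 1 → hl (lenFn T) (cdg deg)
      (Matrix.fromBlocks D (p • (1 : Matrix ι ι T)) (-τ) (-D)) M j = hl (lenFn T) deg₂ P₂ M j :=
    fun j hj => (balance _ hres (h₁.pres n) (by omega) (by omega)).trans
      (balance _ (h₁.pres n) (h₂.pres n) (by omega) (by omega))
  have hp0 : algebraMap T H p = 0 := by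
    rw [← RingHom.mem_ker, hker]
    exact Ideal.mem_span_singleton_self p
  have hA : mact (p • (1 : Matrix ι ι T)) M = 0 := by
    refine LinearMap.ext fun v => ?_
    rw [mact_smul_one]
    funext b
    rw [Pi.smul_apply, ← algebraMap_smul H p, hp0, zero_smul]
    rfl
  obtain ⟨α, β, γ, hles⟩ := block_les' (lenFn T) (M := M) hF hA
  have ht : ∀ j, hl (lenFn T) deg D M j = hl (lenFn H) deg Q M j := fun j => by
    rw [← hD]
    refine (hl_lenFn_map (fun r => ?_) j).symm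
    obtain ⟨s, rfl⟩ := hs r
    exact ⟨s, fun m => algebraMap_smul H s m⟩
  simp only [hl_shift, ht] at hles
  have hfin : ∀ j : ℤ, j ≤ d + 1 → hl (lenFn T) (cdg deg)
      (Matrix.fromBlocks D (p • (1 : Matrix ι ι T)) (-τ) (-D)) M j ≠ ⊤ := fun j hj => by
    rw [hT j hj]
    exact h₂.hl_ne_top hMN j
  have h3 := theta_num hles (fun j hj => hl_neg _ hj) d fun j hj => hfin j (by omega)
  have h4 : β (d + 1) = 0 := by
    have := (hles (d + 1)).2.1
    rw [show Sum.elim deg (fun b => deg b + 1) = cdg deg from rfl, hT _ le_rfl,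
      hl_high _ h₂.1 (by omega)] at this
    exact (add_eq_zero.1 this.symm).2
  rw [(hles (d + 1)).2.2, h4, zero_add, ← h3, h₂.chiT_eq]
  unfold chiG chi
  refine Finset.sum_congr rfl fun j hj => ?_
  rw [← hT j (by have := (Finset.mem_Icc.1 hj).2; omega)]
  rfl

theorem theta_equiv (hs : Function.Surjective (algebraMap T H)) (I : Ideal H) :
    Nonempty ((T ⧸ I.comap (algebraMap T H)) ≃ₐ[T] H ⧸ I) :=
  ⟨AlgEquiv.ofBijective (Ideal.quotientMapₐ I (Algebra.ofId T H) le_rfl)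
    ⟨Ideal.quotientMap_injective, Ideal.quotientMap_surjective (H := le_rfl) hs⟩⟩

theorem theta_prim {T H : Type} [CommRing T] [CommRing H] [IsLocalRing T] [IsLocalRing H]
    (π : T →+* H) (hs : Function.Surjective π) (I J : Ideal H) (c : ℕ) :
    maximalIdeal T ^ c ≤ I.comap π ⊔ J.comap π ↔ maximalIdeal H ^ c ≤ I ⊔ J := by
  have e : I.comap π ⊔ J.comap π = (I ⊔ J).comap π := by
    refine le_antisymm (Ideal.le_comap_sup π) fun x hx => ?_
    obtain ⟨y, hy, z, hz, e⟩ := Submodule.mem_sup.1 (show π x ∈ I ⊔ J from hx)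
    obtain ⟨y, rfl⟩ := hs y
    refine Submodule.mem_sup.2 ⟨y, hy, x - y, ?_, by ring⟩
    show π (x - y) ∈ J
    rwa [map_sub, ← e, add_sub_cancel_left]
  rw [e, ← Ideal.map_le_iff_le_comap, Ideal.map_pow, IsLocalRing.map_maximalIdeal_of_surjective π hs]

theorem theta_chi [IsLocalRing T] [IsNoetherianRing T] {d : ℕ} (hG : GlDim T d)
    (hs : Function.Surjective (algebraMap T H)) {p : T}
    (hp : p ∈ nonZeroDivisors T) (hker : RingHom.ker (algebraMap T H) = Ideal.span {p})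
    {ι : Type} [Fintype ι] [DecidableEq ι] {e : ℕ} {n : ℤ} {deg : ι → ℕ} {Q : Matrix ι ι H}
    (hn : (d : ℤ) + 2 ≤ n) (I J : Ideal H)
    (hc : ∃ c : ℕ, maximalIdeal T ^ c ≤ I.comap (algebraMap T H) ⊔ J.comap (algebraMap T H))
    (hQ : PRes e n deg Q (H ⧸ J)) :
    (chiT T d (T ⧸ I.comap (algebraMap T H)) (T ⧸ J.comap (algebraMap T H)) : ℝ) =
      (-1 : ℝ) ^ d * ((hl (lenFn H) deg Q (H ⧸ I) d).toReal -
        (hl (lenFn H) deg Q (H ⧸ I) (d + 1)).toReal) := by
  obtain ⟨e₁⟩ := theta_equiv hs I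
  obtain ⟨e₂⟩ := theta_equiv hs J
  have : Module.Finite T (H ⧸ I) := Module.Finite.equiv e₁.toLinearEquiv
  rw [chiT_congr (hG _ inferInstance) e₁.toLinearEquiv e₂.toLinearEquiv]
  refine theta_formula hG hs hp hker hn ?_ hQ
  exact ((((meet_quot_iff _ _).2 hc).of_surjective e₁.toLinearMap e₁.surjective).symm.of_surjective
    e₂.toLinearMap e₂.surjective).symm

/-- two regular rings with a common hypersurface. -/
theorem pairCase_of_hyp {T S H : Type} [CommRing T] [CommRing S] [CommRing H] [IsLocalRing T]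
    [IsNoetherianRing T] [IsLocalRing S] [IsNoetherianRing S] {d : ℕ} (hT : GlDim T d)
    (hS : GlDim S d) (π₁ : T →+* H) (π₂ : S →+* H) (h₁ : Function.Surjective π₁)
    (h₂ : Function.Surjective π₂) {p : T} {g : S} (hp : p ∈ nonZeroDivisors T)
    (hg : g ∈ nonZeroDivisors S) (hk₁ : RingHom.ker π₁ = Ideal.span {p})
    (hk₂ : RingHom.ker π₂ = Ideal.span {g}) (I J : Ideal H)
    (h : PairCase S d (I.comap π₂) (J.comap π₂)) : PairCase T d (I.comap π₁) (J.comap π₁) := by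
  let _ := π₁.toAlgebra
  let _ := π₂.toAlgebra
  intro hc a b ha hb
  obtain ⟨e₁⟩ := theta_equiv (T := T) h₁ I
  obtain ⟨e₂⟩ := theta_equiv (T := T) h₁ J
  obtain ⟨f₁⟩ := theta_equiv (T := S) h₂ I
  obtain ⟨f₂⟩ := theta_equiv (T := S) h₂ J
  have ha' : ringKrullDim (S ⧸ I.comap π₂) = a :=
    (ringKrullDim_eq_of_ringEquiv (f₁.toRingEquiv.trans e₁.toRingEquiv.symm)).trans ha
  have hb' : ringKrullDim (S ⧸ J.comap π₂) = b :=
    (ringKrullDim_eq_of_ringEquiv (f₂.toRingEquiv.trans e₂.toRingEquiv.symm)).trans hb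
  have : Nontrivial H := by
    by_contra hH
    rw [not_nontrivial_iff_subsingleton] at hH
    have : Subsingleton (T ⧸ I.comap π₁) := e₁.injective.subsingleton
    rw [ringKrullDim_eq_bot_of_subsingleton] at ha
    exact absurd ha (by simp)
  have : IsLocalRing H := IsLocalRing.of_surjective' π₁ h₁
  have : IsNoetherianRing H := isNoetherianRing_of_surjective T H π₁ h₁
  have hc' : ∃ c : ℕ, maximalIdeal S ^ c ≤ I.comap π₂ ⊔ J.comap π₂ :=
    hc.imp fun c hc => (theta_prim π₂ h₂ I J c).2 ((theta_prim π₁ h₁ I J c).1 hc)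
  obtain ⟨ι, _, _, deg, Q, hQ⟩ := exists_pres (R := H) (d + 1) (H ⧸ J)
  have e : chiT T d (T ⧸ I.comap π₁) (T ⧸ J.comap π₁) =
      chiT S d (S ⧸ I.comap π₂) (S ⧸ J.comap π₂) := by
    have h3 := theta_chi hT h₁ hp hk₁ (by push_cast; omega) I J hc hQ
    have h4 := theta_chi hS h₂ hg hk₂ (by push_cast; omega) I J hc' hQ
    exact_mod_cast h3.trans h4.symm
  rw [e]
  exact h hc' a b ha' hb'

end Crest.Agent.R188
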