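import Crest.Agent.R188.TBasic

/-! Row 188, part IV: modules over a hypersurface `H = T / (p)`; the multiplicity over `T` only
depends on `H`. -/

set_option autoImplicit false

namespace Crest.Agent.R188

open Crest.Agent.R183 IsLocalRing
open scoped ENNReal TensorProduct

variable {T H : Type} [CommRing T] [CommRing H] [Algebra T H]

/-- lifting a free complex along `T → H = T / (p)`. -/
theorem theta_lift (hs : Function.Surjective (algebraMap T H)) {p : T}
    (hp : p ∈ nonZeroDivisors T) (hker : RingHom.ker (algebraMap T H) = Ideal.span {p})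
    {ι : Type} [Fintype ι] [DecidableEq ι] {e : ℕ} {deg : ι → ℕ} {Q : Matrix ι ι H}
    (hQ : GCx e deg Q) :
    ∃ D τ : Matrix ι ι T, D.map (algebraMap T H) = Q ∧
      (∀ b b', D b b' ≠ 0 → deg b' = deg b + 1) ∧ D * D = p • τ ∧
      GCx (e + 1) (cdg deg) (Matrix.fromBlocks D (p • (1 : Matrix ι ι T)) (-τ) (-D)) := by
  classical
  obtain ⟨D, hD, hD0⟩ : ∃ D : Matrix ι ι T, D.map (algebraMap T H) = Q ∧
      ∀ b b', D b b' ≠ 0 → Q b b' ≠ 0 := by
    refine ⟨Matrix.of fun b b' => if Q b b' = 0 then 0 else Function.surjInv hs (Q b b'), ?_,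
      fun b b' h h0 => h (by rw [Matrix.of_apply, if_pos h0])⟩
    ext b b'
    rw [Matrix.map_apply, Matrix.of_apply]
    split_ifs with h0
    · rw [map_zero, h0]
    · exact Function.surjInv_eq hs _
  have hdeg : ∀ b b', D b b' ≠ 0 → deg b' = deg b + 1 := fun b b' h => hQ.P_deg b b' (hD0 b b' h)
  have hmem : ∀ b b', ∃ t, p * t = (D * D) b b' := fun b b' => by
    have : (D * D) b b' ∈ RingHom.ker (algebraMap T H) := by
      rw [RingHom.mem_ker, ← Matrix.map_apply (f := algebraMap T H), Matrix.map_mul, hD, hQ.sq]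
      rfl
    rw [hker, Ideal.mem_span_singleton] at this
    exact this.imp fun t ht => ht.symm
  choose τ₀ hτ₀ using hmem
  obtain ⟨τ, hτ⟩ : ∃ τ : Matrix ι ι T, D * D = p • τ :=
    ⟨Matrix.of τ₀, Matrix.ext fun b b' => (hτ₀ b b').symm⟩
  have hcancel : ∀ A B : Matrix ι ι T, p • A = p • B → A = B := fun A B h => by
    ext b b'
    exact (mul_cancel_left_mem_nonZeroDivisors hp).1 (congrFun (congrFun h b) b')
  have hτdeg : ∀ b b', τ b b' ≠ 0 → deg b' = deg b + 2 := fun b b' h => by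
    have h1 : (D * D) b b' ≠ 0 := by
      rw [hτ]
      exact fun h0 => h ((mem_nonZeroDivisors_iff_left.1 hp) _ h0)
    rw [Matrix.mul_apply] at h1
    obtain ⟨c, -, hc⟩ := Finset.exists_ne_zero_of_sum_ne_zero h1
    rw [hdeg c b' (right_ne_zero_of_mul hc), hdeg b c (left_ne_zero_of_mul hc)]
  have hcomm : D * τ = τ * D := hcancel _ _ (by
    rw [← Matrix.mul_smul, ← Matrix.smul_mul, ← hτ, Matrix.mul_assoc])
  refine ⟨D, τ, hD, hdeg, hτ, ?_, ?_, ?_⟩
  · rintro (b | b)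
    · exact (hQ.deg_le b).trans (Nat.le_succ e)
    · exact Nat.succ_le_succ (hQ.deg_le b)
  · rintro (b | b) (b' | b') h
    · exact hdeg b b' h
    · have : b = b' := by
        by_contra hne
        exact h (by simp [Matrix.one_apply_ne hne])
      subst this
      rfl
    · exact hτdeg b b' fun h0 => h (by simp [h0])
    · exact congrArg (· + 1) (hdeg b b' fun h0 => h (by simp [h0]))
  · rw [Matrix.fromBlocks_multiply, ← Matrix.fromBlocks_zero]
    simp [hτ, hcomm]

section Aux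
variable {ι : Type} [Fintype ι] [DecidableEq ι] {deg : ι → ℕ}

theorem thA_mact (D τ : Matrix ι ι T) (p : T) (v : ι ⊕ ι → T) :
    mact (Matrix.fromBlocks D (p • (1 : Matrix ι ι T)) (-τ) (-D)) T v =
      Sum.elim (mact D T (v ∘ Sum.inl) + p • (v ∘ Sum.inr))
        (-mact τ T (v ∘ Sum.inl) - mact D T (v ∘ Sum.inr)) := by
  funext b
  rcases b with b | b
  · rw [← mact_smul_one p (v ∘ Sum.inr)]
    simp [mact_apply, Fintype.sum_sum_type]
  · simp [mact_apply, Fintype.sum_sum_type, sub_eq_add_neg]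

omit [Fintype ι] [DecidableEq ι] in
theorem thA_gr {j : ℤ} {v : ι ⊕ ι → T} : v ∈ gr (cdg deg) j (⊤ : Submodule T T) ↔
    v ∘ Sum.inl ∈ gr deg j (⊤ : Submodule T T) ∧
      v ∘ Sum.inr ∈ gr deg (j - 1) (⊤ : Submodule T T) := by
  simp only [mem_gr, Submodule.mem_top, true_and, Sum.forall, cdg, Sum.elim_inl, Sum.elim_inr,
    Function.comp_apply]
  refine and_congr Iff.rfl (forall_congr' fun b => imp_congr ?_ Iff.rfl)
  push_cast
  omega

omit [DecidableEq ι] in
theorem thA_map (D : Matrix ι ι T) (x : ι → T) :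
    algebraMap T H ∘ mact D T x = mact (D.map (algebraMap T H)) H (algebraMap T H ∘ x) := by
  funext b
  simp [mact_apply]

omit [Fintype ι] [DecidableEq ι] in
theorem thA_down {j : ℤ} {x : ι → T} (hx : x ∈ gr deg j (⊤ : Submodule T T)) :
    algebraMap T H ∘ x ∈ gr deg j (⊤ : Submodule H H) :=
  mem_gr.2 fun b => ⟨Submodule.mem_top, fun hb => by
    rw [Function.comp_apply, (mem_gr.1 hx b).2 hb, map_zero]⟩

omit [Fintype ι] [DecidableEq ι] in
theorem thA_up (hs : Function.Surjective (algebraMap T H)) {j : ℤ} {w : ι → H}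
    (hw : w ∈ gr deg j (⊤ : Submodule H H)) :
    ∃ x ∈ gr deg j (⊤ : Submodule T T), algebraMap T H ∘ x = w := by
  refine ⟨fun b => if (deg b : ℤ) = j then Function.surjInv hs (w b) else 0,
    mem_gr.2 fun b => ⟨Submodule.mem_top, fun hb => if_neg hb⟩, funext fun b => ?_⟩
  rw [Function.comp_apply]
  split_ifs with hb
  · exact Function.surjInv_eq hs _
  · rw [map_zero, (mem_gr.1 hw b).2 hb]

omit [Fintype ι] [DecidableEq ι] in
theorem thA_div {p : T} (hker : RingHom.ker (algebraMap T H) = Ideal.span {p}) {j : ℤ} {x : ι → T}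
    (hx : x ∈ gr deg j (⊤ : Submodule T T)) (h0 : algebraMap T H ∘ x = 0) :
    ∃ y ∈ gr deg j (⊤ : Submodule T T), x = p • y := by
  have : ∀ b, ∃ t, x b = p * t := fun b => by
    have : x b ∈ RingHom.ker (algebraMap T H) := congrFun h0 b
    rwa [hker, Ideal.mem_span_singleton] at this
  choose t ht using this
  refine ⟨fun b => if (deg b : ℤ) = j then t b else 0,
    mem_gr.2 fun b => ⟨Submodule.mem_top, fun hb => if_neg hb⟩, funext fun b => ?_⟩
  rw [Pi.smul_apply, smul_eq_mul]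
  split_ifs with hb
  · exact ht b
  · rw [mul_zero, (mem_gr.1 hx b).2 hb]

end Aux

/-- the lifted complex is quasi-isomorphic to the original one. -/
theorem theta_res (hs : Function.Surjective (algebraMap T H)) {p : T}
    (hp : p ∈ nonZeroDivisors T) (hker : RingHom.ker (algebraMap T H) = Ideal.span {p})
    {ι : Type} [Fintype ι] [DecidableEq ι] {e : ℕ} {n : ℤ} {deg : ι → ℕ} {Q : Matrix ι ι H}
    {N : Type} [AddCommGroup N] [Module T N] [Module H N] [IsScalarTower T H N]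
    (hQ : PRes e n deg Q N) {D τ : Matrix ι ι T} (hD : D.map (algebraMap T H) = Q)
    (hDdeg : ∀ b b', D b b' ≠ 0 → deg b' = deg b + 1) (hDD : D * D = p • τ)
    (hF : GCx (e + 1) (cdg deg) (Matrix.fromBlocks D (p • (1 : Matrix ι ι T)) (-τ) (-D))) :
    PRes (e + 1) n (cdg deg) (Matrix.fromBlocks D (p • (1 : Matrix ι ι T)) (-τ) (-D)) N := by
  obtain ⟨hQc, ε, hε⟩ := hQ
  have hp0 : algebraMap T H p = 0 := by
    rw [← RingHom.mem_ker, hker]; exact Ideal.mem_span_singleton_self p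
  obtain ⟨F, hFdef⟩ : ∃ F, F = Matrix.fromBlocks D (p • (1 : Matrix ι ι T)) (-τ) (-D) := ⟨_, rfl⟩
  have hFl : ∀ v : ι ⊕ ι → T,
      mact F T v ∘ Sum.inl = mact D T (v ∘ Sum.inl) + p • (v ∘ Sum.inr) := fun v => by
    rw [hFdef, thA_mact, Sum.elim_comp_inl]
  have hred : ∀ v : ι ⊕ ι → T, algebraMap T H ∘ (mact F T v ∘ Sum.inl) =
      mact Q H (algebraMap T H ∘ (v ∘ Sum.inl)) := fun v => by
    rw [hFl, ← hD, ← thA_map]
    funext b
    simp [hp0]
  rw [← hFdef] at hF ⊢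
  have key : ∀ (j : ℤ) (v : ι ⊕ ι → T), v ∈ gr (cdg deg) j (⊤ : Submodule T T) → mact F T v = 0 →
      algebraMap T H ∘ (v ∘ Sum.inl) ∈ Bt deg Q H j → v ∈ Bt (cdg deg) F T j := by
    intro j v hv h0 ⟨w, hw, hQw⟩
    obtain ⟨x₁, hx₁, rfl⟩ := thA_up hs hw
    have hDx : mact D T x₁ ∈ gr deg j (⊤ : Submodule T T) :=
      mact_mem_gr (fun b b' h h' => by have := hDdeg b b' h; omega) hx₁
    obtain ⟨y₁, hy₁, hxy⟩ := thA_div hker (sub_mem (thA_gr.1 hv).1 hDx) (by
      rw [← hD, ← thA_map] at hQw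
      funext b
      have := congrFun hQw b
      simp only [Function.comp_apply, Pi.sub_apply, map_sub, Pi.zero_apply] at this ⊢
      rw [this, sub_self])
    refine ⟨Sum.elim x₁ y₁, thA_gr.2 ⟨hx₁, by rwa [add_sub_cancel_right]⟩, ?_⟩
    have hl : (mact F T (Sum.elim x₁ y₁) - v) ∘ Sum.inl = 0 := by
      have := hFl (Sum.elim x₁ y₁)
      rw [Sum.elim_comp_inl, Sum.elim_comp_inr, ← hxy, add_sub_cancel] at this
      funext b
      exact sub_eq_zero.2 (congrFun this b)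
    have h1 := hFl (mact F T (Sum.elim x₁ y₁) - v)
    rw [map_sub, h0, cxa_DD hF.mact_sq, sub_self, hl, map_zero, zero_add] at h1
    refine sub_eq_zero.1 (funext fun b => ?_)
    rcases b with b | b
    · exact congrFun hl b
    · exact (mem_nonZeroDivisors_iff_left.1 hp) _ (congrFun h1 b).symm
  obtain ⟨ε', hε'⟩ : ∃ ε' : (ι ⊕ ι → T) →ₗ[T] N, ∀ v, ε' v = ε (algebraMap T H ∘ (v ∘ Sum.inl)) :=
    ⟨ε.restrictScalars T ∘ₗ (Algebra.linearMap T H).compLeft ι ∘ₗ LinearMap.funLeft T T Sum.inl,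
      fun _ => rfl⟩
  refine ⟨hF, ε', eq_top_iff.2 fun y _ => ?_, le_antisymm (fun v hv => ?_) fun v hv => ?_,
    fun j h1 h2 v hv => ?_⟩
  · obtain ⟨w, hw, rfl⟩ : y ∈ (gr deg 0 (⊤ : Submodule H H)).map ε :=
      hε.surj ▸ Submodule.mem_top
    obtain ⟨x, hx, rfl⟩ := thA_up hs hw
    exact ⟨Sum.elim x 0, thA_gr.2 ⟨hx, zero_mem _⟩, hε' _⟩
  · refine key 0 v hv.1 ?_ ?_
    · have := hF.mact_mem hv.1
      rwa [hF.gr_eq_bot (Or.inl (by norm_num))] at this
    · rw [← hε.ker]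
      exact ⟨thA_down (thA_gr.1 hv.1).1, (hε' v).symm.trans hv.2⟩
  · refine ⟨(Bt_le_Zt hF 0 hv).1, ?_⟩
    obtain ⟨w, hw, rfl⟩ := hv
    have : mact Q H (algebraMap T H ∘ (w ∘ Sum.inl)) ∈ Bt deg Q H 0 :=
      ⟨_, thA_down (thA_gr.1 hw).1, rfl⟩
    rw [← hε.ker, ← hred] at this
    exact (hε' _).trans this.2
  · refine key j v hv.1 hv.2 (hε.ex j h1 h2 ⟨thA_down (thA_gr.1 hv.1).1, ?_⟩)
    have h0 : mact F T v = 0 := hv.2
    rw [SetLike.mem_coe, LinearMap.mem_ker, ← hred, h0]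
    funext b
    simp

end Crest.Agent.R188
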