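import Crest.Agent.R188.Euler2
import Crest.Agent.R188.Newton

/-!
# R188 / Whit

The Whitney formula.
-/

set_option autoImplicit false
set_option linter.unusedSectionVars false
set_option linter.unusedVariables false

noncomputable section

namespace Crest.Agent.R188

open Filter
open Crest.Agent.R183 (Zc Bd mact gr Htpy)
open scoped TensorProduct

variable {T : Type} [CommRing T] {K σ : Type} [Field K] [Algebra T K] [Fintype σ] [DecidableEq σ]
  {S : Sys K σ} {𝔶 : Ideal T} {ν : AddFn T} {n : ℕ}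
  {ι M : Type} [Fintype ι] [DecidableEq ι] [Fintype M] [DecidableEq M] {u : M → ι → K}
  {wt : M → ℕ} {γ : M → σ → ℤ}

/-- shifts as units. -/
def whU {σ : Type} (γ : σ → ℤ) : (GR σ)ˣ where
  val := TT γ
  inv := TT (-γ)
  val_inv := by rw [AddMonoidAlgebra.single_mul_single, add_neg_cancel, one_mul]; rfl
  inv_val := by rw [AddMonoidAlgebra.single_mul_single, neg_add_cancel, one_mul]; rfl

theorem wh_mem {σ : Type} (γ : σ → ℤ) : (TT γ : GR σ) - 1 ∈ aug σ := Ideal.subset_span ⟨γ, rfl⟩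

theorem wh_pull_aug {e : ℕ} {ξ : GR σ} (h : ξ ∈ aug σ ^ e) : pullG ξ ∈ aug (Option σ) ^ e := by
  have h1 : (aug σ).map pullG ≤ aug (Option σ) := by
    rw [aug, Ideal.map_span, Ideal.span_le]
    rintro _ ⟨_, ⟨γ, rfl⟩, rfl⟩
    rw [map_sub, map_one, pullG_TT]
    exact wh_mem _
  refine Ideal.pow_right_mono h1 e ?_
  rw [← Ideal.map_pow]
  exact Ideal.mem_map_of_mem _ h

theorem wh_succ_pow (hc : Ctx T S 𝔶 ν n) {e : ℕ} {ξ : GR σ} {f : (σ → ℤ) → ℝ}
    (h : (ξ, f) ∈ Gam S 𝔶 ν e) {η : GR σ} (hη : η ∈ aug σ) (a : ℕ) :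
    (η ^ a * ξ, act (η ^ a) f) ∈ Gam S 𝔶 ν (e + a) := by
  induction a with
  | zero => simpa [act_one] using h
  | succ a ih =>
    have := Gam.succ hc ih hη
    rwa [← mul_assoc, ← act_mul, ← pow_succ'] at this

theorem wh_act_zero {σ : Type} (ξ : GR σ) : act ξ (0 : (σ → ℤ) → ℝ) = 0 := by
  funext k; simp [act]

/-- the difference of the `i`-th Chern classes. -/
def whW {A M : Type} [CommRing A] [Fintype M] [DecidableEq M] (C : M → Aˣ) (C₀ : Aˣ) (i : ℕ) : A :=
  (∏ m, (C m : A)) * ∑ s ∈ Finset.univ.powersetCard i, ∏ m ∈ s, (((C m)⁻¹ : Aˣ) - 1 : A) -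
    (C₀ : A) ^ Fintype.card M * ((Fintype.card M).choose i * ((C₀⁻¹ : Aˣ) - 1 : A) ^ i)

theorem whW_mem {A M : Type} [CommRing A] [Fintype M] [DecidableEq M] (C : M → Aˣ) (C₀ : Aˣ)
    (𝔪 : Ideal A) (h : ∀ m, (((C m)⁻¹ : Aˣ) - 1 : A) ∈ 𝔪) (h₀ : ((C₀⁻¹ : Aˣ) - 1 : A) ∈ 𝔪) (i : ℕ) :
    whW C C₀ i ∈ 𝔪 ^ i := by
  refine sub_mem (Ideal.mul_mem_left _ _ (Ideal.sum_mem _ fun s hs => ?_))
    (Ideal.mul_mem_left _ _ (Ideal.mul_mem_left _ _ (Ideal.pow_mem_pow h₀ i)))
  rw [← (Finset.mem_powersetCard.1 hs).2, ← Finset.prod_const]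
  exact Ideal.prod_mem_prod fun m _ => h m

theorem whW_zero {A M : Type} [CommRing A] [Fintype M] [DecidableEq M] (C : M → Aˣ) (C₀ : Aˣ)
    {i : ℕ} (h : Fintype.card M < i) : whW C C₀ i = 0 := by
  rw [whW, Finset.powersetCard_eq_empty.2 (by simpa using h), Nat.choose_eq_zero_of_lt h]
  simp

theorem whW_expand {A M : Type} [CommRing A] [Algebra ℝ A] [Fintype M] [DecidableEq M]
    (C : M → Aˣ) (C₀ : Aˣ) (h : A) :
    ∏ m, (1 - (1 - h) * (C m : A)) - (1 - (1 - h) * (C₀ : A)) ^ Fintype.card M =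
      ∑ i ∈ Finset.range (Fintype.card M + 1), h ^ (Fintype.card M - i) * whW C C₀ i := by
  have e := prod_one_sub_expand (fun _ : M => C₀) h
  rw [Finset.prod_const, Finset.card_univ] at e
  rw [prod_one_sub_expand, e, ← Finset.sum_sub_distrib]
  refine Finset.sum_congr rfl fun i _ => ?_
  rw [whW, ← mul_sub, Finset.prod_const, Finset.card_univ]
  congr 3
  rw [Finset.sum_congr rfl (g := fun _ => ((C₀⁻¹ : Aˣ) - 1 : A) ^ i) fun s hs => by
    rw [Finset.prod_const, (Finset.mem_powersetCard.1 hs).2]]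
  simp

theorem whW_map {A B M : Type} [CommRing A] [CommRing B] [Fintype M] [DecidableEq M] (φ : A →+* B)
    (C : M → Aˣ) (C₀ : Aˣ) (i : ℕ) :
    whW (fun m => Units.map (φ : A →* B) (C m)) (Units.map (φ : A →* B) C₀) i = φ (whW C C₀ i) := by
  simp [whW, ← map_inv]

theorem wh_step (hc : Ctx T S 𝔶 ν n) (hF : Flag T S u wt γ) {θ : σ → ℤ} (hθ : 0 ≤ θ)
    (hγ : ∀ m, 0 ≤ θ + γ m) (i : ℕ) (hi : i ≤ Fintype.card M)
    (ih : ∀ i', i < i' → ∀ μ ∈ aug σ ^ (n + 1 - i'),
      μ * whW (fun m => whU (-(θ + γ m))) (whU (-θ)) i' ∈ kerG S 𝔶 ν n) :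
    ∀ μ ∈ aug σ ^ (n + 1 - i), μ * whW (fun m => whU (-(θ + γ m))) (whU (-θ)) i ∈ kerG S 𝔶 ν n := by
  intro μ hμ
  set N := Fintype.card M with hN
  set w := whW (fun m => whU (-(θ + γ m))) (whU (-θ)) with hw
  have hwm : ∀ i', μ * w i' ∈ aug σ ^ (n + 1 - i + i') := fun i' => by
    rw [pow_add]
    exact Ideal.mul_mem_mul hμ (whW_mem _ _ _ (fun m => wh_mem _) (wh_mem _) i')
  let K' := FractionRing (MvPolynomial (Fin N) K)
  let x : Fin N → K' := fun c => algebraMap (MvPolynomial (Fin N) K) K' (MvPolynomial.X c)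
  have hx : AlgebraicIndependent K x :=
    (MvPolynomial.algebraicIndependent_X (Fin N) K).map'
      (f := IsScalarTower.toAlgHom K (MvPolynomial (Fin N) K) K') (IsFractionRing.injective _ _)
  have hc' := hc.prod hx
  let h₀ : GR (Option σ) := 1 - TT (-ee none)
  have hh₀ : h₀ ∈ aug (Option σ) := by
    have := neg_mem (wh_mem (-ee (none : Option σ)))
    rwa [neg_sub] at this
  have E := euler hc' (hF.pull hx) (θ := ext θ 1)
    (fun o => by cases o; exacts [zero_le_one, hθ _])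
    (fun m o => by cases o; exacts [zero_le_one, hγ m _]) (by omega)
    (μ := h₀ ^ i * pullG μ) (by
      refine Ideal.pow_le_pow_right (show n + N + 1 - N ≤ i + (n + 1 - i) by omega) ?_
      rw [pow_add]
      exact Ideal.mul_mem_mul (Ideal.pow_mem_pow hh₀ i) (wh_pull_aug hμ))
  have hT : ∀ δ : σ → ℤ, (TT (-(ext δ 1)) : GR (Option σ)) = (1 - h₀) * pullG (TT (-δ)) := by
    intro δ
    rw [pullG_TT, sub_sub_cancel, AddMonoidAlgebra.single_mul_single, one_mul]
    congr 1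
    funext o
    cases o <;> simp [ext]
  have hE : h₀ ^ i * pullG μ * (∏ m, (1 - TT (-(ext θ 1 + ext (γ m) 0))) - (1 - TT (-ext θ 1)) ^ N) =
      ∑ i' ∈ Finset.range (N + 1), h₀ ^ (i + (N - i')) * pullG (μ * w i') := by
    have e1 : ∀ m, ext θ 1 + ext (γ m) 0 = ext (θ + γ m) 1 := fun m => by
      funext o; cases o <;> simp [ext]
    have e2 := whW_expand (fun m => Units.map ((pullG (σ := σ)).toRingHom : GR σ →* _)
      (whU (-(θ + γ m)))) (Units.map ((pullG (σ := σ)).toRingHom : GR σ →* _) (whU (-θ))) h₀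
    simp only [whW_map] at e2
    simp only [e1, hT]
    erw [e2]
    rw [Finset.mul_sum]
    refine Finset.sum_congr rfl fun i' _ => ?_
    rw [map_mul, pow_add]
    change _ * (_ * pullG (w i')) = _
    ring
  rw [hE] at E
  obtain ⟨f, hf⟩ := Gam.exists hc (by omega) (hwm i)
  have key : ∀ i' ∈ (Finset.range (N + 1)).erase i,
      (h₀ ^ (i + (N - i')) * pullG (μ * w i'), (0 : (Option σ → ℤ) → ℝ)) ∈
        Gam (S.prod x hx) 𝔶 ν (n + N + 1) := by
    intro i' hi'
    obtain ⟨hne, hr⟩ := Finset.mem_erase.1 hi'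
    have hr' := Finset.mem_range.1 hr
    rcases lt_or_gt_of_ne hne with hlt | hlt
    · have := Gam.pow_zero hx hc (e := n) (ξ := h₀ ^ (i - i' - 1) * pullG (μ * w i')) (by
        refine Ideal.pow_le_pow_right (show n ≤ (i - i' - 1) + (n + 1 - i + i') by omega) ?_
        rw [pow_add]
        exact Ideal.mul_mem_mul (Ideal.pow_mem_pow hh₀ _) (wh_pull_aug (hwm i')))
      rwa [← mul_assoc, ← pow_add, show N + 1 + (i - i' - 1) = i + (N - i') by omega] at this
    · obtain ⟨g, hg⟩ := Gam.exists hc (by omega) (hwm i')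
      have h1 : (μ * w i', (0 : (σ → ℤ) → ℝ)) ∈ Gam S 𝔶 ν (n + 1) :=
        ih i' hlt μ (Ideal.pow_le_pow_right (by omega) hμ)
      have h2 : g =ᶠ[atTop] 0 := Gam.functional hc (by
        simpa using sub_mem (Gam.anti (show n + 1 ≤ n + 1 - i + i' by omega) hg) h1)
      have h3 := wh_succ_pow hc' (Gam.pull hx hc (Gam.congr hg h2)) hh₀ (i + (N - i'))
      have h4 : pullF N (0 : (σ → ℤ) → ℝ) = 0 := by funext k; simp [pullF]
      rw [h4, wh_act_zero] at h3
      exact Gam.anti (by omega) h3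
  have h5 := Gam.anti (show n + N + 1 ≤ n + 1 - i + i + N by omega)
    (wh_succ_pow hc' (Gam.pull hx hc hf) hh₀ N)
  have h6 : act (h₀ ^ N) (pullF N f) =ᶠ[atTop] 0 := by
    refine Gam.functional hc' ?_
    have h7 := sub_mem (add_mem h5 (Submodule.sum_mem _ key)) E
    convert h7 using 1
    refine Prod.ext ?_ ?_
    · simp only [Prod.fst_sub, Prod.fst_add, Prod.fst_sum]
      rw [← Finset.add_sum_erase _ _ (Finset.mem_range.2 (Nat.lt_succ_of_le hi)),
        show i + (N - i) = N by omega, sub_self]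
    · simp [Prod.snd_sum]
  have h8 : f =ᶠ[atTop] 0 := pullF_zero_eq ((act_pow_pullF f).symm.trans h6)
  exact Gam.anti (by omega) (Gam.congr hf h8)

/-- Let `N = #M`, `θ' ≥ 0` with `θ' + γ m ≥ 0`, `C m = TT (-(θ' + γ m))`, `C₀ = TT (-θ')`, and `w i` the bracket
in `newton_sum`.  Show `𝔪 ^ (n + 1 - i) w i ≤ kerG` by descending induction on `i`: on `S × ℙ^N`
(`K' = FractionRing (MvPolynomial (Fin N) K)`) apply `euler` with `θ = ext θ' 1`, `μ = h₀ ^ i * pullG μ'`, expand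
with `prod_one_sub_expand` into `∑ i', h₀ ^ (i + N - i') * pullG (μ' * w i')`.  The terms `i' < i` are in
`kerG` by `Gam.pow_zero`, the terms `i' > i` by induction (`Gam.exists` at the level `n + 1 - i + i'`,
`functional`, `Gam.pull`, `Gam.succ`), and the term `i' = i` is related to `pullF 0 f` where
`(μ' * w i, f) ∈ Gam` (`act_pow_pullF`); `functional` on the product gives `f =ᶠ 0`. -/
theorem whitney (hc : Ctx T S 𝔶 ν n) (hF : Flag T S u wt γ) (k : ℕ) :
    ∑ m, TT (γ m) ^ k * (TT (γ m) - 1) ^ (n + 1) ∈ kerG S 𝔶 ν n := by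
  let θ : σ → ℤ := fun j => ∑ m, |γ m j|
  have hθ : 0 ≤ θ := fun j => Finset.sum_nonneg fun m _ => abs_nonneg _
  have hγ : ∀ m, 0 ≤ θ + γ m := fun m j => by
    have h1 : |γ m j| ≤ θ j :=
      Finset.single_le_sum (f := fun m => |γ m j|) (fun _ _ => abs_nonneg _) (Finset.mem_univ m)
    have := neg_abs_le (γ m j)
    change (0 : ℤ) ≤ θ j + γ m j
    omega
  have main : ∀ j i, Fintype.card M + 1 - j ≤ i → ∀ μ ∈ aug σ ^ (n + 1 - i),
      μ * whW (fun m => whU (-(θ + γ m))) (whU (-θ)) i ∈ kerG S 𝔶 ν n := by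
    intro j
    induction j with
    | zero => intro i hi μ _; rw [whW_zero _ _ (by omega), mul_zero]; exact zero_mem _
    | succ j ih =>
      intro i hi
      by_cases h : Fintype.card M + 1 - j ≤ i
      · exact ih i h
      · exact wh_step hc hF hθ hγ i (by omega) fun i' hi' => ih i' (by omega)
  have := newton_sum (aug σ) (kerG S 𝔶 ν n) n (fun m => whU (-(θ + γ m))) (whU (-θ))
    (fun m => wh_mem _) (wh_mem _) (fun i => main (Fintype.card M + 1) i (by omega)) k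
  have e : ∀ m, (((whU (-(θ + γ m)))⁻¹ * whU (-θ) : (GR σ)ˣ) : GR σ) = TT (γ m) := fun m => by
    change TT (- -(θ + γ m)) * TT (-θ) = _
    rw [AddMonoidAlgebra.single_mul_single, one_mul]
    congr 1
    abel
  simpa only [e] using this

end Crest.Agent.R188
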